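import Mathlib

set_option autoImplicit false
set_option linter.unusedSectionVars false
open MeasureTheory Filter Topology Set
open scoped RealInnerProductSpace

namespace Crest.Agent.R238.AEst

section Gauss

variable {E : Type*} [NormedAddCommGroup E] [InnerProductSpace ℝ E] [FiniteDimensional ℝ E]
  [MeasurableSpace E] [BorelSpace E]

/-- unnormalised Gaussian weight -/
noncomputable def gw (z : E) : ℝ := Real.exp (-(‖z‖ ^ 2 / 2))

lemma gw_pos (z : E) : 0 < gw z := Real.exp_pos _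

lemma continuous_gw : Continuous (gw : E → ℝ) := by
  unfold gw; fun_prop

lemma integrable_exp_neg {b : ℝ} (hb : 0 < b) :
    Integrable (fun z : E => Real.exp (-b * ‖z‖ ^ 2)) := by
  have h := (GaussianFourier.integrable_cexp_neg_mul_sq_norm_add (V := E) (b := (b : ℂ))
    (by simpa using hb) 0 0).norm
  refine h.congr (Eventually.of_forall fun z => ?_)
  simp only [Complex.norm_exp]
  congr 1
  simp [← Complex.ofReal_pow, ← Complex.ofReal_neg, ← Complex.ofReal_mul]

lemma one_add_pow_le (k : ℕ) {b : ℝ} (hb : 0 < b) (t : ℝ) (ht : 0 ≤ t) :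
    (1 + t) ^ k ≤ Real.exp ((k : ℝ) ^ 2 / (2 * b)) * Real.exp (b / 2 * t ^ 2) := by
  have h1 : (1 + t) ^ k ≤ Real.exp (k * t) := by
    rw [mul_comm (k : ℝ) t, Real.exp_mul]
    rw [Real.rpow_natCast]
    exact pow_le_pow_left₀ (by positivity) (by linarith [Real.add_one_le_exp t]) k
  refine h1.trans ?_
  rw [← Real.exp_add]
  apply Real.exp_le_exp.mpr
  have : 0 ≤ (b * t - k) ^ 2 := sq_nonneg _
  have h2 : (k : ℝ) ^ 2 / (2 * b) + b / 2 * t ^ 2 - k * t = (b * t - k) ^ 2 / (2 * b) := by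
    field_simp
    ring
  have h3 : 0 ≤ (b * t - k) ^ 2 / (2 * b) := by positivity
  linarith

lemma integrable_pow_exp {b : ℝ} (hb : 0 < b) (k : ℕ) :
    Integrable (fun z : E => (1 + ‖z‖) ^ k * Real.exp (-b * ‖z‖ ^ 2)) := by
  refine Integrable.mono' ((integrable_exp_neg (E := E) (b := b / 2) (by linarith)).const_mul
    (Real.exp ((k : ℝ) ^ 2 / (2 * b)))) ?_ (Eventually.of_forall fun z => ?_)
  · apply Continuous.aestronglyMeasurable; fun_prop
  · rw [Real.norm_of_nonneg (by positivity)]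
    have := one_add_pow_le k hb ‖z‖ (norm_nonneg z)
    calc (1 + ‖z‖) ^ k * Real.exp (-b * ‖z‖ ^ 2)
        ≤ (Real.exp ((k : ℝ) ^ 2 / (2 * b)) * Real.exp (b / 2 * ‖z‖ ^ 2)) * Real.exp (-b * ‖z‖ ^ 2) := by
          gcongr
      _ = Real.exp ((k : ℝ) ^ 2 / (2 * b)) * Real.exp (-(b / 2) * ‖z‖ ^ 2) := by
          rw [mul_assoc, ← Real.exp_add]; congr 2; ring

/-- polynomial growth -/
def PG (F : E → ℝ) : Prop := ∃ C : ℝ, ∃ k : ℕ, 0 ≤ C ∧ ∀ z, |F z| ≤ C * (1 + ‖z‖) ^ k

omit [InnerProductSpace ℝ E] [FiniteDimensional ℝ E] [MeasurableSpace E] [BorelSpace E] in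
lemma PG.const (c : ℝ) : PG (fun _ : E => c) := ⟨|c|, 0, abs_nonneg _, fun z => by simp⟩

omit [InnerProductSpace ℝ E] [FiniteDimensional ℝ E] [MeasurableSpace E] [BorelSpace E] in
lemma PG.add {F G : E → ℝ} (hF : PG F) (hG : PG G) : PG (fun z => F z + G z) := by
  obtain ⟨C, k, hC, h1⟩ := hF
  obtain ⟨D, m, hD, h2⟩ := hG
  refine ⟨C + D, k + m, by positivity, fun z => ?_⟩
  have hz : (1 : ℝ) ≤ 1 + ‖z‖ := by linarith [norm_nonneg z]
  have e1 : (1 + ‖z‖) ^ k ≤ (1 + ‖z‖) ^ (k + m) := pow_le_pow_right₀ hz (by omega)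
  have e2 : (1 + ‖z‖) ^ m ≤ (1 + ‖z‖) ^ (k + m) := pow_le_pow_right₀ hz (by omega)
  calc |F z + G z| ≤ |F z| + |G z| := abs_add_le _ _
    _ ≤ C * (1 + ‖z‖) ^ k + D * (1 + ‖z‖) ^ m := add_le_add (h1 z) (h2 z)
    _ ≤ C * (1 + ‖z‖) ^ (k + m) + D * (1 + ‖z‖) ^ (k + m) := by gcongr
    _ = (C + D) * (1 + ‖z‖) ^ (k + m) := by ring

omit [InnerProductSpace ℝ E] [FiniteDimensional ℝ E] [MeasurableSpace E] [BorelSpace E] in
lemma PG.mul {F G : E → ℝ} (hF : PG F) (hG : PG G) : PG (fun z => F z * G z) := by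
  obtain ⟨C, k, hC, h1⟩ := hF
  obtain ⟨D, m, hD, h2⟩ := hG
  refine ⟨C * D, k + m, by positivity, fun z => ?_⟩
  rw [abs_mul]
  calc |F z| * |G z| ≤ (C * (1 + ‖z‖) ^ k) * (D * (1 + ‖z‖) ^ m) := by
        gcongr
        · exact h1 z
        · exact h2 z
    _ = C * D * (1 + ‖z‖) ^ (k + m) := by ring

omit [InnerProductSpace ℝ E] [FiniteDimensional ℝ E] [MeasurableSpace E] [BorelSpace E] in
lemma PG.neg {F : E → ℝ} (hF : PG F) : PG (fun z => - F z) := by
  obtain ⟨C, k, hC, h1⟩ := hF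
  exact ⟨C, k, hC, fun z => by simpa using h1 z⟩

omit [InnerProductSpace ℝ E] [FiniteDimensional ℝ E] [MeasurableSpace E] [BorelSpace E] in
lemma PG.sub {F G : E → ℝ} (hF : PG F) (hG : PG G) : PG (fun z => F z - G z) := by
  simpa [sub_eq_add_neg] using hF.add hG.neg

omit [FiniteDimensional ℝ E] [MeasurableSpace E] [BorelSpace E] in
lemma PG.inner (a : E) : PG (fun z : E => ⟪z, a⟫) := by
  refine ⟨‖a‖, 1, norm_nonneg _, fun z => ?_⟩
  have := abs_real_inner_le_norm z a
  nlinarith [norm_nonneg z, norm_nonneg a]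

omit [InnerProductSpace ℝ E] [FiniteDimensional ℝ E] [MeasurableSpace E] [BorelSpace E] in
lemma PG.norm_pow (m : ℕ) : PG (fun z : E => (1 + ‖z‖) ^ m) := by
  refine ⟨1, m, zero_le_one, fun z => ?_⟩
  rw [abs_of_nonneg (by positivity)]; simp

omit [InnerProductSpace ℝ E] [FiniteDimensional ℝ E] [MeasurableSpace E] [BorelSpace E] in
lemma PG.mono {F G : E → ℝ} (hG : PG G) (h : ∀ z, |F z| ≤ |G z|) : PG F := by
  obtain ⟨C, k, hC, h1⟩ := hG
  exact ⟨C, k, hC, fun z => (h z).trans (h1 z)⟩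

lemma PG.integrable {F : E → ℝ} (hF : PG F) (hm : AEStronglyMeasurable F volume) :
    Integrable (fun z => F z * gw z) := by
  obtain ⟨C, k, hC, h1⟩ := hF
  refine Integrable.mono' ((integrable_pow_exp (E := E) (b := 1/2) (by norm_num) k).const_mul C)
    (hm.mul continuous_gw.aestronglyMeasurable) (Eventually.of_forall fun z => ?_)
  rw [norm_mul, Real.norm_eq_abs, Real.norm_of_nonneg (gw_pos z).le]
  calc |F z| * gw z ≤ (C * (1 + ‖z‖) ^ k) * gw z := by
        gcongr
        · exact (gw_pos z).le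
        · exact h1 z
    _ = C * ((1 + ‖z‖) ^ k * Real.exp (-(1/2) * ‖z‖ ^ 2)) := by
        unfold gw; rw [mul_assoc]; congr 3; ring

omit [FiniteDimensional ℝ E] [MeasurableSpace E] [BorelSpace E] in
lemma hasFDerivAt_gw (z : E) : HasFDerivAt (gw : E → ℝ) (-(gw z) • innerSL ℝ z) z := by
  have h1 : HasFDerivAt (fun y : E => ‖y‖ ^ 2) (2 • innerSL ℝ z) z := (hasStrictFDerivAt_norm_sq z).hasFDerivAt
  have h2 : HasFDerivAt (fun y : E => -(‖y‖ ^ 2 / 2)) (-((2:ℝ)⁻¹ • (2 • innerSL ℝ z))) z := by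
    have := (h1.const_smul (2:ℝ)⁻¹).neg
    refine this.congr_of_eventuallyEq (Eventually.of_forall fun y => ?_)
    simp; ring
  have h3 := h2.exp
  refine h3.congr_fderiv ?_
  ext v
  simp [gw]

omit [FiniteDimensional ℝ E] [MeasurableSpace E] [BorelSpace E] in
lemma fderiv_gw (z v : E) : fderiv ℝ (gw : E → ℝ) z v = -(⟪z, v⟫ * gw z) := by
  rw [(hasFDerivAt_gw z).fderiv]; simp; ring

/-- Gaussian integration by parts. -/
lemma ibp {F p : E → ℝ} (v : E) (hF : Differentiable ℝ F) (hp : Differentiable ℝ p)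
    (gF : PG F) (gF' : PG (fun z => fderiv ℝ F z v)) (gp : PG p)
    (gp' : PG (fun z => fderiv ℝ p z v))
    (mF' : AEStronglyMeasurable (fun z => fderiv ℝ F z v) volume)
    (mp' : AEStronglyMeasurable (fun z => fderiv ℝ p z v) volume) :
    ∫ z, F z * (fderiv ℝ p z v - ⟪z, v⟫ * p z) * gw z = - ∫ z, fderiv ℝ F z v * p z * gw z := by
  have hgw : Differentiable ℝ (gw : E → ℝ) := fun z => (hasFDerivAt_gw z).differentiableAt
  have hmF : AEStronglyMeasurable F volume := hF.continuous.aestronglyMeasurable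
  have hmp : AEStronglyMeasurable p volume := hp.continuous.aestronglyMeasurable
  have hmi : AEStronglyMeasurable (fun z : E => ⟪z, v⟫) volume := by
    apply Continuous.aestronglyMeasurable; fun_prop
  have key : ∀ z, fderiv ℝ (fun y => p y * gw y) z v = (fderiv ℝ p z v - ⟪z, v⟫ * p z) * gw z := by
    intro z
    have := ((hp z).hasFDerivAt.mul (hasFDerivAt_gw z)).fderiv
    rw [show (fun y => p y * gw y) = p * gw from rfl, this]
    simp
    ring
  have h := integral_mul_fderiv_eq_neg_fderiv_mul_of_integrable (μ := (volume : Measure E))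
    (f := F) (g := fun y => p y * gw y) (v := v) ?_ ?_ ?_ (fun x _ => hF x) (fun x _ => (hp x).mul (hgw x))
  · simp only [key] at h
    calc ∫ z, F z * (fderiv ℝ p z v - ⟪z, v⟫ * p z) * gw z
        = ∫ z, F z * ((fderiv ℝ p z v - ⟪z, v⟫ * p z) * gw z) := by
          congr 1; ext z; ring
      _ = _ := h
      _ = _ := by congr 2; ext z; ring
  · have := (gF'.mul gp).integrable (mF'.mul hmp)
    refine this.congr (Eventually.of_forall fun z => ?_)
    simp only; ring
  · simp only [key]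
    have := (gF.mul (gp'.sub ((PG.inner v).mul gp))).integrable
      (hmF.mul (mp'.sub (hmi.mul hmp)))
    refine this.congr (Eventually.of_forall fun z => ?_)
    simp only; ring
  · have := (gF.mul gp).integrable (hmF.mul hmp)
    refine this.congr (Eventually.of_forall fun z => ?_)
    simp only; ring

end Gauss

end Crest.Agent.R238.AEst
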