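import Crest.Agent.R238.AEstA

set_option autoImplicit false
set_option linter.unusedSectionVars false
open MeasureTheory Filter Topology Set
open scoped RealInnerProductSpace

namespace Crest.Agent.R238.AEst

section Rep

variable {E : Type*} [NormedAddCommGroup E] [InnerProductSpace ℝ E] [FiniteDimensional ℝ E]
  [MeasurableSpace E] [BorelSpace E]

lemma PG.comp_affine {G : E → ℝ} (hG : PG G) (x : E) (c s : ℝ) :
    PG (fun z => G (c • x + s • z)) := by
  obtain ⟨C, k, hC, h⟩ := hG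
  refine ⟨C * (1 + |c| * ‖x‖ + |s|) ^ k, k, by positivity, fun z => (h _).trans ?_⟩
  rw [mul_assoc, ← mul_pow]
  have h1 : ‖c • x + s • z‖ ≤ |c| * ‖x‖ + |s| * ‖z‖ := by
    refine (norm_add_le _ _).trans ?_
    rw [norm_smul, norm_smul, Real.norm_eq_abs, Real.norm_eq_abs]
  have h2 := mul_nonneg (abs_nonneg c) (norm_nonneg x)
  have h3 := mul_nonneg h2 (norm_nonneg z)
  have h4 : 1 + ‖c • x + s • z‖ ≤ (1 + |c| * ‖x‖ + |s|) * (1 + ‖z‖) := by
    nlinarith [norm_nonneg z, abs_nonneg s]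
  gcongr

lemma fderiv_comp_affine {F : E → ℝ} (hF : Differentiable ℝ F) (x : E) (c s : ℝ) (z v : E) :
    fderiv ℝ (fun z => F (c • x + s • z)) z v = s * fderiv ℝ F (c • x + s • z) v := by
  have h1 : HasFDerivAt (fun z : E => c • x + s • z) (s • ContinuousLinearMap.id ℝ E) z := by
    have := ((hasFDerivAt_id (𝕜 := ℝ) z).const_smul s).const_add (c • x)
    simpa using this
  have h2 := (hF (c • x + s • z)).hasFDerivAt.comp z h1
  have h3 : fderiv ℝ (fun z => F (c • x + s • z)) z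
      = (fderiv ℝ F (c • x + s • z)).comp (s • ContinuousLinearMap.id ℝ E) := h2.fderiv
  rw [h3]
  simp

/-- integration by parts along an affine map -/
lemma ibpY {F p : E → ℝ} (x v : E) (c s : ℝ) (hF : Differentiable ℝ F) (hp : Differentiable ℝ p)
    (gF : PG F) (gF' : PG (fun z => fderiv ℝ F z v)) (gp : PG p)
    (gp' : PG (fun z => fderiv ℝ p z v))
    (cF' : Continuous (fun z => fderiv ℝ F z v))
    (cp' : Continuous (fun z => fderiv ℝ p z v)) :
    ∫ z, F (c • x + s • z) * (⟪z, v⟫ * p z - fderiv ℝ p z v) * gw z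
      = s * ∫ z, fderiv ℝ F (c • x + s • z) v * p z * gw z := by
  have hA : Continuous (fun z : E => c • x + s • z) := by fun_prop
  have hFY : Differentiable ℝ (fun z => F (c • x + s • z)) := by
    exact hF.comp (by fun_prop)
  have e1 : (fun z => fderiv ℝ (fun z => F (c • x + s • z)) z v)
      = fun z => s * fderiv ℝ F (c • x + s • z) v := by
    ext z; exact fderiv_comp_affine hF x c s z v
  have h := ibp (F := fun z => F (c • x + s • z)) (p := p) v hFY hp (gF.comp_affine x c s)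
    (by rw [e1]; exact (PG.const s).mul (gF'.comp_affine x c s)) gp gp'
    (by rw [e1]; exact (continuous_const.mul (cF'.comp hA)).aestronglyMeasurable)
    cp'.aestronglyMeasurable
  have h2 : ∫ z, F (c • x + s • z) * (⟪z, v⟫ * p z - fderiv ℝ p z v) * gw z
      = - ∫ z, F (c • x + s • z) * (fderiv ℝ p z v - ⟪z, v⟫ * p z) * gw z := by
    rw [← integral_neg]; congr 1; ext z; ring
  rw [h2, h, neg_neg, ← integral_const_mul]
  congr 1; ext z
  rw [fderiv_comp_affine hF x c s z v]; ring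

/-- the Hermite polynomial of degree two -/
noncomputable def qq (v w z : E) : ℝ := ⟪z, v⟫ * ⟪z, w⟫ - ⟪v, w⟫

lemma hasFDerivAt_qq (v w z : E) :
    HasFDerivAt (qq v w) (⟪z, v⟫ • innerSL ℝ w + ⟪z, w⟫ • innerSL ℝ v) z := by
  have h1 : HasFDerivAt (fun z : E => ⟪z, v⟫) (innerSL ℝ v) z := by
    have := (innerSL ℝ v).hasFDerivAt (x := z)
    refine this.congr_of_eventuallyEq (Eventually.of_forall fun y => ?_)
    simp [real_inner_comm]
  have h2 : HasFDerivAt (fun z : E => ⟪z, w⟫) (innerSL ℝ w) z := by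
    have := (innerSL ℝ w).hasFDerivAt (x := z)
    refine this.congr_of_eventuallyEq (Eventually.of_forall fun y => ?_)
    simp [real_inner_comm]
  exact (h1.mul h2).sub_const _

lemma fderiv_qq (v w z h : E) : fderiv ℝ (qq v w) z h = ⟪z, v⟫ * ⟪h, w⟫ + ⟪z, w⟫ * ⟪h, v⟫ := by
  rw [(hasFDerivAt_qq v w z).fderiv]; simp [real_inner_comm]

lemma qq_symm (v w z : E) : qq v w z = qq w v z := by
  unfold qq; rw [real_inner_comm w v]; ring

lemma continuous_qq (v w : E) : Continuous (qq v w) := by unfold qq; fun_prop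

lemma abs_qq_le (v w z : E) : |qq v w z| ≤ ‖v‖ * ‖w‖ * (1 + ‖z‖) ^ 2 := by
  unfold qq
  have h1 := abs_real_inner_le_norm z v
  have h2 := abs_real_inner_le_norm z w
  have h3 := abs_real_inner_le_norm v w
  have h4 : |⟪z, v⟫ * ⟪z, w⟫| ≤ (‖z‖ * ‖v‖) * (‖z‖ * ‖w‖) := by
    rw [abs_mul]; gcongr
  have h5 : 0 ≤ ‖v‖ * ‖w‖ := by positivity
  calc |⟪z, v⟫ * ⟪z, w⟫ - ⟪v, w⟫| ≤ |⟪z, v⟫ * ⟪z, w⟫| + |⟪v, w⟫| := abs_sub _ _
    _ ≤ (‖z‖ * ‖v‖) * (‖z‖ * ‖w‖) + ‖v‖ * ‖w‖ := add_le_add h4 h3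
    _ ≤ ‖v‖ * ‖w‖ * (1 + ‖z‖) ^ 2 := by nlinarith [mul_nonneg h5 (norm_nonneg z)]

lemma PG.qq (v w : E) : PG (qq v w) :=
  ⟨‖v‖ * ‖w‖, 2, by positivity, fun z => abs_qq_le v w z⟩

/-- admissible functions: `C²` with bounded second derivative -/
structure Adm (g : E → ℝ) : Prop where
  c2 : ContDiff ℝ 2 g
  bd : ∃ B, ∀ x, ‖fderiv ℝ (fderiv ℝ g) x‖ ≤ B

variable {g : E → ℝ}

lemma Adm.diff (hg : Adm g) : Differentiable ℝ g := hg.c2.differentiable (by norm_num)

lemma Adm.c1' (hg : Adm g) : ContDiff ℝ 1 (fderiv ℝ g) := by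
  exact hg.c2.fderiv_right (by norm_num)

lemma Adm.diff' (hg : Adm g) : Differentiable ℝ (fderiv ℝ g) := hg.c1'.differentiable (by norm_num)

lemma Adm.cont' (hg : Adm g) : Continuous (fderiv ℝ g) := hg.c1'.continuous

lemma Adm.cont'' (hg : Adm g) : Continuous (fderiv ℝ (fderiv ℝ g)) :=
  hg.c1'.continuous_fderiv (by norm_num)

lemma Adm.lin (hg : Adm g) : ∃ K, 0 ≤ K ∧ ∀ x, ‖fderiv ℝ g x‖ ≤ K * (1 + ‖x‖) := by
  obtain ⟨B, hB⟩ := hg.bd
  have hB0 : 0 ≤ B := le_trans (norm_nonneg (fderiv ℝ (fderiv ℝ g) 0)) (hB 0)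
  refine ⟨‖fderiv ℝ g 0‖ + B, by positivity, fun x => ?_⟩
  have h := Convex.norm_image_sub_le_of_norm_fderiv_le (𝕜 := ℝ) (f := fderiv ℝ g) (s := univ)
    (C := B) (x := 0) (y := x) (fun y _ => hg.diff' y) (fun y _ => hB y) convex_univ
    (mem_univ _) (mem_univ _)
  have h2 : ‖fderiv ℝ g x‖ ≤ ‖fderiv ℝ g 0‖ + B * ‖x‖ := by
    calc ‖fderiv ℝ g x‖ = ‖fderiv ℝ g 0 + (fderiv ℝ g x - fderiv ℝ g 0)‖ := by congr 1; abel
      _ ≤ ‖fderiv ℝ g 0‖ + ‖fderiv ℝ g x - fderiv ℝ g 0‖ := norm_add_le _ _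
      _ ≤ _ := by gcongr; simpa using h
  nlinarith [norm_nonneg x, norm_nonneg (fderiv ℝ g 0)]

lemma Adm.pg (hg : Adm g) : PG g := by
  obtain ⟨K, hK, h⟩ := hg.lin
  refine ⟨|g 0| + K, 2, by positivity, fun x => ?_⟩
  have h1 := Convex.norm_image_sub_le_of_norm_fderiv_le (𝕜 := ℝ) (f := g)
    (s := Metric.closedBall 0 ‖x‖)
    (C := K * (1 + ‖x‖)) (x := 0) (y := x) (fun y _ => hg.diff y) (fun y hy => by
      refine (h y).trans ?_
      have : ‖y‖ ≤ ‖x‖ := by simpa using hy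
      gcongr) (convex_closedBall _ _)
    (by simp) (by simp)
  have h2 : |g x| ≤ |g 0| + K * (1 + ‖x‖) * ‖x‖ := by
    calc |g x| = |g 0 + (g x - g 0)| := by congr 1; ring
      _ ≤ |g 0| + |g x - g 0| := abs_add_le _ _
      _ ≤ _ := by
        have : |g x - g 0| ≤ K * (1 + ‖x‖) * ‖x‖ := by simpa using h1
        gcongr
  have h3 := norm_nonneg x
  have h4 := abs_nonneg (g 0)
  have h5 := mul_nonneg h4 h3
  have h6 := mul_nonneg hK h3
  nlinarith [mul_nonneg h5 h3]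

lemma Adm.pgn1 (hg : Adm g) : PG (fun z => ‖fderiv ℝ g z‖) := by
  obtain ⟨K, hK, h⟩ := hg.lin
  exact ⟨K, 1, hK, fun z => by rw [abs_of_nonneg (norm_nonneg _), pow_one]; exact h z⟩

lemma Adm.pg1 (hg : Adm g) (v : E) : PG (fun z => fderiv ℝ g z v) := by
  refine (hg.pgn1.mul (PG.const ‖v‖)).mono fun z => ?_
  rw [abs_of_nonneg (by positivity : (0:ℝ) ≤ ‖fderiv ℝ g z‖ * ‖v‖)]
  exact (fderiv ℝ g z).le_opNorm v

lemma Adm.pg2 (hg : Adm g) (v w : E) : PG (fun z => fderiv ℝ (fderiv ℝ g) z v w) := by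
  obtain ⟨B, hB⟩ := hg.bd
  have hB0 : 0 ≤ B := le_trans (norm_nonneg (fderiv ℝ (fderiv ℝ g) 0)) (hB 0)
  refine ⟨B * ‖v‖ * ‖w‖, 0, by positivity, fun z => ?_⟩
  rw [pow_zero, mul_one]
  refine ((fderiv ℝ (fderiv ℝ g) z v).le_opNorm w).trans ?_
  gcongr
  refine ((fderiv ℝ (fderiv ℝ g) z).le_opNorm v).trans ?_
  gcongr
  exact hB z

lemma Adm.cont1 (hg : Adm g) (v : E) : Continuous (fun z => fderiv ℝ g z v) :=
  hg.cont'.clm_apply continuous_const

lemma Adm.cont2 (hg : Adm g) (v w : E) : Continuous (fun z => fderiv ℝ (fderiv ℝ g) z v w) :=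
  (hg.cont''.clm_apply continuous_const).clm_apply continuous_const

lemma Adm.diff1 (hg : Adm g) (v : E) : Differentiable ℝ (fun z => fderiv ℝ g z v) := fun z =>
  (hg.diff' z).clm_apply (differentiableAt_const _)

lemma Adm.fderiv1 (hg : Adm g) (v z h : E) :
    fderiv ℝ (fun z => fderiv ℝ g z v) z h = fderiv ℝ (fderiv ℝ g) z h v := by
  have h1 := (hg.diff' z).hasFDerivAt.clm_apply (hasFDerivAt_const v z)
  rw [h1.fderiv]
  simp

lemma fderiv_const_one (z v : E) : fderiv ℝ (fun _ : E => (1:ℝ)) z v = 0 := by simp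

/-- (b) with first derivatives -/
lemma Adm.b1 (hg : Adm g) (x v w : E) (c s : ℝ) :
    ∫ z, g (c • x + s • z) * qq v w z * gw z
      = s * ∫ z, fderiv ℝ g (c • x + s • z) v * ⟪z, w⟫ * gw z := by
  have hp : ∀ z : E, HasFDerivAt (fun z : E => ⟪z, w⟫) (innerSL ℝ w) z := fun z => by
    have := (innerSL ℝ w).hasFDerivAt (x := z)
    refine this.congr_of_eventuallyEq (Eventually.of_forall fun y => ?_)
    simp [real_inner_comm]
  have e : (fun z : E => fderiv ℝ (fun z : E => ⟪z, w⟫) z v) = fun _ => ⟪v, w⟫ := by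
    ext z; rw [(hp z).fderiv]; simp [real_inner_comm]
  have h := ibpY (F := g) (p := fun z => ⟪z, w⟫) x v c s hg.diff (fun z => (hp z).differentiableAt)
    hg.pg (hg.pg1 v) (PG.inner w) (by rw [e]; exact PG.const _) (hg.cont1 v)
    (by rw [e]; exact continuous_const)
  rw [← h]
  congr 1; ext z
  rw [congrFun e z]; unfold qq; ring

/-- (b) with second derivatives -/
lemma Adm.b2 (hg : Adm g) (x v w : E) (c s : ℝ) :
    ∫ z, g (c • x + s • z) * qq v w z * gw z
      = s ^ 2 * ∫ z, fderiv ℝ (fderiv ℝ g) (c • x + s • z) w v * gw z := by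
  rw [hg.b1]
  have e : (fun z : E => fderiv ℝ (fun _ : E => (1:ℝ)) z w) = fun _ => 0 := by
    ext z; simp
  have h := ibpY (F := fun y => fderiv ℝ g y v) (p := fun _ => 1) x w c s (hg.diff1 v)
    (differentiable_const _) (hg.pg1 v)
    (by simp only [hg.fderiv1]; exact hg.pg2 w v) (PG.const 1) (by rw [e]; exact PG.const _)
    (by simp only [hg.fderiv1]; exact hg.cont2 w v) (by rw [e]; exact continuous_const)
  simp only [fderiv_const_one, hg.fderiv1, mul_one, sub_zero] at h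
  rw [h]; ring

lemma integral_qq (v w : E) : ∫ z, qq v w z * gw z = 0 := by
  have hA : Adm (fun _ : E => (1:ℝ)) := ⟨contDiff_const, ⟨‖(0 : E →L[ℝ] E →L[ℝ] ℝ)‖, fun x => by
    have e : fderiv ℝ (fun _ : E => (1:ℝ)) = fun _ => 0 := by ext z v; simp
    rw [e]; simp⟩⟩
  have := hA.b1 0 v w 0 0
  simpa using this

/-- (a): the Laplacian -/
lemma Adm.lap (hg : Adm g) {ι : Type*} [Fintype ι] (b : OrthonormalBasis ι ℝ E) (x v w : E)
    (c s : ℝ) :
    s ^ 2 * ∫ z, (∑ k, fderiv ℝ (fderiv ℝ g) (c • x + s • z) (b k) (b k)) * qq v w z * gw z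
      = s * (∫ z, fderiv ℝ g (c • x + s • z) z * qq v w z * gw z)
        - 2 * ∫ z, g (c • x + s • z) * qq v w z * gw z := by
  have hA : Continuous (fun z : E => c • x + s • z) := by fun_prop
  have e : ∀ k, ∫ z, fderiv ℝ g (c • x + s • z) (b k) *
        (⟪z, b k⟫ * qq v w z - (⟪z, v⟫ * ⟪b k, w⟫ + ⟪z, w⟫ * ⟪b k, v⟫)) * gw z
      = s * ∫ z, fderiv ℝ (fderiv ℝ g) (c • x + s • z) (b k) (b k) * qq v w z * gw z := by
    intro k
    have h := ibpY (F := fun y => fderiv ℝ g y (b k)) (p := qq v w) x (b k) c s (hg.diff1 _)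
      (fun z => (hasFDerivAt_qq v w z).differentiableAt) (hg.pg1 _)
      (by simp only [hg.fderiv1]; exact hg.pg2 _ _) (PG.qq v w)
      (by
        simp only [fderiv_qq]
        exact ((PG.inner v).mul (PG.const _)).add ((PG.inner w).mul (PG.const _)))
      (by simp only [hg.fderiv1]; exact hg.cont2 _ _)
      (by simp only [fderiv_qq]; fun_prop)
    simp only [hg.fderiv1, fderiv_qq] at h
    exact h
  have i1 : ∀ k, Integrable (fun z => fderiv ℝ (fderiv ℝ g) (c • x + s • z) (b k) (b k)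
      * qq v w z * gw z) := fun k =>
    (((hg.pg2 _ _).comp_affine x c s).mul (PG.qq v w)).integrable
      (((hg.cont2 _ _).comp hA).mul (continuous_qq v w)).aestronglyMeasurable
  have i2 : ∀ k, Integrable (fun z => fderiv ℝ g (c • x + s • z) (b k) *
        (⟪z, b k⟫ * qq v w z - (⟪z, v⟫ * ⟪b k, w⟫ + ⟪z, w⟫ * ⟪b k, v⟫)) * gw z) := fun k =>
    (((hg.pg1 _).comp_affine x c s).mul (((PG.inner _).mul (PG.qq v w)).sub
      (((PG.inner v).mul (PG.const _)).add ((PG.inner w).mul (PG.const _))))).integrable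
      (((hg.cont1 _).comp hA).mul (by have := continuous_qq v w; fun_prop)).aestronglyMeasurable
  have i3 : ∀ a d : E, Integrable (fun z => fderiv ℝ g (c • x + s • z) a * ⟪z, d⟫ * gw z) :=
    fun a d => (((hg.pg1 _).comp_affine x c s).mul (PG.inner d)).integrable
      (((hg.cont1 _).comp hA).mul (by fun_prop)).aestronglyMeasurable
  have i4 : Integrable (fun z => fderiv ℝ g (c • x + s • z) z * qq v w z * gw z) := by
    have p1 : PG (fun z => fderiv ℝ g (c • x + s • z) z) := by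
      have p2 : PG (fun z : E => ‖z‖) := (PG.norm_pow 1).mono fun z => by
        rw [abs_of_nonneg (norm_nonneg _), abs_of_nonneg (by positivity)]; linarith
      refine ((hg.pgn1.comp_affine x c s).mul p2).mono fun z => ?_
      rw [abs_of_nonneg (by positivity : (0:ℝ) ≤ ‖fderiv ℝ g (c • x + s • z)‖ * ‖z‖)]
      exact (fderiv ℝ g _).le_opNorm z
    exact (p1.mul (PG.qq v w)).integrable
      (((hg.cont'.comp hA).clm_apply continuous_id).mul (continuous_qq v w)).aestronglyMeasurable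
  have s1 : ∫ z, (∑ k, fderiv ℝ (fderiv ℝ g) (c • x + s • z) (b k) (b k)) * qq v w z * gw z
      = ∑ k, ∫ z, fderiv ℝ (fderiv ℝ g) (c • x + s • z) (b k) (b k) * qq v w z * gw z := by
    rw [← integral_finsetSum _ fun k _ => i1 k]
    congr 1; ext z; rw [Finset.sum_mul, Finset.sum_mul]
  have s2 : s * ∫ z, (∑ k, fderiv ℝ (fderiv ℝ g) (c • x + s • z) (b k) (b k)) * qq v w z * gw z
      = ∫ z, ∑ k, fderiv ℝ g (c • x + s • z) (b k) *
        (⟪z, b k⟫ * qq v w z - (⟪z, v⟫ * ⟪b k, w⟫ + ⟪z, w⟫ * ⟪b k, v⟫)) * gw z := by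
    rw [s1, Finset.mul_sum, integral_finsetSum _ fun k _ => i2 k]
    exact Finset.sum_congr rfl fun k _ => (e k).symm
  have s3 : ∀ z, ∑ k, fderiv ℝ g (c • x + s • z) (b k) *
        (⟪z, b k⟫ * qq v w z - (⟪z, v⟫ * ⟪b k, w⟫ + ⟪z, w⟫ * ⟪b k, v⟫)) * gw z
      = fderiv ℝ g (c • x + s • z) z * qq v w z * gw z
        - fderiv ℝ g (c • x + s • z) w * ⟪z, v⟫ * gw z
        - fderiv ℝ g (c • x + s • z) v * ⟪z, w⟫ * gw z := by
    intro z
    have key : ∀ u : E, ∑ k, ⟪b k, u⟫ * fderiv ℝ g (c • x + s • z) (b k)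
        = fderiv ℝ g (c • x + s • z) u := by
      intro u
      conv_rhs => rw [← b.sum_repr' u]
      rw [map_sum]
      simp
    have k1 := key z
    have k2 := key v
    have k3 := key w
    rw [← k1, ← k2, ← k3]
    simp only [Finset.sum_mul]
    rw [← Finset.sum_sub_distrib, ← Finset.sum_sub_distrib]
    refine Finset.sum_congr rfl fun k _ => ?_
    rw [real_inner_comm z (b k)]
    ring
  have s4 : s * ∫ z, (∑ k, fderiv ℝ (fderiv ℝ g) (c • x + s • z) (b k) (b k)) * qq v w z * gw z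
      = (∫ z, fderiv ℝ g (c • x + s • z) z * qq v w z * gw z)
        - (∫ z, fderiv ℝ g (c • x + s • z) w * ⟪z, v⟫ * gw z)
        - ∫ z, fderiv ℝ g (c • x + s • z) v * ⟪z, w⟫ * gw z := by
    rw [s2]
    simp only [s3]
    have t1 := integral_sub (i4.sub (i3 w v)) (i3 v w)
    have t2 := integral_sub i4 (i3 w v)
    simp only [Pi.sub_apply] at t1
    rw [t1, t2]
  have b1 := hg.b1 x v w c s
  have b1' := hg.b1 x w v c s
  have b1'' : ∫ z, g (c • x + s • z) * qq w v z * gw z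
      = ∫ z, g (c • x + s • z) * qq v w z * gw z := by
    congr 1; ext z; rw [qq_symm w v]
  rw [b1''] at b1'
  rw [sq, mul_assoc, s4]
  linear_combination b1 + b1'

end Rep

end Crest.Agent.R238.AEst
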