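import Crest.Agent.R238.AEstB

set_option autoImplicit false
set_option linter.unusedSectionVars false
open MeasureTheory Filter Topology Set
open scoped RealInnerProductSpace

namespace Crest.Agent.R238.AEst

section Rep2

variable {E : Type*} [NormedAddCommGroup E] [InnerProductSpace ℝ E] [FiniteDimensional ℝ E]
  [MeasurableSpace E] [BorelSpace E] {g : E → ℝ}

lemma PG.nrm : PG (fun z : E => ‖z‖) := (PG.norm_pow 1).mono fun z => by
  rw [abs_of_nonneg (norm_nonneg _), abs_of_nonneg (by positivity)]; linarith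

lemma PG.abs {F : E → ℝ} (h : PG F) : PG (fun z => |F z|) := h.mono fun z => by simp

lemma norm_Y_le (x z : E) (φ : ℝ) : ‖Real.cos φ • x + Real.sin φ • z‖ ≤ ‖x‖ + ‖z‖ := by
  refine (norm_add_le _ _).trans ?_
  rw [norm_smul, norm_smul, Real.norm_eq_abs, Real.norm_eq_abs]
  have h1 := Real.abs_cos_le_one φ
  have h2 := Real.abs_sin_le_one φ
  nlinarith [norm_nonneg x, norm_nonneg z]

lemma Adm.int1 (hg : Adm g) (x v w : E) (φ : ℝ) (y : E → E) (hy : Continuous y)
    (hy2 : PG (fun z => ‖y z‖)) : Integrable (fun z =>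
        fderiv ℝ g (Real.cos φ • x + Real.sin φ • z) (y z) * qq v w z * gw z) := by
  have hA : Continuous (fun z : E => Real.cos φ • x + Real.sin φ • z) := by fun_prop
  have p1 : PG (fun z => fderiv ℝ g (Real.cos φ • x + Real.sin φ • z) (y z)) := by
    refine ((hg.pgn1.comp_affine x (Real.cos φ) (Real.sin φ)).mul hy2).mono fun z => ?_
    rw [abs_of_nonneg (by positivity :
      (0:ℝ) ≤ ‖fderiv ℝ g (Real.cos φ • x + Real.sin φ • z)‖ * ‖y z‖)]
    exact (fderiv ℝ g _).le_opNorm _
  exact (p1.mul (PG.qq v w)).integrable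
    (((hg.cont'.comp hA).clm_apply hy).mul (continuous_qq v w)).aestronglyMeasurable

lemma hasDerivAt_II (hg : Adm g) (x v w : E) (φ : ℝ) :
    HasDerivAt (fun φ => ∫ z, g (Real.cos φ • x + Real.sin φ • z) * qq v w z * gw z)
      (-Real.sin φ * (∫ z, fderiv ℝ g (Real.cos φ • x + Real.sin φ • z) x * qq v w z * gw z)
        + Real.cos φ * ∫ z, fderiv ℝ g (Real.cos φ • x + Real.sin φ • z) z * qq v w z * gw z) φ := by
  obtain ⟨K, hK, hlin⟩ := hg.lin
  have hA : ∀ φ : ℝ, Continuous (fun z : E => Real.cos φ • x + Real.sin φ • z) := fun φ => by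
    fun_prop
  have hq := continuous_qq v w
  have hgw : Continuous (gw : E → ℝ) := continuous_gw
  have hgc := hg.diff.continuous
  have hbd : Integrable (fun z : E => (K * (1 + (‖x‖ + ‖z‖)) * (‖x‖ + ‖z‖) * |qq v w z|) * gw z) := by
    refine PG.integrable ?_ ?_
    · exact ((((PG.const K).mul ((PG.const 1).add ((PG.const ‖x‖).add PG.nrm))).mul
        ((PG.const ‖x‖).add PG.nrm)).mul (PG.qq v w).abs)
    · apply Continuous.aestronglyMeasurable; fun_prop
  have h := hasDerivAt_integral_of_dominated_loc_of_deriv_le (μ := (volume : Measure E)) (𝕜 := ℝ)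
    (F := fun (φ : ℝ) (z : E) => g (Real.cos φ • x + Real.sin φ • z) * qq v w z * gw z)
    (F' := fun (φ : ℝ) (z : E) => fderiv ℝ g (Real.cos φ • x + Real.sin φ • z)
      ((-Real.sin φ) • x + Real.cos φ • z) * qq v w z * gw z)
    (x₀ := φ) (s := univ) (bound := fun z => (K * (1 + (‖x‖ + ‖z‖)) * (‖x‖ + ‖z‖) * |qq v w z|) * gw z)
    univ_mem
    (Eventually.of_forall fun φ => (((hgc.comp (hA φ)).mul hq).mul hgw).aestronglyMeasurable)
    (((hg.pg.comp_affine x (Real.cos φ) (Real.sin φ)).mul (PG.qq v w)).integrable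
      ((hgc.comp (hA φ)).mul hq).aestronglyMeasurable)
    ((((hg.cont'.comp (hA φ)).clm_apply (by fun_prop)).mul hq).mul hgw).aestronglyMeasurable
    (Eventually.of_forall fun z φ _ => ?_) hbd (Eventually.of_forall fun z φ _ => ?_)
  · have h2 := h.2
    refine h2.congr_deriv ?_
    have j1 := hg.int1 x v w φ (fun _ => x) continuous_const (PG.const _)
    have j2 := hg.int1 x v w φ (fun z => z) continuous_id PG.nrm
    rw [← integral_const_mul, ← integral_const_mul,
      ← integral_add (j1.const_mul _) (j2.const_mul _)]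
    congr 1; ext z
    simp only [map_add, map_smul, smul_eq_mul]
    ring
  · rw [norm_mul, norm_mul, Real.norm_eq_abs, Real.norm_eq_abs, Real.norm_of_nonneg (gw_pos z).le]
    refine mul_le_mul_of_nonneg_right (mul_le_mul_of_nonneg_right ?_ (abs_nonneg _)) (gw_pos z).le
    have h1 : ‖(-Real.sin φ) • x + Real.cos φ • z‖ ≤ ‖x‖ + ‖z‖ := by
      refine (norm_add_le _ _).trans ?_
      rw [norm_smul, norm_smul, Real.norm_eq_abs, Real.norm_eq_abs, abs_neg]
      have h1 := Real.abs_cos_le_one φ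
      have h2 := Real.abs_sin_le_one φ
      nlinarith [norm_nonneg x, norm_nonneg z]
    calc _ ≤ ‖fderiv ℝ g (Real.cos φ • x + Real.sin φ • z)‖
          * ‖(-Real.sin φ) • x + Real.cos φ • z‖ := (fderiv ℝ g _).le_opNorm _
      _ ≤ (K * (1 + (‖x‖ + ‖z‖))) * (‖x‖ + ‖z‖) := by
        have := hlin (Real.cos φ • x + Real.sin φ • z)
        have h3 := norm_Y_le x z φ
        gcongr
        exact this.trans (by gcongr)
  · have h1 : HasDerivAt (fun φ : ℝ => Real.cos φ • x + Real.sin φ • z)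
        ((-Real.sin φ) • x + Real.cos φ • z) φ :=
      ((Real.hasDerivAt_cos φ).smul_const x).add ((Real.hasDerivAt_sin φ).smul_const z)
    exact (((hg.diff _).hasFDerivAt.comp_hasDerivAt φ h1).mul_const _).mul_const _

/-- the right hand side -/
noncomputable def opf {ι : Type*} [Fintype ι] (b : OrthonormalBasis ι ℝ E) (m : ℕ) (g : E → ℝ)
    (y : E) : ℝ :=
  (∑ k, fderiv ℝ (fderiv ℝ g) y (b k) (b k)) - fderiv ℝ g y y + (1 - (m : ℝ)) * g y

/-- `Φ` -/
noncomputable def Phi (f : E → ℝ) (v w x : E) (φ : ℝ) : ℝ :=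
  ∫ z, f (Real.cos φ • x + Real.sin φ • z) * qq v w z * gw z

lemma PG.sum {ι : Type*} (s : Finset ι) {F : ι → E → ℝ} (h : ∀ i, PG (F i)) :
    PG (fun z => ∑ i ∈ s, F i z) := by
  classical
  induction s using Finset.induction_on with
  | empty => simpa using PG.const (E := E) 0
  | insert a s ha ih =>
    simp only [Finset.sum_insert ha]
    exact (h a).add ih

lemma Phi_opf (hg : Adm g) {ι : Type*} [Fintype ι] (b : OrthonormalBasis ι ℝ E) (m : ℕ)
    (x v w : E) (φ : ℝ) :
    Real.sin φ ^ 2 * Phi (opf b m g) v w x φ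
      = Real.sin φ * (∫ z, fderiv ℝ g (Real.cos φ • x + Real.sin φ • z) z * qq v w z * gw z)
        - 2 * Phi g v w x φ
        - Real.sin φ ^ 2 * Real.cos φ *
          (∫ z, fderiv ℝ g (Real.cos φ • x + Real.sin φ • z) x * qq v w z * gw z)
        - Real.sin φ ^ 3 *
          (∫ z, fderiv ℝ g (Real.cos φ • x + Real.sin φ • z) z * qq v w z * gw z)
        + (1 - (m : ℝ)) * Real.sin φ ^ 2 * Phi g v w x φ := by
  have hA : Continuous (fun z : E => Real.cos φ • x + Real.sin φ • z) := by fun_prop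
  have hq := continuous_qq v w
  have hgw : Continuous (gw : E → ℝ) := continuous_gw
  have hgc := hg.diff.continuous
  have j1 := hg.int1 x v w φ (fun _ => x) continuous_const (PG.const _)
  have j2 := hg.int1 x v w φ (fun z => z) continuous_id PG.nrm
  have j3 : Integrable (fun z => (∑ k, fderiv ℝ (fderiv ℝ g)
      (Real.cos φ • x + Real.sin φ • z) (b k) (b k)) * qq v w z * gw z) :=
    (((PG.sum _ fun k => hg.pg2 (b k) (b k)).comp_affine x (Real.cos φ) (Real.sin φ)).mul (PG.qq v w)).integrable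
      (((continuous_finsetSum _ fun k _ => (hg.cont2 _ _).comp hA)).mul hq).aestronglyMeasurable
  have j4 : Integrable (fun z => g (Real.cos φ • x + Real.sin φ • z) * qq v w z * gw z) :=
    ((hg.pg.comp_affine x (Real.cos φ) (Real.sin φ)).mul (PG.qq v w)).integrable
      ((hgc.comp hA).mul hq).aestronglyMeasurable
  have hl := hg.lap b x v w (Real.cos φ) (Real.sin φ)
  have e : Phi (opf b m g) v w x φ = (∫ z, (∑ k, fderiv ℝ (fderiv ℝ g)
      (Real.cos φ • x + Real.sin φ • z) (b k) (b k)) * qq v w z * gw z)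
      - Real.cos φ * (∫ z, fderiv ℝ g (Real.cos φ • x + Real.sin φ • z) x * qq v w z * gw z)
      - Real.sin φ * (∫ z, fderiv ℝ g (Real.cos φ • x + Real.sin φ • z) z * qq v w z * gw z)
      + (1 - (m : ℝ)) * Phi g v w x φ := by
    unfold Phi
    rw [← integral_const_mul, ← integral_const_mul, ← integral_const_mul]
    have t1 := integral_sub j3 (j1.const_mul (Real.cos φ))
    have t2 := integral_sub (j3.sub (j1.const_mul (Real.cos φ))) (j2.const_mul (Real.sin φ))
    have t3 := integral_add ((j3.sub (j1.const_mul (Real.cos φ))).sub (j2.const_mul (Real.sin φ)))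
      (j4.const_mul (1 - (m : ℝ)))
    simp only [Pi.sub_apply] at t2 t3
    rw [← t1, ← t2, ← t3]
    congr 1; ext z
    unfold opf
    simp only [map_add, map_smul, smul_eq_mul]
    ring
  rw [e]
  unfold Phi at *
  linear_combination hl

lemma hasDerivAt_M (hg : Adm g) {ι : Type*} [Fintype ι] (b : OrthonormalBasis ι ℝ E) (m : ℕ)
    (x v w : E) {φ : ℝ} (hφ : φ ∈ Ioo 0 (Real.pi / 2)) :
    HasDerivAt (fun φ => Real.cos φ ^ (m + 1) / Real.sin φ ^ 2 * Phi g v w x φ)
      (Real.cos φ ^ m / Real.sin φ * Phi (opf b m g) v w x φ) φ := by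
  have hs : 0 < Real.sin φ := Real.sin_pos_of_pos_of_lt_pi hφ.1 (by linarith [hφ.2, Real.pi_pos])
  have h1 := hasDerivAt_II hg x v w φ
  have h2 : HasDerivAt (fun φ => Real.cos φ ^ (m + 1)) ((m + 1 : ℕ) * Real.cos φ ^ m * (-Real.sin φ)) φ :=
    (Real.hasDerivAt_cos φ).pow (m + 1)
  have h3 : HasDerivAt (fun φ => Real.sin φ ^ 2) ((2 : ℕ) * Real.sin φ ^ 1 * (Real.cos φ)) φ :=
    (Real.hasDerivAt_sin φ).pow 2
  have h4 := (h2.div h3 (by positivity)).mul h1
  refine h4.congr_deriv ?_
  have key := Phi_opf hg b m x v w φ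
  have e : Phi (opf b m g) v w x φ = (Real.sin φ * (∫ z, fderiv ℝ g (Real.cos φ • x + Real.sin φ • z) z * qq v w z * gw z)
        - 2 * Phi g v w x φ
        - Real.sin φ ^ 2 * Real.cos φ *
          (∫ z, fderiv ℝ g (Real.cos φ • x + Real.sin φ • z) x * qq v w z * gw z)
        - Real.sin φ ^ 3 *
          (∫ z, fderiv ℝ g (Real.cos φ • x + Real.sin φ • z) z * qq v w z * gw z)
        + (1 - (m : ℝ)) * Real.sin φ ^ 2 * Phi g v w x φ) / Real.sin φ ^ 2 := by
    rw [← key]; field_simp
  rw [e]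
  change _ * Phi g v w x φ + _ = _
  simp only [Pi.div_apply]
  generalize (∫ z, fderiv ℝ g (Real.cos φ • x + Real.sin φ • z) z * qq v w z * gw z) = Jz
  generalize (∫ z, fderiv ℝ g (Real.cos φ • x + Real.sin φ • z) x * qq v w z * gw z) = Jx
  generalize Phi g v w x φ = I0
  have hc : Real.cos φ ^ 2 = 1 - Real.sin φ ^ 2 := by
    have := Real.sin_sq_add_cos_sq φ; linarith
  generalize Real.cos φ = c at *
  generalize Real.sin φ = s at *
  have hs0 : s ≠ 0 := hs.ne'
  clear h1 h2 h3 h4 key e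
  push_cast
  rw [pow_succ c m]
  generalize c ^ m = P
  field_simp
  linear_combination (P * s * Jz - 2 * P * I0) * hc

end Rep2

end Crest.Agent.R238.AEst
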