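import Crest.Agent.R238.AEstC

set_option autoImplicit false
set_option linter.unusedSectionVars false
open MeasureTheory Filter Topology Set
open scoped RealInnerProductSpace

namespace Crest.Agent.R238.AEst

section Rep3

variable {E : Type*} [NormedAddCommGroup E] [InnerProductSpace ℝ E] [FiniteDimensional ℝ E]
  [MeasurableSpace E] [BorelSpace E] {g : E → ℝ}

lemma tendsto_M_zero (hg : Adm g) (m : ℕ) (x v w : E) :
    Tendsto (fun φ => Real.cos φ ^ (m + 1) / Real.sin φ ^ 2 * Phi g v w x φ) (𝓝[>] 0)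
      (𝓝 ((∫ z : E, gw z) * fderiv ℝ (fderiv ℝ g) x w v)) := by
  obtain ⟨B, hB⟩ := hg.bd
  have hA : ∀ φ : ℝ, Continuous (fun z : E => Real.cos φ • x + Real.sin φ • z) := fun φ => by
    fun_prop
  have hgw : Continuous (gw : E → ℝ) := continuous_gw
  have hc : Continuous (fun φ : ℝ => ∫ z, fderiv ℝ (fderiv ℝ g)
      (Real.cos φ • x + Real.sin φ • z) w v * gw z) := by
    refine continuous_of_dominated (bound := fun z : E => (B * ‖w‖ * ‖v‖) * gw z)
      (fun φ => (((hg.cont2 w v).comp (hA φ)).mul hgw).aestronglyMeasurable)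
      (fun φ => Eventually.of_forall fun z => ?_) ?_ (Eventually.of_forall fun z => ?_)
    · rw [norm_mul, Real.norm_of_nonneg (gw_pos z).le]
      refine mul_le_mul_of_nonneg_right ?_ (gw_pos z).le
      refine ((fderiv ℝ (fderiv ℝ g) _ w).le_opNorm v).trans ?_
      refine mul_le_mul_of_nonneg_right ?_ (norm_nonneg _)
      refine ((fderiv ℝ (fderiv ℝ g) _).le_opNorm w).trans ?_
      exact mul_le_mul_of_nonneg_right (hB _) (norm_nonneg _)
    · exact (PG.const _).integrable aestronglyMeasurable_const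
    · exact ((hg.cont2 w v).comp (by fun_prop)).mul continuous_const
  have h0 : Tendsto (fun φ : ℝ => Real.cos φ ^ (m + 1) * ∫ z, fderiv ℝ (fderiv ℝ g)
      (Real.cos φ • x + Real.sin φ • z) w v * gw z) (𝓝[>] 0)
      (𝓝 ((∫ z : E, gw z) * fderiv ℝ (fderiv ℝ g) x w v)) := by
    have h1 : Continuous (fun φ : ℝ => Real.cos φ ^ (m + 1) * ∫ z, fderiv ℝ (fderiv ℝ g)
      (Real.cos φ • x + Real.sin φ • z) w v * gw z) := (Real.continuous_cos.pow _).mul hc
    have h2 := h1.tendsto 0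
    simp only [Real.cos_zero, Real.sin_zero, one_pow, one_mul, one_smul, zero_smul, add_zero] at h2
    rw [integral_const_mul, mul_comm] at h2
    exact h2.mono_left nhdsWithin_le_nhds
  refine h0.congr' ?_
  have : Ioo (0:ℝ) (Real.pi / 2) ∈ 𝓝[>] (0:ℝ) := Ioo_mem_nhdsGT (by positivity)
  filter_upwards [this] with φ hφ
  have hs : 0 < Real.sin φ := Real.sin_pos_of_pos_of_lt_pi hφ.1 (by linarith [hφ.2, Real.pi_pos])
  have := hg.b2 x v w (Real.cos φ) (Real.sin φ)
  unfold Phi
  rw [this]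
  field_simp

lemma tendsto_M_pi (hg : Adm g) (m : ℕ) (x v w : E) :
    Tendsto (fun φ => Real.cos φ ^ (m + 1) / Real.sin φ ^ 2 * Phi g v w x φ) (𝓝[<] (Real.pi / 2))
      (𝓝 0) := by
  have h1 : ContinuousAt (fun φ => Real.cos φ ^ (m + 1) / Real.sin φ ^ 2 * Phi g v w x φ)
      (Real.pi / 2) := by
    refine ContinuousAt.mul (ContinuousAt.div (Real.continuous_cos.pow _).continuousAt
      (Real.continuous_sin.pow _).continuousAt (by simp)) ?_
    exact (hasDerivAt_II hg x v w (Real.pi / 2)).continuousAt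
  have h2 := h1.tendsto
  simp only [Real.cos_pi_div_two, ne_eq, Nat.add_eq_zero_iff, one_ne_zero, and_false,
    not_false_eq_true, zero_pow, zero_div, zero_mul] at h2
  exact h2.mono_left nhdsWithin_le_nhds

/-- constant -/
noncomputable def K3 (E : Type*) [NormedAddCommGroup E] [InnerProductSpace ℝ E]
    [FiniteDimensional ℝ E] [MeasurableSpace E] [BorelSpace E] : ℝ :=
  ∫ z : E, (1 + ‖z‖) ^ 3 * gw z

lemma K3_nonneg : 0 ≤ K3 E := integral_nonneg fun z => by
  have := gw_pos z; positivity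

lemma rpow_le_one_add {a t : ℝ} (ha : 0 ≤ a) (ha1 : a ≤ 1) (ht : 0 ≤ t) : t ^ a ≤ 1 + t := by
  calc t ^ a ≤ (1 + t) ^ a := Real.rpow_le_rpow ht (by linarith) ha
    _ ≤ (1 + t) ^ (1:ℝ) := Real.rpow_le_rpow_of_exponent_le (by linarith) ha1
    _ = 1 + t := Real.rpow_one _

/-- Hölder class in the abstract space -/
def HH (a N : ℝ) (f : E → ℝ) : Prop := (∀ x, |f x| ≤ N) ∧ ∀ x y, |f x - f y| ≤ N * ‖x - y‖ ^ a

lemma HH.nonneg {a N : ℝ} {f : E → ℝ} (h : HH a N f) : 0 ≤ N := (abs_nonneg _).trans (h.1 0)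

lemma HH.continuous {a N : ℝ} (ha : 0 < a) {f : E → ℝ} (h : HH a N f) : Continuous f := by
  rw [continuous_iff_continuousAt]
  intro x
  have h1 : Tendsto (fun y : E => N * ‖y - x‖ ^ a) (𝓝 x) (𝓝 0) := by
    have h2 : Continuous fun y : E => N * ‖y - x‖ ^ a :=
      continuous_const.mul ((continuous_norm.comp (continuous_id.sub continuous_const)).rpow_const
        fun _ => Or.inr ha.le)
    have h3 := h2.tendsto x
    simpa [Real.zero_rpow ha.ne'] using h3
  rw [ContinuousAt, tendsto_iff_norm_sub_tendsto_zero]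
  exact squeeze_zero (fun _ => norm_nonneg _) (fun y => h.2 y x) h1

lemma HH.integrable {a N : ℝ} (ha : 0 < a) {f : E → ℝ} (h : HH a N f) (x v w : E) (φ : ℝ) :
    Integrable (fun z => f (Real.cos φ • x + Real.sin φ • z) * qq v w z * gw z) := by
  have p1 : PG (fun z => f (Real.cos φ • x + Real.sin φ • z)) :=
    (PG.const N).mono fun z => (h.1 _).trans (le_abs_self _)
  exact (p1.mul (PG.qq v w)).integrable (((h.continuous ha).comp (by fun_prop)).mul
    (continuous_qq v w)).aestronglyMeasurable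

lemma Phi_continuous {a N : ℝ} (ha : 0 < a) {f : E → ℝ} (h : HH a N f) (x v w : E) :
    Continuous (Phi f v w x) := by
  have hq := continuous_qq v w
  have hgw : Continuous (gw : E → ℝ) := continuous_gw
  have hfc := h.continuous ha
  refine continuous_of_dominated (bound := fun z : E => (N * |qq v w z|) * gw z)
    (fun φ => (((hfc.comp (by fun_prop)).mul hq).mul hgw).aestronglyMeasurable)
    (fun φ => Eventually.of_forall fun z => ?_) ?_ (Eventually.of_forall fun z => ?_)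
  · rw [norm_mul, norm_mul, Real.norm_eq_abs, Real.norm_eq_abs, Real.norm_of_nonneg (gw_pos z).le]
    have := gw_pos z
    gcongr
    exact h.1 _
  · exact ((PG.const _).mul (PG.qq v w).abs).integrable
      (continuous_const.mul hq.abs).aestronglyMeasurable
  · exact ((hfc.comp (by fun_prop)).mul continuous_const).mul continuous_const

lemma Phi_bound {a N : ℝ} (ha : 0 < a) (ha1 : a ≤ 1) {f : E → ℝ} (h : HH a N f) (x v w : E)
    {φ : ℝ} (hs : 0 ≤ Real.sin φ) :
    |Phi f v w x φ| ≤ N * Real.sin φ ^ a * (‖v‖ * ‖w‖) * K3 E := by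
  have hN := h.nonneg
  have hq := continuous_qq v w
  have e : Phi f v w x φ = ∫ z, (f (Real.cos φ • x + Real.sin φ • z) - f (Real.cos φ • x))
      * qq v w z * gw z := by
    have i2 : Integrable (fun z => f (Real.cos φ • x) * (qq v w z * gw z)) :=
      ((PG.qq v w).integrable hq.aestronglyMeasurable).const_mul _
    have t := integral_sub (h.integrable ha x v w φ) i2
    rw [integral_const_mul, integral_qq, mul_zero, sub_zero] at t
    unfold Phi
    rw [← t]
    congr 1; ext z; ring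
  rw [e, ← Real.norm_eq_abs]
  have hb : Integrable (fun z : E => (N * Real.sin φ ^ a * (‖v‖ * ‖w‖)) *
      ((1 + ‖z‖) ^ 3 * gw z)) :=
    ((PG.norm_pow 3).integrable (by apply Continuous.aestronglyMeasurable; fun_prop)).const_mul _
  refine (norm_integral_le_of_norm_le hb (Eventually.of_forall fun z => ?_)).trans ?_
  · rw [norm_mul, norm_mul, Real.norm_eq_abs, Real.norm_eq_abs, Real.norm_of_nonneg (gw_pos z).le]
    have hw := (gw_pos z).le
    have h1 := h.2 (Real.cos φ • x + Real.sin φ • z) (Real.cos φ • x)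
    rw [add_sub_cancel_left, norm_smul, Real.norm_of_nonneg hs,
      Real.mul_rpow hs (norm_nonneg z)] at h1
    have h2 := rpow_le_one_add ha.le ha1 (norm_nonneg z)
    have h3 := abs_qq_le v w z
    have h4 : 0 ≤ Real.sin φ ^ a := Real.rpow_nonneg hs a
    calc _ ≤ (N * (Real.sin φ ^ a * (1 + ‖z‖))) * (‖v‖ * ‖w‖ * (1 + ‖z‖) ^ 2) * gw z := by
          gcongr
          refine h1.trans ?_
          gcongr
      _ = _ := by ring
  · rw [integral_const_mul]; rfl

/-- bound of the singular factor -/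
noncomputable def Ka (a : ℝ) : ℝ := (2 / Real.pi) ^ (a - 1)

lemma sin_rpow_le {a φ : ℝ} (ha1 : a ≤ 1) (h0 : 0 < φ) (h1 : φ ≤ Real.pi / 2) :
    Real.sin φ ^ (a - 1) ≤ Ka a * φ ^ (a - 1) := by
  have hp := Real.pi_pos
  have h2 := Real.mul_le_sin h0.le h1
  have h3 : 0 < 2 / Real.pi * φ := by positivity
  unfold Ka
  rw [← Real.mul_rpow (by positivity) h0.le]
  exact Real.rpow_le_rpow_of_nonpos h3 h2 (by linarith)

lemma factor_le {a φ D Q : ℝ} (m : ℕ) (ha1 : a ≤ 1) (h0 : 0 < φ) (h1 : φ ≤ Real.pi / 2)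
    (hD : 0 ≤ D) (hQ : |Q| ≤ D * Real.sin φ ^ a) :
    |Real.cos φ ^ m / Real.sin φ * Q| ≤ D * Ka a * φ ^ (a - 1) := by
  have hp := Real.pi_pos
  have hs : 0 < Real.sin φ := Real.sin_pos_of_pos_of_lt_pi h0 (by linarith)
  have hc : |Real.cos φ ^ m| ≤ 1 := by
    rw [abs_pow]; exact pow_le_one₀ (abs_nonneg _) (Real.abs_cos_le_one φ)
  rw [abs_mul, abs_div, abs_of_pos hs]
  have h2 := sin_rpow_le ha1 h0 h1
  rw [Real.rpow_sub_one hs.ne'] at h2
  calc |Real.cos φ ^ m| / Real.sin φ * |Q| ≤ 1 / Real.sin φ * (D * Real.sin φ ^ a) := by gcongr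
    _ = D * (Real.sin φ ^ a / Real.sin φ) := by ring
    _ ≤ D * (Ka a * φ ^ (a - 1)) := by gcongr
    _ = _ := by ring

lemma intervalIntegrable_Phi {a N : ℝ} (ha : 0 < a) (ha1 : a ≤ 1) {f : E → ℝ} (h : HH a N f)
    (m : ℕ) (x v w : E) : IntervalIntegrable
      (fun φ => Real.cos φ ^ m / Real.sin φ * Phi f v w x φ) volume 0 (Real.pi / 2) := by
  have hp := Real.pi_pos
  have hK := K3_nonneg (E := E)
  have hN := h.nonneg
  have h1 : IntervalIntegrable (fun φ : ℝ => N * (‖v‖ * ‖w‖) * K3 E * Ka a * φ ^ (a - 1)) volume 0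
      (Real.pi / 2) := (intervalIntegral.intervalIntegrable_rpow' (by linarith)).const_mul _
  refine h1.mono_fun' ?_ ?_
  · exact (((Real.measurable_cos.pow_const m).div Real.measurable_sin).mul
      (Phi_continuous ha h x v w).measurable).aestronglyMeasurable
  · refine (ae_restrict_iff' measurableSet_uIoc).2 (Eventually.of_forall fun φ hφ => ?_)
    rw [uIoc_of_le (by positivity)] at hφ
    refine factor_le m ha1 hφ.1 hφ.2 (by positivity) ?_
    refine (Phi_bound ha ha1 h x v w (Real.sin_nonneg_of_nonneg_of_le_pi hφ.1.le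
      (by linarith [hφ.2]))).trans (le_of_eq ?_)
    ring

/-- THE REPRESENTATION FORMULA -/
theorem rep {a N : ℝ} (ha : 0 < a) (ha1 : a ≤ 1) (hg : Adm g) {ι : Type*} [Fintype ι]
    (b : OrthonormalBasis ι ℝ E) (m : ℕ) (h : HH a N (opf b m g)) (x v w : E) :
    (∫ z : E, gw z) * fderiv ℝ (fderiv ℝ g) x w v
      = - ∫ φ in (0:ℝ)..(Real.pi / 2), Real.cos φ ^ m / Real.sin φ * Phi (opf b m g) v w x φ := by
  have hp := Real.pi_pos
  have := intervalIntegral.integral_eq_sub_of_hasDerivAt_of_tendsto (by positivity : (0:ℝ) < Real.pi / 2)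
    (fun φ hφ => hasDerivAt_M hg b m x v w hφ) (intervalIntegrable_Phi ha ha1 h m x v w)
    (tendsto_M_zero hg m x v w) (tendsto_M_pi hg m x v w)
  rw [this]; ring

lemma gw_int_pos : 0 < ∫ z : E, gw z := by
  have hi : Integrable (gw : E → ℝ) := by
    have := (PG.const (E := E) 1).integrable aestronglyMeasurable_const
    simpa using this
  exact integral_pos_of_integrable_nonneg_nonzero (x := 0) continuous_gw hi
    (fun z => (gw_pos z).le) (gw_pos 0).ne'

/-- sup bound -/
theorem sup_bound {a : ℝ} (ha : 0 < a) (ha1 : a ≤ 1) : ∃ C : ℝ, 0 ≤ C ∧ ∀ (g : E → ℝ) (N : ℝ),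
    Adm g → ∀ (ι : Type) (_ : Fintype ι)
    (b : OrthonormalBasis ι ℝ E) (m : ℕ), HH a N (opf b m g) → ∀ (x v w : E),
    |fderiv ℝ (fderiv ℝ g) x w v| ≤ C * N * (‖v‖ * ‖w‖) := by
  have hp := Real.pi_pos
  have hK := K3_nonneg (E := E)
  have hG := gw_int_pos (E := E)
  have hKa : 0 ≤ Ka a := Real.rpow_nonneg (by positivity) _
  set J : ℝ := ∫ φ in (0:ℝ)..(Real.pi / 2), φ ^ (a - 1) with hJ
  have hJ0 : 0 ≤ J := intervalIntegral.integral_nonneg (by positivity) fun φ hφ =>
    Real.rpow_nonneg hφ.1 _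
  refine ⟨K3 E * Ka a * J / (∫ z : E, gw z), by positivity, ?_⟩
  intro g N hg ι _ b m h x v w
  have hN := h.nonneg
  have h1 := rep ha ha1 hg b m h x v w
  have h2 : |∫ φ in (0:ℝ)..(Real.pi / 2), Real.cos φ ^ m / Real.sin φ * Phi (opf b m g) v w x φ|
      ≤ ∫ φ in (0:ℝ)..(Real.pi / 2), N * (‖v‖ * ‖w‖) * K3 E * Ka a * φ ^ (a - 1) := by
    rw [← Real.norm_eq_abs]
    refine intervalIntegral.norm_integral_le_of_norm_le (by positivity)
      (Eventually.of_forall fun φ hφ => ?_)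
      ((intervalIntegral.intervalIntegrable_rpow' (by linarith)).const_mul _)
    refine factor_le m ha1 hφ.1 hφ.2 (by positivity) ?_
    refine (Phi_bound ha ha1 h x v w (Real.sin_nonneg_of_nonneg_of_le_pi hφ.1.le
      (by linarith [hφ.2]))).trans (le_of_eq ?_)
    ring
  rw [intervalIntegral.integral_const_mul, ← hJ] at h2
  have h3 : (∫ z : E, gw z) * |fderiv ℝ (fderiv ℝ g) x w v| ≤ N * (‖v‖ * ‖w‖) * K3 E * Ka a * J := by
    rw [← abs_of_pos hG, ← abs_mul, h1, abs_neg]
    exact h2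
  rw [show K3 E * Ka a * J / (∫ z : E, gw z) * N * (‖v‖ * ‖w‖)
    = (N * (‖v‖ * ‖w‖) * K3 E * Ka a * J) / (∫ z : E, gw z) by ring, le_div_iff₀ hG]
  linarith

end Rep3

end Crest.Agent.R238.AEst
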