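import Crest.Agent.R238.AEstD

set_option autoImplicit false
set_option linter.unusedSectionVars false
open MeasureTheory Filter Topology Set
open scoped RealInnerProductSpace

namespace Crest.Agent.R238.AEst

section Hoelder

variable {E : Type*} [NormedAddCommGroup E] [InnerProductSpace ℝ E] [FiniteDimensional ℝ E]
  [MeasurableSpace E] [BorelSpace E] {g : E → ℝ}

/-- the kernel -/
noncomputable def UU (v w z : E) : ℝ := qq v w z * gw z

lemma hasFDerivAt_UU (v w z : E) : HasFDerivAt (UU v w)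
    (qq v w z • (-(gw z) • innerSL ℝ z) + gw z • (⟪z, v⟫ • innerSL ℝ w + ⟪z, w⟫ • innerSL ℝ v)) z :=
  (hasFDerivAt_qq v w z).mul (hasFDerivAt_gw z)

lemma fderiv_UU_norm_le (v w z : E) :
    ‖fderiv ℝ (UU v w) z‖ ≤ 3 * (‖v‖ * ‖w‖) * (1 + ‖z‖) ^ 3 * gw z := by
  have hw := (gw_pos z).le
  rw [(hasFDerivAt_UU v w z).fderiv]
  refine ContinuousLinearMap.opNorm_le_bound _ (by positivity) fun h => ?_
  simp only [_root_.add_apply, _root_.smul_apply, smul_eq_mul,
    innerSL_apply_apply, neg_mul]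
  have h1 := abs_qq_le v w z
  have h2 := abs_real_inner_le_norm z h
  have h3 := abs_real_inner_le_norm z v
  have h4 := abs_real_inner_le_norm z w
  have h5 := abs_real_inner_le_norm w h
  have h6 := abs_real_inner_le_norm v h
  have nz := norm_nonneg z
  have nv := norm_nonneg v
  have nw := norm_nonneg w
  have nh := norm_nonneg h
  rw [Real.norm_eq_abs]
  calc |qq v w z * -(gw z * ⟪z, h⟫) + gw z * (⟪z, v⟫ * ⟪w, h⟫ + ⟪z, w⟫ * ⟪v, h⟫)|
      ≤ |qq v w z| * (gw z * |⟪z, h⟫|) + gw z * (|⟪z, v⟫| * |⟪w, h⟫| + |⟪z, w⟫| * |⟪v, h⟫|) := by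
        refine (abs_add_le _ _).trans (add_le_add (le_of_eq ?_) ?_)
        · rw [abs_mul, abs_neg, abs_mul, abs_of_nonneg hw]
        · rw [abs_mul, abs_of_nonneg hw]
          refine mul_le_mul_of_nonneg_left ((abs_add_le _ _).trans (le_of_eq ?_)) hw
          rw [abs_mul, abs_mul]
    _ ≤ (‖v‖ * ‖w‖ * (1 + ‖z‖) ^ 2) * (gw z * (‖z‖ * ‖h‖))
          + gw z * ((‖z‖ * ‖v‖) * (‖w‖ * ‖h‖) + (‖z‖ * ‖w‖) * (‖v‖ * ‖h‖)) := by gcongr
    _ = (‖v‖ * ‖w‖) * ‖h‖ * gw z * ((1 + ‖z‖) ^ 2 * ‖z‖ + 2 * ‖z‖) := by ring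
    _ ≤ (‖v‖ * ‖w‖) * ‖h‖ * gw z * (3 * (1 + ‖z‖) ^ 3) := by
        gcongr
        nlinarith [mul_nonneg nz nz, mul_nonneg (mul_nonneg nz nz) nz]
    _ = _ := by ring

/-- the constant in the mean value bound -/
noncomputable def kk (z : E) : ℝ := (81 * Real.exp 2) * ((1 + ‖z‖) ^ 3 * Real.exp (-(1/4) * ‖z‖ ^ 2))

lemma UU_diff_le (v w z η : E) (hη : ‖η‖ ≤ 2) :
    |UU v w (z - η) - UU v w z| ≤ ‖v‖ * ‖w‖ * kk z * ‖η‖ := by
  have nz := norm_nonneg z
  have hd : ∀ y ∈ Metric.closedBall z ‖η‖, ‖fderiv ℝ (UU v w) y‖ ≤ ‖v‖ * ‖w‖ * kk z := by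
    intro y hy
    have hy1 : ‖y - z‖ ≤ 2 := by
      rw [Metric.mem_closedBall, dist_eq_norm] at hy
      exact hy.trans hη
    have ny := norm_nonneg y
    have hy2 : ‖y‖ ≤ ‖z‖ + 2 := by
      calc ‖y‖ = ‖z + (y - z)‖ := by congr 1; abel
        _ ≤ ‖z‖ + ‖y - z‖ := norm_add_le _ _
        _ ≤ _ := by linarith
    have hy3 : ‖z‖ ≤ ‖y‖ + 2 := by
      calc ‖z‖ = ‖y - (y - z)‖ := by congr 1; abel
        _ ≤ ‖y‖ + ‖y - z‖ := norm_sub_le _ _
        _ ≤ _ := by linarith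
    have hg : gw y ≤ Real.exp 2 * Real.exp (-(1/4) * ‖z‖ ^ 2) := by
      unfold gw
      rw [← Real.exp_add]
      apply Real.exp_le_exp.mpr
      nlinarith [sq_nonneg (‖y‖ - 2)]
    have h1 : (1 + ‖y‖) ^ 3 ≤ 27 * (1 + ‖z‖) ^ 3 := by
      calc (1 + ‖y‖) ^ 3 ≤ (3 * (1 + ‖z‖)) ^ 3 := by
            apply pow_le_pow_left₀ (by positivity); linarith
        _ = _ := by ring
    have hw := (gw_pos y).le
    refine (fderiv_UU_norm_le v w y).trans ?_
    calc 3 * (‖v‖ * ‖w‖) * (1 + ‖y‖) ^ 3 * gw y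
        ≤ 3 * (‖v‖ * ‖w‖) * (27 * (1 + ‖z‖) ^ 3) * (Real.exp 2 * Real.exp (-(1/4) * ‖z‖ ^ 2)) := by
          gcongr
      _ = _ := by unfold kk; ring
  have h := Convex.norm_image_sub_le_of_norm_fderiv_le (𝕜 := ℝ) (f := UU v w)
    (s := Metric.closedBall z ‖η‖) (C := ‖v‖ * ‖w‖ * kk z) (x := z) (y := z - η)
    (fun y _ => (hasFDerivAt_UU v w y).differentiableAt) hd (convex_closedBall _ _)
    (by simp) (by simp [dist_eq_norm])
  rw [Real.norm_eq_abs] at h
  simpa using h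

/-- second constant -/
noncomputable def K4 (E : Type*) [NormedAddCommGroup E] [InnerProductSpace ℝ E]
    [FiniteDimensional ℝ E] [MeasurableSpace E] [BorelSpace E] : ℝ :=
  ∫ z : E, (1 + ‖z‖) * kk z

lemma kk_nonneg (z : E) : 0 ≤ kk z := by unfold kk; positivity

lemma K4_nonneg : 0 ≤ K4 E := integral_nonneg fun z => by
  have := kk_nonneg z; positivity

lemma integrable_K4 : Integrable (fun z : E => (1 + ‖z‖) * kk z) := by
  have := (integrable_pow_exp (E := E) (b := 1/4) (by norm_num) 4).const_mul (81 * Real.exp 2)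
  refine this.congr (Eventually.of_forall fun z => ?_)
  simp only [kk]; ring

lemma integrable_UU (v w : E) : Integrable (UU v w) :=
  (PG.qq v w).integrable (continuous_qq v w).aestronglyMeasurable

lemma Phi_diff {a N : ℝ} (ha : 0 < a) (ha1 : a ≤ 1) {f : E → ℝ} (h : HH a N f) (x x' v w : E)
    {φ : ℝ} (hs : 0 < Real.sin φ) (hη : ‖(Real.cos φ / Real.sin φ) • (x' - x)‖ ≤ 2) :
    |Phi f v w x' φ - Phi f v w x φ|
      ≤ N * Real.sin φ ^ a * (‖v‖ * ‖w‖) * K4 E * ‖(Real.cos φ / Real.sin φ) • (x' - x)‖ := by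
  have hN := h.nonneg
  set η : E := (Real.cos φ / Real.sin φ) • (x' - x) with hηd
  have hfc := h.continuous ha
  have hUc : Continuous (UU v w) := (continuous_qq v w).mul continuous_gw
  have hYc : Continuous (fun z : E => f (Real.cos φ • x + Real.sin φ • z)) :=
    hfc.comp (by fun_prop)
  -- translate
  have hse : Real.sin φ • η = Real.cos φ • (x' - x) := by
    rw [hηd, smul_smul, mul_div_cancel₀ _ hs.ne']
  have iV : Integrable (fun z => UU v w (z - η)) := (integrable_UU v w).comp_sub_right η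
  have ibm : ∀ V : E → ℝ, Integrable V →
      Integrable (fun z => f (Real.cos φ • x + Real.sin φ • z) * V z) := by
    intro V hV
    exact hV.bdd_mul hYc.aestronglyMeasurable (c := N) (Eventually.of_forall fun z => h.1 _)
  have e1 : Phi f v w x' φ = ∫ z, f (Real.cos φ • x + Real.sin φ • z) * UU v w (z - η) := by
    rw [← integral_add_right_eq_self (μ := (volume : Measure E)) _ η]
    unfold Phi
    congr 1; ext z
    have : Real.cos φ • x + Real.sin φ • (z + η) = Real.cos φ • x' + Real.sin φ • z := by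
      rw [smul_add, hse, smul_sub]; abel
    rw [this, add_sub_cancel_right]; unfold UU; ring
  have e2 : Phi f v w x φ = ∫ z, f (Real.cos φ • x + Real.sin φ • z) * UU v w z := by
    unfold Phi UU
    congr 1; ext z; ring
  have z1 : ∫ z, UU v w z = 0 := integral_qq v w
  have z2 : ∫ z, UU v w (z - η) = 0 := by
    rw [integral_sub_right_eq_self (μ := (volume : Measure E)) (UU v w) η, z1]
  have e3 : Phi f v w x' φ - Phi f v w x φ
      = ∫ z, (f (Real.cos φ • x + Real.sin φ • z) - f (Real.cos φ • x))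
        * (UU v w (z - η) - UU v w z) := by
    have t1 := integral_sub (ibm _ iV) (ibm _ (integrable_UU v w))
    have t2 := integral_sub (iV.const_mul (f (Real.cos φ • x)))
      ((integrable_UU v w).const_mul (f (Real.cos φ • x)))
    rw [integral_const_mul, integral_const_mul, z1, z2, mul_zero, sub_zero] at t2
    have t3 := integral_sub ((ibm _ iV).sub (ibm _ (integrable_UU v w)))
      ((iV.const_mul (f (Real.cos φ • x))).sub
      ((integrable_UU v w).const_mul (f (Real.cos φ • x))))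
    simp only [Pi.sub_apply] at t3
    rw [t2, sub_zero, t1] at t3
    rw [e1, e2, ← t3]
    congr 1; ext z; ring
  rw [e3, ← Real.norm_eq_abs]
  have hb : Integrable (fun z : E => (N * Real.sin φ ^ a * (‖v‖ * ‖w‖) * ‖η‖) *
      ((1 + ‖z‖) * kk z)) := integrable_K4.const_mul _
  refine (norm_integral_le_of_norm_le hb (Eventually.of_forall fun z => ?_)).trans ?_
  · rw [norm_mul, Real.norm_eq_abs, Real.norm_eq_abs]
    have h1 := h.2 (Real.cos φ • x + Real.sin φ • z) (Real.cos φ • x)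
    rw [add_sub_cancel_left, norm_smul, Real.norm_of_nonneg hs.le,
      Real.mul_rpow hs.le (norm_nonneg z)] at h1
    have h2 := rpow_le_one_add ha.le ha1 (norm_nonneg z)
    have h3 := UU_diff_le v w z η hη
    have h4 : 0 ≤ Real.sin φ ^ a := Real.rpow_nonneg hs.le a
    have h5 := kk_nonneg z
    calc _ ≤ (N * (Real.sin φ ^ a * (1 + ‖z‖))) * (‖v‖ * ‖w‖ * kk z * ‖η‖) := by
          gcongr
          refine h1.trans ?_
          gcongr
      _ = _ := by ring
  · rw [integral_const_mul]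
    refine le_of_eq ?_
    unfold K4; ring

/-- Hölder bound -/
theorem hoelder_bound {a : ℝ} (ha : 0 < a) (ha1 : a < 1) : ∃ C : ℝ, 0 ≤ C ∧
    ∀ (g : E → ℝ) (N : ℝ), Adm g → ∀ (ι : Type) (_ : Fintype ι)
    (b : OrthonormalBasis ι ℝ E) (m : ℕ), HH a N (opf b m g) → ∀ (x x' v w : E),
    |fderiv ℝ (fderiv ℝ g) x' w v - fderiv ℝ (fderiv ℝ g) x w v|
      ≤ C * N * (‖v‖ * ‖w‖) * ‖x' - x‖ ^ a := by
  obtain ⟨C1, hC1, hsup⟩ := sup_bound (E := E) ha ha1.le
  have hp := Real.pi_pos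
  have hp3 := Real.pi_gt_three
  have hp4 := Real.pi_le_four
  have hK := K3_nonneg (E := E)
  have hK4 := K4_nonneg (E := E)
  have hG := gw_int_pos (E := E)
  have hKa : 0 ≤ Ka a := Real.rpow_nonneg (by positivity) _
  have ha2 : 0 < 1 - a := by linarith
  set C2 : ℝ := (2 * K3 E * Ka a / a + K4 E * (Real.pi / 2) * Ka a / (1 - a)) / (∫ z : E, gw z)
    with hC2
  have hC20 : 0 ≤ C2 := by rw [hC2]; positivity
  refine ⟨2 * C1 + C2, by positivity, ?_⟩
  intro g N hg ι _ b m h x x' v w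
  have hN := h.nonneg
  set ρ : ℝ := ‖x' - x‖ with hρ
  have hρ0 : 0 ≤ ρ := norm_nonneg _
  have hvw : 0 ≤ ‖v‖ * ‖w‖ := by positivity
  have hra : 0 ≤ ρ ^ a := Real.rpow_nonneg hρ0 a
  rcases le_or_gt 1 ρ with h1 | h1
  · have h2 := hsup g N hg ι _ b m h x v w
    have h3 := hsup g N hg ι _ b m h x' v w
    have h4 : 1 ≤ ρ ^ a := Real.one_le_rpow h1 ha.le
    calc _ ≤ |fderiv ℝ (fderiv ℝ g) x' w v| + |fderiv ℝ (fderiv ℝ g) x w v| := abs_sub _ _
      _ ≤ 2 * C1 * N * (‖v‖ * ‖w‖) * 1 := by linarith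
      _ ≤ 2 * C1 * N * (‖v‖ * ‖w‖) * ρ ^ a := by gcongr
      _ ≤ _ := by
        have : 0 ≤ C2 * N * (‖v‖ * ‖w‖) * ρ ^ a := by positivity
        linarith
  rcases hρ0.eq_or_lt with h0 | h0
  · have : x' = x := by
      rw [← sub_eq_zero, ← norm_eq_zero]; exact h0.symm
    rw [this, sub_self, abs_zero]
    positivity
  -- the main case
  have i1 := intervalIntegrable_Phi ha ha1.le h m x v w
  have i2 := intervalIntegrable_Phi ha ha1.le h m x' v w
  have r1 := rep ha ha1.le hg b m h x v w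
  have r2 := rep ha ha1.le hg b m h x' v w
  have hρ2 : ρ ≤ Real.pi / 2 := by linarith
  set D : ℝ → ℝ := fun φ => Real.cos φ ^ m / Real.sin φ *
    (Phi (opf b m g) v w x' φ - Phi (opf b m g) v w x φ) with hD
  have iD : IntervalIntegrable D volume 0 (Real.pi / 2) := by
    have eDf : D = fun φ => Real.cos φ ^ m / Real.sin φ * Phi (opf b m g) v w x' φ
        - Real.cos φ ^ m / Real.sin φ * Phi (opf b m g) v w x φ := by
      funext φ; simp only [hD]; ring
    rw [eDf]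
    exact i2.sub i1
  have eD : (∫ z : E, gw z) * (fderiv ℝ (fderiv ℝ g) x' w v - fderiv ℝ (fderiv ℝ g) x w v)
      = - ∫ φ in (0:ℝ)..(Real.pi / 2), D φ := by
    have t := intervalIntegral.integral_sub i2 i1
    have : ∫ φ in (0:ℝ)..(Real.pi / 2), D φ = (∫ φ in (0:ℝ)..(Real.pi / 2),
        Real.cos φ ^ m / Real.sin φ * Phi (opf b m g) v w x' φ) -
        ∫ φ in (0:ℝ)..(Real.pi / 2), Real.cos φ ^ m / Real.sin φ * Phi (opf b m g) v w x φ := by
      rw [← t]
      congr 1; ext φ; simp only [hD]; ring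
    rw [this, mul_sub, r1, r2]; ring
  have iD1 : IntervalIntegrable D volume 0 ρ := iD.mono_set (by
    rw [uIcc_of_le hρ0, uIcc_of_le (by positivity)]; exact Icc_subset_Icc_right hρ2)
  have iD2 : IntervalIntegrable D volume ρ (Real.pi / 2) := iD.mono_set (by
    rw [uIcc_of_le hρ2, uIcc_of_le (by positivity)]; exact Icc_subset_Icc_left hρ0)
  have s1 := intervalIntegral.integral_add_adjacent_intervals iD1 iD2
  have b1 : |∫ φ in (0:ℝ)..ρ, D φ| ≤ N * (‖v‖ * ‖w‖) * (2 * K3 E * Ka a / a) * ρ ^ a := by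
    rw [← Real.norm_eq_abs]
    refine (intervalIntegral.norm_integral_le_of_norm_le (g := fun φ => (N * (‖v‖ * ‖w‖) *
      (2 * K3 E)) * Ka a * φ ^ (a - 1)) hρ0
      (Eventually.of_forall fun φ hφ => ?_)
      ((intervalIntegral.intervalIntegrable_rpow' (by linarith)).const_mul _)).trans ?_
    · have hφ2 : φ ≤ Real.pi / 2 := hφ.2.trans hρ2
      have hs : 0 ≤ Real.sin φ := Real.sin_nonneg_of_nonneg_of_le_pi hφ.1.le (by linarith)
      refine factor_le m ha1.le hφ.1 hφ2 (by positivity) ?_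
      have p1 := Phi_bound ha ha1.le h x v w hs
      have p2 := Phi_bound ha ha1.le h x' v w hs
      calc _ ≤ |Phi (opf b m g) v w x' φ| + |Phi (opf b m g) v w x φ| := abs_sub _ _
        _ ≤ _ := by linarith
    · rw [intervalIntegral.integral_const_mul, integral_rpow (Or.inl (by linarith))]
      rw [sub_add_cancel, Real.zero_rpow ha.ne', sub_zero]
      refine le_of_eq ?_
      ring
  have b2 : |∫ φ in ρ..(Real.pi / 2), D φ|
      ≤ N * (‖v‖ * ‖w‖) * (K4 E * (Real.pi / 2) * Ka a / (1 - a)) * ρ ^ a := by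
    rw [← Real.norm_eq_abs]
    have hnot : (0:ℝ) ∉ uIcc ρ (Real.pi / 2) := by
      rw [uIcc_of_le hρ2]; simp [h0]
    refine (intervalIntegral.norm_integral_le_of_norm_le (g := fun φ => (N * (‖v‖ * ‖w‖) *
      (K4 E * (Real.pi / 2)) * Ka a * ρ) * φ ^ (a - 2)) hρ2
      (Eventually.of_forall fun φ hφ => ?_)
      ((intervalIntegral.intervalIntegrable_rpow (Or.inr hnot)).const_mul _)).trans ?_
    · have hφ0 : 0 < φ := h0.trans hφ.1
      have hs : 0 < Real.sin φ := Real.sin_pos_of_pos_of_lt_pi hφ0 (by linarith [hφ.2])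
      have hms := Real.mul_le_sin hφ0.le hφ.2
      have hη : ‖(Real.cos φ / Real.sin φ) • (x' - x)‖ ≤ (Real.pi / 2) * ρ / φ := by
        rw [norm_smul, Real.norm_eq_abs, abs_div, abs_of_pos hs, ← hρ]
        have hc := Real.abs_cos_le_one φ
        calc |Real.cos φ| / Real.sin φ * ρ ≤ 1 / (2 / Real.pi * φ) * ρ := by
              gcongr
          _ = _ := by field_simp
      have hη2 : ‖(Real.cos φ / Real.sin φ) • (x' - x)‖ ≤ 2 := by
        refine hη.trans ?_
        rw [div_le_iff₀ hφ0]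
        nlinarith [hφ.1]
      have p := Phi_diff ha ha1.le h x x' v w hs hη2
      have hsa : 0 ≤ Real.sin φ ^ a := Real.rpow_nonneg hs.le a
      have q := factor_le (a := a) (φ := φ) (D := N * (‖v‖ * ‖w‖) * K4 E * ((Real.pi / 2) * ρ / φ))
        (Q := Phi (opf b m g) v w x' φ - Phi (opf b m g) v w x φ) m ha1.le hφ0 hφ.2 (by positivity)
        (p.trans (by
          calc _ ≤ N * Real.sin φ ^ a * (‖v‖ * ‖w‖) * K4 E * ((Real.pi / 2) * ρ / φ) := by gcongr
            _ = _ := by ring))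
      refine q.trans (le_of_eq ?_)
      have : φ ^ (a - 2) = φ ^ (a - 1) / φ := by
        rw [← Real.rpow_sub_one hφ0.ne']; congr 1; ring
      rw [this]; ring
    · rw [intervalIntegral.integral_const_mul, integral_rpow (Or.inr ⟨by linarith, hnot⟩)]
      rw [show a - 2 + 1 = a - 1 by ring]
      have e1 : ((Real.pi / 2) ^ (a - 1) - ρ ^ (a - 1)) / (a - 1) ≤ ρ ^ (a - 1) / (1 - a) := by
        have : ((Real.pi / 2) ^ (a - 1) - ρ ^ (a - 1)) / (a - 1)
          = (ρ ^ (a - 1) - (Real.pi / 2) ^ (a - 1)) / (1 - a) := by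
          rw [← neg_sub (1:ℝ) a, div_neg, ← neg_div, neg_sub]
        rw [this]
        have : 0 ≤ (Real.pi / 2) ^ (a - 1) := by positivity
        gcongr
        linarith
      have e2 : ρ ^ a = ρ * ρ ^ (a - 1) := by
        rw [Real.rpow_sub_one h0.ne']; field_simp
      calc _ ≤ (N * (‖v‖ * ‖w‖) * (K4 E * (Real.pi / 2)) * Ka a * ρ) * (ρ ^ (a - 1) / (1 - a)) := by
            gcongr
        _ = _ := by rw [e2]; ring
  have b3 : (∫ z : E, gw z) * |fderiv ℝ (fderiv ℝ g) x' w v - fderiv ℝ (fderiv ℝ g) x w v|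
      ≤ N * (‖v‖ * ‖w‖) * (2 * K3 E * Ka a / a + K4 E * (Real.pi / 2) * Ka a / (1 - a)) * ρ ^ a := by
    rw [← abs_of_pos hG, ← abs_mul, eD, abs_neg, ← s1]
    refine (abs_add_le _ _).trans ?_
    linarith
  have b4 : |fderiv ℝ (fderiv ℝ g) x' w v - fderiv ℝ (fderiv ℝ g) x w v|
      ≤ C2 * N * (‖v‖ * ‖w‖) * ρ ^ a := by
    rw [hC2, show (2 * K3 E * Ka a / a + K4 E * (Real.pi / 2) * Ka a / (1 - a)) / (∫ z : E, gw z)
      * N * (‖v‖ * ‖w‖) * ρ ^ a = (N * (‖v‖ * ‖w‖) * (2 * K3 E * Ka a / a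
      + K4 E * (Real.pi / 2) * Ka a / (1 - a)) * ρ ^ a) / (∫ z : E, gw z) by ring, le_div_iff₀ hG]
    linarith
  refine b4.trans ?_
  have : 0 ≤ 2 * C1 * N * (‖v‖ * ‖w‖) * ρ ^ a := by positivity
  linarith

end Hoelder

end Crest.Agent.R238.AEst
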