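import Mathlib

/-!
Row 238 (S0369): FROZEN DEFINITIONS of the existence half (helper718), note 13508.

* `E n`, `ee i`, `Hs f x i j` (second derivative), `HB a M f` (bounded by `M`, `a`-Hölder with
  constant `M`), `LA A f` (`tr(A D²f) - x·∇f`), `Ell lo hi A` (symmetric matrix with bounds);
* `RepStmt` = (A), `SolStmt` = solution operator of `L₀ + 1` on even Hölder functions;
* `YS n a` = Banach space of even bounded Hölder functions.
-/

set_option autoImplicit false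

open MeasureTheory Set Filter
open scoped ContDiff Topology BoundedContinuousFunction

namespace Crest.Agent.R238

/-- euclidean space -/
abbrev E (n : ℕ) : Type := EuclideanSpace ℝ (Fin n)

variable {n : ℕ}

/-- basis vector -/
noncomputable abbrev ee (i : Fin n) : E n := EuclideanSpace.single i (1 : ℝ)

/-- second derivative in directions `e_i`, `e_j` -/
noncomputable def Hs (f : E n → ℝ) (x : E n) (i j : Fin n) : ℝ :=
  fderiv ℝ (fderiv ℝ f) x (ee i) (ee j)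

/-- `f` is bounded by `M` and `a`-Hölder with constant `M` -/
def HB (a M : ℝ) (f : E n → ℝ) : Prop :=
  (∀ x, |f x| ≤ M) ∧ ∀ x y, |f x - f y| ≤ M * ‖x - y‖ ^ a

/-- `tr(A D²f) - x·∇f` with a matrix field `A` -/
noncomputable def LA (A : E n → Matrix (Fin n) (Fin n) ℝ) (f : E n → ℝ) (x : E n) : ℝ :=
  ∑ i, ∑ j, A x i j * Hs f x i j - fderiv ℝ f x x

/-- symmetric matrix with `lo ≤ A ≤ hi` -/
def Ell (lo hi : ℝ) (A : Matrix (Fin n) (Fin n) ℝ) : Prop :=
  (∀ i j, A i j = A j i) ∧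
    ∀ z : Fin n → ℝ, lo * ∑ i, z i ^ 2 ≤ ∑ i, ∑ j, A i j * z i * z j ∧
      ∑ i, ∑ j, A i j * z i * z j ≤ hi * ∑ i, z i ^ 2

/-- (A): constant coefficient Schauder estimate (no zero order term). -/
def RepStmt : Prop := ∀ (n : ℕ) (a lo hi : ℝ), 0 < a → a < 1 → 0 < lo → lo ≤ hi →
  ∃ C : ℝ, 0 < C ∧ ∀ A : Matrix (Fin n) (Fin n) ℝ, Ell lo hi A →
    ∀ lam : ℝ, (lam = 0 ∨ lam = 1) → ∀ (g : E n → ℝ) (N : ℝ), ContDiff ℝ 2 g →
      (∃ B : ℝ, ∀ x i j, |Hs g x i j| ≤ B) →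
      HB a N (fun x => LA (fun _ => A) g x + lam * g x) →
      ∀ i j, HB a (C * N) (fun x => Hs g x i j)

/-- Solution operator of `L₀ + 1` on even functions (uniqueness follows from `RepStmt`). -/
def SolStmt : Prop := ∀ (n : ℕ) (a : ℝ), 0 < a → a < 1 → ∃ C : ℝ, 0 < C ∧
  ∀ (r : E n → ℝ) (N : ℝ), HB a N r → (∀ x, r (-x) = r x) →
    ∃ v : E n → ℝ, ContDiff ℝ 2 v ∧ (∀ x, v (-x) = v x) ∧
      (∀ i j, HB a (C * N) (fun x => Hs v x i j)) ∧
      ∀ x, LA (fun _ => (1 : Matrix (Fin n) (Fin n) ℝ)) v x + v x = r x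

/-- off-diagonal pairs -/
abbrev PR (n : ℕ) : Type := {p : E n × E n // p.1 ≠ p.2}

/-- Banach space of even bounded `a`-Hölder functions: pairs (`f`, Hölder quotient). -/
def YS (n : ℕ) (a : ℝ) : Submodule ℝ ((E n →ᵇ ℝ) × (PR n →ᵇ ℝ)) where
  carrier := {q | (∀ p : PR n, q.2 p * ‖p.1.1 - p.1.2‖ ^ a = q.1 p.1.1 - q.1 p.1.2) ∧
    ∀ x, q.1 (-x) = q.1 x}
  add_mem' := by
    rintro p q ⟨hp, hp'⟩ ⟨hq, hq'⟩
    refine ⟨fun z => ?_, fun x => ?_⟩
    · have h1 := hp z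
      have h2 := hq z
      simp only [Prod.snd_add, Prod.fst_add, BoundedContinuousFunction.coe_add, Pi.add_apply]
      linear_combination h1 + h2
    · simp only [Prod.fst_add, BoundedContinuousFunction.coe_add, Pi.add_apply, hp' x, hq' x]
  zero_mem' := by
    refine ⟨fun z => ?_, fun x => ?_⟩ <;> simp
  smul_mem' := by
    rintro c q ⟨hq, hq'⟩
    refine ⟨fun z => ?_, fun x => ?_⟩
    · have h2 := hq z
      simp only [Prod.smul_snd, Prod.smul_fst, BoundedContinuousFunction.coe_smul, smul_eq_mul]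
      linear_combination c * h2
    · simp only [Prod.smul_fst, BoundedContinuousFunction.coe_smul, smul_eq_mul, hq' x]

/-- the function -/
def YS.fn {a : ℝ} (r : YS n a) : E n → ℝ := fun x => r.1.1 x

theorem isClosed_YS (n : ℕ) (a : ℝ) :
    IsClosed (YS n a : Set ((E n →ᵇ ℝ) × (PR n →ᵇ ℝ))) := by
  have h : (YS n a : Set ((E n →ᵇ ℝ) × (PR n →ᵇ ℝ)))
      = (⋂ p : PR n, {q | q.2 p * ‖p.1.1 - p.1.2‖ ^ a = q.1 p.1.1 - q.1 p.1.2})
        ∩ ⋂ x : E n, {q | q.1 (-x) = q.1 x} := by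
    ext q
    simp only [SetLike.mem_coe, mem_inter_iff, mem_iInter, Set.mem_ofPred_eq]
    rfl
  rw [h]
  have c1 : ∀ x : E n, Continuous fun q : (E n →ᵇ ℝ) × (PR n →ᵇ ℝ) => q.1 x := fun x =>
    (BoundedContinuousFunction.evalCLM ℝ x).continuous.comp continuous_fst
  have c2 : ∀ p : PR n, Continuous fun q : (E n →ᵇ ℝ) × (PR n →ᵇ ℝ) => q.2 p := fun p =>
    (BoundedContinuousFunction.evalCLM ℝ p).continuous.comp continuous_snd
  refine IsClosed.inter (isClosed_iInter fun p => ?_) (isClosed_iInter fun x => ?_)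
  · exact isClosed_eq ((c2 p).mul continuous_const) ((c1 _).sub (c1 _))
  · exact isClosed_eq (c1 _) (c1 _)

instance (n : ℕ) (a : ℝ) : CompleteSpace (YS n a) := (isClosed_YS n a).completeSpace_coe

theorem YS.even {a : ℝ} (r : YS n a) (x : E n) : YS.fn r (-x) = YS.fn r x := r.2.2 x

theorem YS.hb {a : ℝ} (ha : 0 < a) (r : YS n a) : HB a ‖r‖ (YS.fn r) := by
  have h1 : ‖r.1.1‖ ≤ ‖r‖ := norm_fst_le r.1
  have h2 : ‖r.1.2‖ ≤ ‖r‖ := norm_snd_le r.1
  refine ⟨fun x => ((r.1.1.norm_coe_le_norm x).trans h1), fun x y => ?_⟩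
  by_cases hxy : x = y
  · subst hxy
    simp [Real.zero_rpow ha.ne']
  · have h3 := r.2.1 ⟨(x, y), hxy⟩
    have h4 : |r.1.2 ⟨(x, y), hxy⟩| ≤ ‖r‖ := (r.1.2.norm_coe_le_norm _).trans h2
    have h5 : 0 ≤ ‖x - y‖ ^ a := Real.rpow_nonneg (norm_nonneg _) a
    show |r.1.1 x - r.1.1 y| ≤ _
    rw [← h3, abs_mul, abs_of_nonneg h5]
    exact mul_le_mul_of_nonneg_right h4 h5

theorem HB.continuous {a M : ℝ} (ha : 0 < a) {f : E n → ℝ} (h : HB a M f) : Continuous f := by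
  rw [continuous_iff_continuousAt]
  intro x
  have h1 : Tendsto (fun y : E n => M * ‖y - x‖ ^ a) (𝓝 x) (𝓝 0) := by
    have h2 : Continuous fun y : E n => M * ‖y - x‖ ^ a :=
      continuous_const.mul ((continuous_norm.comp (continuous_id.sub continuous_const)).rpow_const
        fun _ => Or.inr ha.le)
    have h3 := h2.tendsto x
    simpa [Real.zero_rpow ha.ne'] using h3
  rw [ContinuousAt, tendsto_iff_norm_sub_tendsto_zero]
  exact squeeze_zero (fun _ => norm_nonneg _) (fun y => h.2 y x) h1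

theorem YS.exists_of_hb {a M : ℝ} (ha : 0 < a) {f : E n → ℝ} (h : HB a M f)
    (he : ∀ x, f (-x) = f x) : ∃ r : YS n a, YS.fn r = f ∧ ‖r‖ ≤ M := by
  have hM : 0 ≤ M := (abs_nonneg _).trans (h.1 0)
  have hc := h.continuous ha
  let f1 : E n →ᵇ ℝ := BoundedContinuousFunction.ofNormedAddCommGroup f hc M h.1
  have hpos : ∀ p : PR n, 0 < ‖p.1.1 - p.1.2‖ := fun p => norm_pos_iff.2 (sub_ne_zero.2 p.2)
  have hc2 : Continuous fun p : PR n => (f p.1.1 - f p.1.2) / ‖p.1.1 - p.1.2‖ ^ a := by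
    have hfst : Continuous fun p : PR n => p.1.1 := continuous_fst.comp continuous_subtype_val
    have hsnd : Continuous fun p : PR n => p.1.2 := continuous_snd.comp continuous_subtype_val
    refine ((hc.comp hfst).sub (hc.comp hsnd)).div
      ((continuous_norm.comp (hfst.sub hsnd)).rpow_const fun p => Or.inr ha.le) fun p => ?_
    exact (Real.rpow_pos_of_pos (hpos p) a).ne'
  have hb2 : ∀ p : PR n, ‖(f p.1.1 - f p.1.2) / ‖p.1.1 - p.1.2‖ ^ a‖ ≤ M := by
    intro p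
    have hp := Real.rpow_pos_of_pos (hpos p) a
    rw [norm_div, Real.norm_eq_abs, Real.norm_of_nonneg hp.le, div_le_iff₀ hp]
    exact h.2 _ _
  let f2 : PR n →ᵇ ℝ := BoundedContinuousFunction.ofNormedAddCommGroup
    (fun p : PR n => (f p.1.1 - f p.1.2) / ‖p.1.1 - p.1.2‖ ^ a) hc2 M hb2
  refine ⟨⟨(f1, f2), ⟨fun p => ?_, fun x => he x⟩⟩, rfl, ?_⟩
  · show (f p.1.1 - f p.1.2) / ‖p.1.1 - p.1.2‖ ^ a * ‖p.1.1 - p.1.2‖ ^ a = f p.1.1 - f p.1.2
    exact div_mul_cancel₀ _ (Real.rpow_pos_of_pos (hpos p) a).ne'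
  · show ‖(f1, f2)‖ ≤ M
    rw [Prod.norm_def]
    refine max_le ?_ ?_
    · exact BoundedContinuousFunction.norm_ofNormedAddCommGroup_le hc hM h.1
    · exact BoundedContinuousFunction.norm_ofNormedAddCommGroup_le hc2 hM hb2

theorem YS.ext_fn {a : ℝ} {r s : YS n a} (h : YS.fn r = YS.fn s) : r = s := by
  have h1 : r.1.1 = s.1.1 := by
    ext x; exact congrFun h x
  refine Subtype.ext (Prod.ext h1 ?_)
  ext p
  have hp : 0 < ‖p.1.1 - p.1.2‖ ^ a :=
    Real.rpow_pos_of_pos (norm_pos_iff.2 (sub_ne_zero.2 p.2)) a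
  have h2 := r.2.1 p
  have h3 := s.2.1 p
  rw [h1, ← h3] at h2
  exact mul_right_cancel₀ hp.ne' h2

end Crest.Agent.R238
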