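import Crest.Agent.R238.AEstE
import Crest.Agent.R238.HolDefs

set_option autoImplicit false
set_option linter.unusedSectionVars false
open MeasureTheory Filter Topology Set
open scoped RealInnerProductSpace MatrixOrder

namespace Crest.Agent.R238.AEst

section Gen

variable {E : Type*} [NormedAddCommGroup E] [InnerProductSpace ℝ E] [FiniteDimensional ℝ E]
  [MeasurableSpace E] [BorelSpace E] {g : E → ℝ}

lemma fderiv_comp_lin (hg : ContDiff ℝ 2 g) (T : E →L[ℝ] E) (y v : E) :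
    fderiv ℝ (fun y => g (T y)) y v = fderiv ℝ g (T y) (T v) := by
  have hd : Differentiable ℝ g := hg.differentiable (by norm_num)
  have h := (hd (T y)).hasFDerivAt.comp y (T.hasFDerivAt (x := y))
  have h2 : fderiv ℝ (fun y => g (T y)) y = (fderiv ℝ g (T y)).comp T := h.fderiv
  rw [h2]; rfl

lemma fderiv2_comp_lin (hg : ContDiff ℝ 2 g) (T : E →L[ℝ] E) (y v w : E) :
    fderiv ℝ (fderiv ℝ (fun y => g (T y))) y v w = fderiv ℝ (fderiv ℝ g) (T y) (T v) (T w) := by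
  have hd : Differentiable ℝ g := hg.differentiable (by norm_num)
  have hd' : Differentiable ℝ (fderiv ℝ g) :=
    (hg.fderiv_right (m := 1) (by norm_num)).differentiable (by norm_num)
  have e : fderiv ℝ (fun y => g (T y)) = fun y => ((ContinuousLinearMap.compL ℝ E E ℝ).flip T)
      (fderiv ℝ g (T y)) := by
    funext y
    have h := (hd (T y)).hasFDerivAt.comp y (T.hasFDerivAt (x := y))
    exact h.fderiv
  have h1 := (hd' (T y)).hasFDerivAt.comp y (T.hasFDerivAt (x := y))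
  have h2 := ((ContinuousLinearMap.compL ℝ E E ℝ).flip T).hasFDerivAt.comp y h1
  have h3 : fderiv ℝ (fderiv ℝ (fun y => g (T y))) y
      = ((ContinuousLinearMap.compL ℝ E E ℝ).flip T).comp
        ((fderiv ℝ (fderiv ℝ g) (T y)).comp T) := by
    rw [e]; exact h2.fderiv
  rw [h3]
  simp

lemma Adm.comp_lin (hg : Adm g) (T : E →L[ℝ] E) : Adm (fun y => g (T y)) := by
  obtain ⟨B, hB⟩ := hg.bd
  have hB0 : 0 ≤ B := le_trans (norm_nonneg (fderiv ℝ (fderiv ℝ g) 0)) (hB 0)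
  refine ⟨hg.c2.comp T.contDiff, ⟨B * ‖T‖ * ‖T‖, fun y => ?_⟩⟩
  refine ContinuousLinearMap.opNorm_le_bound _ (by positivity) fun v => ?_
  refine ContinuousLinearMap.opNorm_le_bound _ (by positivity) fun w => ?_
  rw [fderiv2_comp_lin hg.c2]
  calc _ ≤ ‖fderiv ℝ (fderiv ℝ g) (T y) (T v)‖ * ‖T w‖ := ContinuousLinearMap.le_opNorm _ _
    _ ≤ (‖fderiv ℝ (fderiv ℝ g) (T y)‖ * ‖T v‖) * ‖T w‖ := by
      gcongr; exact ContinuousLinearMap.le_opNorm _ _
    _ ≤ (B * (‖T‖ * ‖v‖)) * (‖T‖ * ‖w‖) := by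
      gcongr
      · exact hB _
      · exact T.le_opNorm v
      · exact T.le_opNorm w
    _ = _ := by ring

end Gen

section Mat

variable {n : ℕ}

lemma sum_sq_eq (z : E n) : ∑ i, z i ^ 2 = ‖z‖ ^ 2 := by
  rw [EuclideanSpace.norm_sq_eq]; simp

lemma exists_T {lo hi : ℝ} (hlo : 0 < lo) (A : Matrix (Fin n) (Fin n) ℝ) (hA : Ell lo hi A) :
    ∃ T T' : E n →L[ℝ] E n, (∀ x, T (T' x) = x) ∧ (∀ x, ‖T x‖ ^ 2 ≤ hi * ‖x‖ ^ 2) ∧
      (∀ x, ‖T' x‖ ^ 2 ≤ lo⁻¹ * ‖x‖ ^ 2) ∧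
      ∀ β : E n →L[ℝ] E n →L[ℝ] ℝ, ∑ k, β (T (ee k)) (T (ee k))
        = ∑ i, ∑ j, A i j * β (ee i) (ee j) := by
  have hpsd : A.PosSemidef := by
    refine Matrix.PosSemidef.of_dotProduct_mulVec_nonneg ?_ fun x => ?_
    · ext i j; simp [hA.1 i j]
    · have h := (hA.2 x).1
      have h2 : star x ⬝ᵥ A.mulVec x = ∑ i, ∑ j, A i j * x i * x j := by
        simp only [dotProduct, Matrix.mulVec, Pi.star_apply, star_trivial, Finset.mul_sum]
        exact Finset.sum_congr rfl fun i _ => Finset.sum_congr rfl fun j _ => by ring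
      rw [h2]
      exact (mul_nonneg hlo.le (Finset.sum_nonneg fun i _ => sq_nonneg _)).trans h
  obtain ⟨S, hS1, hS2⟩ : ∃ S : Matrix (Fin n) (Fin n) ℝ, S.transpose = S ∧ S * S = A := by
    refine ⟨CFC.sqrt A, ?_, CFC.sqrt_mul_sqrt_self A hpsd.nonneg⟩
    have h : 0 ≤ CFC.sqrt A := CFC.sqrt_nonneg A
    have h2 := (Matrix.nonneg_iff_posSemidef.mp h).isHermitian
    have h3 : (CFC.sqrt A).IsSymm := by simpa using h2
    exact h3
  have hSs : ∀ i j, S i j = S j i := fun i j => by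
    conv_lhs => rw [← hS1]
    rfl
  set T : E n →L[ℝ] E n := Matrix.toEuclideanCLM (n := Fin n) (𝕜 := ℝ) S with hT
  have hTa : ∀ x i, (T x) i = ∑ j, S i j * x j := by
    intro x i
    simp [hT, Matrix.mulVec, dotProduct]
  have hTe : ∀ k, T (ee k) = ∑ i, S i k • ee i := by
    intro k
    ext i
    rw [hTa]
    simp [Pi.single_apply]
  have hnorm : ∀ x, ‖T x‖ ^ 2 = ∑ i, ∑ j, A i j * x i * x j := by
    intro x
    rw [← sum_sq_eq]
    simp only [hTa, sq, Finset.sum_mul, Finset.mul_sum]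
    simp only [← hS2, Matrix.mul_apply, Finset.sum_mul]
    rw [Finset.sum_comm]
    refine Finset.sum_congr rfl fun i _ => ?_
    rw [Finset.sum_comm]
    refine Finset.sum_congr rfl fun j _ => Finset.sum_congr rfl fun k _ => ?_
    rw [hSs i k]; ring
  have hup : ∀ x, ‖T x‖ ^ 2 ≤ hi * ‖x‖ ^ 2 := fun x => by
    rw [hnorm, ← sum_sq_eq]; exact (hA.2 x).2
  have hdn : ∀ x, lo * ‖x‖ ^ 2 ≤ ‖T x‖ ^ 2 := fun x => by
    rw [hnorm, ← sum_sq_eq]; exact (hA.2 x).1
  have hinj : Function.Injective T := by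
    rw [injective_iff_map_eq_zero]
    intro x hx
    have := hdn x
    rw [hx, norm_zero] at this
    have h2 : ‖x‖ ^ 2 = 0 := by nlinarith [sq_nonneg ‖x‖]
    simpa using h2
  let T0 : E n ≃ₗ[ℝ] E n := LinearEquiv.ofInjectiveEndo (T : E n →ₗ[ℝ] E n) hinj
  let T' : E n →L[ℝ] E n := LinearMap.toContinuousLinearMap (T0.symm : E n →ₗ[ℝ] E n)
  have hTT' : ∀ x, T (T' x) = x := fun x => by
    have : T0 (T0.symm x) = x := T0.apply_symm_apply x
    exact this
  refine ⟨T, T', hTT', hup, fun x => ?_, fun β => ?_⟩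
  · have := hdn (T' x)
    rw [hTT'] at this
    rw [← div_eq_inv_mul, le_div_iff₀ hlo]; linarith
  · simp only [hTe, map_sum, map_smul, _root_.sum_apply, _root_.smul_apply,
      smul_eq_mul, Finset.mul_sum]
    simp only [← hS2, Matrix.mul_apply, Finset.sum_mul]
    rw [Finset.sum_comm]
    conv_rhs => rw [Finset.sum_comm]
    refine Finset.sum_congr rfl fun i _ => ?_
    rw [Finset.sum_comm]
    refine Finset.sum_congr rfl fun j _ => Finset.sum_congr rfl fun k _ => ?_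
    rw [hSs k i]; ring

lemma le_of_sq {c t r : ℝ} (hc : 0 ≤ c) (hr : 0 ≤ r) (ht : 0 ≤ t) (h : t ^ 2 ≤ c * r ^ 2) :
    t ≤ Real.sqrt c * r := by
  rw [← Real.sqrt_sq ht, ← Real.sqrt_sq hr, ← Real.sqrt_mul hc]
  exact Real.sqrt_le_sqrt h

lemma adm_of_Hs {g : E n → ℝ} (hg : ContDiff ℝ 2 g) (hB : ∃ B : ℝ, ∀ x i j, |Hs g x i j| ≤ B) :
    Adm g := by
  obtain ⟨B, hB⟩ := hB
  refine ⟨hg, ⟨(n * n : ℝ) * |B|, fun x => ?_⟩⟩
  refine ContinuousLinearMap.opNorm_le_bound _ (by positivity) fun v => ?_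
  refine ContinuousLinearMap.opNorm_le_bound _ (by positivity) fun w => ?_
  have hv : v = ∑ i, v i • ee i := by
    have := (EuclideanSpace.basisFun (Fin n) ℝ).sum_repr v
    simpa using this.symm
  have hw : w = ∑ i, w i • ee i := by
    have := (EuclideanSpace.basisFun (Fin n) ℝ).sum_repr w
    simpa using this.symm
  have e : fderiv ℝ (fderiv ℝ g) x v w = ∑ i, ∑ j, v i * w j * Hs g x i j := by
    conv_lhs => rw [hv, hw]
    simp only [map_sum, map_smul, _root_.sum_apply, _root_.smul_apply, smul_eq_mul, Finset.mul_sum]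
    rw [Finset.sum_comm]
    refine Finset.sum_congr rfl fun i _ => Finset.sum_congr rfl fun j _ => ?_
    unfold Hs; ring
  have hci : ∀ (u : E n) (i : Fin n), |u i| ≤ ‖u‖ := fun u i => by
    have := PiLp.norm_apply_le u i
    simpa using this
  rw [e, Real.norm_eq_abs]
  calc |∑ i, ∑ j, v i * w j * Hs g x i j| ≤ ∑ i, ∑ j, |v i * w j * Hs g x i j| :=
        (Finset.abs_sum_le_sum_abs _ _).trans
          (Finset.sum_le_sum fun i _ => Finset.abs_sum_le_sum_abs _ _)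
    _ ≤ ∑ i : Fin n, ∑ j : Fin n, ‖v‖ * ‖w‖ * |B| := by
        refine Finset.sum_le_sum fun i _ => Finset.sum_le_sum fun j _ => ?_
        rw [abs_mul, abs_mul]
        have h1 := hci v i
        have h2 := hci w j
        have h3 := (hB x i j).trans (le_abs_self B)
        gcongr
    _ = _ := by
        simp only [Finset.sum_const, Finset.card_univ, Fintype.card_fin, nsmul_eq_mul]
        ring

/-- **(A)**: the constant coefficient Schauder estimate. -/
theorem repStmt : RepStmt := by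
  intro n a lo hi ha ha1 hlo hlohi
  obtain ⟨C1, hC1, hsup⟩ := sup_bound (E := E n) ha ha1.le
  obtain ⟨C2, hC2, hhol⟩ := hoelder_bound (E := E n) ha ha1
  have hhi : 0 < hi := hlo.trans_le hlohi
  set κ : ℝ := 1 + Real.sqrt hi ^ a with hκ
  set τ : ℝ := Real.sqrt lo⁻¹ with hτ
  have hτ0 : 0 ≤ τ := Real.sqrt_nonneg _
  have hκ0 : 0 < κ := by positivity
  have hτa : 0 ≤ τ ^ a := Real.rpow_nonneg hτ0 a
  set C : ℝ := (C1 + C2 + 1) * κ * (1 + τ * τ) * (1 + τ ^ a) with hC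
  refine ⟨C, by positivity, ?_⟩
  intro A hA lam hlam g N hg hB hf i j
  obtain ⟨T, T', hTT', hTup, hTdn, htr⟩ := exists_T hlo A hA
  have hN : 0 ≤ N := (abs_nonneg _).trans (hf.1 0)
  have hadm : Adm g := adm_of_Hs hg hB
  have hadm2 := hadm.comp_lin T
  obtain ⟨m, hm⟩ : ∃ m : ℕ, 1 - (m : ℝ) = lam := by
    rcases hlam with rfl | rfl
    · exact ⟨1, by simp⟩
    · exact ⟨0, by simp⟩
  have hT1 : ∀ x, ‖T x‖ ≤ Real.sqrt hi * ‖x‖ := fun x =>
    le_of_sq hhi.le (norm_nonneg _) (norm_nonneg _) (hTup x)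
  have hT2 : ∀ x, ‖T' x‖ ≤ τ * ‖x‖ := fun x =>
    le_of_sq (by positivity) (norm_nonneg _) (norm_nonneg _) (hTdn x)
  have eop : ∀ y, opf (EuclideanSpace.basisFun (Fin n) ℝ) m (fun y => g (T y)) y
      = LA (fun _ => A) g (T y) + lam * g (T y) := by
    intro y
    unfold opf LA
    have h1 : ∀ k, fderiv ℝ (fderiv ℝ (fun y => g (T y))) y
        (EuclideanSpace.basisFun (Fin n) ℝ k) (EuclideanSpace.basisFun (Fin n) ℝ k)
        = fderiv ℝ (fderiv ℝ g) (T y) (T (ee k)) (T (ee k)) := by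
      intro k
      rw [fderiv2_comp_lin hg]
      simp
    rw [Finset.sum_congr rfl fun k _ => h1 k, htr, fderiv_comp_lin hg, hm]
    rfl
  have hHH : HH a (N * κ) (opf (EuclideanSpace.basisFun (Fin n) ℝ) m (fun y => g (T y))) := by
    refine ⟨fun y => ?_, fun y y' => ?_⟩
    · rw [eop]
      refine (hf.1 (T y)).trans ?_
      have : 1 ≤ κ := by rw [hκ]; linarith [Real.rpow_nonneg (Real.sqrt_nonneg hi) a]
      nlinarith
    · rw [eop, eop]
      refine (hf.2 (T y) (T y')).trans ?_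
      rw [mul_assoc]
      refine mul_le_mul_of_nonneg_left ?_ hN
      rw [← map_sub]
      calc ‖T (y - y')‖ ^ a ≤ (Real.sqrt hi * ‖y - y'‖) ^ a :=
            Real.rpow_le_rpow (norm_nonneg _) (hT1 _) ha.le
        _ = Real.sqrt hi ^ a * ‖y - y'‖ ^ a := Real.mul_rpow (Real.sqrt_nonneg _) (norm_nonneg _)
        _ ≤ κ * ‖y - y'‖ ^ a := by
          have : 0 ≤ ‖y - y'‖ ^ a := Real.rpow_nonneg (norm_nonneg _) a
          gcongr
          linarith
  have hHs : ∀ x, Hs g x i j = fderiv ℝ (fderiv ℝ (fun y => g (T y))) (T' x) (T' (ee i))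
      (T' (ee j)) := by
    intro x
    rw [fderiv2_comp_lin hg, hTT', hTT', hTT']; rfl
  have hei : ∀ i : Fin n, ‖T' (ee i)‖ ≤ τ := fun i => by
    have := hT2 (ee i)
    simpa using this
  have hvw : ‖T' (ee j)‖ * ‖T' (ee i)‖ ≤ 1 + τ * τ := by
    have h1 := hei i
    have h2 := hei j
    have : ‖T' (ee j)‖ * ‖T' (ee i)‖ ≤ τ * τ := by gcongr
    linarith
  refine ⟨fun x => ?_, fun x x' => ?_⟩
  · simp only [hHs]
    refine (hsup _ _ hadm2 _ _ _ m hHH (T' x) (T' (ee j)) (T' (ee i))).trans ?_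
    calc C1 * (N * κ) * (‖T' (ee j)‖ * ‖T' (ee i)‖)
        ≤ (C1 + C2 + 1) * (N * κ) * (1 + τ * τ) := by gcongr; linarith
      _ = ((C1 + C2 + 1) * κ * (1 + τ * τ) * N) * 1 := by ring
      _ ≤ ((C1 + C2 + 1) * κ * (1 + τ * τ) * N) * (1 + τ ^ a) := by gcongr; linarith
      _ = _ := by rw [hC]; ring
  · simp only [hHs]
    refine (hhol _ _ hadm2 _ _ _ m hHH (T' x') (T' x) (T' (ee j)) (T' (ee i))).trans ?_
    rw [← map_sub]
    have h1 : ‖T' (x - x')‖ ^ a ≤ τ ^ a * ‖x - x'‖ ^ a := by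
      rw [← Real.mul_rpow hτ0 (norm_nonneg _)]
      exact Real.rpow_le_rpow (norm_nonneg _) (hT2 _) ha.le
    have h2 : 0 ≤ ‖x - x'‖ ^ a := Real.rpow_nonneg (norm_nonneg _) a
    calc C2 * (N * κ) * (‖T' (ee j)‖ * ‖T' (ee i)‖) * ‖T' (x - x')‖ ^ a
        ≤ (C1 + C2 + 1) * (N * κ) * (1 + τ * τ) * (τ ^ a * ‖x - x'‖ ^ a) := by
          gcongr; linarith
      _ ≤ (C1 + C2 + 1) * (N * κ) * (1 + τ * τ) * ((1 + τ ^ a) * ‖x - x'‖ ^ a) := by
          gcongr; linarith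
      _ = _ := by rw [hC]; ring

end Mat

end Crest.Agent.R238.AEst
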