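import Crest.Agent.R238.AprLip

/-!
Row 238, node APR (helper143): constants of the datum `P` (uniform for `s P`, `s ∈ [0,1]`).
-/

set_option autoImplicit false

open Set Filter
open scoped ContDiff Topology

namespace Crest.Agent.R238.Apr

open Crest.Agent.R238

variable {n : ℕ}

/-- the second derivative as a quadratic form of the Hessian entries -/
theorem fderiv2_eq_sum (f : E n → ℝ) (x z w : E n) :
    fderiv ℝ (fderiv ℝ f) x z w = ∑ i, ∑ j, Hs f x i j * z i * w j := by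
  unfold Hs
  conv_lhs => rw [eq_sum_ee z, eq_sum_ee w]
  simp only [map_sum, map_smul, _root_.sum_apply, _root_.smul_apply, smul_eq_mul,
    Finset.mul_sum]
  rw [Finset.sum_comm]
  refine Finset.sum_congr rfl fun i _ => Finset.sum_congr rfl fun j _ => ?_
  ring

theorem normsq_eq (z : E n) : ‖z‖ ^ 2 = ∑ i, z i ^ 2 := by
  rw [EuclideanSpace.norm_sq_eq]
  simp only [Real.norm_eq_abs, sq_abs]

/-- convexity of `|x|²/2 + P - ε|x|²` ⇒ lower bound of the Hessian -/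
theorem hess_lower {P : E n → ℝ} (hP : ContDiff ℝ 2 P) {ε : ℝ}
    (hc : ConvexOn ℝ univ (fun x : E n => ‖x‖ ^ 2 / 2 + P x - ε * ‖x‖ ^ 2)) (x z : E n) :
    2 * ε * ‖z‖ ^ 2 ≤ ‖z‖ ^ 2 + fderiv ℝ (fderiv ℝ P) x z z := by
  set G : E n → ℝ := fun x => ‖x‖ ^ 2 / 2 + P x - ε * ‖x‖ ^ 2 with hG
  have hgc : ConvexOn ℝ univ (fun t : ℝ => G (x + t • z)) := by
    refine ⟨convex_univ, fun s _ t _ p q hp hq hpq => ?_⟩
    have h := hc.2 (mem_univ (x + s • z)) (mem_univ (x + t • z)) hp hq hpq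
    have e : x + (p • s + q • t) • z = p • (x + s • z) + q • (x + t • z) := by
      rw [smul_add, smul_add, add_smul, smul_smul, smul_smul, smul_eq_mul, smul_eq_mul]
      have : x = p • x + q • x := by rw [← add_smul, hpq, one_smul]
      nth_rewrite 1 [this]
      abel
    simp only [e]
    exact h
  have hline : ∀ t : ℝ, HasDerivAt (fun t : ℝ => x + t • z) z t := by
    intro t
    simpa using ((hasDerivAt_id t).smul_const z).const_add x
  have hnorm : ∀ t : ℝ, ‖x + t • z‖ ^ 2 = ‖x‖ ^ 2 + 2 * t * inner ℝ x z + t ^ 2 * ‖z‖ ^ 2 := by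
    intro t
    rw [norm_add_sq_real, norm_smul, inner_smul_right, mul_pow, Real.norm_eq_abs, sq_abs]
    ring
  have hP1 : Differentiable ℝ P := hP.differentiable (by norm_num)
  have hP2 : Differentiable ℝ (fderiv ℝ P) :=
    (hP.fderiv_right (m := 1) (by norm_num)).differentiable (by norm_num)
  have hg1 : ∀ t : ℝ, HasDerivAt (fun t : ℝ => G (x + t • z))
      ((1 / 2 - ε) * (2 * inner ℝ x z + 2 * t * ‖z‖ ^ 2) + fderiv ℝ P (x + t • z) z) t := by
    intro t
    have e1 : (fun t : ℝ => G (x + t • z)) = fun t : ℝ =>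
        (1 / 2 - ε) * (‖x‖ ^ 2 + 2 * t * inner ℝ x z + t ^ 2 * ‖z‖ ^ 2) + P (x + t • z) := by
      funext t
      simp only [hG]
      rw [hnorm]; ring
    rw [e1]
    have d1 : HasDerivAt (fun t : ℝ => ‖x‖ ^ 2 + 2 * t * inner ℝ x z + t ^ 2 * ‖z‖ ^ 2)
        (2 * inner ℝ x z + 2 * t * ‖z‖ ^ 2) t := by
      have a1 : HasDerivAt (fun t : ℝ => 2 * t * inner ℝ x z) (2 * inner ℝ x z) t := by
        simpa using ((hasDerivAt_id t).const_mul 2).mul_const (inner ℝ x z)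
      have a2 : HasDerivAt (fun t : ℝ => t ^ 2 * ‖z‖ ^ 2) (2 * t * ‖z‖ ^ 2) t := by
        simpa using (hasDerivAt_pow 2 t).mul_const (‖z‖ ^ 2)
      have a3 := (a1.const_add (‖x‖ ^ 2)).add a2
      exact a3
    have d2 : HasDerivAt (fun t : ℝ => P (x + t • z)) (fderiv ℝ P (x + t • z) z) t :=
      (hP1 (x + t • z)).hasFDerivAt.comp_hasDerivAt t (hline t)
    exact (d1.const_mul _).add d2
  have hg1' : deriv (fun t : ℝ => G (x + t • z)) = fun t : ℝ =>
      (1 / 2 - ε) * (2 * inner ℝ x z + 2 * t * ‖z‖ ^ 2) + fderiv ℝ P (x + t • z) z := by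
    funext t; exact (hg1 t).deriv
  have hg2 : HasDerivAt (fun t : ℝ =>
      (1 / 2 - ε) * (2 * inner ℝ x z + 2 * t * ‖z‖ ^ 2) + fderiv ℝ P (x + t • z) z)
      ((1 / 2 - ε) * (2 * ‖z‖ ^ 2) + fderiv ℝ (fderiv ℝ P) x z z) 0 := by
    have d1 : HasDerivAt (fun t : ℝ => 2 * inner ℝ x z + 2 * t * ‖z‖ ^ 2) (2 * ‖z‖ ^ 2) 0 := by
      simpa using ((((hasDerivAt_id (0 : ℝ)).const_mul 2).mul_const (‖z‖ ^ 2)).const_add
        (2 * inner ℝ x z))
    have d2 : HasDerivAt (fun t : ℝ => fderiv ℝ P (x + t • z)) (fderiv ℝ (fderiv ℝ P) x z) 0 := by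
      have h0 : HasFDerivAt (fderiv ℝ P) (fderiv ℝ (fderiv ℝ P) x) (x + (0 : ℝ) • z) := by
        rw [zero_smul, add_zero]; exact (hP2 x).hasFDerivAt
      exact h0.comp_hasDerivAt (0 : ℝ) (hline 0)
    have d3 : HasDerivAt (fun t : ℝ => fderiv ℝ P (x + t • z) z)
        (fderiv ℝ (fderiv ℝ P) x z z) 0 := by
      have := d2.clm_apply (hasDerivAt_const (0 : ℝ) z)
      simpa using this
    exact (d1.const_mul _).add d3
  have hmono : Monotone (deriv fun t : ℝ => G (x + t • z)) := by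
    rw [← monotoneOn_univ]
    exact hgc.monotoneOn_deriv fun t _ => (hg1 t).differentiableAt
  rw [hg1'] at hmono
  have h := hg2.nonneg_of_monotone hmono
  linarith

/-- constants of the datum -/
structure PC (P : E n → ℝ) (c C2 C3 M0 R0 : ℝ) : Prop where
  c_pos : 0 < c
  c_le : c ≤ 1
  C2_ge : 1 ≤ C2
  C3_nn : 0 ≤ C3
  M0_nn : 0 ≤ M0
  R0_pos : 0 < R0
  lower : ∀ s : ℝ, 0 ≤ s → s ≤ 1 → ∀ x (z : Fin n → ℝ),
    c * ∑ i, z i ^ 2 ≤ ∑ i, z i ^ 2 + s * ∑ i, ∑ j, Hs P x i j * z i * z j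
  upper : ∀ s : ℝ, 0 ≤ s → s ≤ 1 → ∀ x (z : Fin n → ℝ),
    ∑ i, z i ^ 2 + s * ∑ i, ∑ j, Hs P x i j * z i * z j ≤ C2 * ∑ i, z i ^ 2
  third : ∀ x i j k, |fderiv ℝ (fun y => Hs P y i j) x (ee k)| ≤ C3
  bdd : ∀ x, |P x| ≤ M0
  far : ∀ x, R0 ≤ ‖x‖ → P =ᶠ[𝓝 x] fun _ => 0

theorem Hs_eq_zero_of_eventually {f : E n → ℝ} {x : E n} (h : f =ᶠ[𝓝 x] fun _ => 0)
    (i j : Fin n) : Hs f x i j = 0 := by
  unfold Hs
  have h1 : fderiv ℝ f =ᶠ[𝓝 x] fderiv ℝ (fun _ : E n => (0 : ℝ)) := h.fderiv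
  rw [h1.fderiv_eq]
  have h2 : (fderiv ℝ (fun _ : E n => (0 : ℝ))) = fun _ => 0 := by
    funext y; simp
  rw [h2]; simp

theorem hasCompactSupport_Hs {P : E n → ℝ} (h : HasCompactSupport P) (i j : Fin n) :
    HasCompactSupport (fun x => Hs P x i j) := by
  refine (h.fderiv (𝕜 := ℝ) |>.fderiv (𝕜 := ℝ)).mono ?_
  intro x hx
  rw [Function.mem_support] at hx ⊢
  intro h0
  apply hx
  unfold Hs
  rw [h0]; simp

/-- entries bounded by `K` ⇒ quadratic form bounded by `n K |z|²` -/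
theorem form_bound {A : Matrix (Fin n) (Fin n) ℝ} {K : ℝ} (hK : ∀ i j, |A i j| ≤ K)
    (z : Fin n → ℝ) : |∑ i, ∑ j, A i j * z i * z j| ≤ n * K * ∑ i, z i ^ 2 := by
  have h3 : ∀ i j, |A i j * z i * z j| ≤ K * ((z i ^ 2 + z j ^ 2) / 2) := by
    intro i j
    have hK0 : 0 ≤ K := (abs_nonneg _).trans (hK i j)
    rw [mul_assoc, abs_mul]
    refine mul_le_mul (hK i j) ?_ (abs_nonneg _) hK0
    rw [abs_mul]
    nlinarith [sq_nonneg (|z i| - |z j|), sq_abs (z i), sq_abs (z j)]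
  calc |∑ i, ∑ j, A i j * z i * z j|
      ≤ ∑ i, ∑ j, |A i j * z i * z j| :=
        (Finset.abs_sum_le_sum_abs _ _).trans
          (Finset.sum_le_sum fun i _ => Finset.abs_sum_le_sum_abs _ _)
    _ ≤ ∑ i, ∑ j, K * ((z i ^ 2 + z j ^ 2) / 2) :=
        Finset.sum_le_sum fun i _ => Finset.sum_le_sum fun j _ => h3 i j
    _ = n * K * ∑ i, z i ^ 2 := by
        have : ∀ i : Fin n, ∑ j, K * ((z i ^ 2 + z j ^ 2) / 2)
            = K / 2 * (n * z i ^ 2 + ∑ j, z j ^ 2) := by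
          intro i
          rw [← Finset.mul_sum, ← Finset.sum_div, Finset.sum_add_distrib, Finset.sum_const,
            Finset.card_univ, Fintype.card_fin, nsmul_eq_mul]
          ring
        rw [Finset.sum_congr rfl fun i _ => this i, ← Finset.mul_sum, Finset.sum_add_distrib,
          ← Finset.mul_sum, Finset.sum_const, Finset.card_univ, Fintype.card_fin, nsmul_eq_mul]
        ring

theorem exists_PC {P : E n → ℝ} (hP : PDat P) : ∃ c C2 C3 M0 R0 : ℝ, PC P c C2 C3 M0 R0 := by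
  obtain ⟨ε, hε, hc⟩ := hP.conv
  have hs2 : ContDiff ℝ 2 P := by exact_mod_cast contDiff_infty.1 hP.tst.smooth 2
  -- bound for P
  obtain ⟨M0, hM0⟩ := hP.tst.supp.exists_bound_of_continuous hP.tst.smooth.continuous
  -- bounds for second derivatives
  have h2 : ∃ K2 : ℝ, 0 ≤ K2 ∧ ∀ x i j, |Hs P x i j| ≤ K2 := by
    have h : ∀ p : Fin n × Fin n, ∃ C, ∀ x, ‖Hs P x p.1 p.2‖ ≤ C := fun p =>
      (hasCompactSupport_Hs hP.tst.supp p.1 p.2).exists_bound_of_continuous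
        (contDiff_Hs hP.tst.smooth p.1 p.2).continuous
    choose C hC using h
    refine ⟨∑ p, |C p|, Finset.sum_nonneg fun _ _ => abs_nonneg _, fun x i j => ?_⟩
    have := hC (i, j) x
    rw [Real.norm_eq_abs] at this
    refine this.trans ((le_abs_self _).trans ?_)
    exact Finset.single_le_sum (f := fun p => |C p|) (fun _ _ => abs_nonneg _)
      (Finset.mem_univ (i, j))
  obtain ⟨K2, hK20, hK2⟩ := h2
  have h3 : ∃ K3 : ℝ, 0 ≤ K3 ∧ ∀ x i j k, |fderiv ℝ (fun y => Hs P y i j) x (ee k)| ≤ K3 := by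
    have h : ∀ p : Fin n × Fin n × Fin n, ∃ C, ∀ x,
        ‖fderiv ℝ (fun y => Hs P y p.1 p.2.1) x (ee p.2.2)‖ ≤ C := by
      intro p
      have h1 : HasCompactSupport (fderiv ℝ (fun y => Hs P y p.1 p.2.1)) :=
        (hasCompactSupport_Hs hP.tst.supp p.1 p.2.1).fderiv (𝕜 := ℝ)
      have h4 : ContDiff ℝ ∞ (fderiv ℝ (fun y => Hs P y p.1 p.2.1)) :=
        (contDiff_Hs hP.tst.smooth p.1 p.2.1).fderiv_right (by simp)
      obtain ⟨C, hC⟩ := h1.exists_bound_of_continuous h4.continuous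
      refine ⟨C * ‖(ee p.2.2 : E n)‖, fun x => ?_⟩
      exact ((fderiv ℝ (fun y => Hs P y p.1 p.2.1) x).le_opNorm _).trans
        (mul_le_mul_of_nonneg_right (hC x) (norm_nonneg _))
    choose C hC using h
    refine ⟨∑ p, |C p|, Finset.sum_nonneg fun _ _ => abs_nonneg _, fun x i j k => ?_⟩
    have := hC (i, j, k) x
    rw [Real.norm_eq_abs] at this
    refine this.trans ((le_abs_self _).trans ?_)
    exact Finset.single_le_sum (f := fun p => |C p|) (fun _ _ => abs_nonneg _)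
      (Finset.mem_univ (i, j, k))
  obtain ⟨K3, hK30, hK3⟩ := h3
  obtain ⟨R, hR⟩ := hP.tst.supp.isCompact.isBounded.subset_ball (0 : E n)
  refine ⟨min 1 (2 * ε), 1 + n * K2, K3, |M0|, max R 1,
    lt_min one_pos (by positivity), min_le_left _ _, le_add_of_nonneg_right (by positivity), hK30,
    abs_nonneg _, lt_max_of_lt_right one_pos, ?_, ?_, hK3,
    fun x => ((Real.norm_eq_abs (P x)).symm ▸ hM0 x).trans (le_abs_self _), ?_⟩
  · intro s hs0 hs1 x z
    have h := hess_lower hs2 hc x (WithLp.toLp 2 z)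
    rw [fderiv2_eq_sum, normsq_eq] at h
    simp only at h
    have hz : 0 ≤ ∑ i, z i ^ 2 := Finset.sum_nonneg fun _ _ => sq_nonneg _
    have hm1 : min 1 (2 * ε) ≤ 1 := min_le_left _ _
    have hm2 : min 1 (2 * ε) ≤ 2 * ε := min_le_right _ _
    set Z := ∑ i, z i ^ 2
    set W := ∑ i, ∑ j, Hs P x i j * z i * z j
    have e1 : min 1 (2 * ε) * Z ≤ Z := by nlinarith
    have e2 : min 1 (2 * ε) * Z ≤ 2 * ε * Z := by nlinarith
    have e3 : min 1 (2 * ε) * Z ≤ Z + W := e2.trans h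
    calc min 1 (2 * ε) * Z = (1 - s) * (min 1 (2 * ε) * Z) + s * (min 1 (2 * ε) * Z) := by ring
      _ ≤ (1 - s) * Z + s * (Z + W) := by
        apply add_le_add
        · exact mul_le_mul_of_nonneg_left e1 (by linarith)
        · exact mul_le_mul_of_nonneg_left e3 hs0
      _ = Z + s * W := by ring
  · intro s hs0 hs1 x z
    have h := form_bound (A := Matrix.of (fun i j => Hs P x i j)) (K := K2)
      (fun i j => hK2 x i j) z
    simp only [Matrix.of_apply] at h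
    have hz : 0 ≤ ∑ i, z i ^ 2 := Finset.sum_nonneg fun _ _ => sq_nonneg _
    set Z := ∑ i, z i ^ 2
    set W := ∑ i, ∑ j, Hs P x i j * z i * z j
    have hnK : 0 ≤ n * K2 * Z := by positivity
    have h5 : s * W ≤ n * K2 * Z := by
      calc s * W ≤ s * |W| := mul_le_mul_of_nonneg_left (le_abs_self _) hs0
        _ ≤ 1 * |W| := mul_le_mul_of_nonneg_right hs1 (abs_nonneg _)
        _ = |W| := one_mul _
        _ ≤ n * K2 * Z := h
    linarith
  · intro x hx
    have hx' : x ∉ tsupport P := by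
      intro hmem
      have := hR hmem
      rw [mem_ball_zero_iff] at this
      have := (le_max_left R 1).trans hx
      linarith
    have : ∀ᶠ y in 𝓝 x, y ∉ tsupport P :=
      (isClosed_tsupport P).isOpen_compl.mem_nhds hx'
    filter_upwards [this] with y hy
    exact image_eq_zero_of_notMem_tsupport hy

end Crest.Agent.R238.Apr
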