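import Crest.Agent.R238.HolDefs

/-!
Row 238, node H5 (helper487): FROZEN interface of the continuity step.

`gm v x = 1 + D²v(x)`, `tauf v x = (gm v x)⁻¹`, `MAeq P s v` = the Monge-Ampere equation at
parameter `s`, `APr` = a priori estimate for `L + 1` at `v`, `Srj` = solvability of `(L+1)h = f`.
`StepStmt` = H5: uniform step of the continuity method (exports `|D²v' - D²v|_a ≤ δ`).
-/

set_option autoImplicit false

open MeasureTheory Set Filter
open scoped ContDiff Topology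

namespace Crest.Agent.R238

variable {n : ℕ}

/-- `1 + D²v(x)` -/
noncomputable def gm (v : E n → ℝ) (x : E n) : Matrix (Fin n) (Fin n) ℝ :=
  1 + Matrix.of (fun i j => Hs v x i j)

/-- `τ = (1 + D²v)⁻¹` -/
noncomputable def tauf (v : E n → ℝ) (x : E n) : Matrix (Fin n) (Fin n) ℝ := (gm v x)⁻¹

/-- `log det (1 + D²v) - x·∇v + v = - s P` -/
def MAeq (P : E n → ℝ) (s : ℝ) (v : E n → ℝ) : Prop :=
  ∀ x, Real.log (gm v x).det - fderiv ℝ v x x + v x = - s * P x

/-- even `C²` function with `D²v` bounded by `M` and `a`-Hölder with constant `M` -/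
structure Cls (a M : ℝ) (v : E n → ℝ) : Prop where
  c2 : ContDiff ℝ 2 v
  even : ∀ x, v (-x) = v x
  hb : ∀ i j, HB a M (fun x => Hs v x i j)

/-- a priori estimate for `L_τ + 1` on even functions -/
def APr (a M2 : ℝ) (τ : E n → Matrix (Fin n) (Fin n) ℝ) : Prop :=
  ∀ (h : E n → ℝ) (N : ℝ), (∃ B, Cls a B h) → HB a N (fun x => LA τ h x + h x) →
    ∀ i j, HB a (M2 * N) (fun x => Hs h x i j)

/-- solvability of `(L_τ + 1) h = f` for even Hölder `f` -/
def Srj (a : ℝ) (τ : E n → Matrix (Fin n) (Fin n) ℝ) : Prop :=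
  ∀ (f : E n → ℝ) (N : ℝ), HB a N f → (∀ x, f (-x) = f x) →
    ∃ h : E n → ℝ, (∃ B, Cls a B h) ∧ ∀ x, LA τ h x + h x = f x

/-- **H5**: the uniform step of the continuity method. -/
def StepStmt : Prop := ∀ (n : ℕ) (a lo hi M M2 NP δ : ℝ), 0 < a → a < 1 → 0 < lo → lo ≤ hi →
  0 < δ → ∃ t₀ : ℝ, 0 < t₀ ∧ ∀ (P : E n → ℝ), HB a NP P → (∀ x, P (-x) = P x) →
    ∀ (s : ℝ) (v : E n → ℝ), Cls a M v → (∀ x, Ell lo hi (gm v x)) → MAeq P s v →
      APr a M2 (tauf v) → Srj a (tauf v) →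
      ∀ s' ∈ Icc s (s + t₀), ∃ v' : E n → ℝ, Cls a (M + δ) v' ∧
        (∀ i j, HB a δ (fun x => Hs v' x i j - Hs v x i j)) ∧
        (∀ x, Ell (lo / 2) (hi + lo / 2) (gm v' x)) ∧ MAeq P s' v' ∧ Srj a (tauf v')

end Crest.Agent.R238
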