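import Crest.Agent.R238.TopDefs
import Crest.Agent.R238.StepDefs

/-!
Row 238 (S0369), existence half (helper397, note 13508): FROZEN Props of the assembly
`SolStmt → StepStmt → AprStmt → RegStmt → IsoStmt → ∀ n, Exi n` (proved in `ExiAsm.lean`).
-/

set_option autoImplicit false

open MeasureTheory Set Filter
open scoped ContDiff Topology

namespace Crest.Agent.R238

variable {n : ℕ}

/-- `D²v` is `ε`-small in `C^a` outside the ball of radius `R` -/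
def ExtS (a ε R : ℝ) (v : E n → ℝ) : Prop :=
  (∀ x, R ≤ ‖x‖ → ∀ i j, |Hs v x i j| ≤ ε) ∧
    ∀ x y, R ≤ ‖x‖ → R ≤ ‖y‖ → ∀ i j, |Hs v x i j - Hs v y i j| ≤ ε * ‖x - y‖ ^ a

/-- uniform a priori bounds for smooth solutions (H3, H4, H7, H8; node APR, helper143) -/
def AprStmt : Prop := ∀ (n : ℕ) (a : ℝ), 0 < a → a < 1 → ∀ P : E n → ℝ, PDat P →
  ∃ lo hi M M2 : ℝ, 0 < lo ∧ lo ≤ hi ∧ ∀ ε : ℝ, 0 < ε → ∃ R : ℝ,
    ∀ s : ℝ, 0 ≤ s → s ≤ 1 → ∀ v : E n → ℝ, Nice v → (∀ x, v (-x) = v x) →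
      (∃ lo' hi' : ℝ, 0 < lo' ∧ ∀ x, Ell lo' hi' (gm v x)) → MAeq P s v →
        (∀ x, Ell lo hi (gm v x)) ∧ Cls a M v ∧ APr a M2 (tauf v) ∧ ExtS a ε R v

/-- regularity of a solution of the class `Cls` (H6, helper978) -/
def RegStmt : Prop := ∀ (n : ℕ) (a lo hi : ℝ), 0 < a → a < 1 → 0 < lo → lo ≤ hi →
  ∃ ε₁ : ℝ, 0 < ε₁ ∧ ∀ (M R : ℝ) (P : E n → ℝ), Tst P → ∀ (s : ℝ) (v : E n → ℝ),
    Cls a M v → (∀ x, Ell lo hi (gm v x)) → MAeq P s v → ExtS a ε₁ R v → Nice v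

/-- solvability in the class `Nice` (ISO-ASM, helper890) -/
def IsoStmt : Prop := ∀ (n : ℕ) (a : ℝ), 0 < a → a < 1 → ∀ v : E n → ℝ, Nice v →
  (∀ x, v (-x) = v x) → (∃ lo hi : ℝ, 0 < lo ∧ ∀ x, Ell lo hi (gm v x)) →
    (∀ ε : ℝ, 0 < ε → ∃ R : ℝ, ExtS a ε R v) → Srj a (tauf v) → Iso v

end Crest.Agent.R238
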