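import Mathlib
import Crest.Agent.R238.HolDefs

/-!
Row 238, node APR (helper143): linear algebra for `Ell lo hi A`.
-/

set_option autoImplicit false

open Finset

namespace Crest.Agent.R238.Apr

open Crest.Agent.R238

variable {n : ℕ}

/-- the quadratic form. -/
def Q (A : Matrix (Fin n) (Fin n) ℝ) (z : Fin n → ℝ) : ℝ := ∑ i, ∑ j, A i j * z i * z j

theorem Q_add_smul {A : Matrix (Fin n) (Fin n) ℝ} (hA : ∀ i j, A i j = A j i) (z w : Fin n → ℝ)
    (t : ℝ) : Q A (fun i => z i + t * w i)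
      = Q A z + 2 * t * (∑ i, ∑ j, A i j * z i * w j) + t ^ 2 * Q A w := by
  have h1 : ∑ i, ∑ j, A i j * w i * z j = ∑ i, ∑ j, A i j * z i * w j := by
    rw [sum_comm]
    refine sum_congr rfl fun i _ => sum_congr rfl fun j _ => ?_
    rw [hA i j]; ring
  have h2 : Q A (fun i => z i + t * w i) = ∑ i, ∑ j, (A i j * z i * z j
      + t * (A i j * z i * w j) + t * (A i j * w i * z j) + t ^ 2 * (A i j * w i * w j)) := by
    refine sum_congr rfl fun i _ => sum_congr rfl fun j _ => ?_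
    ring
  rw [h2]
  simp only [sum_add_distrib, ← mul_sum]
  rw [h1]
  unfold Q
  ring

theorem sum_mulVec (A : Matrix (Fin n) (Fin n) ℝ) (z w : Fin n → ℝ) :
    ∑ i, ∑ j, A i j * z i * w j = ∑ i, z i * (A.mulVec w) i := by
  refine sum_congr rfl fun i _ => ?_
  rw [Matrix.mulVec, dotProduct, mul_sum]
  refine sum_congr rfl fun j _ => ?_
  ring

theorem Q_single_add {A : Matrix (Fin n) (Fin n) ℝ} (i j : Fin n) (s t : ℝ) :
    Q A (fun k => s * (Pi.single i (1 : ℝ) : Fin n → ℝ) k + t * (Pi.single j (1 : ℝ) : Fin n → ℝ) k)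
      = s ^ 2 * A i i + s * t * A i j + t * s * A j i + t ^ 2 * A j j := by
  unfold Q
  have : ∀ k l, A k l * (s * (Pi.single i (1 : ℝ) : Fin n → ℝ) k
        + t * (Pi.single j (1 : ℝ) : Fin n → ℝ) k)
        * (s * (Pi.single i (1 : ℝ) : Fin n → ℝ) l + t * (Pi.single j (1 : ℝ) : Fin n → ℝ) l)
      = s ^ 2 * (A k l * (Pi.single i (1 : ℝ) : Fin n → ℝ) k * (Pi.single i (1 : ℝ) : Fin n → ℝ) l)
        + s * t * (A k l * (Pi.single i (1 : ℝ) : Fin n → ℝ) k
            * (Pi.single j (1 : ℝ) : Fin n → ℝ) l)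
        + t * s * (A k l * (Pi.single j (1 : ℝ) : Fin n → ℝ) k
            * (Pi.single i (1 : ℝ) : Fin n → ℝ) l)
        + t ^ 2 * (A k l * (Pi.single j (1 : ℝ) : Fin n → ℝ) k
            * (Pi.single j (1 : ℝ) : Fin n → ℝ) l) := by
    intro k l; ring
  simp only [this, sum_add_distrib, ← mul_sum]
  simp [Pi.single_apply, Finset.sum_ite_eq', mul_ite]

theorem entry_bound {A : Matrix (Fin n) (Fin n) ℝ} (hA : ∀ i j, A i j = A j i) {ε : ℝ}
    (h : ∀ z, |Q A z| ≤ ε * ∑ i, z i ^ 2) (i j : Fin n) : |A i j| ≤ ε := by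
  have e1 := Q_single_add (A := A) i j 1 1
  have e2 := Q_single_add (A := A) i j 1 (-1)
  have b1 := h (fun k => 1 * (Pi.single i (1 : ℝ) : Fin n → ℝ) k
    + 1 * (Pi.single j (1 : ℝ) : Fin n → ℝ) k)
  have b2 := h (fun k => 1 * (Pi.single i (1 : ℝ) : Fin n → ℝ) k
    + (-1) * (Pi.single j (1 : ℝ) : Fin n → ℝ) k)
  rw [e1] at b1
  rw [e2] at b2
  have s12 : ∑ k, (1 * (Pi.single i (1 : ℝ) : Fin n → ℝ) k
        + 1 * (Pi.single j (1 : ℝ) : Fin n → ℝ) k) ^ 2
      + ∑ k, (1 * (Pi.single i (1 : ℝ) : Fin n → ℝ) k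
        + (-1) * (Pi.single j (1 : ℝ) : Fin n → ℝ) k) ^ 2 = 4 := by
    rw [← sum_add_distrib]
    have : ∀ k, (1 * (Pi.single i (1 : ℝ) : Fin n → ℝ) k
        + 1 * (Pi.single j (1 : ℝ) : Fin n → ℝ) k) ^ 2
      + (1 * (Pi.single i (1 : ℝ) : Fin n → ℝ) k
        + (-1) * (Pi.single j (1 : ℝ) : Fin n → ℝ) k) ^ 2
      = 2 * (Pi.single i (1 : ℝ) : Fin n → ℝ) k + 2 * (Pi.single j (1 : ℝ) : Fin n → ℝ) k := by
      intro k
      have hs : ∀ l : Fin n, ((Pi.single l (1 : ℝ) : Fin n → ℝ) k) ^ 2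
          = (Pi.single l (1 : ℝ) : Fin n → ℝ) k := by
        intro l
        rw [Pi.single_apply]; split_ifs <;> norm_num
      linear_combination 2 * hs i + 2 * hs j
    rw [sum_congr rfl fun k _ => this k, sum_add_distrib, ← mul_sum, ← mul_sum]
    simp
    norm_num
  rw [hA j i] at b1 b2
  rw [abs_le] at b1 b2 ⊢
  constructor <;> nlinarith [b1.1, b1.2, b2.1, b2.2]

theorem Ell.entry {lo hi : ℝ} {A : Matrix (Fin n) (Fin n) ℝ} (h : Ell lo hi A) (hlo : 0 ≤ lo)
    (i j : Fin n) : |A i j| ≤ hi := by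
  refine entry_bound h.1 (fun z => ?_) i j
  have h1 := h.2 z
  have h0 : 0 ≤ ∑ i, z i ^ 2 := sum_nonneg fun i _ => sq_nonneg _
  rw [abs_le]
  refine ⟨?_, h1.2⟩
  have : 0 ≤ hi * ∑ i, z i ^ 2 := (mul_nonneg hlo h0).trans (h1.1.trans h1.2)
  have h2 : 0 ≤ Q A z := (mul_nonneg hlo h0).trans h1.1
  linarith

theorem Q_one (z : Fin n → ℝ) : Q (1 : Matrix (Fin n) (Fin n) ℝ) z = ∑ i, z i ^ 2 := by
  unfold Q
  refine sum_congr rfl fun i _ => ?_
  simp [Matrix.one_apply, ite_mul, sq]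

theorem Q_sub (A B : Matrix (Fin n) (Fin n) ℝ) (z : Fin n → ℝ) :
    Q (A - B) z = Q A z - Q B z := by
  unfold Q
  rw [← sum_sub_distrib]
  refine sum_congr rfl fun i _ => ?_
  rw [← sum_sub_distrib]
  refine sum_congr rfl fun j _ => ?_
  rw [Matrix.sub_apply]; ring

/-- entries of `A - 1` are small when `A` is near the identity as a form. -/
theorem Ell.entry_sub_one {ε : ℝ} {A : Matrix (Fin n) (Fin n) ℝ} (h : Ell (1 - ε) (1 + ε) A)
    (i j : Fin n) : |A i j - (1 : Matrix (Fin n) (Fin n) ℝ) i j| ≤ ε := by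
  have hs : ∀ i j, (A - 1) i j = (A - 1) j i := by
    intro i j
    rw [Matrix.sub_apply, Matrix.sub_apply, h.1 i j, Matrix.one_apply, Matrix.one_apply]
    simp [eq_comm]
  have := entry_bound (A := A - 1) hs (ε := ε) (fun z => ?_) i j
  · simpa using this
  · rw [Q_sub, Q_one]
    have h1 := h.2 z
    change (1 - ε) * ∑ i, z i ^ 2 ≤ Q A z ∧ Q A z ≤ (1 + ε) * ∑ i, z i ^ 2 at h1
    rw [abs_le]
    constructor <;> nlinarith [h1.1, h1.2]

theorem Ell.posDef {lo hi : ℝ} {A : Matrix (Fin n) (Fin n) ℝ} (h : Ell lo hi A) (hlo : 0 < lo) :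
    A.PosDef := by
  refine Matrix.PosDef.of_dotProduct_mulVec_pos ?_ ?_
  · ext i j
    simp [Matrix.conjTranspose_apply, h.1 j i]
  · intro z hz
    have h1 := (h.2 z).1
    have h2 : 0 < ∑ i, z i ^ 2 := by
      obtain ⟨i, hi⟩ := Function.ne_iff.1 hz
      refine lt_of_lt_of_le ?_ (single_le_sum (f := fun i => z i ^ 2) (fun i _ => sq_nonneg _)
        (mem_univ i))
      have : z i ≠ 0 := hi
      positivity
    have h3 : star z ⬝ᵥ A.mulVec z = ∑ i, ∑ j, A i j * z i * z j := by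
      rw [sum_mulVec, dotProduct]
      simp
    rw [h3]
    exact lt_of_lt_of_le (mul_pos hlo h2) h1

theorem Ell.mul_inv {lo hi : ℝ} {A : Matrix (Fin n) (Fin n) ℝ} (h : Ell lo hi A) (hlo : 0 < lo) :
    A * A⁻¹ = 1 := Matrix.mul_nonsing_inv A (Ne.isUnit (Ell.posDef h hlo).det_pos.ne')

theorem Ell.inv_mul {lo hi : ℝ} {A : Matrix (Fin n) (Fin n) ℝ} (h : Ell lo hi A) (hlo : 0 < lo) :
    A⁻¹ * A = 1 := Matrix.nonsing_inv_mul A (Ne.isUnit (Ell.posDef h hlo).det_pos.ne')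

/-- the inverse of an elliptic matrix. -/
theorem Ell.inv {lo hi : ℝ} {A : Matrix (Fin n) (Fin n) ℝ} (h : Ell lo hi A) (hlo : 0 < lo)
    (hhi : 0 < hi) : Ell (1 / hi) (1 / lo) A⁻¹ := by
  have hsym : ∀ i j, A⁻¹ i j = A⁻¹ j i := by
    intro i j
    have h1 : A.transpose = A := by
      ext i j; rw [Matrix.transpose_apply, h.1 i j]
    have h2 : (A⁻¹).transpose = A⁻¹ := by
      rw [Matrix.transpose_nonsing_inv, h1]
    calc A⁻¹ i j = (A⁻¹).transpose i j := by rw [h2]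
      _ = A⁻¹ j i := rfl
  refine ⟨hsym, fun z => ?_⟩
  set w : Fin n → ℝ := (A⁻¹).mulVec z with hw
  have hAw : A.mulVec w = z := by
    rw [hw, Matrix.mulVec_mulVec, Ell.mul_inv h hlo, Matrix.one_mulVec]
  have q1 : ∑ i, ∑ j, A⁻¹ i j * z i * z j = ∑ i, z i * w i := by rw [sum_mulVec]
  have q2 : Q A w = ∑ i, z i * w i := by
    unfold Q
    rw [sum_mulVec, hAw]
    exact sum_congr rfl fun i _ => mul_comm _ _
  have q3 : ∑ i, ∑ j, A i j * w i * z j = ∑ i, z i ^ 2 := by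
    have : ∑ i, ∑ j, A i j * w i * z j = ∑ i, ∑ j, A i j * z i * w j := by
      rw [sum_comm]
      refine sum_congr rfl fun i _ => sum_congr rfl fun j _ => ?_
      rw [h.1 i j]; ring
    rw [this, sum_mulVec, hAw]
    exact sum_congr rfl fun i _ => (sq _).symm
  rw [q1]
  set q := ∑ i, z i * w i with hq
  set N := ∑ i, z i ^ 2 with hN
  have hN0 : 0 ≤ N := sum_nonneg fun i _ => sq_nonneg _
  constructor
  · -- `0 ≤ Q_A (w - z / hi)`
    have h1 := Q_add_smul h.1 w z (-(1 / hi))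
    have h2 := (h.2 (fun i => w i + -(1 / hi) * z i)).1
    have h3 : 0 ≤ Q A (fun i => w i + -(1 / hi) * z i) :=
      le_trans (mul_nonneg hlo.le (sum_nonneg fun i _ => sq_nonneg _)) h2
    have h4 : Q A z ≤ hi * N := (h.2 z).2
    rw [h1, q2, q3] at h3
    have h5 : (-(1 / hi)) ^ 2 * Q A z ≤ (1 / hi) * N := by
      calc (-(1 / hi)) ^ 2 * Q A z ≤ (-(1 / hi)) ^ 2 * (hi * N) :=
            mul_le_mul_of_nonneg_left h4 (sq_nonneg _)
        _ = (1 / hi) * N := by field_simp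
    have : 2 * -(1 / hi) * N = -2 * ((1 / hi) * N) := by ring
    rw [this] at h3
    linarith
  · -- `|z / lo - w|² ≥ 0`
    have h1 : 0 ≤ ∑ i, ((1 / lo) * z i - w i) ^ 2 := sum_nonneg fun i _ => sq_nonneg _
    have h2 : ∑ i, ((1 / lo) * z i - w i) ^ 2
        = (1 / lo) ^ 2 * N - 2 * (1 / lo) * q + ∑ i, w i ^ 2 := by
      have : ∀ i, ((1 / lo) * z i - w i) ^ 2
          = (1 / lo) ^ 2 * z i ^ 2 - 2 * (1 / lo) * (z i * w i) + w i ^ 2 := by
        intro i; ring
      rw [sum_congr rfl fun i _ => this i, sum_add_distrib, sum_sub_distrib, ← mul_sum, ← mul_sum]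
    have h3 : lo * ∑ i, w i ^ 2 ≤ q := by
      have := (h.2 w).1
      change lo * ∑ i, w i ^ 2 ≤ Q A w at this
      rwa [q2] at this
    have h4 : ∑ i, w i ^ 2 ≤ (1 / lo) * q := by
      rw [div_mul_eq_mul_div, one_mul, le_div_iff₀ hlo]
      linarith
    rw [h2] at h1
    have h5 : (1 / lo) * q ≤ (1 / lo) * ((1 / lo) * N) := by
      have : (1 / lo) * ((1 / lo) * N) = (1 / lo) ^ 2 * N := by ring
      rw [this]; linarith
    exact le_of_mul_le_mul_left h5 (by positivity)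

/-- quadratic form through eigenvalues. -/
theorem Q_eq_eig {A : Matrix (Fin n) (Fin n) ℝ} (hA : A.IsHermitian) (z : Fin n → ℝ) :
    Q A z = ∑ i, hA.eigenvalues i * (inner ℝ (hA.eigenvectorBasis i)
      (WithLp.toLp 2 z : EuclideanSpace ℝ (Fin n))) ^ 2 := by
  set b := hA.eigenvectorBasis with hb
  set Z : EuclideanSpace ℝ (Fin n) := WithLp.toLp 2 z
  set AZ : EuclideanSpace ℝ (Fin n) := WithLp.toLp 2 (A.mulVec z)
  have h1 : Q A z = inner ℝ Z AZ := by
    unfold Q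
    rw [sum_mulVec]
    simp only [PiLp.inner_apply, Z, AZ]
    refine sum_congr rfl fun i _ => ?_
    simp [mul_comm]
  have h2 : ∀ i, inner ℝ (b i) AZ = hA.eigenvalues i * inner ℝ (b i) Z := by
    intro i
    have h3 := hA.mulVec_eigenvectorBasis i
    have h4 : inner ℝ (b i) AZ = ∑ k, (A.mulVec (b i).ofLp) k * z k := by
      simp only [PiLp.inner_apply, AZ]
      have : ∀ x y : Fin n → ℝ, ∑ k, inner ℝ (x k) ((A.mulVec y) k)
          = ∑ k, (A.mulVec x) k * y k := by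
        intro x y
        have e1 : ∑ k, inner ℝ (x k) ((A.mulVec y) k) = ∑ k, x k * (A.mulVec y) k := by
          refine sum_congr rfl fun k _ => ?_
          simp [mul_comm]
        rw [e1, ← sum_mulVec]
        have e2 : ∑ k, (A.mulVec x) k * y k = ∑ k, y k * (A.mulVec x) k :=
          sum_congr rfl fun k _ => mul_comm _ _
        rw [e2, ← sum_mulVec, sum_comm]
        refine sum_congr rfl fun i _ => sum_congr rfl fun j _ => ?_
        have hs : A i j = A j i := by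
          have := congrFun (congrFun hA j) i
          simpa [Matrix.conjTranspose_apply] using this
        rw [hs]; ring
      exact this _ _
    rw [h4, h3]
    simp only [PiLp.inner_apply, Z, Pi.smul_apply, smul_eq_mul]
    rw [mul_sum]
    refine sum_congr rfl fun k _ => ?_
    simp [hb]; ring
  rw [h1, ← b.sum_inner_mul_inner Z AZ]
  refine sum_congr rfl fun i _ => ?_
  rw [h2 i, real_inner_comm]
  ring

/-- lower bound for the form from a determinant bound and an upper bound. -/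
theorem lower_of_det {hi d : ℝ} {A : Matrix (Fin n) (Fin n) ℝ} (hA : A.PosDef)
    (hup : ∀ z, Q A z ≤ hi * ∑ i, z i ^ 2) (hd0 : 0 ≤ d) (hd : d ≤ A.det) (hhi : 0 < hi)
    (z : Fin n → ℝ) : d / hi ^ (n - 1) * ∑ i, z i ^ 2 ≤ Q A z := by
  have hH := hA.1
  have hpos : ∀ i, 0 < hH.eigenvalues i := hA.eigenvalues_pos
  have hN : ∀ z : Fin n → ℝ, ∑ i, z i ^ 2
      = ∑ i, (inner ℝ (hH.eigenvectorBasis i) (WithLp.toLp 2 z : EuclideanSpace ℝ (Fin n))) ^ 2 := by
    intro z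
    have h1 := hH.eigenvectorBasis.sum_inner_mul_inner
      (WithLp.toLp 2 z : EuclideanSpace ℝ (Fin n)) (WithLp.toLp 2 z : EuclideanSpace ℝ (Fin n))
    have h2 : inner ℝ (WithLp.toLp 2 z : EuclideanSpace ℝ (Fin n))
        (WithLp.toLp 2 z : EuclideanSpace ℝ (Fin n)) = ∑ i, z i ^ 2 := by
      rw [PiLp.inner_apply]
      refine sum_congr rfl fun i _ => ?_
      simp [sq]
    rw [← h2, ← h1]
    refine sum_congr rfl fun i _ => ?_
    rw [real_inner_comm, sq]
  have hle : ∀ i, hH.eigenvalues i ≤ hi := by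
    intro i
    have h1 := hup (hH.eigenvectorBasis i).ofLp
    rw [Q_eq_eig hH, hN] at h1
    have h2 : (WithLp.toLp 2 (hH.eigenvectorBasis i).ofLp : EuclideanSpace ℝ (Fin n))
        = hH.eigenvectorBasis i := rfl
    rw [h2] at h1
    have h3 : ∀ j, (inner ℝ (hH.eigenvectorBasis j) (hH.eigenvectorBasis i)) ^ 2
        = if j = i then (1 : ℝ) else 0 := by
      intro j
      rw [orthonormal_iff_ite.1 hH.eigenvectorBasis.orthonormal j i]
      split_ifs <;> simp
    simp only [h3, mul_ite, mul_one, mul_zero, sum_ite_eq', mem_univ, if_true] at h1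
    simpa using h1
  have hdet := hH.det_eq_prod_eigenvalues
  simp only [RCLike.ofReal_real_eq_id, id_eq] at hdet
  have hge : ∀ i, d / hi ^ (n - 1) ≤ hH.eigenvalues i := by
    intro i
    rw [div_le_iff₀ (by positivity)]
    refine hd.trans ?_
    rw [hdet, ← mul_prod_erase univ _ (mem_univ i)]
    refine mul_le_mul_of_nonneg_left ?_ (hpos i).le
    have : (univ.erase i : Finset (Fin n)).card = n - 1 := by
      rw [card_erase_of_mem (mem_univ i), card_univ, Fintype.card_fin]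
    rw [← this, ← prod_const]
    exact prod_le_prod (fun j _ => (hpos j).le) fun j _ => hle j
  rw [Q_eq_eig hH, hN z, mul_sum]
  exact sum_le_sum fun i _ => mul_le_mul_of_nonneg_right (hge i) (sq_nonneg _)

end Crest.Agent.R238.Apr
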