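import Crest.Agent.R238.StepDefs
import Crest.Agent.R238.AprLin

/-!
Row 238, node H7 (helper3): interpolation.  A decay bound `|D²v| ≤ K (1+|x|²)^(-1/4)` and a
Lipschitz bound for `D²v` give smallness of `D²v` and of `τ - 1` in `C^a` far out, and global
`HB` bounds.
-/

set_option autoImplicit false

open MeasureTheory Set Filter
open scoped ContDiff Topology Matrix

namespace Crest.Agent.R238.ExtSm

open Crest.Agent.R238

variable {n : ℕ}

/-- `min (A, B) ≤ A^(1-a) B^a` -/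
theorem le_rpow_of_le {a A B t : ℝ} (ha : 0 < a) (ha1 : a < 1) (ht : 0 ≤ t)
    (hA : t ≤ A) (hB : t ≤ B) : t ≤ A ^ (1 - a) * B ^ a := by
  rcases ht.eq_or_lt with h0 | h0
  · rw [← h0]
    exact mul_nonneg (Real.rpow_nonneg (h0 ▸ hA) _) (Real.rpow_nonneg (h0 ▸ hB) _)
  · calc t = t ^ (1 - a) * t ^ a := by
          rw [← Real.rpow_add h0]; simp
      _ ≤ A ^ (1 - a) * B ^ a := mul_le_mul (Real.rpow_le_rpow ht hA (by linarith))
          (Real.rpow_le_rpow ht hB ha.le) (Real.rpow_nonneg ht _)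
          (Real.rpow_nonneg (ht.trans hA) _)

/-- a bounded Lipschitz function is `HB` -/
theorem hb_of_lip {a M K : ℝ} (ha : 0 < a) (ha1 : a < 1) (hM : 0 ≤ M) (hK : 0 ≤ K) {f : E n → ℝ}
    (h1 : ∀ x, |f x| ≤ M) (h2 : ∀ x y, |f x - f y| ≤ K * ‖x - y‖) :
    HB a (2 * M + K) f := by
  refine ⟨fun x => (h1 x).trans (by linarith), fun x y => ?_⟩
  have h3 : |f x - f y| ≤ 2 * M := by
    have := abs_sub (f x) (f y)
    linarith [h1 x, h1 y]
  rcases le_total ‖x - y‖ 1 with h4 | h4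
  · rcases (norm_nonneg (x - y)).eq_or_lt with h0 | h0
    · have h5 := h2 x y
      rw [← h0] at h5 ⊢
      rw [mul_zero] at h5
      exact h5.trans (mul_nonneg (by linarith) (Real.rpow_nonneg le_rfl _))
    · have h5 : ‖x - y‖ ≤ ‖x - y‖ ^ a := by
        conv_lhs => rw [← Real.rpow_one ‖x - y‖]
        exact Real.rpow_le_rpow_of_exponent_ge h0 h4 ha1.le
      calc |f x - f y| ≤ K * ‖x - y‖ := h2 x y
        _ ≤ K * ‖x - y‖ ^ a := mul_le_mul_of_nonneg_left h5 hK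
        _ ≤ (2 * M + K) * ‖x - y‖ ^ a :=
          mul_le_mul_of_nonneg_right (by linarith) (Real.rpow_nonneg h0.le _)
  · have h5 : (1 : ℝ) ≤ ‖x - y‖ ^ a := Real.one_le_rpow h4 ha.le
    calc |f x - f y| ≤ 2 * M := h3
      _ ≤ (2 * M + K) * 1 := by linarith
      _ ≤ (2 * M + K) * ‖x - y‖ ^ a := mul_le_mul_of_nonneg_left h5 (by linarith)

/-- scalar interpolation: decay + Lipschitz ⇒ small in `C^a` far out -/
theorem ext_small_scal {a K K3 R1 : ℝ} (ha : 0 < a) (ha1 : a < 1) (hK : 0 ≤ K) (hK3 : 0 ≤ K3)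
    {eps : ℝ} (heps : 0 < eps) : ∃ R : ℝ, 0 < R ∧ R1 ≤ R ∧ ∀ f : E n → ℝ,
      (∀ x, R1 ≤ ‖x‖ → |f x| ≤ K * (1 + ‖x‖ ^ 2) ^ (-(1 / 4) : ℝ)) →
      (∀ x y, |f x - f y| ≤ K3 * ‖x - y‖) →
      ∀ x y, R ≤ ‖x‖ → R ≤ ‖y‖ → |f x| ≤ eps ∧ |f x - f y| ≤ eps * ‖x - y‖ ^ a := by
  -- the target sup bound
  set q : ℝ := (eps / (K3 + 1) ^ a) ^ (1 / (1 - a)) / 2 with hq
  have hK31 : 0 < K3 + 1 := by linarith
  have hp : 0 < (K3 + 1) ^ a := Real.rpow_pos_of_pos hK31 _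
  have hq0 : 0 < q := by
    rw [hq]; exact div_pos (Real.rpow_pos_of_pos (div_pos heps hp) _) two_pos
  set δ : ℝ := min eps q with hδ
  have hδ0 : 0 < δ := lt_min heps hq0
  have hδq : (2 * δ) ^ (1 - a) * (K3 + 1) ^ a ≤ eps := by
    have h1 : (2 * δ) ^ (1 - a) ≤ (2 * q) ^ (1 - a) :=
      Real.rpow_le_rpow (by positivity) (by linarith [min_le_right eps q]) (by linarith)
    have h2 : (2 * q) ^ (1 - a) = eps / (K3 + 1) ^ a := by
      have : 2 * q = (eps / (K3 + 1) ^ a) ^ (1 / (1 - a)) := by rw [hq]; ring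
      rw [this, ← Real.rpow_mul (div_pos heps hp).le, one_div, inv_mul_cancel₀ (by linarith),
        Real.rpow_one]
    rw [h2] at h1
    calc (2 * δ) ^ (1 - a) * (K3 + 1) ^ a ≤ eps / (K3 + 1) ^ a * (K3 + 1) ^ a :=
          mul_le_mul_of_nonneg_right h1 hp.le
      _ = eps := div_mul_cancel₀ _ hp.ne'
  refine ⟨(K / δ) ^ 2 + |R1| + 1, by positivity, ?_, ?_⟩
  · have := le_abs_self R1
    have : 0 ≤ (K / δ) ^ 2 := sq_nonneg _
    linarith
  intro f hf hL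
  have hsm : ∀ x : E n, (K / δ) ^ 2 + |R1| + 1 ≤ ‖x‖ → |f x| ≤ δ := by
    intro x hx
    have hx1 : R1 ≤ ‖x‖ := by
      have h1 := le_abs_self R1
      have h2 : 0 ≤ (K / δ) ^ 2 := sq_nonneg _
      linarith
    have hx2 : (K / δ) ^ 2 ≤ ‖x‖ := by
      have h1 := abs_nonneg R1
      linarith
    have h1 := hf x hx1
    refine h1.trans ?_
    have hs : 0 < 1 + ‖x‖ ^ 2 := by positivity
    have h3 : (K / δ) ^ 4 ≤ 1 + ‖x‖ ^ 2 := by
      have : (K / δ) ^ 4 = ((K / δ) ^ 2) ^ 2 := by ring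
      rw [this]
      have := pow_le_pow_left₀ (sq_nonneg (K / δ)) hx2 2
      linarith
    have h4 : K / δ ≤ (1 + ‖x‖ ^ 2) ^ (1 / 4 : ℝ) := by
      have h5 : K / δ = ((K / δ) ^ 4) ^ (1 / 4 : ℝ) := by
        rw [← Real.rpow_natCast, ← Real.rpow_mul (by positivity)]
        norm_num
      rw [h5]
      exact Real.rpow_le_rpow (by positivity) h3 (by norm_num)
    rw [Real.rpow_neg hs.le, ← div_eq_mul_inv, div_le_iff₀ (Real.rpow_pos_of_pos hs _)]
    rw [div_le_iff₀ hδ0] at h4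
    linarith
  intro x y hx hy
  have e1 := hsm x hx
  have e2 := hsm y hy
  refine ⟨e1.trans (min_le_left _ _), ?_⟩
  have e3 : |f x - f y| ≤ 2 * δ := by
    have := abs_sub (f x) (f y)
    linarith
  have e4 : |f x - f y| ≤ (K3 + 1) * ‖x - y‖ :=
    (hL x y).trans (mul_le_mul_of_nonneg_right (by linarith) (norm_nonneg _))
  have e5 := le_rpow_of_le ha ha1 (abs_nonneg _) e3 e4
  rw [Real.mul_rpow hK31.le (norm_nonneg _), ← mul_assoc] at e5
  exact e5.trans (mul_le_mul_of_nonneg_right hδq (Real.rpow_nonneg (norm_nonneg _) _))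

/-! ### matrix inverses -/

/-- `A⁻¹ - B⁻¹ = - A⁻¹ (A - B) B⁻¹`, entrywise bound -/
theorem inv_sub_inv_entry {lo hi : ℝ} (hlo : 0 < lo) (hlohi : lo ≤ hi)
    {A B : Matrix (Fin n) (Fin n) ℝ} (hA : Ell lo hi A) (hB : Ell lo hi B) {δ : ℝ}
    (hd : ∀ i j, |A i j - B i j| ≤ δ) (i j : Fin n) :
    |A⁻¹ i j - B⁻¹ i j| ≤ (n : ℝ) ^ 2 * (1 / lo) ^ 2 * δ := by
  have hhi : 0 < hi := hlo.trans_le hlohi
  have h1 : A⁻¹ - B⁻¹ = -(A⁻¹ * (A - B) * B⁻¹) := by
    rw [Matrix.mul_sub, Matrix.sub_mul, Apr.Ell.inv_mul hA hlo, Matrix.one_mul,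
      Matrix.mul_assoc, Apr.Ell.mul_inv hB hlo, Matrix.mul_one]
    abel
  have h2 : A⁻¹ i j - B⁻¹ i j = -(∑ l, (∑ k, A⁻¹ i k * (A k l - B k l)) * B⁻¹ l j) := by
    have := congrFun (congrFun h1 i) j
    rw [Matrix.sub_apply, Matrix.neg_apply, Matrix.mul_apply] at this
    rw [this]
    simp only [Matrix.mul_apply, Matrix.sub_apply]
  rw [h2, abs_neg]
  have bA : ∀ k l, |A⁻¹ k l| ≤ 1 / lo := fun k l =>
    Apr.Ell.entry (Apr.Ell.inv hA hlo hhi) (by positivity) k l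
  have bB : ∀ k l, |B⁻¹ k l| ≤ 1 / lo := fun k l =>
    Apr.Ell.entry (Apr.Ell.inv hB hlo hhi) (by positivity) k l
  have hl0 : 0 ≤ 1 / lo := by positivity
  calc |∑ l, (∑ k, A⁻¹ i k * (A k l - B k l)) * B⁻¹ l j|
      ≤ ∑ l, |(∑ k, A⁻¹ i k * (A k l - B k l)) * B⁻¹ l j| := Finset.abs_sum_le_sum_abs _ _
    _ ≤ ∑ _l : Fin n, ((n : ℝ) * ((1 / lo) * δ)) * (1 / lo) := by
        refine Finset.sum_le_sum fun l _ => ?_
        rw [abs_mul]
        refine mul_le_mul ?_ (bB l j) (abs_nonneg _) ?_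
        · calc |∑ k, A⁻¹ i k * (A k l - B k l)| ≤ ∑ k, |A⁻¹ i k * (A k l - B k l)| :=
                Finset.abs_sum_le_sum_abs _ _
            _ ≤ ∑ _k : Fin n, (1 / lo) * δ := by
                refine Finset.sum_le_sum fun k _ => ?_
                rw [abs_mul]
                exact mul_le_mul (bA i k) (hd k l) (abs_nonneg _) hl0
            _ = (n : ℝ) * ((1 / lo) * δ) := by simp
        · have : 0 ≤ δ := (abs_nonneg _).trans (hd i j)
          positivity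
    _ = (n : ℝ) ^ 2 * (1 / lo) ^ 2 * δ := by simp; ring

theorem ell_one {lo hi : ℝ} (h1 : lo ≤ 1) (h2 : 1 ≤ hi) :
    Ell lo hi (1 : Matrix (Fin n) (Fin n) ℝ) := by
  refine ⟨fun i j => by simp [Matrix.one_apply, eq_comm], fun z => ?_⟩
  have h3 : ∑ i, ∑ j, (1 : Matrix (Fin n) (Fin n) ℝ) i j * z i * z j = ∑ i, z i ^ 2 := by
    refine Finset.sum_congr rfl fun i _ => ?_
    simp [Matrix.one_apply, ite_mul, sq]
  have h4 : 0 ≤ ∑ i, z i ^ 2 := Finset.sum_nonneg fun i _ => sq_nonneg _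
  rw [h3]
  constructor <;> nlinarith

theorem ell_mono {lo hi lo' hi' : ℝ} {A : Matrix (Fin n) (Fin n) ℝ} (h : Ell lo hi A)
    (h1 : lo' ≤ lo) (h2 : hi ≤ hi') : Ell lo' hi' A := by
  refine ⟨h.1, fun z => ?_⟩
  have h4 : 0 ≤ ∑ i, z i ^ 2 := Finset.sum_nonneg fun i _ => sq_nonneg _
  have h5 := h.2 z
  constructor <;> nlinarith [h5.1, h5.2]

theorem gm_entry (v : E n → ℝ) (x : E n) (i j : Fin n) :
    gm v x i j = (1 : Matrix (Fin n) (Fin n) ℝ) i j + Hs v x i j := by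
  simp [gm, Matrix.add_apply]

theorem gm_sub (v : E n → ℝ) (x y : E n) (i j : Fin n) :
    gm v x i j - gm v y i j = Hs v x i j - Hs v y i j := by
  rw [gm_entry, gm_entry]; ring

/-- Lipschitz bound for `τ` -/
theorem tauf_lip {lo hi : ℝ} (hlo : 0 < lo) (hlohi : lo ≤ hi) {v : E n → ℝ}
    (hg : ∀ x, Ell lo hi (gm v x)) {x y : E n} {δ : ℝ}
    (hL : ∀ i j, |Hs v x i j - Hs v y i j| ≤ δ) (i j : Fin n) :
    |tauf v x i j - tauf v y i j| ≤ (n : ℝ) ^ 2 * (1 / lo) ^ 2 * δ :=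
  inv_sub_inv_entry hlo hlohi (hg x) (hg y) (fun k l => by rw [gm_sub]; exact hL k l) i j

/-- `τ - 1` is small where `D²v` is small -/
theorem tauf_sub_one {lo hi : ℝ} (hlo : 0 < lo) {v : E n → ℝ} {x : E n}
    (hg : Ell lo hi (gm v x)) {δ : ℝ} (hL : ∀ i j, |Hs v x i j| ≤ δ) (i j : Fin n) :
    |tauf v x i j - (1 : Matrix (Fin n) (Fin n) ℝ) i j| ≤
      (n : ℝ) ^ 2 * (1 / (min lo 1)) ^ 2 * δ := by
  have h0 : 0 < min lo 1 := lt_min hlo one_pos
  have h1 : Ell (min lo 1) (max hi 1) (gm v x) := ell_mono hg (min_le_left _ _) (le_max_left _ _)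
  have h2 : Ell (min lo 1) (max hi 1) (1 : Matrix (Fin n) (Fin n) ℝ) :=
    ell_one (min_le_right _ _) (le_max_right _ _)
  have h3 : min lo 1 ≤ max hi 1 := (min_le_right _ _).trans (le_max_right _ _)
  have h4 := inv_sub_inv_entry h0 h3 h1 h2 (δ := δ)
    (fun k l => by rw [gm_entry]; simpa using hL k l) i j
  rwa [inv_one] at h4

/-- **interpolation**: decay and Lipschitz bound for `D²v` ⇒ smallness in `C^a` far out. -/
theorem ext_small {a lo hi K K3 R1 : ℝ} (n : ℕ) (ha : 0 < a) (ha1 : a < 1) (hlo : 0 < lo)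
    (hlohi : lo ≤ hi) (hK : 0 ≤ K) (hK3 : 0 ≤ K3) {eps : ℝ} (heps : 0 < eps) :
    ∃ R : ℝ, 0 < R ∧ R1 ≤ R ∧ ∀ v : E n → ℝ, (∀ x, Ell lo hi (gm v x)) →
      (∀ x, R1 ≤ ‖x‖ → ∀ i j, |Hs v x i j| ≤ K * (1 + ‖x‖ ^ 2) ^ (-(1 / 4) : ℝ)) →
      (∀ x y i j, |Hs v x i j - Hs v y i j| ≤ K3 * ‖x - y‖) →
      ∀ x y, R ≤ ‖x‖ → R ≤ ‖y‖ → ∀ i j,
        (|Hs v x i j| ≤ eps ∧ |Hs v x i j - Hs v y i j| ≤ eps * ‖x - y‖ ^ a) ∧
        |tauf v x i j - (1 : Matrix (Fin n) (Fin n) ℝ) i j| ≤ eps ∧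
        |tauf v x i j - tauf v y i j| ≤ eps * ‖x - y‖ ^ a := by
  set c1 : ℝ := (n : ℝ) ^ 2 * (1 / (min lo 1)) ^ 2 with hc1
  set c2 : ℝ := (n : ℝ) ^ 2 * (1 / lo) ^ 2 with hc2
  have hc10 : 0 ≤ c1 := by positivity
  have hc20 : 0 ≤ c2 := by positivity
  set eps' : ℝ := eps / (1 + c1 + c2) with heps'
  have hs : 0 < 1 + c1 + c2 := by linarith
  have hep : 0 < eps' := div_pos heps hs
  have hmul : eps' * (1 + c1 + c2) = eps := div_mul_cancel₀ _ hs.ne'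
  obtain ⟨R, hR0, hR1, hR⟩ := ext_small_scal (n := n) (R1 := R1) ha ha1 hK hK3 hep
  refine ⟨R, hR0, hR1, fun v hg hdec hL x y hx hy i j => ?_⟩
  have key : ∀ k l, |Hs v x k l| ≤ eps' ∧ |Hs v x k l - Hs v y k l| ≤ eps' * ‖x - y‖ ^ a :=
    fun k l => hR (fun z => Hs v z k l) (fun z hz => hdec z hz k l) (fun z w => hL z w k l)
      x y hx hy
  have hd : 0 ≤ ‖x - y‖ ^ a := Real.rpow_nonneg (norm_nonneg _) _
  have hle : eps' ≤ eps := by nlinarith
  have h1 : c1 * eps' ≤ eps := by nlinarith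
  have h2 : c2 * eps' ≤ eps := by nlinarith
  refine ⟨⟨(key i j).1.trans hle, (key i j).2.trans (mul_le_mul_of_nonneg_right hle hd)⟩,
    (tauf_sub_one hlo (hg x) (fun k l => (key k l).1) i j).trans h1, ?_⟩
  have h3 := tauf_lip hlo hlohi hg (fun k l => (key k l).2) i j
  refine h3.trans ?_
  rw [← hc2, ← mul_assoc]
  exact mul_le_mul_of_nonneg_right h2 hd

/-- entries of `D²v` are bounded when `1 + D²v` is elliptic -/
theorem Hs_le {lo hi : ℝ} (hlo : 0 < lo) {v : E n → ℝ} {x : E n} (hg : Ell lo hi (gm v x))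
    (i j : Fin n) : |Hs v x i j| ≤ hi + 1 := by
  have h1 : |gm v x i j| ≤ hi := Apr.Ell.entry hg hlo.le i j
  have h2 : |(1 : Matrix (Fin n) (Fin n) ℝ) i j| ≤ 1 := by
    rw [Matrix.one_apply]; split_ifs <;> simp
  have h3 : Hs v x i j = gm v x i j - (1 : Matrix (Fin n) (Fin n) ℝ) i j := by
    rw [gm_entry]; ring
  rw [h3]
  exact (abs_sub _ _).trans (by linarith)

/-- `HB` bound for `D²v` -/
theorem hb_Hs {a lo hi K3 : ℝ} (ha : 0 < a) (ha1 : a < 1) (hlo : 0 < lo) (hlohi : lo ≤ hi)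
    (hK3 : 0 ≤ K3) {v : E n → ℝ} (hg : ∀ x, Ell lo hi (gm v x))
    (hL : ∀ x y i j, |Hs v x i j - Hs v y i j| ≤ K3 * ‖x - y‖) (i j : Fin n) :
    HB a (2 * (hi + 1) + K3) (fun x => Hs v x i j) :=
  hb_of_lip ha ha1 (by linarith) hK3 (fun x => Hs_le hlo (hg x) i j) (fun x y => hL x y i j)

/-- `HB` bound for `τ` -/
theorem hb_tauf {a lo hi K3 : ℝ} (ha : 0 < a) (ha1 : a < 1) (hlo : 0 < lo) (hlohi : lo ≤ hi)
    (hK3 : 0 ≤ K3) {v : E n → ℝ} (hg : ∀ x, Ell lo hi (gm v x))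
    (hL : ∀ x y i j, |Hs v x i j - Hs v y i j| ≤ K3 * ‖x - y‖) (i j : Fin n) :
    HB a (2 * (1 / lo) + (n : ℝ) ^ 2 * (1 / lo) ^ 2 * K3) (fun x => tauf v x i j) := by
  refine hb_of_lip ha ha1 (by positivity) (by positivity) (fun x => ?_) (fun x y => ?_)
  · exact Apr.Ell.entry (Apr.Ell.inv (hg x) hlo (hlo.trans_le hlohi)) (by
      have := hlo.trans_le hlohi
      positivity) i j
  · have h := tauf_lip hlo hlohi hg (fun k l => hL x y k l) i j
    rw [mul_assoc ((n : ℝ) ^ 2 * (1 / lo) ^ 2)]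
    exact h

/-- Lipschitz bound from bounded partial derivatives -/
theorem lip_of_partials {f : E n → ℝ} (hf : Differentiable ℝ f) {M : ℝ}
    (h : ∀ x k, |fderiv ℝ f x (ee k)| ≤ M) (x y : E n) : |f x - f y| ≤ (n * M) * ‖x - y‖ := by
  have hb : ∀ z, ‖fderiv ℝ f z‖ ≤ n * M := by
    intro z
    rcases Nat.eq_zero_or_pos n with h0 | h0
    · subst h0
      have : fderiv ℝ f z = 0 := by
        ext w
        have : w = 0 := Subsingleton.elim _ _
        simp [this]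
      simp [this]
    have hM : 0 ≤ M := (abs_nonneg _).trans (h z ⟨0, h0⟩)
    refine ContinuousLinearMap.opNorm_le_bound _ (by positivity) fun w => ?_
    have hw : w = ∑ i, w i • EuclideanSpace.single i (1 : ℝ) := by
      ext k
      simp [Pi.single_apply, Finset.sum_apply]
    have e1 : fderiv ℝ f z w = ∑ i, w i * fderiv ℝ f z (ee i) := by
      conv_lhs => rw [hw]
      simp only [map_sum, map_smul, smul_eq_mul]
    rw [e1, Real.norm_eq_abs]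
    calc |∑ i, w i * fderiv ℝ f z (ee i)| ≤ ∑ i, |w i * fderiv ℝ f z (ee i)| :=
          Finset.abs_sum_le_sum_abs _ _
      _ ≤ ∑ _i : Fin n, ‖w‖ * M := by
          refine Finset.sum_le_sum fun i _ => ?_
          rw [abs_mul]
          refine mul_le_mul ?_ (h z i) (abs_nonneg _) (norm_nonneg _)
          rw [← Real.norm_eq_abs]
          exact PiLp.norm_apply_le w i
      _ = n * M * ‖w‖ := by simp; ring
  have h1 := Convex.norm_image_sub_le_of_norm_fderiv_le (𝕜 := ℝ) (f := f) (s := Set.univ)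
    (fun z _ => hf z) (fun z _ => hb z) convex_univ (Set.mem_univ y) (Set.mem_univ x)
  simpa [Real.norm_eq_abs] using h1

end Crest.Agent.R238.ExtSm
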