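import Mathlib

/-! Row 238: the reductions S0369 <= SLAB <= CONC <= LOCEPS <= LOCAL (frozen Props). (helper14) -/

set_option autoImplicit false
open scoped ContDiff Topology
open Set Filter MeasureTheory

noncomputable section

namespace Crest.Agent.R238.Soft

/-- Euclidean space -/
abbrev E (n : ℕ) := EuclideanSpace ℝ (Fin n)

/-- smooth even convex wall with bounded second derivative -/
structure Wall (φ : ℝ → ℝ) : Prop where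
  smooth : ContDiff ℝ ∞ φ
  even : ∀ t, φ (-t) = φ t
  conv : ∀ t, 0 ≤ deriv (deriv φ) t
  bdd : ∃ C, ∀ t, deriv (deriv φ) t ≤ C

variable {n m : ℕ}

/-- `H(x) = ∑ φ_k(<ν_k,x>)` -/
def Hw (ν : Fin m → E n) (φ : Fin m → ℝ → ℝ) (x : E n) : ℝ := ∑ k, φ k (inner ℝ (ν k) x)

/-- `f = ∑ r_k t_k φ_k'(t_k)` -/
def fr (ν : Fin m → E n) (φ : Fin m → ℝ → ℝ) (r : Fin m → ℝ) (x : E n) : ℝ :=
  ∑ k, r k * (inner ℝ (ν k) x * deriv (φ k) (inner ℝ (ν k) x))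

/-- `N = ∑ r_k² (t_k φ_k'(t_k) + t_k² φ_k''(t_k))` -/
def Nr (ν : Fin m → E n) (φ : Fin m → ℝ → ℝ) (r : Fin m → ℝ) (x : E n) : ℝ :=
  ∑ k, r k ^ 2 * (inner ℝ (ν k) x * deriv (φ k) (inner ℝ (ν k) x)
    + inner ℝ (ν k) x ^ 2 * deriv (deriv (φ k)) (inner ℝ (ν k) x))

/-- the static inequality `Var f ≤ E N` for the weight `exp(-U)`, in product form -/
def Static (ν : Fin m → E n) (φ : Fin m → ℝ → ℝ) (r : Fin m → ℝ) (U : E n → ℝ) : Prop :=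
  (∫ x, fr ν φ r x ^ 2 * Real.exp (-U x)) * (∫ x, Real.exp (-U x))
      - (∫ x, fr ν φ r x * Real.exp (-U x)) ^ 2
    ≤ (∫ x, Real.exp (-U x)) * (∫ x, Nr ν φ r x * Real.exp (-U x))

/-- LOCAL (output of identity + density + existence): `V` collects all walls with `r = 0`;
the whole potential is `|x|²/2 + b` outside a ball -/
def LocalIneq (n : ℕ) : Prop :=
  ∀ (m : ℕ) (ν : Fin m → E n) (φ : Fin m → ℝ → ℝ) (r : Fin m → ℝ) (V : E n → ℝ),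
    (∀ k, Wall (φ k)) → ContDiff ℝ ∞ V → (∀ x, V (-x) = V x) → ConvexOn ℝ univ V →
    (∃ ε > 0, ConvexOn ℝ univ (fun x => V x + Hw ν φ x - ε * ‖x‖ ^ 2)) →
    (∃ b R : ℝ, ∀ x, R ≤ ‖x‖ → V x + Hw ν φ x = ‖x‖ ^ 2 / 2 + b) →
    Static ν φ r (fun x => V x + Hw ν φ x)

/-- LOCEPS: the static inequality for `H + ε|x|²/2` -/
def LocEps (n : ℕ) : Prop :=
  ∀ (m : ℕ) (ν : Fin m → E n) (φ : Fin m → ℝ → ℝ) (r : Fin m → ℝ) (ε : ℝ), 0 < ε →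
    (∀ k, Wall (φ k)) → Static ν φ r (fun x => ε * ‖x‖ ^ 2 / 2 + Hw ν φ x)

/-- CONC: concavity along the path of dilated walls -/
def Conc (n : ℕ) : Prop :=
  ∀ (m : ℕ) (ν : Fin m → E n) (φ : Fin m → ℝ → ℝ) (r : Fin m → ℝ) (ε : ℝ), 0 < ε →
    (∀ k, Wall (φ k)) →
    ConcaveOn ℝ univ (fun s : ℝ => Real.log (∫ x : E n,
      Real.exp (-(ε * ‖x‖ ^ 2 / 2 + Hw ν (fun k t => φ k (Real.exp (-(s * r k)) * t)) x))))

/-- SLAB (618): log-Brunn-Minkowski for finitely many symmetric slabs -/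
def Slab (n : ℕ) : Prop :=
  ∀ (m : ℕ) (ν : Fin m → E n) (a b : Fin m → ℝ), (∀ k, 0 < a k) → (∀ k, 0 < b k) →
    ∀ t : ℝ, 0 ≤ t → t ≤ 1 →
      volume {x : E n | ∀ k, |inner ℝ (ν k) x| ≤ a k} ^ (1 - t)
          * volume {x : E n | ∀ k, |inner ℝ (ν k) x| ≤ b k} ^ t
        ≤ volume {x : E n | ∀ k, |inner ℝ (ν k) x| ≤ a k ^ (1 - t) * b k ^ t}

end Crest.Agent.R238.Soft
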