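import Crest.Agent.R238.HolDefs
import Crest.Agent.R238.SoftDefs

/-!
Row 238 (S0369): FROZEN TOP INTERFACE (helper394).  Everything on the x-side.

`u = |x|²/2 + v`, `g = D²u = gM v`, `τ = g⁻¹ = tauM v`, `Ψ = |x|²/2 + P`,
`L h = Lop v h = tr(τ D²h) - x·∇h`.

* `Exi n`   : existence of `v` + solvability of `(L+1)φ = ψ` (output of H1-H8);
* `Ident n` : integrated identity, per test function (output of IDENT, 390);
* `Dens n`  : density of `L(L+1)C_c^∞` (output of H10, 892);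
* `Top.lean`: `Exi n → Ident n → Dens n → Soft.LocalIneq n`.
-/

set_option autoImplicit false

open MeasureTheory Set Filter
open scoped ContDiff Topology

namespace Crest.Agent.R238

variable {n m : ℕ}

/-- smooth, all derivatives of order `≥ 2` bounded -/
structure Nice (f : E n → ℝ) : Prop where
  smooth : ContDiff ℝ ∞ f
  bdd : ∀ k : ℕ, 2 ≤ k → ∃ C : ℝ, ∀ x, ‖iteratedFDeriv ℝ k f x‖ ≤ C

/-- test functions -/
structure Tst (f : E n → ℝ) : Prop where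
  smooth : ContDiff ℝ ∞ f
  supp : HasCompactSupport f

/-- `g = D²(|x|²/2 + v) = I + D²v` -/
noncomputable def gM (v : E n → ℝ) (x : E n) : Matrix (Fin n) (Fin n) ℝ :=
  1 + Matrix.of (fun i j => Hs v x i j)

/-- `τ = g⁻¹` -/
noncomputable def tauM (v : E n → ℝ) (x : E n) : Matrix (Fin n) (Fin n) ℝ := (gM v x)⁻¹

/-- `L h = tr(τ D²h) - x·∇h` -/
noncomputable def Lop (v h : E n → ℝ) (x : E n) : ℝ := LA (tauM v) h x

/-- the weight `exp(-Ψ)`, `Ψ = |x|²/2 + P` -/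
noncomputable def wt (P : E n → ℝ) (x : E n) : ℝ := Real.exp (-(‖x‖ ^ 2 / 2 + P x))

/-- the data: `P ∈ C_c^∞` even, `D²(|x|²/2 + P) ≥ 2ε` -/
structure PDat (P : E n → ℝ) : Prop where
  tst : Tst P
  even : ∀ x, P (-x) = P x
  conv : ∃ ε > 0, ConvexOn ℝ univ (fun x => ‖x‖ ^ 2 / 2 + P x - ε * ‖x‖ ^ 2)

/-- `v` solves the moment Monge-Ampère equation `log det D²u = x·∇u - u - Ψ` -/
structure Sol (P v : E n → ℝ) : Prop where
  nice : Nice v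
  even : ∀ x, v (-x) = v x
  ell : ∃ lo hi : ℝ, 0 < lo ∧ ∀ x, Ell lo hi (gM v x)
  ma : ∀ x, Real.log (gM v x).det = fderiv ℝ v x x - v x - P x

/-- solvability of `(L+1)φ = ψ` -/
def Iso (v : E n → ℝ) : Prop := ∀ ψ : E n → ℝ, Tst ψ → (∀ x, ψ (-x) = ψ x) →
  ∃ ϕ : E n → ℝ, Nice ϕ ∧ (∀ x, ϕ (-x) = ϕ x) ∧ ∀ x, Lop v ϕ x + ϕ x = ψ x

/-- (EXI) existence -/
def Exi (n : ℕ) : Prop := ∀ P : E n → ℝ, PDat P → ∃ v : E n → ℝ, Sol P v ∧ Iso v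

/-- `L(L+1)ϕ` -/
noncomputable def LL (v ϕ : E n → ℝ) : E n → ℝ := Lop v (fun y => Lop v ϕ y + ϕ y)

/-- (IDENT) inequality per test function; `V` collects the walls with `r = 0`.
(`ϕ` need not be even.) -/
def Ident (n : ℕ) : Prop := ∀ P v : E n → ℝ, PDat P → Sol P v →
  (∀ h : E n → ℝ, Tst h → ∫ x, Lop v h x * wt P x = 0) ∧
  ∀ (m : ℕ) (ν : Fin m → E n) (φ : Fin m → ℝ → ℝ) (r : Fin m → ℝ) (V : E n → ℝ) (b : ℝ),
    (∀ k, Soft.Wall (φ k)) → ContDiff ℝ ∞ V → (∀ x, V (-x) = V x) → ConvexOn ℝ univ V →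
    (∀ x, V x + Soft.Hw ν φ x = ‖x‖ ^ 2 / 2 + P x + b) →
    ∀ ϕ : E n → ℝ, Tst ϕ →
      2 * (∫ x, Soft.fr ν φ r x * LL v ϕ x * wt P x) - ∫ x, LL v ϕ x ^ 2 * wt P x
        ≤ ∫ x, Soft.Nr ν φ r x * wt P x

/-- (DENS) density of `L(L+1)C_c^∞` in the even mean zero functions, in the form needed -/
def Dens (n : ℕ) : Prop := ∀ P v : E n → ℝ, PDat P → Sol P v → Iso v →
  ∀ f : E n → ℝ, Continuous f → (∀ x, f (-x) = f x) →
    (∃ C : ℝ, ∀ x, |f x| ≤ C * (1 + ‖x‖ ^ 2)) → ∫ x, f x * wt P x = 0 →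
    ∀ ε : ℝ, 0 < ε → ∃ ϕ : E n → ℝ, Tst ϕ ∧ ∫ x, (f x - LL v ϕ x) ^ 2 * wt P x ≤ ε

end Crest.Agent.R238
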