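import Crest.Agent.R238.GapIBP
import Crest.Agent.R238.HolDefs
import Crest.Agent.R238.TopDefs
import Crest.Agent.R238.StepDefs

/-!
Row 238 (S0369), module H4: the data `Dat` from the Monge-Ampere equation
`log det (1 + D²v) - x·∇v + v = - P + c`  (helper146; Jacobi's formula after helper724).
-/

set_option autoImplicit false

open MeasureTheory Set Filter Topology Finset

noncomputable section

namespace Crest.Agent.R238.GapD

open Crest.Agent.R238.Gap (pd PG Dat pd_add pd_mul pd_sum fderiv_apply_eq_sum H_symm H_eq_pd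
  contDiff_one_pd)

variable {n : ℕ}

/-! ### linear algebra -/

lemma quad_eq (A : Matrix (Fin n) (Fin n) ℝ) (z w : Fin n → ℝ) :
    ∑ i, ∑ j, A i j * z i * w j = z ⬝ᵥ A.mulVec w := by
  simp only [dotProduct, Matrix.mulVec, Finset.mul_sum]
  exact Finset.sum_congr rfl fun i _ => Finset.sum_congr rfl fun j _ => by ring

lemma sq_eq (z : Fin n → ℝ) : ∑ i, z i ^ 2 = z ⬝ᵥ z := by
  simp only [dotProduct, sq]

lemma ell_det_ne {lo hi : ℝ} (hlo : 0 < lo) {A : Matrix (Fin n) (Fin n) ℝ} (h : Ell lo hi A) :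
    A.det ≠ 0 := by
  intro h0
  obtain ⟨v, hv, hAv⟩ := Matrix.exists_mulVec_eq_zero_iff.2 h0
  have h1 := (h.2 v).1
  rw [quad_eq, hAv, dotProduct_zero] at h1
  apply hv
  have h2 : ∑ i, v i ^ 2 = 0 :=
    le_antisymm (by nlinarith) (Finset.sum_nonneg fun i _ => sq_nonneg _)
  rw [Finset.sum_eq_zero_iff_of_nonneg (fun i _ => sq_nonneg _)] at h2
  funext i
  exact pow_eq_zero_iff (two_ne_zero) |>.1 (h2 i (Finset.mem_univ i))

lemma ell_symmT {lo hi : ℝ} {A : Matrix (Fin n) (Fin n) ℝ} (h : Ell lo hi A) :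
    A.transpose = A := by
  ext i j; exact h.1 j i

lemma ell_inv_symm {lo hi : ℝ} {A : Matrix (Fin n) (Fin n) ℝ} (h : Ell lo hi A) (i j : Fin n) :
    A⁻¹ i j = A⁻¹ j i := by
  have : (A⁻¹).transpose = A⁻¹ := by rw [Matrix.transpose_nonsing_inv, ell_symmT h]
  exact congrFun (congrFun this j) i

/-- the inverse of an elliptic matrix is elliptic -/
theorem ell_inv {lo hi : ℝ} (hlo : 0 < lo) {A : Matrix (Fin n) (Fin n) ℝ} (h : Ell lo hi A) :
    Ell (1 / hi) (1 / lo) A⁻¹ := by
  have hdet : IsUnit A.det := (ell_det_ne hlo h).isUnit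
  have hsym : ∀ z w : Fin n → ℝ, z ⬝ᵥ A.mulVec w = w ⬝ᵥ A.mulVec z := by
    intro z w
    rw [Matrix.dotProduct_mulVec, ← Matrix.mulVec_transpose, ell_symmT h, dotProduct_comm]
  have hl : ∀ z : Fin n → ℝ, lo * (z ⬝ᵥ z) ≤ z ⬝ᵥ A.mulVec z := fun z => by
    have := (h.2 z).1; rwa [quad_eq, sq_eq] at this
  have hu : ∀ z : Fin n → ℝ, z ⬝ᵥ A.mulVec z ≤ hi * (z ⬝ᵥ z) := fun z => by
    have := (h.2 z).2; rwa [quad_eq, sq_eq] at this
  have hnn : ∀ z : Fin n → ℝ, 0 ≤ z ⬝ᵥ z := fun z => by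
    rw [← sq_eq]; exact Finset.sum_nonneg fun i _ => sq_nonneg _
  refine ⟨ell_inv_symm h, fun w => ?_⟩
  rw [quad_eq, sq_eq]
  set u := (A⁻¹).mulVec w with hu'
  have hAu : A.mulVec u = w := by
    rw [hu', Matrix.mulVec_mulVec, Matrix.mul_nonsing_inv _ hdet, Matrix.one_mulVec]
  constructor
  · -- lower bound
    by_cases hhi : 0 < hi
    · have h1 := hl (u - (1 / hi) • w)
      have h2 := hu w
      have h3 := hnn (u - (1 / hi) • w)
      have h4 : (u - (1 / hi) • w) ⬝ᵥ A.mulVec (u - (1 / hi) • w)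
          = w ⬝ᵥ u - 2 / hi * (w ⬝ᵥ w) + (1 / hi) ^ 2 * (w ⬝ᵥ A.mulVec w) := by
        rw [Matrix.mulVec_sub, Matrix.mulVec_smul, hAu]
        simp only [sub_dotProduct, dotProduct_sub, smul_dotProduct, dotProduct_smul, smul_eq_mul]
        rw [hsym u w, hAu, dotProduct_comm u w]
        ring
      have h5 : 0 ≤ w ⬝ᵥ u - 2 / hi * (w ⬝ᵥ w) + (1 / hi) ^ 2 * (w ⬝ᵥ A.mulVec w) := by
        rw [← h4]; exact (mul_nonneg hlo.le h3).trans h1
      have h6 : (1 / hi) ^ 2 * (w ⬝ᵥ A.mulVec w) ≤ 1 / hi * (w ⬝ᵥ w) := by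
        have := mul_le_mul_of_nonneg_left h2 (sq_nonneg (1 / hi))
        refine this.trans (le_of_eq ?_)
        field_simp
      have h7 : 2 / hi * (w ⬝ᵥ w) = 1 / hi * (w ⬝ᵥ w) + 1 / hi * (w ⬝ᵥ w) := by ring
      linarith
    · push Not at hhi
      have h1 : w ⬝ᵥ w = 0 := by
        have h2 := hl w
        have h3 := hu w
        have h4 := hnn w
        have h5 : hi * (w ⬝ᵥ w) ≤ 0 := mul_nonpos_of_nonpos_of_nonneg hhi h4
        have h6 : lo * (w ⬝ᵥ w) ≤ 0 := by linarith
        exact le_antisymm (by nlinarith) h4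
      have h2 : w = 0 := dotProduct_self_eq_zero.1 h1
      rw [h1, h2]; simp
  · -- upper bound
    have h1 := hl u
    rw [hAu] at h1
    have h2 := hnn (w - lo • u)
    have h3 : (w - lo • u) ⬝ᵥ (w - lo • u)
        = w ⬝ᵥ w - 2 * lo * (w ⬝ᵥ u) + lo ^ 2 * (u ⬝ᵥ u) := by
      simp only [sub_dotProduct, dotProduct_sub, smul_dotProduct, dotProduct_smul, smul_eq_mul]
      rw [dotProduct_comm u w]; ring
    rw [h3] at h2
    rw [dotProduct_comm u w] at h1
    have h4 : lo ^ 2 * (u ⬝ᵥ u) ≤ lo * (w ⬝ᵥ u) := by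
      have := mul_le_mul_of_nonneg_left h1 hlo.le
      calc lo ^ 2 * (u ⬝ᵥ u) = lo * (lo * (u ⬝ᵥ u)) := by ring
        _ ≤ _ := this
    have h5 : lo * (w ⬝ᵥ u) ≤ w ⬝ᵥ w := by linarith
    rw [div_mul_eq_mul_div, one_mul, le_div_iff₀ hlo]
    linarith

lemma ell_entry_le {lo hi : ℝ} {τ : Matrix (Fin n) (Fin n) ℝ} (D : Ell lo hi τ)
    (i j : Fin n) : |τ i j| ≤ |lo| + |hi| := by
  have key : ∀ (v : Fin n → ℝ), (∀ k, k ≠ i → k ≠ j → v k = 0) → i ≠ j →
      ∑ a, ∑ b, τ a b * v a * v b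
        = τ i i * v i * v i + τ j j * v j * v j + 2 * τ i j * v i * v j := by
    intro v hv hij
    have h1 : ∀ a, ∑ b, τ a b * v a * v b = τ a i * v a * v i + τ a j * v a * v j := by
      intro a
      rw [← Finset.sum_subset (Finset.subset_univ {i, j}), Finset.sum_pair hij]
      intro k _ hk
      simp only [Finset.mem_insert, Finset.mem_singleton, not_or] at hk
      rw [hv k hk.1 hk.2, mul_zero]
    rw [Finset.sum_congr rfl fun a _ => h1 a,
      ← Finset.sum_subset (Finset.subset_univ {i, j}), Finset.sum_pair hij, D.1 j i]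
    · ring
    intro k _ hk
    simp only [Finset.mem_insert, Finset.mem_singleton, not_or] at hk
    rw [hv k hk.1 hk.2]; ring
  have key2 : ∀ (v : Fin n → ℝ), (∀ k, k ≠ i → k ≠ j → v k = 0) → i ≠ j →
      ∑ a, v a ^ 2 = v i ^ 2 + v j ^ 2 := by
    intro v hv hij
    rw [← Finset.sum_subset (Finset.subset_univ {i, j}), Finset.sum_pair hij]
    intro k _ hk
    simp only [Finset.mem_insert, Finset.mem_singleton, not_or] at hk
    rw [hv k hk.1 hk.2]; ring
  have hlo := neg_abs_le lo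
  have hhi := le_abs_self hi
  have hlo' := abs_nonneg lo
  have hhi' := abs_nonneg hi
  by_cases hij : i = j
  · subst hij
    have h1 := (D.2 (Pi.single i 1)).1
    have h2 := (D.2 (Pi.single i 1)).2
    simp only [Pi.single_apply, mul_ite, mul_one, mul_zero, ite_pow, one_pow, ne_eq,
      OfNat.ofNat_ne_zero, not_false_eq_true, zero_pow, Finset.sum_ite_eq', Finset.mem_univ,
      if_true] at h1 h2
    rw [_root_.abs_le]; constructor <;> linarith
  · have hji : j ≠ i := fun h => hij h.symm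
    let v : Fin n → ℝ := fun k => if k = i then 1 else if k = j then 1 else 0
    let w : Fin n → ℝ := fun k => if k = i then 1 else if k = j then -1 else 0
    have hv : ∀ k, k ≠ i → k ≠ j → v k = 0 := fun k h1 h2 => by simp [v, h1, h2]
    have hw : ∀ k, k ≠ i → k ≠ j → w k = 0 := fun k h1 h2 => by simp [w, h1, h2]
    have vi : v i = 1 := by simp [v]
    have vj : v j = 1 := by simp [v]
    have wi : w i = 1 := by simp [w]
    have wj : w j = -1 := by simp [w, hji]
    have a1 := (D.2 v).1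
    have a2 := (D.2 v).2
    have b1 := (D.2 w).1
    have b2 := (D.2 w).2
    rw [key v hv hij, key2 v hv hij, vi, vj] at a1 a2
    rw [key w hw hij, key2 w hw hij, wi, wj] at b1 b2
    rw [_root_.abs_le]; constructor <;> linarith

/-! ### Jacobi's formula -/

lemma sum_adj_col (A : Matrix (Fin n) (Fin n) ℝ) (i : Fin n) (b : Fin n → ℝ) :
    (A.updateCol i b).det = ∑ j, A.adjugate i j * b j := by
  rw [← Matrix.cramer_apply, Matrix.cramer_eq_adjugate_mulVec]
  rfl

/-- Jacobi's formula. -/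
theorem hasFDerivAt_det {V : Type*} [NormedAddCommGroup V] [NormedSpace ℝ V]
    {A : V → Matrix (Fin n) (Fin n) ℝ} {A' : Fin n → Fin n → V →L[ℝ] ℝ} {x : V}
    (hA : ∀ i j, HasFDerivAt (fun y => A y i j) (A' i j) x) :
    HasFDerivAt (fun y => (A y).det) (∑ i, ∑ j, (A x).adjugate i j • A' j i) x := by
  have h1 : ∀ y, (A y).det
      = ∑ σ : Equiv.Perm (Fin n), ((Equiv.Perm.sign σ : ℤ) : ℝ) * ∏ i, A y (σ i) i := by
    intro y; rw [Matrix.det_apply']
  simp_rw [h1]
  have h2 : HasFDerivAt (fun y => ∑ σ : Equiv.Perm (Fin n),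
      ((Equiv.Perm.sign σ : ℤ) : ℝ) * ∏ i, A y (σ i) i)
      (∑ σ : Equiv.Perm (Fin n), ((Equiv.Perm.sign σ : ℤ) : ℝ) •
        ∑ i, (∏ j ∈ univ.erase i, A x (σ j) j) • A' (σ i) i) x := by
    refine HasFDerivAt.fun_sum fun σ _ => ?_
    exact (HasFDerivAt.finsetProd (fun i _ => hA (σ i) i)).const_mul _
  refine h2.congr_fderiv ?_
  ext v
  simp only [_root_.sum_apply, smul_apply, smul_eq_mul]
  simp_rw [← sum_adj_col (A x) _ (fun j => A' j _ v), Matrix.det_apply']
  rw [Finset.sum_comm]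
  refine Finset.sum_congr rfl fun σ _ => ?_
  rw [Finset.mul_sum]
  refine Finset.sum_congr rfl fun i _ => ?_
  congr 1
  rw [← Finset.mul_prod_erase univ _ (mem_univ i)]
  simp only [Matrix.updateCol_self]
  rw [mul_comm]
  congr 1
  refine Finset.prod_congr rfl fun j hj => ?_
  rw [Matrix.updateCol_ne (ne_of_mem_erase hj)]

lemma contDiff_det_of {A : E n → Matrix (Fin n) (Fin n) ℝ}
    {m : WithTop ℕ∞} (hA : ∀ i j, ContDiff ℝ m (fun x => A x i j)) :
    ContDiff ℝ m (fun x => (A x).det) := by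
  simp_rw [Matrix.det_apply']
  refine ContDiff.sum fun σ _ => contDiff_const.mul ?_
  exact contDiff_prod fun i _ => hA _ _

lemma contDiff_adjugate_of {A : E n → Matrix (Fin n) (Fin n) ℝ}
    {m : WithTop ℕ∞} (hA : ∀ i j, ContDiff ℝ m (fun x => A x i j)) (i j : Fin n) :
    ContDiff ℝ m (fun x => (A x).adjugate i j) := by
  simp_rw [Matrix.adjugate_apply]
  refine contDiff_det_of fun a b => ?_
  by_cases haj : a = j
  · subst haj
    simp only [Matrix.updateRow_self]
    exact contDiff_const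
  · simp only [Matrix.updateRow_ne haj]
    exact hA a b

lemma inv_entry (A : Matrix (Fin n) (Fin n) ℝ) (i j : Fin n) :
    A⁻¹ i j = A.det⁻¹ * A.adjugate i j := by
  rw [Matrix.inv_def, Matrix.smul_apply, smul_eq_mul, Ring.inverse_eq_inv']

lemma contDiff_inv_of {A : E n → Matrix (Fin n) (Fin n) ℝ}
    {m : WithTop ℕ∞} (hA : ∀ i j, ContDiff ℝ m (fun x => A x i j)) (hd : ∀ x, (A x).det ≠ 0)
    (i j : Fin n) : ContDiff ℝ m (fun x => (A x)⁻¹ i j) := by
  simp_rw [inv_entry]
  exact ((contDiff_det_of hA).inv hd).mul (contDiff_adjugate_of hA i j)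

/-! ### derivatives of the inverse and of log det -/

variable {A : E n → Matrix (Fin n) (Fin n) ℝ}

/-- derivative of `log det` -/
theorem pd_logdet (hA : ∀ i j, ContDiff ℝ 1 (fun x => A x i j)) (hd : ∀ x, (A x).det ≠ 0)
    (k : Fin n) (x : E n) :
    pd k (fun y => Real.log (A y).det) x
      = ∑ i, ∑ j, (A x)⁻¹ i j * pd k (fun y => A y j i) x := by
  have h1 := hasFDerivAt_det (A := A) (x := x)
    (A' := fun i j => fderiv ℝ (fun y => A y i j) x)
    (fun i j => ((hA i j).differentiable one_ne_zero x).hasFDerivAt)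
  have h2 := (h1.log (hd x)).fderiv
  unfold pd
  rw [h2]
  simp only [_root_.sum_apply, smul_apply, smul_eq_mul, Finset.mul_sum, inv_entry, mul_assoc]

/-- derivative of the inverse -/
theorem pd_inv (hA : ∀ i j, ContDiff ℝ 1 (fun x => A x i j)) (hd : ∀ x, (A x).det ≠ 0)
    (k i j : Fin n) (x : E n) :
    pd k (fun y => (A y)⁻¹ i j) x
      = -∑ a, ∑ b, (A x)⁻¹ i a * pd k (fun y => A y a b) x * (A x)⁻¹ b j := by
  have hI := contDiff_inv_of hA hd
  have hmul : ∀ y a c, ∑ b, A y a b * (A y)⁻¹ b c = if a = c then 1 else 0 := fun y a c => by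
    have := congrFun (congrFun (Matrix.mul_nonsing_inv (A y) (hd y).isUnit) a) c
    rwa [Matrix.mul_apply, Matrix.one_apply] at this
  have hmul' : ∀ y a c, ∑ b, (A y)⁻¹ a b * A y b c = if a = c then 1 else 0 := fun y a c => by
    have := congrFun (congrFun (Matrix.nonsing_inv_mul (A y) (hd y).isUnit) a) c
    rwa [Matrix.mul_apply, Matrix.one_apply] at this
  have h1 : ∀ a, ∑ b, (pd k (fun y => A y a b) x * (A x)⁻¹ b j
      + A x a b * pd k (fun y => (A y)⁻¹ b j) x) = 0 := by
    intro a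
    have e1 : pd k (fun y => ∑ b, A y a b * (A y)⁻¹ b j) x = 0 := by
      have : (fun y => ∑ b, A y a b * (A y)⁻¹ b j) = fun _ => if a = j then (1 : ℝ) else 0 := by
        funext y; exact hmul y a j
      rw [this]; simp [pd]
    rw [← e1, pd_sum (s := Finset.univ) (f := fun b y => A y a b * (A y)⁻¹ b j)
      (fun b _ => ((hA a b).differentiable one_ne_zero x).mul
        ((hI b j).differentiable one_ne_zero x))]
    exact Finset.sum_congr rfl fun b _ => (pd_mul ((hA a b).differentiable one_ne_zero x)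
        ((hI b j).differentiable one_ne_zero x) k).symm
  have h2 : ∑ a, (A x)⁻¹ i a * ∑ b, (pd k (fun y => A y a b) x * (A x)⁻¹ b j
      + A x a b * pd k (fun y => (A y)⁻¹ b j) x) = 0 := by
    simp only [h1, mul_zero, Finset.sum_const_zero]
  simp only [Finset.sum_add_distrib, mul_add, Finset.mul_sum] at h2
  have h3 : ∑ a, ∑ b, (A x)⁻¹ i a * (A x a b * pd k (fun y => (A y)⁻¹ b j) x)
      = pd k (fun y => (A y)⁻¹ i j) x := by
    rw [Finset.sum_comm]
    have : ∀ b, ∑ a, (A x)⁻¹ i a * (A x a b * pd k (fun y => (A y)⁻¹ b j) x)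
        = (if i = b then 1 else 0) * pd k (fun y => (A y)⁻¹ b j) x := fun b => by
      rw [← hmul' x i b, Finset.sum_mul]
      exact Finset.sum_congr rfl fun a _ => by ring
    rw [Finset.sum_congr rfl fun b _ => this b]
    simp
  rw [h3] at h2
  have h4 : ∑ a, ∑ b, (A x)⁻¹ i a * pd k (fun y => A y a b) x * (A x)⁻¹ b j
      = ∑ a, ∑ b, (A x)⁻¹ i a * (pd k (fun y => A y a b) x * (A x)⁻¹ b j) :=
    Finset.sum_congr rfl fun a _ => Finset.sum_congr rfl fun b _ => by ring
  rw [h4]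
  linarith

/-! ### the Hessian matrix `1 + D²v` -/

variable {v : E n → ℝ}

lemma Hs_eq (v : E n → ℝ) (x : E n) (i j : Fin n) : Hs v x i j = Gap.H v x i j := rfl

lemma gM_entry (v : E n → ℝ) (x : E n) (i j : Fin n) :
    gM v x i j = (if i = j then 1 else 0) + Hs v x i j := by
  simp [gM, Matrix.one_apply]

lemma contDiff_Hs {m : ℕ∞} (hv : ContDiff ℝ (m + 2) v) (i j : Fin n) :
    ContDiff ℝ m (fun x => Hs v x i j) := by
  have h1 : ContDiff ℝ (m + 1) (fderiv ℝ v) := hv.fderiv_right (by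
    rw [add_assoc]; norm_num)
  have h2 : ContDiff ℝ m (fderiv ℝ (fderiv ℝ v)) := h1.fderiv_right le_rfl
  exact (h2.clm_apply contDiff_const).clm_apply contDiff_const

lemma contDiff_one_Hs (hv : ContDiff ℝ 3 v) (i j : Fin n) :
    ContDiff ℝ 1 (fun x => Hs v x i j) := by
  have h1 : ContDiff ℝ 2 (fderiv ℝ v) := hv.fderiv_right (by norm_num)
  have h2 : ContDiff ℝ 1 (fderiv ℝ (fderiv ℝ v)) := h1.fderiv_right (by norm_num)
  exact (h2.clm_apply contDiff_const).clm_apply contDiff_const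

lemma contDiff_gM (hv : ContDiff ℝ 3 v) (i j : Fin n) :
    ContDiff ℝ 1 (fun x => gM v x i j) := by
  simp_rw [gM_entry]
  exact contDiff_const.add (contDiff_one_Hs hv i j)

lemma pd_gM (hv : ContDiff ℝ 3 v) (k i j : Fin n) (x : E n) :
    pd k (fun y => gM v y i j) x = pd k (fun y => Hs v y i j) x := by
  simp_rw [gM_entry]
  rw [pd_add (differentiableAt_const _) ((contDiff_one_Hs hv i j).differentiable one_ne_zero x)]
  simp [pd]

lemma Hs_symm (hv : ContDiff ℝ 2 v) (x : E n) (i j : Fin n) : Hs v x i j = Hs v x j i :=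
  H_symm hv x i j

/-- third derivatives are symmetric -/
lemma pd_Hs_symm (hv : ContDiff ℝ 3 v) (k i j : Fin n) (x : E n) :
    pd k (fun y => Hs v y i j) x = pd i (fun y => Hs v y k j) x := by
  have hv2 : ContDiff ℝ 2 v := hv.of_le (by norm_num)
  have h2 : ContDiff ℝ 2 (pd j v) := by
    have h1 : ContDiff ℝ 2 (fderiv ℝ v) := hv.fderiv_right (by norm_num)
    exact h1.clm_apply contDiff_const
  have e1 : ∀ a, (fun y => Hs v y a j) = pd a (pd j v) := fun a => by
    funext y; exact H_eq_pd hv2 y a j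
  rw [e1 i, e1 k, ← H_eq_pd h2, ← H_eq_pd h2, H_symm h2]

lemma pd_Hs_symm' (hv : ContDiff ℝ 3 v) (k i j : Fin n) (x : E n) :
    pd k (fun y => Hs v y i j) x = pd k (fun y => Hs v y j i) x := by
  have hv2 : ContDiff ℝ 2 v := hv.of_le (by norm_num)
  have : (fun y => Hs v y i j) = fun y => Hs v y j i := by
    funext y; exact Hs_symm hv2 y i j
  rw [this]

/-- derivative of `x·∇v - v` -/
lemma pd_radial (hv : ContDiff ℝ 2 v) (k : Fin n) (x : E n) :
    pd k (fun y => fderiv ℝ v y y - v y) x = ∑ a, x a * Hs v x k a := by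
  have e0 : (fun y => fderiv ℝ v y y - v y) = fun y => (∑ a, y a * pd a v y) + (-1) * v y := by
    funext y; rw [fderiv_apply_eq_sum]; ring
  have hc : ∀ a : Fin n, DifferentiableAt ℝ (fun y : E n => y a) x := fun a => by fun_prop
  have hpa : ∀ a : Fin n, DifferentiableAt ℝ (pd a v) x := fun a =>
    (contDiff_one_pd hv a).differentiable one_ne_zero x
  have hvd : DifferentiableAt ℝ v x := hv.differentiable two_ne_zero x
  have hcp : ∀ a : Fin n, pd k (fun y : E n => y a) x = if a = k then 1 else 0 := fun a => by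
    have : (fun y : E n => y a) = fun y => EuclideanSpace.proj (𝕜 := ℝ) a y := rfl
    unfold pd
    rw [this, ContinuousLinearMap.fderiv]
    simp [Pi.single_apply]
  have hd1 : DifferentiableAt ℝ (fun y : E n => ∑ a, y a * pd a v y) x :=
    DifferentiableAt.fun_sum fun a _ => (hc a).mul (hpa a)
  have hd2 : DifferentiableAt ℝ (fun y : E n => (-1) * v y) x := hvd.const_mul _
  rw [e0, pd_add hd1 hd2,
    pd_sum (s := Finset.univ) (f := fun a y => y a * pd a v y) fun a _ => (hc a).mul (hpa a)]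
  rw [Finset.sum_congr rfl fun a _ => pd_mul (hc a) (hpa a) k]
  have h1 : pd k (fun y => (-1) * v y) x = -pd k v x := by
    unfold pd
    rw [fderiv_const_mul hvd]; simp
  rw [h1, Finset.sum_add_distrib]
  have h2 : ∑ a, pd k (fun y : E n => y a) x * pd a v x = pd k v x := by
    simp only [hcp]
    simp
  have h3 : ∀ a, pd k (pd a v) x = Hs v x k a := fun a => (H_eq_pd hv x k a).symm
  rw [h2]
  simp only [h3]
  ring

/-- **the data of the gap theorem from the Monge-Ampere equation** -/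
theorem dat_of_ma {lo hi M0 : ℝ} (hlo : 0 < lo) {P : E n → ℝ} (hP : ContDiff ℝ 1 P)
    (bP : ∀ x, |P x| ≤ M0) (gP : ∀ i, PG (pd i P)) (hv : ContDiff ℝ 3 v)
    (h3 : ∀ k i j, PG (pd k (fun x => Hs v x i j))) (ell : ∀ x, Ell lo hi (gM v x)) (c : ℝ)
    (ma : ∀ x, Real.log (gM v x).det - fderiv ℝ v x x + v x = -P x + c) :
    Dat (1 / hi) (1 / lo) M0 P (tauM v) := by
  have hv2 : ContDiff ℝ 2 v := hv.of_le (by norm_num)
  have hd : ∀ x, (gM v x).det ≠ 0 := fun x => ell_det_ne hlo (ell x)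
  have hg := contDiff_gM hv
  have hτ : ∀ i j, ContDiff ℝ 1 (fun x => tauM v x i j) := fun i j => contDiff_inv_of hg hd i j
  have hEll : ∀ x, Ell (1 / hi) (1 / lo) (tauM v x) := fun x => ell_inv hlo (ell x)
  have hsym : ∀ x i j, tauM v x i j = tauM v x j i := fun x => (hEll x).1
  have hdτ : ∀ k i j x, pd k (fun y => tauM v y i j) x
      = -∑ a, ∑ b, tauM v x i a * pd k (fun y => Hs v y a b) x * tauM v x b j := by
    intro k i j x
    have := pd_inv hg hd k i j x
    simp only [pd_gM hv] at this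
    exact this
  have hbd : ∀ x i j, |tauM v x i j| ≤ |1 / hi| + |1 / lo| := fun x i j =>
    ell_entry_le (hEll x) i j
  have hgτ : ∀ k i j, PG (pd k (fun x => tauM v x i j)) := by
    intro k i j
    have e1 : pd k (fun x => tauM v x i j) = fun x =>
        -∑ a, ∑ b, tauM v x i a * pd k (fun y => Hs v y a b) x * tauM v x b j := by
      funext x; exact hdτ k i j x
    rw [e1]
    exact (PG.sum _ fun a _ => PG.sum _ fun b _ =>
      ((PG.of_bdd (fun x => hbd x i a)).mul (h3 k a b)).mul (PG.of_bdd (fun x => hbd x b j))).neg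
  have hdP : ∀ x, DifferentiableAt ℝ P x := hP.differentiable one_ne_zero
  -- derivative of the equation
  have hma : ∀ d x, ∑ i, ∑ j, tauM v x i j * pd d (fun y => Hs v y j i) x
      = (∑ a, x a * Hs v x d a) - pd d P x := by
    intro d x
    have h1 := pd_logdet hg hd d x
    simp only [pd_gM hv] at h1
    have h2 : (fun y => Real.log (gM v y).det)
        = fun y => (fderiv ℝ v y y - v y) + ((-1) * P y + c) := by
      funext y; linarith [ma y]
    have h4 : DifferentiableAt ℝ (fun y => fderiv ℝ v y y - v y) x := by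
      have hf : DifferentiableAt ℝ (fderiv ℝ v) x :=
        (hv2.fderiv_right (m := 1) (by norm_num)).differentiable one_ne_zero x
      exact (hf.clm_apply differentiableAt_id).sub (hv2.differentiable two_ne_zero x)
    have h5 : DifferentiableAt ℝ (fun y => (-1) * P y + c) x :=
      ((hdP x).const_mul _).add_const _
    have h6 : pd d (fun y => (-1) * P y + c) x = -pd d P x := by
      unfold pd
      rw [fderiv_add_const, fderiv_const_mul (hdP x)]; simp
    rw [h2, pd_add h4 h5, pd_radial hv2, h6] at h1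
    exact h1.symm.trans (by ring)
  refine ⟨hP, bP, gP, hτ, hgτ, hsym, fun x w => ((hEll x).2 w).1, fun x w => ((hEll x).2 w).2,
    fun x b => ?_, fun x a b c => ?_⟩
  · -- divergence identity
    have hT : ∀ a c d, pd a (fun y => Hs v y c d) x = pd d (fun y => Hs v y c a) x := by
      intro a c d
      rw [pd_Hs_symm' hv a c d, pd_Hs_symm hv a d c, pd_Hs_symm' hv d a c]
    have e1 : ∑ a, pd a (fun y => tauM v y a b) x
        = -∑ d, (∑ i, ∑ j, tauM v x i j * pd d (fun y => Hs v y j i) x) * tauM v x d b := by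
      simp only [hdτ, Finset.sum_neg_distrib, Finset.sum_mul]
      congr 1
      calc ∑ a, ∑ c, ∑ d, tauM v x a c * pd a (fun y => Hs v y c d) x * tauM v x d b
          = ∑ a, ∑ d, ∑ c, tauM v x a c * pd a (fun y => Hs v y c d) x * tauM v x d b :=
            Finset.sum_congr rfl fun a _ => Finset.sum_comm
        _ = ∑ d, ∑ a, ∑ c, tauM v x a c * pd a (fun y => Hs v y c d) x * tauM v x d b :=
            Finset.sum_comm
        _ = _ := by
            refine Finset.sum_congr rfl fun d _ => Finset.sum_congr rfl fun a _ =>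
              Finset.sum_congr rfl fun c _ => ?_
            rw [hT a c d]
    have hgt : ∀ a, ∑ d, (gM v x a d) * tauM v x d b = if a = b then 1 else 0 := fun a => by
      have := congrFun (congrFun (Matrix.mul_nonsing_inv (gM v x) (hd x).isUnit) a) b
      rwa [Matrix.mul_apply, Matrix.one_apply] at this
    have e2 : ∑ d, (∑ a, x a * Hs v x d a) * tauM v x d b
        = ∑ a, x a * ((if a = b then 1 else 0) - tauM v x a b) := by
      simp only [Finset.sum_mul]
      rw [Finset.sum_comm]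
      refine Finset.sum_congr rfl fun a _ => ?_
      rw [← hgt a]
      simp only [gM_entry, add_mul, Finset.sum_add_distrib, ite_mul, one_mul, zero_mul,
        Finset.sum_ite_eq, Finset.mem_univ, if_true]
      rw [add_sub_cancel_left, Finset.mul_sum]
      exact Finset.sum_congr rfl fun d _ => by rw [Hs_symm hv2 x d a]; ring
    rw [Finset.sum_sub_distrib, e1]
    simp only [hma, sub_mul, Finset.sum_sub_distrib, mul_add, Finset.sum_add_distrib]
    rw [e2]
    simp only [mul_sub, Finset.sum_sub_distrib, mul_ite, mul_one, mul_zero,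
      Finset.sum_ite_eq', Finset.mem_univ, if_true]
    have e3 : ∑ a, x a * tauM v x a b = ∑ a, tauM v x a b * x a :=
      Finset.sum_congr rfl fun a _ => mul_comm _ _
    have e4 : ∑ a, pd a P x * tauM v x a b = ∑ a, tauM v x a b * pd a P x :=
      Finset.sum_congr rfl fun a _ => mul_comm _ _
    rw [e3, e4]
    ring
  · -- Hessian structure
    simp only [hdτ, mul_neg, Finset.sum_neg_distrib, Finset.mul_sum]
    congr 1
    rw [Finset.sum_comm]
    refine Finset.sum_congr rfl fun d _ => Finset.sum_congr rfl fun k _ =>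
      Finset.sum_congr rfl fun f _ => ?_
    rw [pd_Hs_symm hv k d f, hsym x k a, hsym x b d]
    ring

/-! ### third derivatives as iterated derivatives -/

lemma norm_ee (i : Fin n) : ‖(ee i : E n)‖ = 1 := by simp

lemma Hs_eq_iter (v : E n → ℝ) (x : E n) (i j : Fin n) :
    Hs v x i j = iteratedFDeriv ℝ 2 v x ![ee i, ee j] := by
  rw [iteratedFDeriv_two_apply]; rfl

lemma pd_Hs_eq_iter (hv : ContDiff ℝ 3 v) (k i j : Fin n) (x : E n) :
    pd k (fun y => Hs v y i j) x = iteratedFDeriv ℝ 3 v x ![ee k, ee i, ee j] := by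
  have h1 : DifferentiableAt ℝ (iteratedFDeriv ℝ 2 v) x :=
    hv.differentiable_iteratedFDeriv (by norm_num) x
  have h2 := (h1.hasFDerivAt.continuousMultilinear_apply_const ![ee i, ee j]).fderiv
  have h3 : (fun y => Hs v y i j) = fun y => iteratedFDeriv ℝ 2 v y ![ee i, ee j] := by
    funext y; exact Hs_eq_iter v y i j
  unfold pd
  rw [h3, h2, iteratedFDeriv_succ_apply_left]
  rfl

lemma abs_pd_Hs_le (hv : ContDiff ℝ 3 v) (k i j : Fin n) (x : E n) :
    |pd k (fun y => Hs v y i j) x| ≤ ‖iteratedFDeriv ℝ 3 v x‖ := by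
  rw [pd_Hs_eq_iter hv]
  refine ((iteratedFDeriv ℝ 3 v x).le_opNorm _).trans (le_of_eq ?_)
  simp [Fin.prod_univ_three]

/-- version for the equation with parameter `s` (`StepDefs`) -/
theorem dat_of_maeq {lo hi M0 s : ℝ} (hlo : 0 < lo) {P : E n → ℝ} (hP : ContDiff ℝ 1 P)
    (bP : ∀ x, |P x| ≤ M0) (gP : ∀ i, PG (pd i P)) (hs : |s| ≤ 1) (hv : ContDiff ℝ 3 v)
    (h3 : ∀ k i j, PG (pd k (fun x => Hs v x i j))) (ell : ∀ x, Ell lo hi (gm v x))
    (ma : MAeq P s v) : Dat (1 / hi) (1 / lo) M0 (fun x => s * P x) (tauf v) := by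
  have hPd := hP.differentiable one_ne_zero
  refine dat_of_ma hlo (contDiff_const.mul hP) (fun x => ?_) (fun i => ?_) hv h3 ell 0 (fun x => ?_)
  · rw [abs_mul]
    calc |s| * |P x| ≤ 1 * |P x| := mul_le_mul_of_nonneg_right hs (abs_nonneg _)
      _ ≤ M0 := by rw [one_mul]; exact bP x
  · have : pd i (fun x => s * P x) = fun x => s * pd i P x := by
      funext x
      unfold pd
      rw [fderiv_const_mul (hPd x)]; rfl
    rw [this]
    exact (Gap.pg_const s).mul (gP i)
  · have := ma x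
    have e : gM v x = gm v x := rfl
    rw [e]; linarith

/-- version for a bound on the third derivatives -/
theorem dat_of_maeq_bdd {lo hi M0 s K : ℝ} (hlo : 0 < lo) {P : E n → ℝ} (hP : ContDiff ℝ 1 P)
    (bP : ∀ x, |P x| ≤ M0) (gP : ∀ i, PG (pd i P)) (hs : |s| ≤ 1) (hv : ContDiff ℝ 3 v)
    (h3 : ∀ x, ‖iteratedFDeriv ℝ 3 v x‖ ≤ K) (ell : ∀ x, Ell lo hi (gm v x))
    (ma : MAeq P s v) : Dat (1 / hi) (1 / lo) M0 (fun x => s * P x) (tauf v) :=
  dat_of_maeq hlo hP bP gP hs hv (fun k i j => PG.of_bdd (K := K) fun x =>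
    (abs_pd_Hs_le hv k i j x).trans (h3 x)) ell ma

lemma tst_bdd {P : E n → ℝ} (hP : Tst P) : ∃ M, ∀ x, |P x| ≤ M := by
  obtain ⟨M, hM⟩ := hP.supp.exists_bound_of_continuous hP.smooth.continuous
  exact ⟨M, hM⟩

lemma tst_pd_pg {P : E n → ℝ} (hP : Tst P) (i : Fin n) : PG (pd i P) := by
  have h1 : HasCompactSupport (pd i P) := by
    have := hP.supp.fderiv (𝕜 := ℝ)
    exact this.comp_left (g := fun T : E n →L[ℝ] ℝ => T (Gap.e i)) rfl
  obtain ⟨M, hM⟩ := h1.exists_bound_of_continuous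
    (Gap.continuous_pd (hP.smooth.of_le (by exact_mod_cast le_top)) i)
  exact PG.of_bdd hM

/-- **`Dat` for a solution in the sense of `TopDefs`** -/
theorem dat_of_sol {P : E n → ℝ} (hP : PDat P) (hs : Sol P v) :
    ∃ lo hi M0 : ℝ, 0 < lo ∧ Dat lo hi M0 P (tauM v) := by
  obtain ⟨lo, hi, hlo, hell⟩ := hs.ell
  obtain ⟨M0, hM0⟩ := tst_bdd hP.tst
  obtain ⟨K, hK⟩ := hs.nice.bdd 3 (by norm_num)
  have hv : ContDiff ℝ 3 v := by exact_mod_cast contDiff_infty.1 hs.nice.smooth 3
  have hell' : ∀ x, Ell lo (max hi 1) (gM v x) := fun x => ⟨(hell x).1, fun z =>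
    ⟨((hell x).2 z).1, ((hell x).2 z).2.trans (mul_le_mul_of_nonneg_right (le_max_left _ _)
      (Finset.sum_nonneg fun i _ => sq_nonneg _))⟩⟩
  refine ⟨1 / max hi 1, 1 / lo, M0, by positivity, ?_⟩
  refine dat_of_ma hlo (hP.tst.smooth.of_le (by exact_mod_cast le_top)) hM0
    (tst_pd_pg hP.tst) hv (fun k i j => PG.of_bdd (K := K) fun x =>
      (abs_pd_Hs_le hv k i j x).trans (hK x)) hell' 0 (fun x => ?_)
  have := hs.ma x
  linarith

end Crest.Agent.R238.GapD
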