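import Crest.Agent.R238.HolDefs

/-!
# Matrix inequalities for the a priori bounds (row 238, module H7)
-/

set_option autoImplicit false

open Filter Topology Set Matrix
open scoped MatrixOrder

namespace Crest.Agent.R238.MaxP

open Crest.Agent.R238

variable {n : ℕ}

/-- quadratic form -/
def Q (A : Matrix (Fin n) (Fin n) ℝ) (z : Fin n → ℝ) : ℝ := ∑ i, ∑ j, A i j * z i * z j

theorem Q_eq (A : Matrix (Fin n) (Fin n) ℝ) (z : Fin n → ℝ) : Q A z = star z ⬝ᵥ (A *ᵥ z) := by
  simp only [Q, dotProduct, mulVec, Finset.mul_sum, star_trivial]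
  refine Finset.sum_congr rfl fun i _ => Finset.sum_congr rfl fun j _ => ?_
  ring

theorem Q_sub (A B : Matrix (Fin n) (Fin n) ℝ) (z : Fin n → ℝ) : Q (A - B) z = Q A z - Q B z := by
  simp only [Q, Matrix.sub_apply, sub_mul, Finset.sum_sub_distrib]

theorem Q_smul_one (c : ℝ) (z : Fin n → ℝ) :
    Q (c • (1 : Matrix (Fin n) (Fin n) ℝ)) z = c * ∑ i, z i ^ 2 := by
  simp only [Q, Matrix.smul_apply, Matrix.one_apply, smul_eq_mul, mul_ite, mul_one, mul_zero,
    ite_mul, zero_mul, Finset.sum_ite_eq, Finset.mem_univ, if_true, Finset.mul_sum]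
  refine Finset.sum_congr rfl fun i _ => ?_
  ring

theorem trace_mul_nonneg {A B : Matrix (Fin n) (Fin n) ℝ} (hA : A.PosSemidef)
    (hB : B.PosSemidef) : 0 ≤ (A * B).trace := by
  obtain ⟨C, hC⟩ : ∃ C : Matrix (Fin n) (Fin n) ℝ, B = Cᴴ * C := by
    obtain ⟨C, hC⟩ := CStarAlgebra.nonneg_iff_eq_star_mul_self.1 hB.nonneg
    exact ⟨C, hC⟩
  rw [hC, ← Matrix.mul_assoc, Matrix.trace_mul_comm, ← Matrix.mul_assoc]
  exact (hA.mul_mul_conjTranspose_same C).trace_nonneg

theorem trace_sandwich_nonneg {A G : Matrix (Fin n) (Fin n) ℝ} (hA : A.PosSemidef)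
    (hG : Gᵀ = G) : 0 ≤ (A * G * A * G).trace := by
  have h1 : Gᴴ = G := by
    rw [Matrix.conjTranspose_eq_transpose_of_trivial, hG]
  have h2 : (G * A * Gᴴ).PosSemidef := hA.mul_mul_conjTranspose_same G
  rw [h1] at h2
  have h3 := trace_mul_nonneg hA h2
  have h4 : A * (G * A * G) = A * G * A * G := by
    simp only [Matrix.mul_assoc]
  rwa [h4] at h3

theorem trace_mul_ge {A B : Matrix (Fin n) (Fin n) ℝ} (hA : A.PosSemidef) {c : ℝ}
    (hB : Bᵀ = B) (hc : ∀ z, c * ∑ i, z i ^ 2 ≤ Q B z) : c * A.trace ≤ (A * B).trace := by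
  have h1 : (B - c • (1 : Matrix (Fin n) (Fin n) ℝ)).PosSemidef := by
    apply PosSemidef.of_dotProduct_mulVec_nonneg
    · rw [Matrix.IsHermitian, Matrix.conjTranspose_eq_transpose_of_trivial]
      simp [hB]
    · intro x
      rw [← Q_eq, Q_sub, Q_smul_one]
      linarith [hc x]
  have h2 := trace_mul_nonneg hA h1
  rw [Matrix.mul_sub, Matrix.trace_sub] at h2
  simp only [Algebra.mul_smul_comm, Matrix.mul_one, Matrix.trace_smul, smul_eq_mul] at h2
  linarith

/-- diagonalisation of the form -/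
theorem exists_diag {A : Matrix (Fin n) (Fin n) ℝ} (hA : A.IsHermitian) (z : Fin n → ℝ) :
    ∃ y : Fin n → ℝ, Q A z = ∑ i, hA.eigenvalues i * y i ^ 2 ∧ ∑ i, y i ^ 2 = ∑ i, z i ^ 2 := by
  set U : Matrix (Fin n) (Fin n) ℝ := (hA.eigenvectorUnitary : Matrix (Fin n) (Fin n) ℝ) with hU
  have hsp : A = U * diagonal hA.eigenvalues * star U := by
    have := hA.spectral_theorem
    rw [Unitary.conjStarAlgAut_apply] at this
    exact this
  have hUU : U * star U = 1 := by
    rw [hU]; exact Unitary.coe_mul_star_self _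
  have hst : star U = Uᵀ := by
    rw [Matrix.star_eq_conjTranspose, Matrix.conjTranspose_eq_transpose_of_trivial]
  rw [hst] at hsp hUU
  refine ⟨Uᵀ *ᵥ z, ?_, ?_⟩
  · rw [Q_eq, star_trivial]
    conv_lhs => rw [hsp]
    rw [← Matrix.mulVec_mulVec, ← Matrix.mulVec_mulVec, Matrix.dotProduct_mulVec,
      ← Matrix.mulVec_transpose, dotProduct]
    refine Finset.sum_congr rfl fun i _ => ?_
    rw [Matrix.mulVec_diagonal]
    ring
  · have h1 : (Uᵀ *ᵥ z) ⬝ᵥ (Uᵀ *ᵥ z) = z ⬝ᵥ z := by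
      conv_lhs => rw [Matrix.mulVec_transpose, ← Matrix.dotProduct_mulVec,
        ← Matrix.mulVec_transpose, Matrix.mulVec_mulVec, hUU, Matrix.one_mulVec]
    simp only [dotProduct] at h1
    simpa [sq] using h1

/-- `log det A ≥ n + n log c - c tr(A⁻¹)` -/
theorem log_det_ge {A : Matrix (Fin n) (Fin n) ℝ} (hA : A.PosDef) {c : ℝ} (hc : 0 < c) :
    n + n * Real.log c - c * (A⁻¹).trace ≤ Real.log A.det := by
  have hτ : (A⁻¹).PosDef := hA.inv
  have h1 : (A⁻¹).det = ∏ i, hτ.1.eigenvalues i := by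
    have := hτ.1.det_eq_prod_eigenvalues
    simpa using this
  have h2 : (A⁻¹).trace = ∑ i, hτ.1.eigenvalues i := by
    have := hτ.1.trace_eq_sum_eigenvalues
    simpa using this
  have h3 : A.det = ((A⁻¹).det)⁻¹ := by
    rw [Matrix.det_nonsing_inv, Ring.inverse_eq_inv', inv_inv]
  have hpos : ∀ i, 0 < hτ.1.eigenvalues i := hτ.eigenvalues_pos
  rw [h3, Real.log_inv, h1, Real.log_prod (fun i _ => (hpos i).ne'), h2, Finset.mul_sum]
  have h4 : ∀ i ∈ Finset.univ, Real.log (hτ.1.eigenvalues i) ≤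
      c * hτ.1.eigenvalues i - 1 - Real.log c := by
    intro i _
    have h5 := Real.log_le_sub_one_of_pos (mul_pos hc (hpos i))
    rw [Real.log_mul hc.ne' (hpos i).ne'] at h5
    linarith
  have h6 := Finset.sum_le_sum h4
  simp only [Finset.sum_sub_distrib, Finset.sum_const, Finset.card_univ, Fintype.card_fin,
    nsmul_eq_mul, mul_one] at h6
  linarith

theorem eigenvalues_le {A : Matrix (Fin n) (Fin n) ℝ} (hA : A.IsHermitian) {C : ℝ}
    (h : ∀ z, Q A z ≤ C * ∑ i, z i ^ 2) (i : Fin n) : hA.eigenvalues i ≤ C := by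
  set z : Fin n → ℝ := (hA.eigenvectorBasis i : Fin n → ℝ) with hz
  have h1 : A *ᵥ z = hA.eigenvalues i • z := hA.mulVec_eigenvectorBasis i
  have h2 : Q A z = hA.eigenvalues i * ∑ i, z i ^ 2 := by
    rw [Q_eq, h1, star_trivial]
    simp only [dotProduct, Pi.smul_apply, smul_eq_mul, Finset.mul_sum]
    refine Finset.sum_congr rfl fun j _ => ?_
    ring
  have h3 : ∑ j, z j ^ 2 = 1 := by
    have h4 : ‖hA.eigenvectorBasis i‖ = 1 := hA.eigenvectorBasis.orthonormal.1 i
    have h5 := EuclideanSpace.norm_sq_eq (hA.eigenvectorBasis i)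
    rw [h4] at h5
    simp only [Real.norm_eq_abs, sq_abs] at h5
    rw [hz]
    linarith
  have h6 := h z
  rw [h2, h3] at h6
  linarith

/-- if `A ≤ e^a` and `log det A ≥ -b` then `A ≥ e^{-b-(n-1)a}`. -/
theorem form_ge_of_det {A : Matrix (Fin n) (Fin n) ℝ} (hA : A.PosDef) {a b : ℝ}
    (h : ∀ z, Q A z ≤ Real.exp a * ∑ i, z i ^ 2) (hd : -b ≤ Real.log A.det) (z : Fin n → ℝ) :
    Real.exp (-b - (n - 1) * a) * ∑ i, z i ^ 2 ≤ Q A z := by
  have hpos : ∀ i, 0 < hA.1.eigenvalues i := hA.eigenvalues_pos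
  have hle : ∀ i, Real.log (hA.1.eigenvalues i) ≤ a := by
    intro i
    have h1 := eigenvalues_le hA.1 h i
    have h2 := Real.log_le_log (hpos i) h1
    rwa [Real.log_exp] at h2
  have h1 : A.det = ∏ i, hA.1.eigenvalues i := by
    have := hA.1.det_eq_prod_eigenvalues
    simpa using this
  rw [h1, Real.log_prod (fun i _ => (hpos i).ne')] at hd
  have hge : ∀ i, Real.exp (-b - (n - 1) * a) ≤ hA.1.eigenvalues i := by
    intro i
    have h2 : ∑ j ∈ Finset.univ.erase i, Real.log (hA.1.eigenvalues j) ≤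
        ∑ j ∈ (Finset.univ : Finset (Fin n)).erase i, a := Finset.sum_le_sum fun j _ => hle j
    rw [Finset.sum_const, Finset.card_erase_of_mem (Finset.mem_univ i), Finset.card_univ,
      Fintype.card_fin, nsmul_eq_mul, Nat.cast_sub (Fin.pos i)] at h2
    have h3 := Finset.add_sum_erase Finset.univ (fun j => Real.log (hA.1.eigenvalues j))
      (Finset.mem_univ i)
    rw [← Real.exp_log (hpos i)]
    apply Real.exp_le_exp.2
    push_cast at h2
    linarith
  obtain ⟨y, hy1, hy2⟩ := exists_diag hA.1 z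
  rw [hy1, ← hy2, Finset.mul_sum]
  exact Finset.sum_le_sum fun i _ => mul_le_mul_of_nonneg_right (hge i) (sq_nonneg _)

end Crest.Agent.R238.MaxP
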