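import Crest.Agent.R238.StepDefs
import Crest.Agent.R238.MaxPBar
import Crest.Agent.R238.MaxPMat

/-!
# A priori bounds (E1)–(E3) and `S ≤ const` (row 238, module H7b)

`p x i j` stands for `s * Hs P x i j` (so `D²Ψ = 1 + p`).
-/

set_option autoImplicit false

open Filter Topology Set Matrix

namespace Crest.Agent.R238.MaxP

open Crest.Agent.R238

variable {n : ℕ}

/-- the quadratic form of `D²v` -/
noncomputable def qf (v : E n → ℝ) (z : Fin n → ℝ) (x : E n) : ℝ :=
  ∑ i, ∑ j, Hs v x i j * z i * z j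

theorem Q_gm (v : E n → ℝ) (x : E n) (z : Fin n → ℝ) :
    Q (gm v x) z = ∑ i, z i ^ 2 + qf v z x := by
  have h1 : gm v x = Matrix.of (fun i j => Hs v x i j) - (-1 : ℝ) • (1 : Matrix _ _ ℝ) := by
    unfold gm
    simp [add_comm]
  rw [h1, Q_sub, Q_smul_one]
  simp only [Q, qf, Matrix.of_apply]
  ring

theorem gm_apply (v : E n → ℝ) (x : E n) (i j : Fin n) :
    gm v x i j = (1 : Matrix (Fin n) (Fin n) ℝ) i j + Hs v x i j := rfl

theorem contDiff_Hs {v : E n → ℝ} (hv : ContDiff ℝ 4 v) (i j : Fin n) :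
    ContDiff ℝ 2 (fun x => Hs v x i j) := by
  have h1 : ContDiff ℝ 3 (fderiv ℝ v) := hv.fderiv_right (by norm_num)
  have h2 : ContDiff ℝ 2 (fderiv ℝ (fderiv ℝ v)) := h1.fderiv_right (by norm_num)
  unfold Hs
  exact (h2.clm_apply contDiff_const).clm_apply contDiff_const

theorem contDiff_qf {v : E n → ℝ} (hv : ContDiff ℝ 4 v) (z : Fin n → ℝ) :
    ContDiff ℝ 2 (qf v z) := by
  unfold qf
  refine ContDiff.sum fun i _ => ContDiff.sum fun j _ => ?_
  exact ((contDiff_Hs hv i j).mul contDiff_const).mul contDiff_const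

theorem contDiff_gm {v : E n → ℝ} (hv : ContDiff ℝ 4 v) (i j : Fin n) :
    ContDiff ℝ 2 (fun x => gm v x i j) := by
  simp only [gm_apply]
  exact contDiff_const.add (contDiff_Hs hv i j)

theorem contDiff_det {g : E n → Matrix (Fin n) (Fin n) ℝ}
    (hg : ∀ i j, ContDiff ℝ 2 (fun x => g x i j)) : ContDiff ℝ 2 (fun x => (g x).det) := by
  simp only [Matrix.det_apply']
  refine ContDiff.sum fun σ _ => ?_
  exact contDiff_const.mul (contDiff_prod fun i _ => hg _ _)

theorem Ell.posDef {lo hi : ℝ} {A : Matrix (Fin n) (Fin n) ℝ} (hlo : 0 < lo)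
    (h : Ell lo hi A) : A.PosDef := by
  apply PosDef.of_dotProduct_mulVec_pos
  · ext i j
    simp [Matrix.conjTranspose_apply, h.1 i j]
  · intro z hz
    rw [← Q_eq]
    have h1 := (h.2 z).1
    have h2 : 0 < ∑ i, z i ^ 2 := by
      obtain ⟨i, hi⟩ := Function.ne_iff.1 hz
      exact Finset.sum_pos' (fun j _ => sq_nonneg _) ⟨i, Finset.mem_univ i, by
        have : z i ≠ 0 := by simpa using hi
        positivity⟩
    unfold Q
    exact lt_of_lt_of_le (mul_pos hlo h2) h1

theorem Ell.transpose_eq {lo hi : ℝ} {A : Matrix (Fin n) (Fin n) ℝ}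
    (h : Ell lo hi A) : Aᵀ = A := by
  ext i j
  simp [Matrix.transpose_apply, h.1 j i]

theorem Ell.trace_inv_le {lo hi : ℝ} {A : Matrix (Fin n) (Fin n) ℝ} (hlo : 0 < lo)
    (h : Ell lo hi A) : (A⁻¹).trace ≤ n / lo := by
  have hA := Ell.posDef hlo h
  have h1 := trace_mul_ge hA.inv.posSemidef (Ell.transpose_eq h) (fun z => (h.2 z).1)
  rw [Matrix.nonsing_inv_mul _ (hA.isUnit.map Matrix.detMonoidHom), Matrix.trace_one,
    Fintype.card_fin] at h1
  rw [le_div_iff₀ hlo]
  linarith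

/-- symmetric matrix with small form has small entries -/
theorem entry_le_of_form {A : Matrix (Fin n) (Fin n) ℝ} (hs : ∀ i j, A i j = A j i) {b : ℝ}
    (h : ∀ z : Fin n → ℝ, |Q A z| ≤ b * ∑ i, z i ^ 2) (i j : Fin n) : |A i j| ≤ b := by
  have hQ : ∀ (a c : ℝ), Q A (fun k => (if k = i then a else 0) + (if k = j then c else 0)) =
      A i i * a * a + A i j * a * c + A j i * c * a + A j j * c * c := by
    intro a c
    simp only [Q, mul_add, add_mul, Finset.sum_add_distrib, mul_ite, ite_mul, mul_zero, zero_mul,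
      Finset.sum_ite_eq', Finset.mem_univ, if_true]
    ring
  have hS : ∀ (a c : ℝ), ∑ k, ((if k = i then a else 0) + (if k = j then c else 0)) ^ 2 =
      a ^ 2 + c ^ 2 + 2 * a * c * (if i = j then 1 else 0) := by
    intro a c
    have hk : ∀ k : Fin n, ((if k = i then a else 0) + (if k = j then c else 0)) ^ 2 =
        (if k = i then a ^ 2 else 0) + (if k = j then c ^ 2 else 0) +
          (if k = i then (2 * a * c * (if i = j then 1 else 0)) else 0) := by
      intro k
      by_cases h1 : k = i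
      · subst h1
        by_cases h2 : k = j
        · simp only [h2, if_true]; ring
        · simp only [h2, if_true, if_false]; ring
      · by_cases h2 : k = j
        · have h3 : ¬ j = i := h2 ▸ h1
          simp only [h2, h3, if_true, if_false]; ring
        · simp only [h1, h2, if_false]; ring
    simp only [hk, Finset.sum_add_distrib, Finset.sum_ite_eq', Finset.mem_univ, if_true]
  by_cases hij : i = j
  · subst hij
    have h1 := h (fun k => (if k = i then 1 else 0) + (if k = i then 0 else 0))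
    rw [hQ 1 0, hS 1 0] at h1
    simpa using h1
  · have h1 := h (fun k => (if k = i then 1 else 0) + (if k = j then 1 else 0))
    have h2 := h (fun k => (if k = i then 1 else 0) + (if k = j then (-1) else 0))
    rw [hQ 1 1, hS 1 1] at h1
    rw [hQ 1 (-1), hS 1 (-1)] at h2
    simp only [hij, if_false] at h1 h2
    rw [hs j i] at h1 h2
    rw [abs_le] at h1 h2 ⊢
    constructor <;> linarith [h1.1, h1.2, h2.1, h2.2]

/-- (E1) global upper bound: `D²v ≤ κ`. -/
theorem E1 {v : E n → ℝ} (hv : ContDiff ℝ 4 v) {lo0 hi0 : ℝ} (hlo0 : 0 < lo0)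
    (hell : ∀ x, Ell lo0 hi0 (gm v x)) {p : E n → Matrix (Fin n) (Fin n) ℝ} {κ : ℝ}
    (hp : ∀ x z, Q (p x) z ≤ κ * ∑ i, z i ^ 2)
    (H1 : ∀ z x, qf v z x - Q (p x) z ≤ LA (tauf v) (qf v z) x) :
    ∀ x z, qf v z x ≤ κ * ∑ i, z i ^ 2 := by
  intro x z
  have hτ : ∀ x, (tauf v x).PosSemidef := fun x => (Ell.posDef hlo0 (hell x)).inv.posSemidef
  have hT : ∀ x, (tauf v x).trace ≤ n / lo0 := fun x => Ell.trace_inv_le hlo0 (hell x)
  refine max_principle hτ hT (contDiff_qf hv z) (M := hi0 * ∑ i, z i ^ 2) (c0 := 1)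
    (a := κ * ∑ i, z i ^ 2) (fun y => ?_) one_pos (fun y hy => ?_) x
  · have h1 := ((hell y).2 z).2
    have h2 := Q_gm v y z
    unfold Q at h2
    have h3 : 0 ≤ ∑ i, z i ^ 2 := Finset.sum_nonneg fun i _ => sq_nonneg _
    linarith
  · have h1 := H1 z y
    have h2 := hp y z
    linarith

/-- (E2) global lower bound of the determinant. -/
theorem E2_det {v : E n → ℝ} (hv : ContDiff ℝ 4 v) {lo0 hi0 : ℝ} (hlo0 : 0 < lo0)
    (hell : ∀ x, Ell lo0 hi0 (gm v x)) {p : E n → Matrix (Fin n) (Fin n) ℝ} {c : ℝ}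
    (hc : 0 < c) (hps : ∀ x i j, p x i j = p x j i)
    (hp : ∀ x z, c * ∑ i, z i ^ 2 ≤ ∑ i, z i ^ 2 + Q (p x) z)
    (H2 : ∀ x, LA (tauf v) (fun y => Real.log (gm v y).det) x ≤
      n - (tauf v x * (1 + p x)).trace) :
    ∀ x, n * Real.log c ≤ Real.log (gm v x).det := by
  intro x
  have hpd : ∀ x, (gm v x).PosDef := fun x => Ell.posDef hlo0 (hell x)
  have hτ : ∀ x, (tauf v x).PosSemidef := fun x => (hpd x).inv.posSemidef
  have hT : ∀ x, (tauf v x).trace ≤ n / lo0 := fun x => Ell.trace_inv_le hlo0 (hell x)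
  have hcd : ContDiff ℝ 2 (fun y => Real.log (gm v y).det) :=
    (contDiff_det (contDiff_gm hv)).log (fun y => (hpd y).det_pos.ne')
  have key := max_principle hτ hT hcd.neg (M := n / lo0 - n) (c0 := 1)
    (a := -(n * Real.log c)) (fun y => ?_) one_pos (fun y hy => ?_) x
  · linarith
  · have h1 := log_det_ge (hpd y) one_pos
    have h2 := hT y
    simp only [Real.log_one, mul_zero, add_zero, one_mul] at h1
    unfold tauf at h2
    show -Real.log (gm v y).det ≤ _
    linarith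
  · rw [LA_neg _ hcd]
    have h1 := H2 y
    have h2 : c * (tauf v y).trace ≤ (tauf v y * (1 + p y)).trace := by
      refine trace_mul_ge (hτ y) ?_ ?_
      · ext i j
        simp [Matrix.transpose_apply, Matrix.one_apply, hps y j i, eq_comm]
      · intro z
        have h3 := hp y z
        have h4 : Q (1 + p y) z = ∑ i, z i ^ 2 + Q (p y) z := by
          have h5 : (1 + p y) = p y - (-1 : ℝ) • (1 : Matrix _ _ ℝ) := by
            simp [add_comm]
          rw [h5, Q_sub, Q_smul_one]; ring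
        rw [h4]; exact h3
    have h3 := log_det_ge (hpd y) hc
    unfold tauf at h2 ⊢
    unfold tauf at h1
    linarith

/-- (E1)+(E2): uniform ellipticity, `C = 1 + κ`. -/
theorem E12 {v : E n → ℝ} (hv : ContDiff ℝ 4 v) {lo0 hi0 : ℝ} (hlo0 : 0 < lo0)
    (hell : ∀ x, Ell lo0 hi0 (gm v x)) {p : E n → Matrix (Fin n) (Fin n) ℝ} {c C : ℝ}
    (hc : 0 < c) (hC : 0 < C) (hps : ∀ x i j, p x i j = p x j i)
    (hp1 : ∀ x z, c * ∑ i, z i ^ 2 ≤ ∑ i, z i ^ 2 + Q (p x) z)
    (hp2 : ∀ x z, ∑ i, z i ^ 2 + Q (p x) z ≤ C * ∑ i, z i ^ 2)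
    (H1 : ∀ z x, qf v z x - Q (p x) z ≤ LA (tauf v) (qf v z) x)
    (H2 : ∀ x, LA (tauf v) (fun y => Real.log (gm v y).det) x ≤
      n - (tauf v x * (1 + p x)).trace) :
    ∀ x, Ell (Real.exp (n * Real.log c - (n - 1) * Real.log C)) C (gm v x) := by
  intro x
  have h1 := E1 hv hlo0 hell (κ := C - 1) (fun x z => by linarith [hp2 x z]) H1
  have h2 := E2_det hv hlo0 hell hc hps hp1 H2 x
  have hup : ∀ z, Q (gm v x) z ≤ C * ∑ i, z i ^ 2 := by
    intro z
    rw [Q_gm]
    linarith [h1 x z]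
  refine ⟨(hell x).1, fun z => ⟨?_, hup z⟩⟩
  have h3 := form_ge_of_det (Ell.posDef hlo0 (hell x)) (a := Real.log C) (b := -(n * Real.log c))
    (by rw [Real.exp_log hC]; exact hup) (by linarith) z
  rw [neg_neg] at h3
  exact h3

/-- (E3) decay of `D²v` at infinity. -/
theorem E3 {v : E n → ℝ} (hv : ContDiff ℝ 4 v) {lo C R : ℝ} (hlo : 0 < lo)
    (hell : ∀ x, Ell lo C (gm v x)) {l : ℝ} (hl : ∀ x, -l ≤ Real.log (gm v x).det)
    (hR : 0 ≤ R) (hRT : 5 * (n / lo) ≤ 1 + R ^ 2)
    (H1 : ∀ z x, R < ‖x‖ → qf v z x ≤ LA (tauf v) (qf v z) x)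
    (H2 : ∀ x, R < ‖x‖ → LA (tauf v) (fun y => Real.log (gm v y).det) x ≤
      n - (tauf v x).trace) {K : ℝ} (hK : 0 ≤ K)
    (hK1 : C - 1 ≤ K * (1 + R ^ 2) ^ (-(1/4) : ℝ)) (hK2 : l ≤ K * (1 + R ^ 2) ^ (-(1/4) : ℝ)) :
    ∀ x, (∀ z, |qf v z x| ≤ n * K * Bar x * ∑ i, z i ^ 2) ∧
      ∀ i j, |Hs v x i j| ≤ n * K * Bar x := by
  intro x
  have hpd : ∀ x, (gm v x).PosDef := fun x => Ell.posDef hlo (hell x)
  have hτ : ∀ x, (tauf v x).PosSemidef := fun x => (hpd x).inv.posSemidef
  have hT : ∀ x, (tauf v x).trace ≤ n / lo := fun x => Ell.trace_inv_le hlo (hell x)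
  have hcd : ContDiff ℝ 2 (fun y => Real.log (gm v y).det) :=
    (contDiff_det (contDiff_gm hv)).log (fun y => (hpd y).det_pos.ne')
  have hform : ∀ y z, qf v z y ≤ (C - 1) * ∑ i, z i ^ 2 := by
    intro y z
    have h1 := ((hell y).2 z).2
    have h2 := Q_gm v y z
    unfold Q at h2
    linarith
  have hKB : ∀ y : E n, ‖y‖ ≤ R → K * (1 + R ^ 2) ^ (-(1/4) : ℝ) ≤ K * Bar y := fun y hy =>
    mul_le_mul_of_nonneg_left (Bar_anti hy) hK
  -- upper bound
  have hup : ∀ z, qf v z x ≤ K * Bar x * ∑ i, z i ^ 2 := by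
    intro z
    set N := ∑ i, z i ^ 2 with hN
    have hN0 : 0 ≤ N := Finset.sum_nonneg fun i _ => sq_nonneg _
    have := exterior_comparison hτ hT (contDiff_qf hv z) (M := (C - 1) * N) (R := R)
      (K := K * N) (fun y => hform y z) hR hRT (mul_nonneg hK hN0) (fun y hy => ?_)
      (fun y hy => H1 z y hy) x
    · linarith
    · have h1 := hform y z
      have h2 := hKB y hy
      have h3 : (C - 1) * N ≤ K * Bar y * N := mul_le_mul_of_nonneg_right (hK1.trans h2) hN0
      linarith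
  have hdet : -(K * Bar x) ≤ Real.log (gm v x).det := by
    have := exterior_comparison hτ hT hcd.neg (M := l) (R := R) (K := K)
      (fun y => by have := hl y; linarith) hR hRT hK (fun y hy => ?_)
      (fun y hy => ?_) x
    · linarith
    · have h1 := hl y
      have h2 := hKB y hy
      linarith
    · rw [LA_neg _ hcd]
      have h1 := H2 y hy
      have h2 := log_det_ge (hpd y) one_pos
      simp only [Real.log_one, mul_zero, add_zero, one_mul] at h2
      unfold tauf at h1 ⊢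
      linarith
  have hKB0 : 0 ≤ K * Bar x := mul_nonneg hK (Bar_pos x).le
  have hlow : ∀ z, -(n * (K * Bar x)) * ∑ i, z i ^ 2 ≤ qf v z x := by
    intro z
    have h1 := form_ge_of_det (hpd x) (a := K * Bar x) (b := K * Bar x)
      (fun z => by
        rw [Q_gm]
        have h2 := hup z
        have h3 : 1 + K * Bar x ≤ Real.exp (K * Bar x) := by
          linarith [Real.add_one_le_exp (K * Bar x)]
        have h4 : 0 ≤ ∑ i, z i ^ 2 := Finset.sum_nonneg fun i _ => sq_nonneg _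
        have h5 := mul_le_mul_of_nonneg_right h3 h4
        linarith) hdet z
    rw [Q_gm] at h1
    have h2 : -(K * Bar x) - ((n : ℝ) - 1) * (K * Bar x) = -(n * (K * Bar x)) := by ring
    rw [h2] at h1
    have h3 : 1 - n * (K * Bar x) ≤ Real.exp (-(n * (K * Bar x))) := by
      linarith [Real.add_one_le_exp (-(n * (K * Bar x)))]
    have h4 : 0 ≤ ∑ i, z i ^ 2 := Finset.sum_nonneg fun i _ => sq_nonneg _
    have h5 := mul_le_mul_of_nonneg_right h3 h4
    linarith
  have habs : ∀ z, |qf v z x| ≤ n * K * Bar x * ∑ i, z i ^ 2 := by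
    intro z
    have h4 : 0 ≤ ∑ i, z i ^ 2 := Finset.sum_nonneg fun i _ => sq_nonneg _
    rcases Nat.eq_zero_or_pos n with hn | hn
    · subst hn
      simp [qf]
    · have h6 : (1 : ℝ) ≤ n := by exact_mod_cast hn
      rw [abs_le]
      constructor
      · have := hlow z; linarith
      · refine (hup z).trans ?_
        have : K * Bar x ≤ n * (K * Bar x) := by nlinarith
        nlinarith
  refine ⟨habs, fun i j => ?_⟩
  have hsym : ∀ i j, Hs v x i j = Hs v x j i := by
    intro i j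
    have := (hell x).1 i j
    rw [gm_apply, gm_apply] at this
    have h1 : (1 : Matrix (Fin n) (Fin n) ℝ) i j = (1 : Matrix (Fin n) (Fin n) ℝ) j i := by
      simp [Matrix.one_apply, eq_comm]
    linarith
  exact entry_le_of_form (A := Matrix.of (fun i j => Hs v x i j)) hsym
    (fun z => by simpa [Q, qf] using habs z) i j

/-- (E4'): `LA τ S ≥ S - 2 D √S` and `S` bounded imply `S ≤ 4 D²`. -/
theorem S_le {τ : E n → Matrix (Fin n) (Fin n) ℝ} (hτ : ∀ x, (τ x).PosSemidef)
    {T : ℝ} (hT : ∀ x, (τ x).trace ≤ T) {S : E n → ℝ} (hS : ContDiff ℝ 2 S) {M : ℝ}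
    (hM : ∀ x, S x ≤ M) {D : ℝ}
    (h : ∀ x, 0 < S x → S x - 2 * D * Real.sqrt (S x) ≤ LA τ S x) : ∀ x, S x ≤ 4 * D ^ 2 := by
  refine max_principle hτ hT hS hM (c0 := 1 / 2) (by norm_num) (fun y hy => ?_)
  have h0 : 0 < S y := lt_of_le_of_lt (by positivity) hy
  refine le_trans ?_ (h y h0)
  set r := Real.sqrt (S y) with hr
  have h1 : r ^ 2 = S y := Real.sq_sqrt h0.le
  have h2 : 2 * D ≤ r := by
    rw [hr]
    apply Real.le_sqrt_of_sq_le
    nlinarith
  rw [← h1]
  nlinarith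

end Crest.Agent.R238.MaxP
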