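import Crest.Agent.R238.AprDefs
import Crest.Agent.R238.AprDat
import Crest.Agent.R238.MaxPE
import Crest.Agent.R238.ExtSm
import Crest.Agent.R238.GapDat
import Crest.Agent.R238.ExiDefs

/-!
Row 238, node APR (helper143): **assembly of the uniform a priori bounds**,
`PwStmt → D3Stmt → SchStmt → SupStmt → AprStmt`.
-/

set_option autoImplicit false

open Set Filter
open scoped ContDiff Topology

namespace Crest.Agent.R238.Apr

open Crest.Agent.R238

variable {n : ℕ}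

/-- `D²(sP)` -/
noncomputable def pm (P : E n → ℝ) (s : ℝ) (x : E n) : Matrix (Fin n) (Fin n) ℝ :=
  Matrix.of fun i j => s * Hs P x i j

/-- pointwise inequalities (E1), (E2) (H8, helper254) -/
def PwStmt : Prop := ∀ (n : ℕ) (P v : E n → ℝ) (s lo hi : ℝ), ContDiff ℝ ∞ P → ContDiff ℝ ∞ v →
  0 < lo → (∀ x, Ell lo hi (gm v x)) → MAeq P s v →
    (∀ z x, MaxP.qf v z x - MaxP.Q (pm P s x) z ≤ LA (tauf v) (MaxP.qf v z) x) ∧
    ∀ x, LA (tauf v) (fun y => Real.log (gm v y).det) x ≤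
      n - (tauf v x * (1 + pm P s x)).trace

/-- uniform bound of the third derivatives (H8 + maximum principle) -/
def D3Stmt : Prop := ∀ (n : ℕ) (P : E n → ℝ), PDat P → ∀ lo hi : ℝ, 0 < lo → lo ≤ hi →
  ∃ K : ℝ, ∀ s : ℝ, 0 ≤ s → s ≤ 1 → ∀ v : E n → ℝ, Nice v → (∀ x, Ell lo hi (gm v x)) →
    MAeq P s v → ∀ x i j k, |fderiv ℝ (fun y => Hs v y i j) x (ee k)| ≤ K

theorem Q_pm (P : E n → ℝ) (s : ℝ) (x : E n) (z : Fin n → ℝ) :
    MaxP.Q (pm P s x) z = s * ∑ i, ∑ j, Hs P x i j * z i * z j := by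
  simp only [MaxP.Q, pm, Matrix.of_apply, Finset.mul_sum]
  exact Finset.sum_congr rfl fun i _ => Finset.sum_congr rfl fun j _ => by ring

theorem pm_eq_zero {P : E n → ℝ} {x : E n} (s : ℝ) (h : P =ᶠ[𝓝 x] fun _ => 0) :
    pm P s x = 0 := by
  ext i j
  simp [pm, Hs_eq_zero_of_eventually h]

theorem apr_of (hPw : PwStmt) (hD3 : D3Stmt) (hS : SchStmt) (hG : SupStmt) : AprStmt := by
  intro n a ha ha1 P hP
  obtain ⟨c, C2, C3, M0, R0, hc⟩ := exists_PC hP
  have hC2pos : 0 < C2 := one_pos.trans_le hc.C2_ge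
  -- ellipticity constants
  set lo : ℝ := Real.exp (n * Real.log c - (n - 1) * Real.log C2) with hlo_def
  have hlo : 0 < lo := Real.exp_pos _
  have hlogc : Real.log c ≤ 0 := Real.log_nonpos hc.c_pos.le hc.c_le
  have hlogC : 0 ≤ Real.log C2 := Real.log_nonneg hc.C2_ge
  have hn0 : (0 : ℝ) ≤ n := Nat.cast_nonneg n
  have hlohi : lo ≤ C2 := by
    have h1 : n * Real.log c - (n - 1) * Real.log C2 ≤ Real.log C2 := by
      have h2 : n * Real.log c ≤ 0 := mul_nonpos_of_nonneg_of_nonpos hn0 hlogc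
      have h3 : 0 ≤ n * Real.log C2 := mul_nonneg hn0 hlogC
      linarith
    calc lo ≤ Real.exp (Real.log C2) := Real.exp_le_exp.2 h1
      _ = C2 := Real.exp_log hC2pos
  have hP2 : ContDiff ℝ 2 P := by exact_mod_cast contDiff_infty.1 hP.tst.smooth 2
  have hpsym : ∀ s x i j, pm P s x i j = pm P s x j i := by
    intro s x i j
    simp only [pm, Matrix.of_apply]
    rw [ExtInv.Hs_symm hP2]
  have hp1 : ∀ s : ℝ, 0 ≤ s → s ≤ 1 → ∀ x (z : Fin n → ℝ),
      c * ∑ i, z i ^ 2 ≤ ∑ i, z i ^ 2 + MaxP.Q (pm P s x) z := by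
    intro s h0 h1 x z; rw [Q_pm]; exact hc.lower s h0 h1 x z
  have hp2 : ∀ s : ℝ, 0 ≤ s → s ≤ 1 → ∀ x (z : Fin n → ℝ),
      ∑ i, z i ^ 2 + MaxP.Q (pm P s x) z ≤ C2 * ∑ i, z i ^ 2 := by
    intro s h0 h1 x z; rw [Q_pm]; exact hc.upper s h0 h1 x z
  -- third derivatives
  obtain ⟨K3, hK3⟩ := hD3 n P hP lo C2 hlo hlohi
  set L3 : ℝ := n * |K3| with hL3
  have hL30 : 0 ≤ L3 := by positivity
  -- decay
  set R : ℝ := max R0 (5 * (n / lo)) with hR
  have hR0 : 0 ≤ R := hc.R0_pos.le.trans (le_max_left _ _)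
  have hRT : 5 * (n / lo) ≤ 1 + R ^ 2 := by
    have h1 : 5 * (n / lo) ≤ R := le_max_right _ _
    nlinarith [sq_nonneg (R - 1)]
  set l : ℝ := -(n * Real.log c) with hl
  set pr : ℝ := (1 + R ^ 2) ^ (-(1 / 4) : ℝ) with hpr
  have hpr0 : 0 < pr := Real.rpow_pos_of_pos (by positivity) _
  set K : ℝ := (|C2 - 1| + |l|) / pr with hK
  have hK0 : 0 ≤ K := by positivity
  have hKpr : K * pr = |C2 - 1| + |l| := div_mul_cancel₀ _ hpr0.ne'
  have hK1 : C2 - 1 ≤ K * pr := by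
    rw [hKpr]; linarith [le_abs_self (C2 - 1), abs_nonneg l]
  have hK2 : l ≤ K * pr := by
    rw [hKpr]; linarith [le_abs_self l, abs_nonneg (C2 - 1)]
  -- the uniform statements
  have hmain : ∀ s : ℝ, 0 ≤ s → s ≤ 1 → ∀ v : E n → ℝ, Nice v →
      (∃ lo' hi' : ℝ, 0 < lo' ∧ ∀ x, Ell lo' hi' (gm v x)) → MAeq P s v →
      (∀ x, Ell lo C2 (gm v x)) ∧
      (∀ x, 0 ≤ ‖x‖ → ∀ i j, |Hs v x i j| ≤ n * K * (1 + ‖x‖ ^ 2) ^ (-(1 / 4) : ℝ)) ∧
      (∀ x y i j, |Hs v x i j - Hs v y i j| ≤ L3 * ‖x - y‖) := by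
    intro s hs0 hs1 v hv hell' hma
    obtain ⟨lo', hi', hlo', hell'⟩ := hell'
    have hv4 : ContDiff ℝ 4 v := by exact_mod_cast contDiff_infty.1 hv.smooth 4
    obtain ⟨H1, H2⟩ := hPw n P v s lo' hi' hP.tst.smooth hv.smooth hlo' hell' hma
    have hell : ∀ x, Ell lo C2 (gm v x) := MaxP.E12 hv4 hlo' hell' hc.c_pos hC2pos
      (hpsym s) (hp1 s hs0 hs1) (hp2 s hs0 hs1) H1 H2
    refine ⟨hell, ?_, ?_⟩
    · have hdet := MaxP.E2_det hv4 hlo' hell' hc.c_pos (hpsym s) (hp1 s hs0 hs1) H2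
      have hfar : ∀ x, R < ‖x‖ → pm P s x = 0 := fun x hx =>
        pm_eq_zero s (hc.far x ((le_max_left _ _).trans hx.le))
      have h3 := MaxP.E3 hv4 hlo hell (l := l) (fun x => by rw [hl]; linarith [hdet x]) hR0 hRT
        (fun z x hx => by
          have h := H1 z x
          rw [hfar x hx] at h
          have h0 : MaxP.Q (0 : Matrix (Fin n) (Fin n) ℝ) z = 0 := by simp [MaxP.Q]
          rw [h0, sub_zero] at h
          exact h)
        (fun x hx => by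
          have h := H2 x
          rw [hfar x hx, add_zero, mul_one] at h
          exact h)
        hK0 hK1 hK2
      intro x _ i j
      exact (h3 x).2 i j
    · intro x y i j
      have hd : Differentiable ℝ (fun y => Hs v y i j) :=
        (contDiff_Hs hv.smooth i j).differentiable (by simp)
      exact lip_of_partial hd (fun x k => hK3 s hs0 hs1 v hv hell hma x i j k) x y
  -- Hölder constants
  have hC2lo : (1 : ℝ) / C2 ≤ 1 / lo := one_div_le_one_div_of_le hlo hlohi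
  obtain ⟨ε₀, hε₀, hcore⟩ := apr_core hS hG (n := n) ha ha1 (lo := 1 / C2) (hi := 1 / lo)
    (by positivity) hC2lo
  obtain ⟨Rτ, -, -, hRτ⟩ := ExtSm.ext_small (R1 := 0) n ha ha1 hlo hlohi
    (K := n * K) (K3 := L3) (by positivity) hL30 hε₀
  obtain ⟨M2, hM2, hM2'⟩ := hcore (2 * (1 / lo) + (n : ℝ) ^ 2 * (1 / lo) ^ 2 * L3) Rτ M0
  refine ⟨lo, C2, 2 * (C2 + 1) + L3, M2, hlo, hlohi, fun ε hε => ?_⟩
  obtain ⟨Rε, -, -, hRε⟩ := ExtSm.ext_small (R1 := 0) n ha ha1 hlo hlohi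
    (K := n * K) (K3 := L3) (by positivity) hL30 hε
  refine ⟨Rε, fun s hs0 hs1 v hv hev hell' hma => ?_⟩
  obtain ⟨hell, hdec, hlip⟩ := hmain s hs0 hs1 v hv hell' hma
  have hv2 : ContDiff ℝ 2 v := by exact_mod_cast contDiff_infty.1 hv.smooth 2
  have hv3 : ContDiff ℝ 3 v := by exact_mod_cast contDiff_infty.1 hv.smooth 3
  refine ⟨hell, ⟨hv2, hev, fun i j => ?_⟩, ?_, ?_, ?_⟩
  · exact ExtSm.hb_Hs ha ha1 hlo hlohi hL30 hell hlip i j
  · -- the a priori estimate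
    obtain ⟨K', hK'⟩ := hv.bdd 3 (by norm_num)
    have hDat := GapD.dat_of_maeq_bdd (M0 := M0) hlo
      (hP.tst.smooth.of_le (by exact_mod_cast le_top)) hc.bdd (GapD.tst_pd_pg hP.tst)
      (abs_le.2 ⟨by linarith, hs1⟩) hv3 hK' hell hma
    refine hM2' (fun x => s * P x) (tauf v) hDat
      (fun i j => ExtSm.hb_tauf ha ha1 hlo hlohi hL30 hell hlip i j) ?_
    intro x y hx hy i j
    exact (hRτ v hell hdec hlip x y hx hy i j).2
  · intro x hx i j
    exact (hRε v hell hdec hlip x x hx hx i j).1.1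
  · intro x y hx hy i j
    exact (hRε v hell hdec hlip x y hx hy i j).1.2

end Crest.Agent.R238.Apr
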