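import Crest.Agent.R238.ECalFin
import Crest.Agent.R238.AprMain

/-!
Row 238, module H8: `D3Stmt` (uniform bound of the third derivatives): helper254.
-/

set_option autoImplicit false

open scoped ContDiff Topology
open Set Filter Finset

noncomputable section

namespace Crest.Agent.R238.ECal

open Crest.Agent.R238

theorem fderiv_comp_le {F W : Type*} [NormedAddCommGroup F] [NormedSpace ℝ F]
    [NormedAddCommGroup W] [NormedSpace ℝ W] {G : F → W} (L : W →L[ℝ] ℝ) {K : ℝ}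
    (hL : ∀ w, |L w| ≤ K * ‖w‖) (hK : 0 ≤ K) {x : F} (hG : DifferentiableAt ℝ G x) (c : F) :
    |fderiv ℝ (fun y => L (G y)) x c| ≤ K * (‖iteratedFDeriv ℝ 1 G x‖ * ‖c‖) := by
  have h : HasFDerivAt (fun y => L (G y)) (L.comp (fderiv ℝ G x)) x :=
    L.hasFDerivAt.comp x hG.hasFDerivAt
  rw [h.fderiv, norm_iteratedFDeriv_one]
  refine (hL _).trans (mul_le_mul_of_nonneg_left ?_ hK)
  exact ContinuousLinearMap.le_opNorm _ _

/-- third directional derivative against the norm of the third iterated derivative -/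
theorem third_le {F : Type*} [NormedAddCommGroup F] [NormedSpace ℝ F] {v : F → ℝ}
    (hv : ContDiff ℝ ∞ v) (x a b c : F) :
    |fderiv ℝ (fun y => fderiv ℝ (fderiv ℝ v) y a b) x c| ≤
      ‖a‖ * ‖b‖ * (‖iteratedFDeriv ℝ 3 v x‖ * ‖c‖) := by
  have h1 : ‖iteratedFDeriv ℝ 1 (fderiv ℝ (fderiv ℝ v)) x‖ = ‖iteratedFDeriv ℝ 3 v x‖ := by
    rw [norm_iteratedFDeriv_fderiv, norm_iteratedFDeriv_fderiv]
  have hs1 : ContDiff ℝ ∞ (fderiv ℝ v) := hv.fderiv_right (m := ∞) (by simp)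
  have hs2 : ContDiff ℝ ∞ (fderiv ℝ (fderiv ℝ v)) := hs1.fderiv_right (m := ∞) (by simp)
  have h := fderiv_comp_le (G := fderiv ℝ (fderiv ℝ v))
    ((ContinuousLinearMap.apply ℝ ℝ b).comp (ContinuousLinearMap.apply ℝ (F →L[ℝ] ℝ) a))
    (K := ‖a‖ * ‖b‖) (fun w => ?_) (by positivity) ((hs2.differentiable (by simp)) x) c
  · rw [h1] at h
    exact h
  · simp only [ContinuousLinearMap.comp_apply, ContinuousLinearMap.apply_apply]
    rw [← Real.norm_eq_abs]
    calc ‖w a b‖ ≤ ‖w a‖ * ‖b‖ := ContinuousLinearMap.le_opNorm _ _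
      _ ≤ ‖w‖ * ‖a‖ * ‖b‖ := by gcongr; exact ContinuousLinearMap.le_opNorm _ _
      _ = ‖a‖ * ‖b‖ * ‖w‖ := by ring

/-- third derivatives of a `Nice` function are bounded entrywise -/
theorem nice_d3 {n : ℕ} {v : E n → ℝ} (hv : Nice v) :
    ∃ C : ℝ, 0 ≤ C ∧ ∀ x a b c, |D3 v x a b c| ≤ C := by
  obtain ⟨C, hC⟩ := hv.bdd 3 (by norm_num)
  have hC0 : 0 ≤ C := (norm_nonneg _).trans (hC 0)
  refine ⟨C, hC0, fun x a b c => ?_⟩
  have h := third_le hv.smooth x (ee a) (ee b) (ee c)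
  have hn : ∀ i : Fin n, ‖(ee i : E n)‖ = 1 := fun i => by simp
  rw [hn, hn, hn, one_mul, one_mul, mul_one] at h
  exact h.trans (hC x)

theorem d3Stmt : Apr.D3Stmt := by
  intro n P hP lo hi hlo hlohi
  obtain ⟨c, C2, C3, M0, R0, hc⟩ := Apr.exists_PC hP
  set K : ℝ := (n : ℝ) ^ 3 * C3 ^ 2 with hKdef
  have hK0 : 0 ≤ K := by positivity
  refine ⟨Real.sqrt (hi ^ 3 * (4 * (lo⁻¹ ^ 3 * K))), ?_⟩
  intro s hs0 hs1 v hv hell hma x i j k
  have hn : 0 < n := i.pos
  obtain ⟨C, hC0, hC⟩ := nice_d3 hv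
  have hsum : ∀ (f : Fin n → Fin n → Fin n → ℝ) (M : ℝ), (∀ a b c, |f a b c| ≤ M) →
      ∑ a, ∑ b, ∑ c, f a b c ^ 2 ≤ (n : ℝ) ^ 3 * M ^ 2 := by
    intro f M hf
    have h1 : ∀ a b c, f a b c ^ 2 ≤ M ^ 2 := fun a b c => by
      rw [← sq_abs]
      exact pow_le_pow_left₀ (abs_nonneg _) (hf a b c) 2
    calc ∑ a, ∑ b, ∑ c, f a b c ^ 2 ≤ ∑ a : Fin n, ∑ b : Fin n, ∑ c : Fin n, M ^ 2 :=
          Finset.sum_le_sum fun a _ => Finset.sum_le_sum fun b _ =>
            Finset.sum_le_sum fun c _ => h1 a b c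
      _ = (n : ℝ) ^ 3 * M ^ 2 := by
          simp only [Finset.sum_const, Finset.card_univ, Fintype.card_fin, nsmul_eq_mul]
          ring
  have h := d3_bound hn hv.smooth hP.tst.smooth hlo hell hma (K := K) (by
      intro y z
      have h1 := hc.lower s hs0 hs1 y z
      have h2 : ∑ i, ∑ j, ((if i = j then (1:ℝ) else 0) + s * Hs P y i j) * z i * z j =
          ∑ i, z i ^ 2 + s * ∑ i, ∑ j, Hs P y i j * z i * z j := by
        simp only [add_mul, Finset.sum_add_distrib, Finset.mul_sum]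
        congr 1
        · refine Finset.sum_congr rfl fun i _ => ?_
          simp [pow_two]
        · refine Finset.sum_congr rfl fun i _ => Finset.sum_congr rfl fun j _ => by ring
      rw [h2]
      exact le_trans (mul_nonneg hc.c_pos.le (Finset.sum_nonneg fun i _ => sq_nonneg _)) h1) (by
      intro y
      refine hsum (fun a b c => s * D3 P y a b c) C3 fun a b c => ?_
      rw [abs_mul, abs_of_nonneg hs0]
      have := hc.third y a b c
      calc s * |D3 P y a b c| ≤ 1 * |D3 P y a b c| :=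
            mul_le_mul_of_nonneg_right hs1 (abs_nonneg _)
        _ ≤ C3 := by rw [one_mul]; exact this)
      (fun y => hsum (fun a b c => D3 v y a b c) C fun a b c => hC y a b c) x
  have h1 : D3 v x i j k ^ 2 ≤ ∑ a, ∑ b, ∑ c, D3 v x a b c ^ 2 := by
    have e1 : D3 v x i j k ^ 2 ≤ ∑ c, D3 v x i j c ^ 2 :=
      Finset.single_le_sum (f := fun c => D3 v x i j c ^ 2) (fun c _ => sq_nonneg _)
        (Finset.mem_univ k)
    have e2 : ∑ c, D3 v x i j c ^ 2 ≤ ∑ b, ∑ c, D3 v x i b c ^ 2 :=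
      Finset.single_le_sum (f := fun b => ∑ c, D3 v x i b c ^ 2)
        (fun b _ => Finset.sum_nonneg fun c _ => sq_nonneg _) (Finset.mem_univ j)
    have e3 : ∑ b, ∑ c, D3 v x i b c ^ 2 ≤ ∑ a, ∑ b, ∑ c, D3 v x a b c ^ 2 :=
      Finset.single_le_sum (f := fun a => ∑ b, ∑ c, D3 v x a b c ^ 2)
        (fun a _ => Finset.sum_nonneg fun b _ => Finset.sum_nonneg fun c _ => sq_nonneg _)
        (Finset.mem_univ i)
    exact e1.trans (e2.trans e3)
  exact Real.abs_le_sqrt (h1.trans h)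

end Crest.Agent.R238.ECal
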