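import Crest.Agent.R238.AprFin
import Crest.Agent.R238.ECalD3

/-!
Row 238, node APR (helper143): **uniform a priori bounds, unconditional**.
-/

set_option autoImplicit false

namespace Crest.Agent.R238

theorem apr : AprStmt := Apr.apr_of_d3 ECal.d3Stmt

end Crest.Agent.R238
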