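import Mathlib

/-!
Row 238 (S0369), module H4 (GAP) of the existence part: common definitions (helper469).
-/

set_option autoImplicit false

open MeasureTheory Real Set Filter Topology

namespace Crest.Agent.R238.Gap

/-- the space. -/
abbrev E (n : ℕ) := EuclideanSpace ℝ (Fin n)

/-- the standard basis. -/
noncomputable abbrev e {n : ℕ} (i : Fin n) : E n := EuclideanSpace.single i (1 : ℝ)

/-- partial derivative. -/
noncomputable def pd {n : ℕ} (i : Fin n) (f : E n → ℝ) (x : E n) : ℝ := fderiv ℝ f x (e i)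

/-- Hessian entries. -/
noncomputable def H {n : ℕ} (h : E n → ℝ) (x : E n) (i j : Fin n) : ℝ :=
  fderiv ℝ (fun y => fderiv ℝ h y) x (e i) (e j)

/-- the weight `exp (-(|x|²/2 + P x))`. -/
noncomputable def wt {n : ℕ} (P : E n → ℝ) (x : E n) : ℝ := exp (-(‖x‖ ^ 2 / 2 + P x))

/-- polynomial growth. -/
def PG {n : ℕ} (f : E n → ℝ) : Prop := ∃ K : ℝ, ∃ k : ℕ, ∀ x, |f x| ≤ K * (1 + ‖x‖) ^ k

/-- the operator `L h = ∑ τ_ij h_ij - x·∇h`. -/
noncomputable def Lop {n : ℕ} (τ : E n → Matrix (Fin n) (Fin n) ℝ) (h : E n → ℝ) (x : E n) : ℝ :=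
  (∑ i, ∑ j, τ x i j * H h x i j) - fderiv ℝ h x x

/-- even function. -/
def Ev {n : ℕ} (h : E n → ℝ) : Prop := ∀ x, h (-x) = h x

/-- Hypotheses on the data `(P, τ)` : `τ = (D²u)⁻¹`, `u = |x|²/2 + v`, `u` of class `C³`,
`log det D²u = x·∇u - u - |x|²/2 - P + c`. -/
structure Dat {n : ℕ} (lo hi M0 : ℝ) (P : E n → ℝ) (τ : E n → Matrix (Fin n) (Fin n) ℝ) : Prop where
  hP : ContDiff ℝ 1 P
  bP : ∀ x, |P x| ≤ M0
  gP : ∀ i, PG (pd i P)
  hτ : ∀ i j, ContDiff ℝ 1 (fun x => τ x i j)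
  gτ : ∀ k i j, PG (pd k (fun x => τ x i j))
  symm : ∀ x i j, τ x i j = τ x j i
  lower : ∀ x (v : Fin n → ℝ), lo * ∑ i, v i ^ 2 ≤ ∑ i, ∑ j, τ x i j * v i * v j
  upper : ∀ x (v : Fin n → ℝ), ∑ i, ∑ j, τ x i j * v i * v j ≤ hi * ∑ i, v i ^ 2
  /-- divergence identity `∑_a (∂_a τ_ab - τ_ab (x_a + ∂_a P)) = - x_b`. -/
  div : ∀ x b, (∑ a, (pd a (fun y => τ y a b) x - τ x a b * (x a + pd a P x))) = - x b
  /-- Hessian structure: `∑_e τ_ea ∂_e τ_bc` is symmetric in `a, b`. -/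
  tsym : ∀ x a b c, (∑ k, τ x k a * pd k (fun y => τ y b c) x) =
    ∑ k, τ x k b * pd k (fun y => τ y a c) x

end Crest.Agent.R238.Gap
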