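import Mathlib
import Crest.Agent.R238.HolDefs
import Crest.Agent.R238.StepDefs
import Crest.Agent.R238.TopDefs
import Crest.Agent.R238.GapDefs

/-!
Row 238, node APR (helper143): Props used in the a priori assembly.
-/

set_option autoImplicit false

open Set Filter
open scoped ContDiff Topology

namespace Crest.Agent.R238.Apr

open Crest.Agent.R238

/-- far smallness of a matrix field `A` (entries minus identity) in `C^a` outside `B_R`. -/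
def Far {n : ℕ} (a ε R : ℝ) (A : E n → Matrix (Fin n) (Fin n) ℝ) : Prop :=
  ∀ x y, R ≤ ‖x‖ → R ≤ ‖y‖ → ∀ i j,
    |A x i j - (1 : Matrix (Fin n) (Fin n) ℝ) i j| ≤ ε ∧ |A x i j - A y i j| ≤ ε * ‖x - y‖ ^ a

/-- (B): Schauder estimate with variable coefficients. -/
def SchStmt : Prop := ∀ (n : ℕ) (a lo hi : ℝ), 0 < a → a < 1 → 0 < lo → lo ≤ hi →
  ∃ ε₀ : ℝ, 0 < ε₀ ∧ ∀ M R : ℝ, ∃ C R' : ℝ, 0 < C ∧
    ∀ τ : E n → Matrix (Fin n) (Fin n) ℝ, (∀ x, Ell lo hi (τ x)) →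
      (∀ i j, HB a M (fun x => τ x i j)) → Far a ε₀ R τ →
      ∀ lam : ℝ, (lam = 0 ∨ lam = 1) → ∀ (h : E n → ℝ) (N S : ℝ), ContDiff ℝ 2 h →
        (∃ B, ∀ i j, HB a B (fun x => Hs h x i j)) →
        HB a N (fun x => LA τ h x + lam * h x) → (∀ x, ‖x‖ ≤ R' → |h x| ≤ S) →
        ∀ i j, HB a (C * (N + S)) (fun x => Hs h x i j)

/-- (C): local sup bound from the spectral gap (helper469, final export). -/
def SupStmt : Prop := ∀ (n : ℕ) (lo hi M0 R ε : ℝ), 0 < lo → lo ≤ hi → 0 < ε →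
  ∃ K : ℝ, 0 ≤ K ∧ ∀ (P : E n → ℝ) (τ : E n → Matrix (Fin n) (Fin n) ℝ),
    Gap.Dat lo hi M0 P τ → ∀ h : E n → ℝ, Gap.Ev h → ContDiff ℝ 2 h → ∀ B N : ℝ, 0 ≤ B →
      (∀ x i j, |Gap.H h x i j| ≤ B) → (∀ x, |Gap.Lop τ h x + h x| ≤ N) →
      ∀ x, ‖x‖ ≤ R → |h x| ≤ ε * B + K * N

/-- the uniform a priori estimate for `L + 1` (input of H5) from (B) and (C). -/
theorem apr_core (hS : SchStmt) (hG : SupStmt) {n : ℕ} {a lo hi : ℝ} (ha : 0 < a) (ha1 : a < 1)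
    (hlo : 0 < lo) (hlohi : lo ≤ hi) :
    ∃ ε₀ : ℝ, 0 < ε₀ ∧ ∀ M R M0 : ℝ, ∃ M2 : ℝ, 0 < M2 ∧
      ∀ (P : E n → ℝ) (τ : E n → Matrix (Fin n) (Fin n) ℝ), Gap.Dat lo hi M0 P τ →
        (∀ i j, HB a M (fun x => τ x i j)) → Far a ε₀ R τ → APr a M2 τ := by
  obtain ⟨ε₀, hε₀, H⟩ := hS n a lo hi ha ha1 hlo hlohi
  refine ⟨ε₀, hε₀, fun M R M0 => ?_⟩
  obtain ⟨C, R', hC, HB1⟩ := H M R
  obtain ⟨K, hK, HC⟩ := hG n lo hi M0 (max R' 0) (1 / (2 * C)) hlo hlohi (by positivity)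
  refine ⟨C * (2 + 2 * K), by positivity, ?_⟩
  intro P τ hD hτ hfar h N hh hf i j
  obtain ⟨B, hB⟩ := hh
  have hell : ∀ x, Ell lo hi (τ x) := fun x => ⟨fun i j => hD.symm x i j,
    fun z => ⟨hD.lower x z, hD.upper x z⟩⟩
  have hcont : Continuous h := hB.c2.continuous
  -- the maximum of `|h|` on the ball
  have hcomp : IsCompact (Metric.closedBall (0 : E n) (max R' 0)) := isCompact_closedBall _ _
  obtain ⟨x0, hx0, hmax⟩ := hcomp.exists_isMaxOn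
    ⟨0, Metric.mem_closedBall_self (le_max_right _ _)⟩ (hcont.abs.continuousOn)
  set S0 := |h x0| with hS0
  have hS0' : ∀ x, ‖x‖ ≤ R' → |h x| ≤ S0 := fun x hx =>
    hmax (mem_closedBall_zero_iff.2 (hx.trans (le_max_left _ _)))
  have hN : 0 ≤ N := (abs_nonneg _).trans (hf.1 0)
  have h1 := HB1 τ hell hτ hfar 1 (Or.inr rfl) h N S0 hB.c2 ⟨B, hB.hb⟩
    (by simpa only [one_mul] using hf) hS0'
  have h2 : |h x0| ≤ 1 / (2 * C) * (C * (N + S0)) + K * N := by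
    refine HC P τ hD h hB.even hB.c2 _ N (mul_nonneg hC.le (add_nonneg hN (abs_nonneg _)))
      (fun x i j => (h1 i j).1 x) (fun x => hf.1 x) x0 ?_
    exact mem_closedBall_zero_iff.1 hx0
  have h3 : 1 / (2 * C) * (C * (N + S0)) = (N + S0) / 2 := by field_simp
  rw [h3, ← hS0] at h2
  have h4 : S0 ≤ N + 2 * K * N := by linarith
  have h5 : C * (N + S0) ≤ C * (2 + 2 * K) * N := by
    have : N + S0 ≤ (2 + 2 * K) * N := by linarith
    calc C * (N + S0) ≤ C * ((2 + 2 * K) * N) := mul_le_mul_of_nonneg_left this hC.le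
      _ = C * (2 + 2 * K) * N := by ring
  refine ⟨fun x => ((h1 i j).1 x).trans h5, fun x y => ((h1 i j).2 x y).trans ?_⟩
  exact mul_le_mul_of_nonneg_right h5 (Real.rpow_nonneg (norm_nonneg _) _)

end Crest.Agent.R238.Apr
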