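import Mathlib

/-!
Row 238, module H8 (Calabi algebra), abstract part: helper254.
-/

set_option autoImplicit false

namespace Crest.Agent.R238.ECal

open Finset

/-- Abstract Monge--Ampere system: commuting derivations, Hessian matrix `g`, inverse `t`,
differentiated equation `tau_ab D_e g_ab = x_a g_ae - p_e`. -/
structure Sys (n : ℕ) (A : Type*) [CommRing A] [Algebra ℝ A] where
  D : Fin n → Derivation ℝ A A
  comm : ∀ a b f, D a (D b f) = D b (D a f)
  x : Fin n → A
  Dx : ∀ a b, D a (x b) = if a = b then 1 else 0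
  g : Fin n → Fin n → A
  gsymm : ∀ a b, g a b = g b a
  gcod : ∀ a b c, D c (g a b) = D a (g c b)
  t : Fin n → Fin n → A
  tsymm : ∀ a b, t a b = t b a
  tg : ∀ a b, ∑ c, t a c * g c b = if a = b then 1 else 0
  p : Fin n → A
  pcod : ∀ a b, D a (p b) = D b (p a)
  eq : ∀ e, ∑ a, ∑ b, t a b * D e (g a b) = ∑ a, x a * g a e - p e

variable {n : ℕ} {A : Type*} [CommRing A] [Algebra ℝ A] (s : Sys n A)

namespace Sys

/-- the operator `L f = tau_ab D_a D_b f - x_a D_a f`. -/
def L (f : A) : A := ∑ a, ∑ b, s.t a b * s.D a (s.D b f) - ∑ a, s.x a * s.D a f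

/-- carre du champ. -/
def Gam (f h : A) : A := ∑ a, ∑ b, s.t a b * (s.D a f * s.D b h)

lemma D_mul (a : Fin n) (f h : A) : s.D a (f * h) = f * s.D a h + h * s.D a f := by
  simp [Derivation.leibniz]

lemma D_sum {ι : Type*} (S : Finset ι) (a : Fin n) (f : ι → A) :
    s.D a (∑ i ∈ S, f i) = ∑ i ∈ S, s.D a (f i) := map_sum (s.D a) f S

lemma D_delta (a i j : Fin n) : s.D a ((if i = j then 1 else 0 : A)) = 0 := by
  split_ifs <;> simp

lemma gt (a b : Fin n) : ∑ c, s.g a c * s.t c b = if a = b then 1 else 0 := by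
  have h := s.tg b a
  rw [show (∑ c, s.g a c * s.t c b) = ∑ c, s.t b c * s.g c a from
    Finset.sum_congr rfl fun c _ => by rw [s.gsymm a c, s.tsymm c b]; ring]
  rw [h]
  by_cases hab : a = b
  · subst hab; simp
  · rw [if_neg hab, if_neg (Ne.symm hab)]

/-- derivative of the inverse. -/
lemma D_t (c a b : Fin n) :
    s.D c (s.t a b) = - ∑ i, ∑ j, s.t a i * s.D c (s.g i j) * s.t j b := by
  have h1 : ∀ k, ∑ i, s.D c (s.t a i) * s.g i k = - ∑ i, s.t a i * s.D c (s.g i k) := by
    intro k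
    have h := congrArg (s.D c) (s.tg a k)
    rw [s.D_delta, s.D_sum] at h
    have h2 : ∑ i, s.D c (s.t a i * s.g i k) =
        ∑ i, s.t a i * s.D c (s.g i k) + ∑ i, s.D c (s.t a i) * s.g i k := by
      rw [← Finset.sum_add_distrib]
      refine Finset.sum_congr rfl fun i _ => ?_
      rw [s.D_mul]; ring
    rw [h2] at h
    linear_combination h
  have h3 : s.D c (s.t a b) = ∑ k, (∑ i, s.D c (s.t a i) * s.g i k) * s.t k b := by
    have : ∑ k, (∑ i, s.D c (s.t a i) * s.g i k) * s.t k b =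
        ∑ i, s.D c (s.t a i) * ∑ k, s.g i k * s.t k b := by
      simp only [Finset.sum_mul, Finset.mul_sum]
      rw [Finset.sum_comm]
      refine Finset.sum_congr rfl fun i _ => Finset.sum_congr rfl fun k _ => by ring
    rw [this]
    simp only [s.gt]
    simp
  rw [h3]
  simp only [h1]
  simp only [neg_mul, Finset.sum_neg_distrib, Finset.sum_mul]
  rw [Finset.sum_comm]

lemma L_mul (f h : A) : s.L (f * h) = f * s.L h + h * s.L f + 2 * s.Gam f h := by
  have e1 : ∀ a b, s.D a (s.D b (f * h)) =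
      f * s.D a (s.D b h) + h * s.D a (s.D b f) + s.D a f * s.D b h + s.D b f * s.D a h := by
    intro a b
    rw [s.D_mul b, map_add, s.D_mul, s.D_mul]; ring
  have e2 : ∑ a, ∑ b, s.t a b * (s.D b f * s.D a h) = s.Gam f h := by
    rw [Finset.sum_comm]
    refine Finset.sum_congr rfl fun a _ => Finset.sum_congr rfl fun b _ => by rw [s.tsymm b a]
  have e3 : ∑ a, ∑ b, s.t a b * s.D a (s.D b (f * h)) =
      f * ∑ a, ∑ b, s.t a b * s.D a (s.D b h) + h * ∑ a, ∑ b, s.t a b * s.D a (s.D b f)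
        + s.Gam f h + ∑ a, ∑ b, s.t a b * (s.D b f * s.D a h) := by
    unfold Gam
    simp only [Finset.mul_sum, ← Finset.sum_add_distrib]
    refine Finset.sum_congr rfl fun a _ => Finset.sum_congr rfl fun b _ => ?_
    rw [e1]; ring
  have e4 : ∑ a, s.x a * s.D a (f * h) = f * ∑ a, s.x a * s.D a h + h * ∑ a, s.x a * s.D a f := by
    simp only [Finset.mul_sum, ← Finset.sum_add_distrib]
    refine Finset.sum_congr rfl fun a _ => ?_
    rw [s.D_mul]; ring
  unfold L
  rw [e3, e4, e2]; ring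

lemma L_add (f h : A) : s.L (f + h) = s.L f + s.L h := by
  unfold L
  simp only [map_add, mul_add, Finset.sum_add_distrib]
  ring

lemma L_zero : s.L 0 = 0 := by simp [L]

lemma L_sum {ι : Type*} (S : Finset ι) (f : ι → A) :
    s.L (∑ i ∈ S, f i) = ∑ i ∈ S, s.L (f i) := by
  classical
  induction S using Finset.induction_on with
  | empty => simp [s.L_zero]
  | insert i S hi ih => rw [Finset.sum_insert hi, Finset.sum_insert hi, s.L_add, ih]

lemma T_symm1 (a b c : Fin n) : s.D c (s.g a b) = s.D c (s.g b a) := by rw [s.gsymm a b]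
lemma T_symm2 (a b c : Fin n) : s.D c (s.g a b) = s.D b (s.g a c) := by
  rw [s.gsymm a b, s.gcod b a c, s.gsymm c a]

lemma F_symm (a b e f : Fin n) : s.D f (s.D e (s.g a b)) = s.D a (s.D b (s.g e f)) := by
  rw [s.gcod a b e, s.comm f a, s.T_symm1 e b f, s.gcod b e f, s.T_symm1 f e b]

/-- (E1) -/
lemma E1 (e f : Fin n) : s.L (s.g e f) =
    ∑ a, ∑ b, ∑ i, ∑ j, s.t a i * s.t b j * (s.D f (s.g i j) * s.D e (s.g a b))
      + s.g e f - s.D f (s.p e) := by
  have h := congrArg (s.D f) (s.eq e)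
  rw [map_sub, s.D_sum, s.D_sum] at h
  have h1 : ∀ a, s.D f (∑ b, s.t a b * s.D e (s.g a b)) =
      ∑ b, s.t a b * s.D a (s.D b (s.g e f)) -
        ∑ b, ∑ i, ∑ j, s.t a i * s.t b j * (s.D f (s.g i j) * s.D e (s.g a b)) := by
    intro a
    rw [s.D_sum, ← Finset.sum_sub_distrib]
    refine Finset.sum_congr rfl fun b _ => ?_
    rw [s.D_mul, s.D_t, s.F_symm]
    simp only [mul_neg, Finset.mul_sum]
    rw [sub_eq_add_neg]
    congr 2
    refine Finset.sum_congr rfl fun i _ => Finset.sum_congr rfl fun j _ => ?_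
    rw [s.tsymm j b]; ring
  have h2 : ∀ a, s.D f (s.x a * s.g a e) = s.x a * s.D a (s.g e f) +
      (if f = a then 1 else 0) * s.g a e := by
    intro a
    rw [s.D_mul, s.Dx, s.gcod a e f, s.T_symm1 f e a]; ring
  simp only [h1, h2, Finset.sum_sub_distrib, Finset.sum_add_distrib] at h
  have h3 : ∑ a, (if f = a then (1:A) else 0) * s.g a e = s.g e f := by
    simp [s.gsymm f e]
  rw [h3] at h
  unfold L
  linear_combination h

end Sys

end Crest.Agent.R238.ECal
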