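import Crest.Agent.R238.StepDefs

/-!
Row 238, node H5 (helper57, second of helper487): pointwise matrix lemmas.

(X) Jacobi's formula and the derivative of `log det` along a path;
(Y) `Ell` matrices: determinant, inverse, perturbation.
-/

set_option autoImplicit false

open MeasureTheory Set Filter
open scoped ContDiff Topology

namespace Crest.Agent.R238

variable {n : ℕ}

/-! ### (X) derivative of `det` and `log det` -/

theorem sm_trace_adjugate_mul (A B : Matrix (Fin n) (Fin n) ℝ) :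
    (A.adjugate * B).trace = ∑ i, (A.updateCol i (fun k => B k i)).det := by
  rw [Matrix.trace]
  refine Finset.sum_congr rfl fun i _ => ?_
  rw [← Matrix.cramer_apply, Matrix.cramer_eq_adjugate_mulVec]
  simp only [Matrix.diag_apply, Matrix.mul_apply, Matrix.mulVec, dotProduct]

/-- Jacobi's formula along a path (entrywise hypothesis). -/
theorem sm_hasDerivWithinAt_det {g : ℝ → Matrix (Fin n) (Fin n) ℝ}
    {g' : Matrix (Fin n) (Fin n) ℝ} {S : Set ℝ} {t : ℝ}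
    (hg : ∀ i j, HasDerivWithinAt (fun s => g s i j) (g' i j) S t) :
    HasDerivWithinAt (fun s => (g s).det) (((g t).adjugate * g').trace) S t := by
  have h1 : ∀ σ : Equiv.Perm (Fin n), HasDerivWithinAt (fun s => ∏ i, g s (σ i) i)
      (∑ i, (∏ j ∈ Finset.univ.erase i, g t (σ j) j) • g' (σ i) i) S t := fun σ =>
    HasDerivWithinAt.fun_finsetProd fun i _ => hg (σ i) i
  have h2 : HasDerivWithinAt
      (fun s => ∑ σ : Equiv.Perm (Fin n), ((Equiv.Perm.sign σ : ℤ) : ℝ) * ∏ i, g s (σ i) i)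
      (∑ σ : Equiv.Perm (Fin n), ((Equiv.Perm.sign σ : ℤ) : ℝ) *
        ∑ i, (∏ j ∈ Finset.univ.erase i, g t (σ j) j) • g' (σ i) i) S t :=
    HasDerivWithinAt.fun_sum fun σ _ => (h1 σ).const_mul _
  have h3 : (fun s => (g s).det) =
      fun s => ∑ σ : Equiv.Perm (Fin n), ((Equiv.Perm.sign σ : ℤ) : ℝ) * ∏ i, g s (σ i) i := by
    funext s
    rw [Matrix.det_apply']
  have h4 : ((g t).adjugate * g').trace = ∑ σ : Equiv.Perm (Fin n),
      ((Equiv.Perm.sign σ : ℤ) : ℝ) *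
        ∑ i, (∏ j ∈ Finset.univ.erase i, g t (σ j) j) • g' (σ i) i := by
    rw [sm_trace_adjugate_mul]
    simp only [Matrix.det_apply', Finset.mul_sum]
    rw [Finset.sum_comm]
    refine Finset.sum_congr rfl fun σ _ => Finset.sum_congr rfl fun i _ => ?_
    rw [← Finset.mul_prod_erase Finset.univ _ (Finset.mem_univ i)]
    have h5 : ∀ j ∈ Finset.univ.erase i,
        (g t).updateCol i (fun k => g' k i) (σ j) j = g t (σ j) j := by
      intro j hj
      rw [Matrix.updateCol_ne (Finset.ne_of_mem_erase hj)]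
    rw [Finset.prod_congr rfl h5, Matrix.updateCol_self, smul_eq_mul]
    ring
  rw [h3, h4]
  exact h2

/-- derivative of `log det` along a path (entrywise hypothesis). -/
theorem sm_hasDerivWithinAt_log_det {g : ℝ → Matrix (Fin n) (Fin n) ℝ}
    {g' : Matrix (Fin n) (Fin n) ℝ} {S : Set ℝ} {t : ℝ}
    (hg : ∀ i j, HasDerivWithinAt (fun s => g s i j) (g' i j) S t) (hd : 0 < (g t).det) :
    HasDerivWithinAt (fun s => Real.log (g s).det) (((g t)⁻¹ * g').trace) S t := by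
  have h1 := (sm_hasDerivWithinAt_det hg).log hd.ne'
  have h2 : ((g t)⁻¹ * g').trace = ((g t).adjugate * g').trace / (g t).det := by
    rw [Matrix.inv_def, Ring.inverse_eq_inv', Matrix.smul_mul, Matrix.trace_smul, smul_eq_mul]
    field_simp
  rw [h2]
  exact h1

theorem sm_trace_mul_sum (A B : Matrix (Fin n) (Fin n) ℝ) :
    (A * B).trace = ∑ i, ∑ j, A i j * B j i := by
  simp only [Matrix.trace, Matrix.diag_apply, Matrix.mul_apply]

/-- derivative of `log det` along a path, sum form, symmetric derivative. -/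
theorem sm_hasDerivWithinAt_log_det_sum {g : ℝ → Matrix (Fin n) (Fin n) ℝ}
    {g' : Matrix (Fin n) (Fin n) ℝ} {S : Set ℝ} {t : ℝ}
    (hg : ∀ i j, HasDerivWithinAt (fun s => g s i j) (g' i j) S t)
    (hs : ∀ i j, g' i j = g' j i) (hd : 0 < (g t).det) :
    HasDerivWithinAt (fun s => Real.log (g s).det) (∑ i, ∑ j, (g t)⁻¹ i j * g' i j) S t := by
  have h := sm_hasDerivWithinAt_log_det hg hd
  rw [sm_trace_mul_sum] at h
  have h2 : (∑ i, ∑ j, (g t)⁻¹ i j * g' i j) = ∑ i, ∑ j, (g t)⁻¹ i j * g' j i := by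
    refine Finset.sum_congr rfl fun i _ => Finset.sum_congr rfl fun j _ => ?_
    rw [hs i j]
  rw [h2]
  exact h

/-! ### (Y) elliptic matrices -/

theorem sm_quad_eq (A : Matrix (Fin n) (Fin n) ℝ) (y z : Fin n → ℝ) :
    z ⬝ᵥ (A.mulVec y) = ∑ i, ∑ j, A i j * z i * y j := by
  simp only [dotProduct, Matrix.mulVec, Finset.mul_sum]
  refine Finset.sum_congr rfl fun i _ => Finset.sum_congr rfl fun j _ => ?_
  ring

theorem Ell.sm_posDef {lo hi : ℝ} (hlo : 0 < lo) {A : Matrix (Fin n) (Fin n) ℝ}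
    (h : Ell lo hi A) : A.PosDef := by
  refine Matrix.PosDef.of_dotProduct_mulVec_pos ?_ ?_
  · ext i j
    simp only [Matrix.conjTranspose_apply, star_trivial]
    exact h.1 j i
  · intro z hz
    have h1 : (star z) = z := by funext i; simp
    rw [h1, sm_quad_eq]
    obtain ⟨i, hi'⟩ : ∃ i, z i ≠ 0 := by
      by_contra hcon
      push Not at hcon
      exact hz (funext hcon)
    have h2 : 0 < ∑ i, z i ^ 2 := by
      refine Finset.sum_pos' (fun i _ => sq_nonneg _) ⟨i, Finset.mem_univ i, ?_⟩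
      positivity
    exact lt_of_lt_of_le (mul_pos hlo h2) (h.2 z).1

theorem Ell.sm_det_pos {lo hi : ℝ} (hlo : 0 < lo) {A : Matrix (Fin n) (Fin n) ℝ}
    (h : Ell lo hi A) : 0 < A.det := (h.sm_posDef hlo).det_pos

theorem Ell.sm_isUnit_det {lo hi : ℝ} (hlo : 0 < lo) {A : Matrix (Fin n) (Fin n) ℝ}
    (h : Ell lo hi A) : IsUnit A.det := (h.sm_det_pos hlo).ne'.isUnit

theorem Ell.sm_isUnit {lo hi : ℝ} (hlo : 0 < lo) {A : Matrix (Fin n) (Fin n) ℝ}
    (h : Ell lo hi A) : IsUnit A := (Matrix.isUnit_iff_isUnit_det A).2 (h.sm_isUnit_det hlo)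

theorem Ell.sm_mul_inv {lo hi : ℝ} (hlo : 0 < lo) {A : Matrix (Fin n) (Fin n) ℝ}
    (h : Ell lo hi A) : A * A⁻¹ = 1 := Matrix.mul_nonsing_inv A (h.sm_isUnit_det hlo)

theorem Ell.sm_inv_mul {lo hi : ℝ} (hlo : 0 < lo) {A : Matrix (Fin n) (Fin n) ℝ}
    (h : Ell lo hi A) : A⁻¹ * A = 1 := Matrix.nonsing_inv_mul A (h.sm_isUnit_det hlo)

theorem Ell.sm_transpose_eq {lo hi : ℝ} {A : Matrix (Fin n) (Fin n) ℝ} (h : Ell lo hi A) :
    A.transpose = A := by
  ext i j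
  exact h.1 j i

theorem Ell.sm_inv_symm {lo hi : ℝ} {A : Matrix (Fin n) (Fin n) ℝ} (h : Ell lo hi A)
    (i j : Fin n) : A⁻¹ i j = A⁻¹ j i := by
  have h1 : (A⁻¹).transpose = A⁻¹ := by
    rw [Matrix.transpose_nonsing_inv, h.sm_transpose_eq]
  exact congrFun (congrFun h1 j) i

theorem Ell.sm_mono {lo hi lo' hi' : ℝ} {A : Matrix (Fin n) (Fin n) ℝ} (h : Ell lo hi A)
    (h1 : lo' ≤ lo) (h2 : hi ≤ hi') : Ell lo' hi' A := by
  refine ⟨h.1, fun z => ?_⟩
  have h3 : 0 ≤ ∑ i, z i ^ 2 := Finset.sum_nonneg fun i _ => sq_nonneg _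
  exact ⟨(mul_le_mul_of_nonneg_right h1 h3).trans (h.2 z).1,
    (h.2 z).2.trans (mul_le_mul_of_nonneg_right h2 h3)⟩

/-- bilinear form bound for entries bounded by `c` -/
theorem sm_quad_abs_le {B : Matrix (Fin n) (Fin n) ℝ} {c : ℝ} (hB : ∀ i j, |B i j| ≤ c)
    (z : Fin n → ℝ) : |∑ i, ∑ j, B i j * z i * z j| ≤ c * n * ∑ i, z i ^ 2 := by
  rcases Nat.eq_zero_or_pos n with rfl | hn
  · simp
  have hc : 0 ≤ c := (abs_nonneg _).trans (hB ⟨0, hn⟩ ⟨0, hn⟩)
  have h1 : |∑ i, ∑ j, B i j * z i * z j| ≤ ∑ i, ∑ j, c * (|z i| * |z j|) := by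
    refine (Finset.abs_sum_le_sum_abs _ _).trans (Finset.sum_le_sum fun i _ => ?_)
    refine (Finset.abs_sum_le_sum_abs _ _).trans (Finset.sum_le_sum fun j _ => ?_)
    rw [abs_mul, abs_mul, mul_assoc]
    exact mul_le_mul_of_nonneg_right (hB i j) (by positivity)
  have h2 : ∑ i, ∑ j, c * (|z i| * |z j|) = c * (∑ i, |z i|) ^ 2 := by
    rw [sq, Finset.sum_mul_sum, Finset.mul_sum]
    refine Finset.sum_congr rfl fun i _ => ?_
    rw [Finset.mul_sum]
  have h3 : (∑ i, |z i|) ^ 2 ≤ n * ∑ i, z i ^ 2 := by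
    have h4 := sq_sum_le_card_mul_sum_sq (s := (Finset.univ : Finset (Fin n)))
      (f := fun i => |z i|)
    simpa [sq_abs] using h4
  calc |∑ i, ∑ j, B i j * z i * z j| ≤ c * (∑ i, |z i|) ^ 2 := h1.trans h2.le
    _ ≤ c * (n * ∑ i, z i ^ 2) := mul_le_mul_of_nonneg_left h3 hc
    _ = c * n * ∑ i, z i ^ 2 := by ring

/-- (Y) perturbation of an elliptic matrix -/
theorem Ell.sm_add_small {lo hi : ℝ} (hlo : 0 ≤ lo) {A B : Matrix (Fin n) (Fin n) ℝ}
    (h : Ell lo hi A) (hs : ∀ i j, B i j = B j i) (hB : ∀ i j, |B i j| ≤ lo / (2 * n)) :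
    Ell (lo / 2) (hi + lo / 2) (A + B) := by
  refine ⟨fun i j => by rw [Matrix.add_apply, Matrix.add_apply, h.1 i j, hs i j], fun z => ?_⟩
  have h3 : 0 ≤ ∑ i, z i ^ 2 := Finset.sum_nonneg fun i _ => sq_nonneg _
  have h4 : ∑ i, ∑ j, (A + B) i j * z i * z j
      = ∑ i, ∑ j, A i j * z i * z j + ∑ i, ∑ j, B i j * z i * z j := by
    rw [← Finset.sum_add_distrib]
    refine Finset.sum_congr rfl fun i _ => ?_
    rw [← Finset.sum_add_distrib]
    refine Finset.sum_congr rfl fun j _ => ?_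
    rw [Matrix.add_apply]
    ring
  have h5 := sm_quad_abs_le hB z
  have h6 : lo / (2 * n) * n * ∑ i, z i ^ 2 ≤ lo / 2 * ∑ i, z i ^ 2 := by
    refine mul_le_mul_of_nonneg_right ?_ h3
    rcases Nat.eq_zero_or_pos n with rfl | hn
    · simp
      positivity
    · have hn' : (0 : ℝ) < n := by exact_mod_cast hn
      have : lo / (2 * n) * n = lo / 2 := by field_simp
      exact this.le
  have h7 := abs_le.1 (h5.trans h6)
  obtain ⟨ha, hb⟩ := h.2 z
  rw [h4]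
  constructor
  · linarith [h7.1]
  · nlinarith [h7.2]

/-- solve `A y = z`: `|y| ≤ |z| / lo` -/
theorem Ell.sm_norm_inv_mulVec {lo hi : ℝ} (hlo : 0 < lo) {A : Matrix (Fin n) (Fin n) ℝ}
    (h : Ell lo hi A) (z : Fin n → ℝ) :
    lo ^ 2 * ∑ i, (A⁻¹.mulVec z) i ^ 2 ≤ ∑ i, z i ^ 2 := by
  set y := A⁻¹.mulVec z with hy
  have h1 : A.mulVec y = z := by
    rw [hy, Matrix.mulVec_mulVec, h.sm_mul_inv hlo, Matrix.one_mulVec]
  have h2 : ∑ i, ∑ j, A i j * y i * y j = ∑ i, y i * z i := by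
    rw [← sm_quad_eq, h1]
    rfl
  have h3 := (h.2 y).1
  rw [h2] at h3
  have h4 : (∑ i, y i * z i) ^ 2 ≤ (∑ i, y i ^ 2) * ∑ i, z i ^ 2 :=
    Finset.sum_mul_sq_le_sq_mul_sq _ _ _
  have h5 : 0 ≤ ∑ i, y i ^ 2 := Finset.sum_nonneg fun i _ => sq_nonneg _
  rcases h5.eq_or_lt with h6 | h6
  · rw [← h6]
    simp only [mul_zero]
    exact Finset.sum_nonneg fun i _ => sq_nonneg _
  · have h7 : (lo * ∑ i, y i ^ 2) ^ 2 ≤ (∑ i, y i ^ 2) * ∑ i, z i ^ 2 :=
      (pow_le_pow_left₀ (by positivity) h3 2).trans h4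
    have h8 : (∑ i, y i ^ 2) * (lo ^ 2 * ∑ i, y i ^ 2) ≤ (∑ i, y i ^ 2) * ∑ i, z i ^ 2 := by
      calc (∑ i, y i ^ 2) * (lo ^ 2 * ∑ i, y i ^ 2) = (lo * ∑ i, y i ^ 2) ^ 2 := by ring
        _ ≤ _ := h7
    exact le_of_mul_le_mul_left h8 h6

/-- (Y) entries of the inverse are bounded by `1/lo` -/
theorem Ell.sm_abs_inv_le {lo hi : ℝ} (hlo : 0 < lo) {A : Matrix (Fin n) (Fin n) ℝ}
    (h : Ell lo hi A) (i j : Fin n) : |A⁻¹ i j| ≤ 1 / lo := by
  have h1 := h.sm_norm_inv_mulVec hlo (Pi.single j 1)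
  have h2 : (A⁻¹.mulVec (Pi.single j 1)) i = A⁻¹ i j := by
    rw [Matrix.mulVec_single_one]
    rfl
  have h3 : ∑ k, (Pi.single j (1 : ℝ) : Fin n → ℝ) k ^ 2 = 1 := by
    rw [Finset.sum_eq_single j]
    · simp
    · intro b _ hb
      simp [Pi.single_eq_of_ne hb]
    · simp
  have h4 : (A⁻¹ i j) ^ 2 ≤ ∑ k, (A⁻¹.mulVec (Pi.single j 1)) k ^ 2 := by
    rw [← h2]
    exact Finset.single_le_sum (f := fun k => (A⁻¹.mulVec (Pi.single j 1)) k ^ 2)
      (fun k _ => sq_nonneg _) (Finset.mem_univ i)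
  rw [h3] at h1
  have h5 : (lo * |A⁻¹ i j|) ^ 2 ≤ 1 ^ 2 := by
    rw [mul_pow, sq_abs, one_pow]
    exact (mul_le_mul_of_nonneg_left h4 (by positivity)).trans h1
  have h6 : lo * |A⁻¹ i j| ≤ 1 := (sq_le_sq₀ (by positivity) zero_le_one).1 h5
  rw [le_div_iff₀ hlo]
  linarith [mul_comm lo |A⁻¹ i j|]

/-- the inverse of an elliptic matrix is elliptic -/
theorem Ell.sm_inv {lo hi : ℝ} (hlo : 0 < lo) (hhi : lo ≤ hi) {A : Matrix (Fin n) (Fin n) ℝ}
    (h : Ell lo hi A) : Ell (1 / hi) (1 / lo) A⁻¹ := by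
  refine ⟨fun i j => h.sm_inv_symm i j, fun z => ?_⟩
  have hhi' : 0 < hi := hlo.trans_le hhi
  set y := A⁻¹.mulVec z with hy
  have h1 : A.mulVec y = z := by
    rw [hy, Matrix.mulVec_mulVec, h.sm_mul_inv hlo, Matrix.one_mulVec]
  have h2 : ∑ i, ∑ j, A⁻¹ i j * z i * z j = ∑ i, z i * y i := by
    rw [← sm_quad_eq]
    rfl
  have h2' : ∑ i, ∑ j, A i j * y i * y j = ∑ i, z i * y i := by
    rw [← sm_quad_eq, h1]
    simp only [dotProduct]
    exact Finset.sum_congr rfl fun i _ => mul_comm _ _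
  have hzz : 0 ≤ ∑ i, z i ^ 2 := Finset.sum_nonneg fun i _ => sq_nonneg _
  have hyy : 0 ≤ ∑ i, y i ^ 2 := Finset.sum_nonneg fun i _ => sq_nonneg _
  rw [h2]
  have h3 : lo ^ 2 * ∑ i, y i ^ 2 ≤ ∑ i, z i ^ 2 := h.sm_norm_inv_mulVec hlo z
  have h4 : (∑ i, z i * y i) ^ 2 ≤ (∑ i, z i ^ 2) * ∑ i, y i ^ 2 :=
    Finset.sum_mul_sq_le_sq_mul_sq _ _ _
  have h5 : 0 ≤ ∑ i, z i * y i := by
    rw [← h2']
    exact (by positivity : 0 ≤ lo * ∑ i, y i ^ 2).trans (h.2 y).1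
  constructor
  · -- lower bound: test the quadratic form of `A` at `hi • y - z`
    have h6 := (h.2 (fun i => hi * y i - z i)).1
    have h7 : ∑ i, ∑ j, A i j * (hi * y i - z i) * (hi * y j - z j)
        = hi ^ 2 * (∑ i, ∑ j, A i j * y i * y j) - 2 * hi * (∑ i, z i ^ 2)
          + ∑ i, ∑ j, A i j * z i * z j := by
      have e1 : ∑ i, ∑ j, A i j * z i * y j = ∑ i, z i ^ 2 := by
        rw [← sm_quad_eq, h1]
        simp only [dotProduct]
        exact Finset.sum_congr rfl fun i _ => (sq _).symm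
      have e2 : ∑ i, ∑ j, A i j * y i * z j = ∑ i, z i ^ 2 := by
        rw [← e1, Finset.sum_comm]
        refine Finset.sum_congr rfl fun i _ => Finset.sum_congr rfl fun j _ => ?_
        rw [h.1 j i]
        ring
      have e3 : ∑ i, ∑ j, A i j * (hi * y i - z i) * (hi * y j - z j)
          = hi ^ 2 * (∑ i, ∑ j, A i j * y i * y j) - hi * (∑ i, ∑ j, A i j * y i * z j)
            - hi * (∑ i, ∑ j, A i j * z i * y j) + ∑ i, ∑ j, A i j * z i * z j := by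
        simp only [Finset.mul_sum, ← Finset.sum_sub_distrib, ← Finset.sum_add_distrib]
        refine Finset.sum_congr rfl fun i _ => Finset.sum_congr rfl fun j _ => ?_
        ring
      rw [e3, e1, e2]
      ring
    rw [h7, h2'] at h6
    have h8 := (h.2 z).2
    have h9 : 0 ≤ lo * ∑ i, (hi * y i - z i) ^ 2 :=
      mul_nonneg hlo.le (Finset.sum_nonneg fun i _ => sq_nonneg _)
    have h10 : hi * (∑ i, z i ^ 2) ≤ hi ^ 2 * ∑ i, z i * y i := by nlinarith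
    rw [div_mul_eq_mul_div, one_mul, div_le_iff₀ hhi']
    have h11 : hi * (∑ i, z i ^ 2) ≤ hi * ((∑ i, z i * y i) * hi) := by
      calc hi * (∑ i, z i ^ 2) ≤ hi ^ 2 * ∑ i, z i * y i := h10
        _ = hi * ((∑ i, z i * y i) * hi) := by ring
    exact le_of_mul_le_mul_left h11 hhi'
  · rw [div_mul_eq_mul_div, one_mul, le_div_iff₀ hlo]
    have h6 : ((∑ i, z i * y i) * lo) ^ 2 ≤ (∑ i, z i ^ 2) ^ 2 := by
      calc ((∑ i, z i * y i) * lo) ^ 2 = lo ^ 2 * (∑ i, z i * y i) ^ 2 := by ring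
        _ ≤ lo ^ 2 * ((∑ i, z i ^ 2) * ∑ i, y i ^ 2) :=
          mul_le_mul_of_nonneg_left h4 (by positivity)
        _ = (∑ i, z i ^ 2) * (lo ^ 2 * ∑ i, y i ^ 2) := by ring
        _ ≤ (∑ i, z i ^ 2) * ∑ i, z i ^ 2 := mul_le_mul_of_nonneg_left h3 hzz
        _ = (∑ i, z i ^ 2) ^ 2 := by ring
    exact (sq_le_sq₀ (by positivity) hzz).1 h6

end Crest.Agent.R238
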