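import Crest.Agent.R238.Ident2

/-!
# Row 238, node IDENT, part 3: the integrated identity
-/

open Finset

namespace Crest.Agent.R238

set_option linter.unusedSectionVars false

/-- An integration functional for a Hessian structure: linear, with integration by
parts against `e^{-θ}` on a differential ideal `I`. -/
structure HInt {ι A : Type*} [Fintype ι] [DecidableEq ι] [CommRing A] [Algebra ℝ A]
    (S : HData ι A) where
  I : Ideal A
  hI : ∀ i f, f ∈ I → S.D i f ∈ I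
  E : A →ₗ[ℝ] ℝ
  ibp : ∀ i f, f ∈ I → E (S.D i f) = E (S.th i * f)

namespace HInt

variable {ι A : Type*} [Fintype ι] [DecidableEq ι] [CommRing A] [Algebra ℝ A]
variable {S : HData ι A} (J : HInt S)

lemma memDU (a : ι) (f : A) (hf : f ∈ J.I) : S.DU a f ∈ J.I := by
  rw [S.DU_apply]
  exact Ideal.sum_mem _ fun i _ => J.I.mul_mem_left _ (J.hI i f hf)

lemma ibpU (a : ι) (f : A) (hf : f ∈ J.I) : J.E (S.DU a f) = J.E (S.Psi a * f) := by
  have h : S.DU a f = ∑ c, (S.D c (S.g a c * f) - S.D c (S.g a c) * f) := by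
    rw [S.DU_apply]
    refine sum_congr rfl fun c _ => ?_
    rw [Derivation.leibniz, smul_eq_mul, smul_eq_mul]; ring
  rw [h, map_sum, HData.Psi, sum_mul, map_sum]
  refine sum_congr rfl fun c _ => ?_
  rw [map_sub, J.ibp c _ (J.I.mul_mem_left _ hf), ← map_sub]
  congr 1; ring

/-- `E(∂^a f · h) = E(f · ∂^{a*} h)`, left factor in the ideal. -/
lemma adjU (a : ι) (f h : A) (hf : f ∈ J.I) :
    J.E (f * (S.Psi a * h - S.DU a h)) = J.E (S.DU a f * h) := by
  have h1 := J.ibpU a (f * h) (J.I.mul_mem_right _ hf)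
  rw [Derivation.leibniz, smul_eq_mul, smul_eq_mul] at h1
  have h2 : f * (S.Psi a * h - S.DU a h) = S.Psi a * (f * h) - f * S.DU a h := by ring
  rw [h2, map_sub, ← h1, map_add]
  rw [mul_comm h (S.DU a f)]; ring

lemma adjU' (a : ι) (f h : A) (hh : h ∈ J.I) :
    J.E (f * (S.Psi a * h - S.DU a h)) = J.E (S.DU a f * h) := by
  have h1 := J.ibpU a (f * h) (J.I.mul_mem_left _ hh)
  rw [Derivation.leibniz, smul_eq_mul, smul_eq_mul] at h1
  have h2 : f * (S.Psi a * h - S.DU a h) = S.Psi a * (f * h) - f * S.DU a h := by ring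
  rw [h2, map_sub, ← h1, map_add]
  rw [mul_comm h (S.DU a f)]; ring

lemma adjD (i : ι) (f h : A) (hf : f ∈ J.I) :
    J.E (f * (S.th i * h - S.D i h)) = J.E (S.D i f * h) := by
  have h1 := J.ibp i (f * h) (J.I.mul_mem_right _ hf)
  rw [Derivation.leibniz, smul_eq_mul, smul_eq_mul] at h1
  have h2 : f * (S.th i * h - S.D i h) = S.th i * (f * h) - f * S.D i h := by ring
  rw [h2, map_sub, ← h1, map_add]
  rw [mul_comm h (S.D i f)]; ring

variable (φ : A) (hφ : φ ∈ J.I)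
include hφ

lemma v_mem (a : ι) : S.v φ a ∈ J.I := J.memDU a φ hφ

lemma Am_mem (a c : ι) : S.Am φ a c ∈ J.I := J.hI _ _ (J.v_mem φ hφ a)

lemma B_mem (d a c : ι) : S.B φ d a c ∈ J.I := J.hI _ _ (J.Am_mem φ hφ a c)

lemma p_mem (a b : ι) : S.p φ a b ∈ J.I := J.memDU _ _ (J.v_mem φ hφ b)

lemma q_mem (a b : ι) : S.q φ a b ∈ J.I :=
  Ideal.sum_mem _ fun j _ => J.I.mul_mem_left _ (J.Am_mem φ hφ j a)

lemma psi_mem : S.psi φ ∈ J.I := by
  refine J.I.sub_mem (Ideal.sum_mem _ fun d _ => ?_) hφ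
  exact J.I.sub_mem (J.I.mul_mem_left _ (J.v_mem φ hφ d)) (J.hI _ _ (J.v_mem φ hφ d))

lemma z_mem (a : ι) : S.z φ a ∈ J.I := J.hI _ _ (J.psi_mem φ hφ)

/-- identity (3), Bochner -/
lemma bochner : J.E (S.Lpsi φ * S.Lpsi φ)
    = ∑ a, ∑ b, (J.E (S.H a b * (S.z φ a * S.z φ b)) + J.E (S.N φ b a * S.N φ a b)) := by
  have h0 : S.Lpsi φ * S.Lpsi φ = ∑ a, ∑ b,
      (S.Psi b * S.z φ b - S.DU b (S.z φ b)) * (S.Psi a * S.z φ a - S.DU a (S.z φ a)) := by
    have e : S.Lpsi φ = - ∑ a, (S.Psi a * S.z φ a - S.DU a (S.z φ a)) := by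
      rw [HData.Lpsi, ← sum_neg_distrib]
      exact sum_congr rfl fun a _ => by ring
    rw [e, neg_mul_neg, sum_mul_sum]
    refine sum_congr rfl fun a _ => sum_congr rfl fun b _ => by ring
  rw [h0, map_sum]
  refine sum_congr rfl fun a _ => ?_
  rw [map_sum]
  refine sum_congr rfl fun b _ => ?_
  have hz := J.z_mem φ hφ
  rw [J.adjU' a _ _ (hz a)]
  have e1 : S.DU a (S.Psi b * S.z φ b - S.DU b (S.z φ b)) * S.z φ a
      = S.H a b * (S.z φ a * S.z φ b)
        + S.z φ a * (S.Psi b * S.N φ a b - S.DU b (S.N φ a b)) := by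
    rw [map_sub, Derivation.leibniz, smul_eq_mul, smul_eq_mul, S.DU_comm a b (S.z φ b)]
    simp only [HData.H, HData.N]; ring
  rw [e1, map_add, J.adjU b _ _ (hz a)]
  simp only [HData.N]

/-- identity (1) -/
lemma ident1 : ∑ a, ∑ d, J.E (S.Am φ d a * S.N φ a d)
    = ∑ a, ∑ d, J.E (S.Am φ d a * S.Am φ a d) + J.E (S.X1 φ) + J.E (S.X2 φ) := by
  simp only [HData.X1, HData.X2, map_sum]
  rw [← sum_add_distrib, ← sum_add_distrib]
  refine sum_congr rfl fun a _ => ?_
  rw [← sum_add_distrib, ← sum_add_distrib]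
  refine sum_congr rfl fun d _ => ?_
  have hA := J.Am_mem φ hφ
  -- expand N a d
  have e1 : S.Am φ d a * S.N φ a d = ∑ e, ((if a = e then 1 else 0) * (S.Am φ d a * S.Am φ e d)
      + S.Am φ d a * (S.th e * S.DU a (S.Am φ e d) - S.D e (S.DU a (S.Am φ e d)))
      + ∑ i, S.Am φ d a * (S.D e (S.g a i) * S.B φ i e d)) := by
    rw [HData.N, S.z1, map_sum, mul_sum]
    refine sum_congr rfl fun e _ => ?_
    rw [map_sub, Derivation.leibniz, smul_eq_mul, smul_eq_mul, S.DU_th, S.DU_D a e (S.Am φ e d)]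
    rw [← mul_sum]
    simp only [HData.B]; ring
  rw [e1, map_sum]
  simp_rw [map_add]
  rw [sum_add_distrib, sum_add_distrib]
  congr 1
  · congr 1
    · rw [sum_eq_single a]
      · simp
      · intro b _ hb
        rw [if_neg (Ne.symm hb)]; simp
      · simp
    · refine sum_congr rfl fun e _ => ?_
      rw [J.adjD e _ _ (hA d a)]
      simp only [HData.B]
  · simp_rw [map_sum]

/-- identity (2) -/
lemma ident2 : ∑ a, ∑ d, J.E (S.Am φ d a * S.N φ a d)
    = ∑ d, ∑ b, J.E (S.H d b * ∑ a, S.Am φ a d * S.q φ a b)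
      + J.E (S.X3 φ) - J.E (S.X4 φ) := by
  have hp := J.p_mem φ hφ
  -- rewrite the left side with p
  have e0 : ∑ a, ∑ d, J.E (S.Am φ d a * S.N φ a d)
      = ∑ c, ∑ a, J.E (S.p φ c a * S.D c (S.z φ a)) := by
    have : ∑ a, ∑ d, S.Am φ d a * S.N φ a d = ∑ c, ∑ a, S.p φ c a * S.D c (S.z φ a) := by
      have e : ∀ a d, S.Am φ d a * S.N φ a d
          = ∑ i, S.g i a * S.Am φ d a * S.D i (S.z φ d) := by
        intro a d
        rw [HData.N, S.DU_apply, mul_sum]
        refine sum_congr rfl fun i _ => ?_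
        rw [S.g_symm a i]; ring
      simp_rw [e]
      rw [HData.sum_pull3]
      refine sum_congr rfl fun i _ => ?_
      rw [sum_comm]
      refine sum_congr rfl fun d _ => ?_
      rw [S.p_eq, sum_mul]
    have h := congrArg J.E this
    simpa [map_sum] using h
  rw [e0]
  -- expand D c (z a)
  have e1 : ∀ c a, S.p φ c a * S.D c (S.z φ a)
      = ∑ b, (S.p φ c a * S.D c (S.Psi b) * S.q φ a b
        + S.p φ c a * (S.Psi b * S.D c (S.q φ a b) - S.DU b (S.D c (S.q φ a b)))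
        - ∑ i, S.p φ c a * (S.D c (S.g b i) * S.D i (S.q φ a b))) := by
    intro c a
    rw [S.z2, map_sum, mul_sum]
    refine sum_congr rfl fun b _ => ?_
    rw [map_sub, Derivation.leibniz, smul_eq_mul, smul_eq_mul, S.D_DU b c (S.q φ a b),
      ← mul_sum]
    ring
  have e2 : ∀ c a, J.E (S.p φ c a * S.D c (S.z φ a))
      = ∑ b, J.E (S.p φ c a * S.D c (S.Psi b) * S.q φ a b)
        + ∑ b, J.E (S.DU b (S.p φ c a) * S.D c (S.q φ a b))
        - ∑ b, ∑ i, J.E (S.p φ c a * (S.D c (S.g b i) * S.D i (S.q φ a b))) := by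
    intro c a
    rw [e1, map_sum]
    simp_rw [map_sub, map_add]
    rw [sum_sub_distrib, sum_add_distrib]
    congr 1
    · congr 1
      refine sum_congr rfl fun b _ => ?_
      rw [J.adjU b _ _ (hp c a)]
    · simp_rw [map_sum]
  simp_rw [e2]
  simp only [HData.X3, HData.X4, map_sum]
  simp_rw [sum_sub_distrib, sum_add_distrib]
  congr 1
  congr 1
  -- first term
  have e3 : ∑ c, ∑ a, ∑ b, S.p φ c a * S.D c (S.Psi b) * S.q φ a b
      = ∑ d, ∑ b, S.H d b * ∑ a, S.Am φ a d * S.q φ a b := by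
    have e : ∀ c a b, S.p φ c a * S.D c (S.Psi b) * S.q φ a b
        = ∑ d, (S.g d c * S.D c (S.Psi b)) * (S.Am φ a d * S.q φ a b) := by
      intro c a b
      rw [S.p_eq, sum_mul, sum_mul]
      refine sum_congr rfl fun d _ => ?_
      rw [S.g_symm c d]; ring
    simp_rw [e]
    rw [HData.sum_pull4 (fun c a b d =>
      (S.g d c * S.D c (S.Psi b)) * (S.Am φ a d * S.q φ a b))]
    refine sum_congr rfl fun d _ => ?_
    -- ∑ c a b → ∑ b, H d b * ∑ a
    rw [HData.sum_pull3]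
    refine sum_congr rfl fun b _ => ?_
    rw [HData.H, S.DU_apply, sum_mul]
    refine sum_congr rfl fun c _ => ?_
    rw [mul_sum]
  have h := congrArg J.E e3
  simpa [map_sum] using h

/-- The exact identity. -/
theorem identity : J.E (S.Lpsi φ * S.Lpsi φ)
    = J.E (∑ a, ∑ b, (S.N φ b a - S.Am φ b a) * (S.N φ a b - S.Am φ a b))
      + J.E (∑ a, ∑ b, S.H a b * (S.z φ a * S.z φ b))
      + J.E (∑ d, ∑ b, S.H d b * ∑ a, S.Am φ a d * S.q φ a b)
      + J.E (S.X5 φ + S.X6 φ) := by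
  have h3 := J.bochner φ hφ
  have h1 := J.ident1 φ hφ
  have h2 := J.ident2 φ hφ
  have hp := congrArg J.E (S.pointwise φ)
  have e : ∑ a, ∑ b, (S.N φ b a - S.Am φ b a) * (S.N φ a b - S.Am φ a b)
      = ∑ a, ∑ b, S.N φ b a * S.N φ a b - ∑ a, ∑ b, S.Am φ b a * S.N φ a b
        - ∑ a, ∑ b, S.Am φ b a * S.N φ a b + ∑ a, ∑ b, S.Am φ b a * S.Am φ a b := by
    have e1 : ∑ a, ∑ b, S.Am φ a b * S.N φ b a = ∑ a, ∑ b, S.Am φ b a * S.N φ a b := sum_comm
    calc _ = ∑ a, ∑ b, S.N φ b a * S.N φ a b - ∑ a, ∑ b, S.Am φ b a * S.N φ a b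
        - ∑ a, ∑ b, S.Am φ a b * S.N φ b a + ∑ a, ∑ b, S.Am φ b a * S.Am φ a b := by
          rw [← sum_sub_distrib, ← sum_sub_distrib, ← sum_add_distrib]
          refine sum_congr rfl fun a _ => ?_
          rw [← sum_sub_distrib, ← sum_sub_distrib, ← sum_add_distrib]
          refine sum_congr rfl fun b _ => ?_
          ring
      _ = _ := by rw [e1]
  rw [e]
  simp only [map_add, map_sub, map_sum] at *
  simp only [sum_add_distrib] at h3
  linarith

end HInt

end Crest.Agent.R238
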