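import Mathlib
import Crest.Agent.R238.HolDefs

/-! Row 238: the x-side instance of the abstract identity (helper703).
`SA n` = algebra of smooth functions on `ℝⁿ`, `pd a` = coordinate derivations,
`D i = ∑ τ_ik ∂_k` commuting derivations. -/

set_option autoImplicit false
open scoped ContDiff Topology
open Set Filter MeasureTheory Finset

noncomputable section

namespace Crest.Agent.R238.XInst

section algebra

variable {ι R A : Type*} [Fintype ι] [DecidableEq ι] [CommRing R] [CommRing A] [Algebra R A]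

/-- abstract data: commuting derivations `p k`, a "potential" `u`, `τ` inverse of `∂²u`. -/
structure AData (p : ι → Derivation R A A) (u : A) (x : ι → A) (τ : ι → ι → A) : Prop where
  comm : ∀ i j f, p i (p j f) = p j (p i f)
  coord : ∀ i j, p i (x j) = if i = j then 1 else 0
  inv : ∀ i j, ∑ k, p i (p k u) * τ k j = if i = j then 1 else 0
  symm : ∀ i j, τ i j = τ j i

variable {p : ι → Derivation R A A} {u : A} {x : ι → A} {τ : ι → ι → A}

/-- `D i = ∑ τ_ik ∂_k` -/
def DD (p : ι → Derivation R A A) (τ : ι → ι → A) (i : ι) : Derivation R A A := ∑ k, τ i k • p k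

theorem DD_apply (i : ι) (f : A) : DD p τ i f = ∑ k, τ i k * p k f := by
  have h := congrFun (map_sum (Derivation.coeFnAddMonoidHom (R := R) (A := A) (M := A))
    (fun k => τ i k • p k) univ) f
  rw [Finset.sum_apply] at h
  exact h

theorem AData.inv' (h : AData p u x τ) (i j : ι) : ∑ k, τ i k * p k (p j u) = if i = j then 1 else 0 := by
  have := h.inv j i
  rw [eq_comm] at this
  simp only [eq_comm (a := j)] at this
  rw [this]
  exact Finset.sum_congr rfl fun k _ => by rw [h.symm i k, h.comm k j, mul_comm]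

theorem AData.dtau (h : AData p u x τ) (k i j : ι) :
    p k (τ i j) = - ∑ a, ∑ b, τ i a * p k (p a (p b u)) * τ b j := by
  -- differentiate ∑_b g_ab τ_bj = δ
  have h1 : ∀ a, ∑ b, (p a (p b u) * p k (τ b j) + τ b j * p k (p a (p b u))) = 0 := by
    intro a
    have h2 := congrArg (p k) (h.inv a j)
    simp only [map_sum, Derivation.leibniz, smul_eq_mul] at h2
    rw [h2]
    split_ifs <;> simp
  have h3 : ∑ a, τ i a * ∑ b, (p a (p b u) * p k (τ b j) + τ b j * p k (p a (p b u))) = 0 := by
    simp [h1]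
  simp only [Finset.sum_add_distrib, mul_add, Finset.mul_sum] at h3
  have h4 : ∑ a, ∑ b, τ i a * (p a (p b u) * p k (τ b j)) = p k (τ i j) := by
    rw [Finset.sum_comm]
    have : ∀ b, ∑ a, τ i a * (p a (p b u) * p k (τ b j)) = (if i = b then 1 else 0) * p k (τ b j) := by
      intro b
      rw [← h.inv' i b, Finset.sum_mul]
      exact Finset.sum_congr rfl fun a _ => by ring
    simp [this]
  rw [h4] at h3
  rw [eq_neg_iff_add_eq_zero, ← h3]
  congr 1
  exact Finset.sum_congr rfl fun a _ => Finset.sum_congr rfl fun b _ => by ring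

theorem AData.D_coord (h : AData p u x τ) (i j : ι) : DD p τ i (x j) = τ i j := by
  simp [DD_apply, h.coord]

theorem AData.D_tau_symm (h : AData p u x τ) (i j l : ι) :
    DD p τ i (τ j l) = DD p τ j (τ i l) := by
  simp only [DD_apply, h.dtau]
  simp only [mul_neg, Finset.sum_neg_distrib, Finset.mul_sum, neg_inj]
  rw [Finset.sum_comm]
  refine Finset.sum_congr rfl fun a _ => Finset.sum_congr rfl fun k _ =>
    Finset.sum_congr rfl fun b _ => ?_
  rw [h.comm k a]
  ring

theorem AData.D_comm (h : AData p u x τ) (i j : ι) (f : A) :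
    DD p τ i (DD p τ j f) = DD p τ j (DD p τ i f) := by
  have key : ∀ i j : ι, DD p τ i (DD p τ j f)
      = ∑ l, DD p τ i (τ j l) * p l f + ∑ l, ∑ k, τ j l * τ i k * p k (p l f) := by
    intro i j
    rw [DD_apply (i := j), map_sum, ← Finset.sum_add_distrib]
    refine Finset.sum_congr rfl fun l _ => ?_
    rw [Derivation.leibniz, smul_eq_mul, smul_eq_mul, DD_apply (f := p l f), Finset.mul_sum,
      add_comm, mul_comm (p l f)]
    congr 1
    exact Finset.sum_congr rfl fun k _ => by ring
  rw [key i j, key j i]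
  congr 1
  · exact Finset.sum_congr rfl fun l _ => by rw [h.D_tau_symm]
  · rw [Finset.sum_comm]
    refine Finset.sum_congr rfl fun l _ => Finset.sum_congr rfl fun k _ => ?_
    rw [h.comm l k]; ring

/-- `∑_k ∂_k τ_ik = - ∑_a τ_ia tr(τ ∂_a g)` -/
theorem AData.div_tau (h : AData p u x τ) (i : ι) :
    ∑ k, p k (τ i k) = - ∑ a, τ i a * ∑ b, ∑ k, τ b k * p a (p b (p k u)) := by
  simp only [h.dtau, Finset.sum_neg_distrib, neg_inj, Finset.mul_sum]
  rw [Finset.sum_comm]
  refine Finset.sum_congr rfl fun a _ => ?_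
  rw [Finset.sum_comm]
  refine Finset.sum_congr rfl fun b _ => Finset.sum_congr rfl fun k _ => ?_
  rw [h.comm k a, h.comm k b]; ring

/-- if `tr(τ ∂_a g) = ∑ x_j g_ja - ψ_a` then `∑_k ∂_kτ_ik = -x_i + ∑ τ_ia ψ_a` -/
theorem AData.div_tau' (h : AData p u x τ) {ψ : ι → A}
    (hMA : ∀ a, ∑ b, ∑ k, τ b k * p a (p b (p k u)) = ∑ j, x j * p j (p a u) - ψ a) (i : ι) :
    ∑ k, p k (τ i k) = - x i + ∑ a, τ i a * ψ a := by
  rw [h.div_tau]
  simp only [hMA, mul_sub, Finset.sum_sub_distrib, neg_sub]
  rw [sub_eq_add_neg, add_comm]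
  congr 2
  simp only [Finset.mul_sum]
  rw [Finset.sum_comm]
  have : ∀ j, ∑ a, τ i a * (x j * p j (p a u)) = x j * (if i = j then 1 else 0) := by
    intro j
    rw [← h.inv' i j, Finset.mul_sum]
    exact Finset.sum_congr rfl fun a _ => by rw [h.comm j a]; ring
  simp [this]

end algebra

end Crest.Agent.R238.XInst
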