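import Mathlib
import Crest.Agent.R238.HolDefs
import Crest.Agent.R238.XInst
import Crest.Agent.R238.Ident3

/-! Row 238: the x-side instance of 390's abstract identity, concrete part (helper703).
`SA n` = algebra of smooth functions on `E n`, `pd a` = coordinate derivations. -/

set_option autoImplicit false
open scoped ContDiff Topology
open Set Filter MeasureTheory Finset

noncomputable section

namespace Crest.Agent.R238.XInst

variable {n : ℕ}

/-- algebra of smooth functions -/
def SA (n : ℕ) : Subalgebra ℝ (E n → ℝ) where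
  carrier := {f | ContDiff ℝ ∞ f}
  mul_mem' := by
    intro f g hf hg
    rw [Set.mem_ofPred_eq] at *
    exact hf.mul hg
  add_mem' := by
    intro f g hf hg
    rw [Set.mem_ofPred_eq] at *
    exact hf.add hg
  algebraMap_mem' := by
    intro c
    rw [Set.mem_ofPred_eq]
    exact contDiff_const

theorem sm (f : SA n) : ContDiff ℝ ∞ (f : E n → ℝ) := f.2

theorem sdiff (f : SA n) : Differentiable ℝ (f : E n → ℝ) := (sm f).differentiable (by simp)

theorem sdiffAt (f : SA n) (x : E n) : DifferentiableAt ℝ (f : E n → ℝ) x := sdiff f x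

theorem smooth_pd {f : E n → ℝ} (hf : ContDiff ℝ ∞ f) (v : E n) :
    ContDiff ℝ ∞ (fun x => fderiv ℝ f x v) :=
  (hf.fderiv_right (m := ∞) (by simp)).clm_apply contDiff_const

/-- coordinate derivation -/
def pd (a : Fin n) : Derivation ℝ (SA n) (SA n) :=
  Derivation.mk'
    { toFun := fun f => ⟨fun x => fderiv ℝ (f : E n → ℝ) x (ee a), smooth_pd (sm f) _⟩
      map_add' := by
        intro f g
        ext x
        show fderiv ℝ ((f : E n → ℝ) + (g : E n → ℝ)) x (ee a) = fderiv ℝ (f : E n → ℝ) x (ee a)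
          + fderiv ℝ (g : E n → ℝ) x (ee a)
        rw [fderiv_add (sdiffAt f x) (sdiffAt g x)]; rfl
      map_smul' := by
        intro c f
        ext x
        show fderiv ℝ (c • (f : E n → ℝ)) x (ee a) = c • fderiv ℝ (f : E n → ℝ) x (ee a)
        rw [fderiv_const_smul (sdiffAt f x)]; rfl }
    (by
      intro f g
      ext x
      show fderiv ℝ ((f : E n → ℝ) * (g : E n → ℝ)) x (ee a)
        = (f : E n → ℝ) x * fderiv ℝ (g : E n → ℝ) x (ee a)
          + (g : E n → ℝ) x * fderiv ℝ (f : E n → ℝ) x (ee a)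
      rw [fderiv_mul (sdiffAt f x) (sdiffAt g x)]
      rfl)

theorem pd_apply (a : Fin n) (f : SA n) (x : E n) :
    (pd a f : E n → ℝ) x = fderiv ℝ (f : E n → ℝ) x (ee a) := rfl

theorem pd_pd_apply (a b : Fin n) (f : SA n) (x : E n) :
    (pd a (pd b f) : E n → ℝ) x = Hs (f : E n → ℝ) x a b := by
  show fderiv ℝ (fun y => fderiv ℝ (f : E n → ℝ) y (ee b)) x (ee a) = _
  have h1 : DifferentiableAt ℝ (fderiv ℝ (f : E n → ℝ)) x :=
    (((sm f).fderiv_right (m := ∞) (by simp)).differentiable (by simp)) x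
  rw [fderiv_clm_apply h1 (differentiableAt_const _)]
  simp [Hs]

theorem Hs_symm {f : E n → ℝ} (hf : ContDiff ℝ 2 f) (x : E n) (i j : Fin n) :
    Hs f x i j = Hs f x j i := by
  have h := (hf.contDiffAt (x := x)).isSymmSndFDerivAt (by simp)
  exact h.eq _ _

theorem stwo (f : SA n) : ContDiff ℝ 2 (f : E n → ℝ) := (sm f).of_le (by norm_cast)

theorem pd_comm (a b : Fin n) (f : SA n) : pd a (pd b f) = pd b (pd a f) := by
  ext x
  rw [pd_pd_apply, pd_pd_apply, Hs_symm (stwo f)]

/-- coordinate functions -/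
def co (i : Fin n) : SA n :=
  ⟨fun x => x i, (contDiff_euclidean.1 contDiff_id i : ContDiff ℝ ∞ fun x : E n => x i)⟩

theorem co_apply (i : Fin n) (x : E n) : (co i : E n → ℝ) x = x i := rfl

theorem pd_co (i j : Fin n) : pd i (co j) = if i = j then 1 else 0 := by
  ext x
  have h : HasFDerivAt (fun y : E n => y j) (EuclideanSpace.proj (𝕜 := ℝ) j : E n →L[ℝ] ℝ) x :=
    (EuclideanSpace.proj (𝕜 := ℝ) j : E n →L[ℝ] ℝ).hasFDerivAt
  rw [pd_apply]
  show fderiv ℝ (fun y : E n => y j) x (ee i) = _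
  rw [h.fderiv]
  by_cases hij : i = j
  · subst hij; simp
  · simp [hij, Ne.symm hij]

/-! ### determinant and inverse -/

theorem contDiff_det {A : E n → Matrix (Fin n) (Fin n) ℝ}
    (hA : ∀ i j, ContDiff ℝ ∞ fun x => A x i j) : ContDiff ℝ ∞ fun x => (A x).det := by
  simp_rw [Matrix.det_apply]
  refine ContDiff.sum fun σ _ => ?_
  exact (contDiff_prod fun i _ => hA _ _).const_smul _

theorem contDiff_adjugate {A : E n → Matrix (Fin n) (Fin n) ℝ}
    (hA : ∀ i j, ContDiff ℝ ∞ fun x => A x i j) (i j : Fin n) :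
    ContDiff ℝ ∞ fun x => (A x).adjugate i j := by
  simp_rw [Matrix.adjugate_apply]
  refine contDiff_det fun k l => ?_
  by_cases hk : k = j
  · subst hk
    simp only [Matrix.updateRow_self]
    exact contDiff_const
  · simp only [Matrix.updateRow_ne hk]
    exact hA k l

theorem contDiff_inv {A : E n → Matrix (Fin n) (Fin n) ℝ}
    (hA : ∀ i j, ContDiff ℝ ∞ fun x => A x i j) (hd : ∀ x, (A x).det ≠ 0) (i j : Fin n) :
    ContDiff ℝ ∞ fun x => (A x)⁻¹ i j := by
  have h : (fun x => (A x)⁻¹ i j) = fun x => ((A x).det)⁻¹ * (A x).adjugate i j := by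
    funext x
    rw [Matrix.inv_def, Ring.inverse_eq_inv']
    simp
  rw [h]
  exact ((contDiff_det hA).inv hd).mul (contDiff_adjugate hA i j)

lemma sum_adj_col (A : Matrix (Fin n) (Fin n) ℝ) (i : Fin n) (b : Fin n → ℝ) :
    (A.updateCol i b).det = ∑ j, A.adjugate i j * b j := by
  rw [← Matrix.cramer_apply, Matrix.cramer_eq_adjugate_mulVec]
  rfl

/-- Jacobi's formula. -/
theorem hasFDerivAt_det {A : E n → Matrix (Fin n) (Fin n) ℝ} {A' : Fin n → Fin n → E n →L[ℝ] ℝ}
    {x : E n} (hA : ∀ i j, HasFDerivAt (fun y => A y i j) (A' i j) x) :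
    HasFDerivAt (fun y => (A y).det) (∑ i, ∑ j, (A x).adjugate i j • A' j i) x := by
  have h1 : ∀ y, (A y).det = ∑ σ : Equiv.Perm (Fin n), ((Equiv.Perm.sign σ : ℤ) : ℝ) * ∏ i, A y (σ i) i := by
    intro y; rw [Matrix.det_apply']
  simp_rw [h1]
  have h2 : HasFDerivAt (fun y => ∑ σ : Equiv.Perm (Fin n), ((Equiv.Perm.sign σ : ℤ) : ℝ) * ∏ i, A y (σ i) i)
      (∑ σ : Equiv.Perm (Fin n), ((Equiv.Perm.sign σ : ℤ) : ℝ) •
        ∑ i, (∏ j ∈ univ.erase i, A x (σ j) j) • A' (σ i) i) x := by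
    refine HasFDerivAt.fun_sum fun σ _ => ?_
    exact (HasFDerivAt.finsetProd (fun i _ => hA (σ i) i)).const_mul _
  refine h2.congr_fderiv ?_
  ext v
  simp only [_root_.sum_apply, smul_apply, smul_eq_mul]
  simp_rw [← sum_adj_col (A x) _ (fun j => A' j _ v), Matrix.det_apply']
  rw [Finset.sum_comm]
  refine Finset.sum_congr rfl fun σ _ => ?_
  rw [Finset.mul_sum]
  refine Finset.sum_congr rfl fun i _ => ?_
  congr 1
  rw [← Finset.mul_prod_erase univ _ (mem_univ i)]
  simp only [Matrix.updateCol_self]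
  rw [mul_comm]
  congr 1
  refine Finset.prod_congr rfl fun j hj => ?_
  rw [Matrix.updateCol_ne (ne_of_mem_erase hj)]

theorem clm_eq_sum (L : E n →L[ℝ] ℝ) (x : E n) : L x = ∑ j, x j * L (ee j) := by
  have hx : x = ∑ j, x j • ee j := by
    ext k
    simp [Finset.sum_apply, Pi.single_apply]
  conv_lhs => rw [hx]
  rw [map_sum]
  simp only [map_smul, smul_eq_mul]

/-! ### data -/

/-- hessian matrix -/
def hm (u : E n → ℝ) (x : E n) : Matrix (Fin n) (Fin n) ℝ := Matrix.of fun i j => Hs u x i j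

theorem hm_apply (u : E n → ℝ) (x : E n) (i j : Fin n) : hm u x i j = Hs u x i j := rfl

/-- inverse hessian -/
def ta (u : E n → ℝ) (x : E n) : Matrix (Fin n) (Fin n) ℝ := (hm u x)⁻¹

theorem smooth_Hs {u : E n → ℝ} (hu : ContDiff ℝ ∞ u) (i j : Fin n) :
    ContDiff ℝ ∞ fun x => Hs u x i j := by
  have h : (fun x => Hs u x i j) = fun x => fderiv ℝ (fun y => fderiv ℝ u y (ee j)) x (ee i) := by
    funext x
    exact (pd_pd_apply i j (⟨u, hu⟩ : SA n) x).symm
  rw [h]
  exact smooth_pd (smooth_pd hu _) _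

/-- positivity of the hessian -/
def Pos (u : E n → ℝ) : Prop := ∀ x, ∀ z : Fin n → ℝ, z ≠ 0 → 0 < ∑ i, ∑ j, Hs u x i j * z i * z j

theorem det_pos {u : E n → ℝ} (hu : ContDiff ℝ ∞ u) (hp : Pos u) (x : E n) : 0 < (hm u x).det := by
  have h : (hm u x).PosDef := by
    refine Matrix.PosDef.of_dotProduct_mulVec_pos ?_ ?_
    · ext i j
      simp only [Matrix.conjTranspose_apply, hm_apply, star_trivial]
      exact Hs_symm (hu.of_le (by norm_cast)) x _ _
    · intro z hz
      have h1 := hp x z hz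
      have h2 : star z ⬝ᵥ (hm u x).mulVec z = ∑ i, ∑ j, Hs u x i j * z i * z j := by
        simp only [dotProduct, Matrix.mulVec, hm_apply, Pi.star_apply, star_trivial, Finset.mul_sum]
        exact Finset.sum_congr rfl fun i _ => Finset.sum_congr rfl fun j _ => by ring
      rw [h2]; exact h1
  exact h.det_pos

/-- evaluation -/
def ev (x : E n) : SA n →ₐ[ℝ] ℝ := (Pi.evalAlgHom ℝ (fun _ : E n => ℝ) x).comp (SA n).val

theorem ev_apply (x : E n) (f : SA n) : ev x f = (f : E n → ℝ) x := rfl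

theorem ext_ev {f g : SA n} (h : ∀ x, ev x f = ev x g) : f = g := by
  ext x; exact h x

/-- data of the x-side instance -/
structure XD (n : ℕ) where
  u : E n → ℝ
  Psi : E n → ℝ
  hu : ContDiff ℝ ∞ u
  hPsi : ContDiff ℝ ∞ Psi
  pos : Pos u
  ma : ∀ x, Real.log (hm u x).det = fderiv ℝ u x x - u x - Psi x

namespace XD

variable (X : XD n)

/-- potential -/
def U : SA n := ⟨X.u, X.hu⟩

/-- weight -/
def PS : SA n := ⟨X.Psi, X.hPsi⟩

theorem det_ne (x : E n) : (hm X.u x).det ≠ 0 := (det_pos X.hu X.pos x).ne'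

/-- `τ` -/
def T (i j : Fin n) : SA n :=
  ⟨fun x => ta X.u x i j, contDiff_inv (fun i j => smooth_Hs X.hu i j) X.det_ne i j⟩

theorem ev_T (x : E n) (i j : Fin n) : ev x (X.T i j) = ta X.u x i j := rfl

theorem hm_symm (x : E n) : (hm X.u x).transpose = hm X.u x := by
  ext i j
  exact Hs_symm (X.hu.of_le (by norm_cast)) x _ _

theorem hm_ta (x : E n) : hm X.u x * ta X.u x = 1 :=
  Matrix.mul_nonsing_inv _ (isUnit_iff_ne_zero.2 (X.det_ne x))

theorem ta_hm (x : E n) : ta X.u x * hm X.u x = 1 :=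
  Matrix.nonsing_inv_mul _ (isUnit_iff_ne_zero.2 (X.det_ne x))

theorem ta_symm (x : E n) (i j : Fin n) : ta X.u x i j = ta X.u x j i := by
  have h : (ta X.u x).transpose = ta X.u x := by
    rw [ta, Matrix.transpose_nonsing_inv, X.hm_symm]
  calc ta X.u x i j = (ta X.u x).transpose j i := rfl
    _ = ta X.u x j i := by rw [h]

theorem ad : AData (R := ℝ) (A := SA n) pd X.U co X.T where
  comm := pd_comm
  coord := pd_co
  inv := by
    intro i j
    refine ext_ev fun x => ?_
    simp only [map_sum, map_mul, ev_T]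
    have h := congrFun (congrFun (X.hm_ta x) i) j
    rw [Matrix.mul_apply] at h
    have h2 : ∀ k, ev x (pd i (pd k X.U)) = hm X.u x i k := fun k => pd_pd_apply i k X.U x
    simp only [h2, h, Matrix.one_apply]
    split_ifs <;> simp
  symm := by
    intro i j
    refine ext_ev fun x => ?_
    exact X.ta_symm x i j

/-- differentiated Monge-Ampère equation -/
theorem dMA (a : Fin n) : ∑ b, ∑ k, X.T b k * pd a (pd b (pd k X.U))
    = ∑ j, co j * pd j (pd a X.U) - pd a X.PS := by
  refine ext_ev fun x => ?_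
  simp only [map_sum, map_mul, map_sub, ev_T]
  -- left side: derivative of log det
  have hH : ∀ i j, HasFDerivAt (fun y => hm X.u y i j) (fderiv ℝ (fun y => Hs X.u y i j) x) x :=
    fun i j => (((smooth_Hs X.hu i j).differentiable (by simp)) x).hasFDerivAt
  have h1 := (hasFDerivAt_det hH).log (X.det_ne x)
  have hu2 : HasFDerivAt (fun y => fderiv ℝ X.u y y)
      ((fderiv ℝ X.u x).comp (ContinuousLinearMap.id ℝ (E n))
        + (fderiv ℝ (fderiv ℝ X.u) x).flip x) x := by
    have h3 : HasFDerivAt (fderiv ℝ X.u) (fderiv ℝ (fderiv ℝ X.u) x) x :=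
      (((X.hu.fderiv_right (m := ∞) (by simp)).differentiable (by simp)) x).hasFDerivAt
    exact h3.clm_apply (hasFDerivAt_id x)
  have h4 : HasFDerivAt X.u (fderiv ℝ X.u x) x := ((X.hu.differentiable (by simp)) x).hasFDerivAt
  have h5 : HasFDerivAt X.Psi (fderiv ℝ X.Psi x) x :=
    ((X.hPsi.differentiable (by simp)) x).hasFDerivAt
  have h6 := (hu2.sub h4).sub h5
  have h7 : (fun y => Real.log (hm X.u y).det) = fun y => fderiv ℝ X.u y y - X.u y - X.Psi y :=
    funext X.ma
  have h8 : HasFDerivAt (fun y => Real.log (hm X.u y).det) _ x := h1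
  rw [h7] at h8
  have h9 := congrArg (fun f : E n →L[ℝ] ℝ => f (ee a)) (h8.unique h6)
  simp only [smul_apply, _root_.sum_apply, smul_eq_mul, sub_apply, add_apply,
    ContinuousLinearMap.comp_apply, ContinuousLinearMap.id_apply,
    ContinuousLinearMap.flip_apply] at h9
  have h10 : (fderiv ℝ (fderiv ℝ X.u) x (ee a)) x = ∑ j, x j * Hs X.u x a j := clm_eq_sum _ _
  have h11 : ∀ j, ev x (co j) * ev x (pd j (pd a X.U)) = x j * Hs X.u x a j := by
    intro j
    have : ev x (pd j (pd a X.U)) = Hs X.u x a j := by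
      rw [pd_comm]; exact pd_pd_apply a j X.U x
    rw [this]; rfl
  have h12 : ∀ b k, ta X.u x b k * ev x (pd a (pd b (pd k X.U)))
      = ((hm X.u x).det)⁻¹ * ((hm X.u x).adjugate b k * fderiv ℝ (fun y => Hs X.u y k b) x (ee a)) := by
    intro b k
    have e1 : ta X.u x b k = ((hm X.u x).det)⁻¹ * (hm X.u x).adjugate b k := by
      rw [ta, Matrix.inv_def, Ring.inverse_eq_inv']
      simp
    have e2 : ev x (pd a (pd b (pd k X.U))) = fderiv ℝ (fun y => Hs X.u y k b) x (ee a) := by
      have e3 : ((pd b (pd k X.U) : SA n) : E n → ℝ) = fun y => Hs X.u y k b := by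
        rw [pd_comm]
        funext y; exact pd_pd_apply k b X.U y
      show fderiv ℝ ((pd b (pd k X.U) : SA n) : E n → ℝ) x (ee a) = _
      rw [e3]
    rw [e1, e2]; ring
  simp only [h11, h12, ← Finset.mul_sum]
  rw [h9, h10]
  show _ = ∑ j, x j * Hs X.u x a j - fderiv ℝ X.Psi x (ee a)
  simp

/-- `div τ = -x + τ∇Ψ` -/
theorem div_T (i : Fin n) : ∑ k, pd k (X.T i k) = - co i + ∑ a, X.T i a * pd a X.PS :=
  X.ad.div_tau' (ψ := fun a => pd a X.PS) X.dMA i

end XD

end Crest.Agent.R238.XInst
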