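import Mathlib
import Crest.Agent.R238.ECal1
import Crest.Agent.R238.HolDefs
import Crest.Agent.R238.StepDefs
import Crest.Agent.R238.StepMat
import Crest.Agent.R238.XInst2

/-!
Row 238, module H8 (Calabi algebra): the concrete instance of `ECal.Sys` on the algebra
`XInst.SA n` of smooth functions, for a smooth solution `v` of the Monge-Ampere equation
`MAeq P s v` (helper640; uses helper703's `XInst2`).
-/

set_option autoImplicit false
open scoped ContDiff Topology
open Set Filter Finset

noncomputable section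

namespace Crest.Agent.R238.ECal

open Crest.Agent.R238 Crest.Agent.R238.XInst

variable {n : ℕ}

/-- entries of `gm v` are smooth -/
theorem smooth_gm {v : E n → ℝ} (hv : ContDiff ℝ ∞ v) (i j : Fin n) :
    ContDiff ℝ ∞ fun x => gm v x i j := by
  have h : (fun x => gm v x i j) = fun x => (1 : Matrix (Fin n) (Fin n) ℝ) i j + Hs v x i j := by
    funext x; simp [gm]
  rw [h]
  exact contDiff_const.add (smooth_Hs hv i j)

/-- entries of `tauf v` are smooth -/
theorem smooth_tauf {v : E n → ℝ} (hv : ContDiff ℝ ∞ v) (hd : ∀ x, (gm v x).det ≠ 0)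
    (i j : Fin n) : ContDiff ℝ ∞ fun x => tauf v x i j :=
  contDiff_inv (fun i j => smooth_gm hv i j) hd i j

/-- Jacobi: `D_e log det (gm v) = ∑ τ_ab D_e g_ab`. -/
theorem fderiv_log_det_gm {v : E n → ℝ} (hv : ContDiff ℝ ∞ v) {x : E n}
    (hd : (gm v x).det ≠ 0) (e : E n) :
    fderiv ℝ (fun y => Real.log (gm v y).det) x e =
      ∑ a, ∑ b, tauf v x a b * fderiv ℝ (fun y => gm v y a b) x e := by
  have hH : ∀ i j, HasFDerivAt (fun y => gm v y i j) (fderiv ℝ (fun y => gm v y i j) x) x :=
    fun i j => (((smooth_gm hv i j).differentiable (by simp)) x).hasFDerivAt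
  have h1 := (hasFDerivAt_det hH).log hd
  rw [h1.fderiv]
  simp only [smul_apply, _root_.sum_apply, smul_eq_mul, Finset.mul_sum]
  have hs : ∀ i j, (fun y => gm v y j i) = fun y => gm v y i j := by
    intro i j
    funext y
    have h2 := Hs_symm (f := v) (hv.of_le (by norm_cast)) y j i
    have h3 : (1 : Matrix (Fin n) (Fin n) ℝ) j i = (1 : Matrix (Fin n) (Fin n) ℝ) i j := by
      rw [Matrix.one_apply, Matrix.one_apply]
      simp only [eq_comm]
    simp only [gm, Matrix.add_apply, Matrix.of_apply, h2, h3]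
  refine Finset.sum_congr rfl fun i _ => Finset.sum_congr rfl fun j _ => ?_
  rw [hs i j]
  have e1 : tauf v x i j = ((gm v x).det)⁻¹ * (gm v x).adjugate i j := by
    rw [tauf, Matrix.inv_def, Ring.inverse_eq_inv']
    simp
  rw [e1]; ring

theorem exists_sys {v P : E n → ℝ} (hv : ContDiff ℝ ∞ v) (hP : ContDiff ℝ ∞ P)
    {s lo hi : ℝ} (hlo : 0 < lo) (hell : ∀ x, Ell lo hi (gm v x)) (hma : MAeq P s v) :
    ∃ Z : Sys n (SA n),
      (∀ (a : Fin n) (f : SA n) (x : E n), (Z.D a f).1 x = fderiv ℝ f.1 x (ee a)) ∧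
      (∀ a x, (Z.x a).1 x = x a) ∧
      (∀ a b x, (Z.g a b).1 x = gm v x a b) ∧
      (∀ a b x, (Z.t a b).1 x = tauf v x a b) ∧
      (∀ a x, (Z.p a).1 x = x a + s * fderiv ℝ P x (ee a)) := by
  have hd : ∀ x, (gm v x).det ≠ 0 := fun x => (Ell.sm_det_pos hlo (hell x)).ne'
  let V : SA n := ⟨v, hv⟩
  let PP : SA n := ⟨P, hP⟩
  let G : Fin n → Fin n → SA n := fun a b => ⟨fun x => gm v x a b, smooth_gm hv a b⟩
  let T : Fin n → Fin n → SA n := fun a b => ⟨fun x => tauf v x a b, smooth_tauf hv hd a b⟩
  have hG : ∀ a b, G a b = (if a = b then 1 else 0) + pd a (pd b V) := by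
    intro a b
    refine ext_ev fun x => ?_
    have h1 : ev x (pd a (pd b V)) = Hs v x a b := pd_pd_apply a b V x
    have h2 : ev x (G a b) = gm v x a b := rfl
    rw [map_add, h1, h2]
    simp only [gm, Matrix.add_apply, Matrix.of_apply, Matrix.one_apply]
    split_ifs <;> simp
  have hDd : ∀ a i j : Fin n, pd a ((if i = j then 1 else 0 : SA n)) = 0 := by
    intro a i j
    split_ifs <;> simp
  refine ⟨{
    D := pd
    comm := pd_comm
    x := co
    Dx := pd_co
    g := G
    gsymm := ?_
    gcod := ?_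
    t := T
    tsymm := ?_
    tg := ?_
    p := fun a => co a + s • pd a PP
    pcod := ?_
    eq := ?_ }, ?_, ?_, ?_, ?_, ?_⟩
  · intro a b
    refine ext_ev fun x => ?_
    exact (hell x).1 a b
  · intro a b c
    rw [hG, hG, map_add, map_add, hDd, hDd, pd_comm c a, pd_comm c b]
  · intro a b
    refine ext_ev fun x => ?_
    exact Ell.sm_inv_symm (hell x) a b
  · intro a b
    refine ext_ev fun x => ?_
    have h := congrFun (congrFun (Ell.sm_inv_mul hlo (hell x)) a) b
    rw [Matrix.mul_apply] at h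
    simp only [map_sum, map_mul]
    have h1 : ∀ c, ev x (T a c) * ev x (G c b) = (gm v x)⁻¹ a c * gm v x c b := fun c => rfl
    simp only [h1, h, Matrix.one_apply]
    split_ifs <;> simp
  · intro a b
    simp only [map_add, Derivation.map_smul, pd_co, pd_comm a b PP]
    simp only [eq_comm]
  · intro e
    refine ext_ev fun x => ?_
    simp only [map_sum, map_mul, map_sub, map_add, map_smul, smul_eq_mul]
    have hL := fderiv_log_det_gm hv (hd x) (ee e)
    have h7 : (fun y => Real.log (gm v y).det) = fun y => fderiv ℝ v y y - v y - s * P y := by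
      funext y
      have := hma y
      linarith
    rw [h7] at hL
    have hu2 : HasFDerivAt (fun y => fderiv ℝ v y y)
        ((fderiv ℝ v x).comp (ContinuousLinearMap.id ℝ (E n))
          + (fderiv ℝ (fderiv ℝ v) x).flip x) x := by
      have h3 : HasFDerivAt (fderiv ℝ v) (fderiv ℝ (fderiv ℝ v) x) x :=
        (((hv.fderiv_right (m := ∞) (by simp)).differentiable (by simp)) x).hasFDerivAt
      exact h3.clm_apply (hasFDerivAt_id x)
    have h4 : HasFDerivAt v (fderiv ℝ v x) x := ((hv.differentiable (by simp)) x).hasFDerivAt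
    have h5 : HasFDerivAt P (fderiv ℝ P x) x := ((hP.differentiable (by simp)) x).hasFDerivAt
    have h6 := (hu2.sub h4).sub (h5.const_mul s)
    have h8 : fderiv ℝ (fun y => fderiv ℝ v y y - v y - s * P y) x (ee e) =
        (fderiv ℝ (fderiv ℝ v) x (ee e)) x - s * fderiv ℝ P x (ee e) := by
      have h9 : fderiv ℝ (fun y => fderiv ℝ v y y - v y - s * P y) x = _ := h6.fderiv
      rw [h9]
      simp
    rw [h8] at hL
    have h10 : (fderiv ℝ (fderiv ℝ v) x (ee e)) x = ∑ j, x j * Hs v x e j := clm_eq_sum _ _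
    rw [h10] at hL
    have h11 : ∀ a b, ev x (T a b) * ev x (pd e (G a b)) =
        tauf v x a b * fderiv ℝ (fun y => gm v y a b) x (ee e) := fun a b => rfl
    simp only [h11, ← hL]
    have h12 : ∀ a, ev x (co a) * ev x (G a e) = x a * ((if a = e then 1 else 0) + Hs v x e a) := by
      intro a
      have h13 : ev x (G a e) = gm v x a e := rfl
      rw [h13, Hs_symm (f := v) (hv.of_le (by norm_cast)) x e a]
      simp only [gm, Matrix.add_apply, Matrix.of_apply, Matrix.one_apply]
      rfl
    have h14 : ev x (co e) = x e := rfl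
    have h15 : ev x (pd e PP) = fderiv ℝ P x (ee e) := rfl
    simp only [h12, h14, h15, mul_add, Finset.sum_add_distrib]
    simp
  · intro a f x
    rfl
  · intro a x
    rfl
  · intro a b x
    rfl
  · intro a b x
    rfl
  · intro a x
    rfl

end Crest.Agent.R238.ECal
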