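import Mathlib
import Crest.Agent.R238.ECalInst
import Crest.Agent.R238.MaxPE

/-!
Row 238, module H8: the differentiated equation in the form used by `MaxPE` (helper640):
`calabi_H1`, `calabi_H2` are the hypotheses `H1`, `H2` of `MaxP.E1`, `E2_det`, `E12`, `E3`.
-/

set_option autoImplicit false
open scoped ContDiff Topology
open Set Filter Finset

noncomputable section

namespace Crest.Agent.R238.ECal

open Crest.Agent.R238 Crest.Agent.R238.XInst

variable {n : ℕ}

namespace Sys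

variable {A : Type*} [CommRing A] [Algebra ℝ A] (Z : Sys n A)

lemma L_smul (c : ℝ) (f : A) : Z.L (c • f) = c • Z.L f := by
  unfold L
  simp only [Derivation.map_smul, mul_smul_comm, smul_sub, Finset.smul_sum]

lemma L_algebraMap (c : ℝ) : Z.L (algebraMap ℝ A c) = 0 := by
  unfold L
  simp

/-- `L log det g = n - tr(τ D²Ψ)`. -/
lemma L_logdet (LD : A) (h : ∀ b, Z.D b LD = ∑ a, Z.x a * Z.g a b - Z.p b) :
    Z.L LD = (n : A) - ∑ a, ∑ b, Z.t a b * Z.D a (Z.p b) := by
  have h1 : ∀ a b, Z.D a (Z.D b LD) =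
      Z.g a b + ∑ c, Z.x c * Z.D c (Z.g a b) - Z.D a (Z.p b) := by
    intro a b
    rw [h b, map_sub, Z.D_sum]
    have h2 : ∀ c, Z.D a (Z.x c * Z.g c b) =
        (if a = c then 1 else 0) * Z.g c b + Z.x c * Z.D c (Z.g a b) := by
      intro c
      rw [Z.D_mul, Z.Dx, Z.gcod c b a]
      ring
    simp only [h2, Finset.sum_add_distrib]
    simp
  have h3 : ∑ a, ∑ b, Z.t a b * Z.g a b = (n : A) := by
    have h4 : ∀ a, ∑ b, Z.t a b * Z.g a b = 1 := by
      intro a
      have h5 := Z.tg a a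
      rw [if_pos rfl] at h5
      rw [← h5]
      exact Finset.sum_congr rfl fun b _ => by rw [Z.gsymm a b]
    simp [h4]
  have h6 : ∑ a, ∑ b, Z.t a b * ∑ c, Z.x c * Z.D c (Z.g a b) = ∑ c, Z.x c * Z.D c LD := by
    have h7 : ∀ c, Z.x c * Z.D c LD = ∑ a, ∑ b, Z.x c * (Z.t a b * Z.D c (Z.g a b)) := by
      intro c
      rw [h c, ← Z.eq c]
      simp only [Finset.mul_sum]
    simp only [h7, Finset.mul_sum]
    rw [Finset.sum_comm]
    rw [Finset.sum_congr rfl fun b _ => Finset.sum_comm]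
    rw [Finset.sum_comm]
    refine Finset.sum_congr rfl fun c _ => ?_
    rw [Finset.sum_comm]
    refine Finset.sum_congr rfl fun a _ => Finset.sum_congr rfl fun b _ => by ring
  unfold L
  simp only [h1, mul_sub, mul_add, Finset.sum_sub_distrib, Finset.sum_add_distrib]
  rw [h3, h6]
  ring

end Sys

/-- trace rearrangement -/
theorem trace_rearr (τ : Matrix (Fin n) (Fin n) ℝ) (hτ : ∀ i j, τ i j = τ j i)
    (G : Fin n → Fin n → Fin n → ℝ) (hG : ∀ i j e, G i j e = G j i e) (z : Fin n → ℝ) :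
    (τ * (Matrix.of fun i j => ∑ e, z e * G i j e) * τ *
      (Matrix.of fun i j => ∑ e, z e * G i j e)).trace =
      ∑ e, ∑ f, z e * z f * ∑ a, ∑ b, ∑ i, ∑ j, τ a i * τ b j * (G i j f * G a b e) := by
  have hGz : (Matrix.of fun i j => ∑ e, z e * G i j e) =
      ∑ e, z e • (Matrix.of fun i j => G i j e) := by
    ext i j
    simp [Matrix.sum_apply]
  have e5 : ∀ e f, (τ * (Matrix.of fun i j => G i j f) * τ *
      (Matrix.of fun i j => G i j e)).trace =
      ∑ a, ∑ b, ∑ i, ∑ j, τ a i * τ b j * (G i j f * G a b e) := by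
    intro e f
    simp only [Matrix.trace, Matrix.diag_apply, Matrix.mul_apply, Matrix.of_apply]
    refine Finset.sum_congr rfl fun a _ => Finset.sum_congr rfl fun b _ => ?_
    simp only [Finset.sum_mul]
    rw [Finset.sum_comm]
    refine Finset.sum_congr rfl fun i _ => Finset.sum_congr rfl fun j _ => ?_
    rw [hτ j b, hG b a e]
    ring
  rw [hGz]
  simp only [Matrix.mul_sum, Matrix.sum_mul, Matrix.trace_sum, Matrix.mul_smul, Matrix.smul_mul,
    Matrix.trace_smul, smul_eq_mul]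
  refine Finset.sum_congr rfl fun e _ => ?_
  rw [Finset.mul_sum]
  refine Finset.sum_congr rfl fun f _ => ?_
  rw [← e5 e f]
  ring

section conv

variable {v P : E n → ℝ} {s : ℝ} {Z : Sys n (SA n)}

/-- the coordinate facts of `exists_sys` -/
structure Facts (P : E n → ℝ) (s : ℝ) (v : E n → ℝ) (Z : Sys n (SA n)) : Prop where
  D : ∀ (a : Fin n) (f : SA n) (x : E n), (Z.D a f).1 x = fderiv ℝ f.1 x (ee a)
  x : ∀ a x, (Z.x a).1 x = x a
  g : ∀ a b x, (Z.g a b).1 x = gm v x a b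
  t : ∀ a b x, (Z.t a b).1 x = tauf v x a b
  p : ∀ a x, (Z.p a).1 x = x a + s * fderiv ℝ P x (ee a)

theorem exists_facts {lo hi : ℝ} (hv : ContDiff ℝ ∞ v) (hP : ContDiff ℝ ∞ P)
    (hlo : 0 < lo) (hell : ∀ x, Ell lo hi (gm v x)) (hma : MAeq P s v) :
    ∃ Z : Sys n (SA n), Facts P s v Z := by
  obtain ⟨Z, h1, h2, h3, h4, h5⟩ := exists_sys hv hP hlo hell hma
  exact ⟨Z, ⟨h1, h2, h3, h4, h5⟩⟩

variable (hZ : Facts P s v Z)
include hZ

theorem Facts.D_eq (a : Fin n) (f : SA n) : Z.D a f = pd a f := by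
  refine ext_ev fun x => ?_
  exact hZ.D a f x

theorem Facts.DD (a b : Fin n) (f : SA n) (x : E n) :
    ev x (Z.D a (Z.D b f)) = Hs f.1 x a b := by
  rw [hZ.D_eq, hZ.D_eq]
  exact pd_pd_apply a b f x

/-- `(Z.L f)(x) = LA (tauf v) f x` -/
theorem Facts.L (f : SA n) (x : E n) : ev x (Z.L f) = LA (tauf v) f.1 x := by
  unfold Sys.L LA
  simp only [map_sub, map_sum, map_mul]
  have h1 : ∀ a b, ev x (Z.t a b) = tauf v x a b := fun a b => hZ.t a b x
  have h2 : ∀ a, ev x (Z.x a) = x a := fun a => hZ.x a x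
  have h3 : ∀ a, ev x (Z.D a f) = fderiv ℝ f.1 x (ee a) := fun a => hZ.D a f x
  simp only [h1, h2, h3, hZ.DD]
  rw [clm_eq_sum (fderiv ℝ f.1 x) x]

theorem Facts.g_fun (a b : Fin n) : (Z.g a b).1 = fun y => gm v y a b := funext fun y => hZ.g a b y

/-- `D_c g_ab = ∂_c (D²v)_ab` -/
theorem Facts.Dg (a b c : Fin n) (x : E n) :
    ev x (Z.D c (Z.g a b)) = fderiv ℝ (fun y => Hs v y a b) x (ee c) := by
  have h : ev x (Z.D c (Z.g a b)) = fderiv ℝ (Z.g a b).1 x (ee c) := hZ.D c _ x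
  rw [h, hZ.g_fun]
  have h1 : (fun y => gm v y a b) =
      fun y => (1 : Matrix (Fin n) (Fin n) ℝ) a b + Hs v y a b := by
    funext y; simp [gm]
  rw [h1, fderiv_const_add]

/-- `D_b p_a = δ_ab + s P_ab` -/
theorem Facts.Dp (hP : ContDiff ℝ ∞ P) (a b : Fin n) (x : E n) :
    ev x (Z.D b (Z.p a)) = (if a = b then 1 else 0) + s * Hs P x a b := by
  have h : Z.p a = co a + s • pd a (⟨P, hP⟩ : SA n) := by
    refine ext_ev fun y => ?_
    exact hZ.p a y
  rw [h, hZ.D_eq, map_add, pd_co, Derivation.map_smul, map_add, map_smul, smul_eq_mul]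
  have h2 : ev x (pd b (pd a (⟨P, hP⟩ : SA n))) = Hs P x b a := pd_pd_apply b a _ x
  rw [h2, Hs_symm (hP.of_le (by norm_cast)) x b a]
  congr 1
  simp only [eq_comm]
  split_ifs <;> simp

/-- `D_c D_b p_a = s P_abc` -/
theorem Facts.DDp (hP : ContDiff ℝ ∞ P) (a b c : Fin n) (x : E n) :
    ev x (Z.D c (Z.D b (Z.p a))) = s * fderiv ℝ (fun y => Hs P y a b) x (ee c) := by
  have h : (Z.D b (Z.p a)).1 = fun y => (if a = b then (1 : ℝ) else 0) + s * Hs P y a b := by
    funext y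
    exact hZ.Dp hP a b y
  have h1 : ev x (Z.D c (Z.D b (Z.p a))) = fderiv ℝ (Z.D b (Z.p a)).1 x (ee c) := hZ.D c _ x
  rw [h1, h, fderiv_const_add, fderiv_const_mul]
  · simp
  · exact ((smooth_Hs hP a b).differentiable (by simp)) x

/-- quadratic form of (E1): `L g(z,z) = tr(τ G τ G) + g(z,z) - D²Ψ(z,z)`, `G = D³v(z,.,.)`. -/
theorem Facts.L_qf (hv : ContDiff ℝ ∞ v) (hP : ContDiff ℝ ∞ P)
    (hsym : ∀ x i j, tauf v x i j = tauf v x j i) (z : Fin n → ℝ) (x : E n) :
    LA (tauf v) (MaxP.qf v z) x =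
      (tauf v x * (Matrix.of fun i j => ∑ e, z e * fderiv ℝ (fun y => Hs v y i j) x (ee e)) *
        tauf v x *
        (Matrix.of fun i j => ∑ e, z e * fderiv ℝ (fun y => Hs v y i j) x (ee e))).trace +
      MaxP.qf v z x - MaxP.Q (Matrix.of fun i j => s * Hs P x i j) z := by
  set W : SA n := ∑ e, ∑ f, (z e * z f) • Z.g e f - algebraMap ℝ (SA n) (∑ i, z i ^ 2) with hW
  have hWf : W.1 = MaxP.qf v z := by
    funext y
    have h1 : W.1 y = ev y W := rfl
    rw [h1, hW]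
    simp only [map_sub, map_sum, map_smul, smul_eq_mul]
    have h2 : ∀ e f, ev y (Z.g e f) = (1 : Matrix (Fin n) (Fin n) ℝ) e f + Hs v y e f :=
      fun e f => hZ.g e f y
    have h3 : ∀ c : ℝ, ev y (algebraMap ℝ (SA n) c) = c := fun c => rfl
    simp only [h2, h3, MaxP.qf, mul_add, Finset.sum_add_distrib, Matrix.one_apply]
    simp only [mul_ite, mul_one, mul_zero, Finset.sum_ite_eq, Finset.mem_univ, if_true]
    have h4 : ∑ e, ∑ f, z e * z f * Hs v y e f = ∑ e, ∑ f, Hs v y e f * z e * z f :=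
      Finset.sum_congr rfl fun e _ => Finset.sum_congr rfl fun f _ => by ring
    rw [h4]
    have h5 : ∑ e, z e * z e = ∑ i, z i ^ 2 := Finset.sum_congr rfl fun e _ => by ring
    rw [h5]
    ring
  rw [← hWf, ← hZ.L W x]
  have hLW : Z.L W = ∑ e, ∑ f, (z e * z f) • Z.L (Z.g e f) := by
    have h1 : W = ∑ e, ∑ f, (z e * z f) • Z.g e f + (-1 : ℝ) •
        algebraMap ℝ (SA n) (∑ i, z i ^ 2) := by
      rw [hW]; simp [sub_eq_add_neg]
    rw [h1, Z.L_add, Z.L_smul, Z.L_algebraMap, smul_zero, add_zero, Z.L_sum]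
    refine Finset.sum_congr rfl fun e _ => ?_
    rw [Z.L_sum]
    exact Finset.sum_congr rfl fun f _ => Z.L_smul _ _
  rw [hLW]
  have hT : ∀ a b, ev x (Z.t a b) = tauf v x a b := fun a b => hZ.t a b x
  simp only [map_sum, map_smul, smul_eq_mul, Z.E1, map_sub, map_add, map_mul, hT,
    hZ.Dg, hZ.Dp hP]
  simp only [mul_sub, mul_add, Finset.sum_sub_distrib, Finset.sum_add_distrib]
  have hg : ∀ e f, ev x (Z.g e f) = (1 : Matrix (Fin n) (Fin n) ℝ) e f + Hs v x e f :=
    fun e f => hZ.g e f x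
  have e1 : ∑ e, ∑ f, z e * z f * ev x (Z.g e f) = ∑ i, z i ^ 2 + ev x W := by
    have h1 : ev x W = MaxP.qf v z x := by rw [← hWf]; rfl
    rw [h1]
    simp only [hg, MaxP.qf, mul_add, Finset.sum_add_distrib, Matrix.one_apply]
    simp only [mul_ite, mul_one, mul_zero, Finset.sum_ite_eq, Finset.mem_univ, if_true]
    have h4 : ∑ e, ∑ f, z e * z f * Hs v x e f = ∑ e, ∑ f, Hs v x e f * z e * z f :=
      Finset.sum_congr rfl fun e _ => Finset.sum_congr rfl fun f _ => by ring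
    rw [h4]
    have h5 : ∑ e, z e * z e = ∑ i, z i ^ 2 := Finset.sum_congr rfl fun e _ => by ring
    rw [h5]
  have e2 : ∑ e, ∑ f, z e * z f * (if e = f then (1 : ℝ) else 0) = ∑ i, z i ^ 2 := by
    simp only [mul_ite, mul_one, mul_zero, Finset.sum_ite_eq, Finset.mem_univ, if_true]
    exact Finset.sum_congr rfl fun e _ => by ring
  have e3 : ∑ e, ∑ f, z e * z f * (s * Hs P x e f) =
      MaxP.Q (Matrix.of fun i j => s * Hs P x i j) z := by
    simp only [MaxP.Q, Matrix.of_apply]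
    exact Finset.sum_congr rfl fun e _ => Finset.sum_congr rfl fun f _ => by ring
  rw [e1, e2, e3]
  have hGs : ∀ i j e, fderiv ℝ (fun y => Hs v y i j) x (ee e) =
      fderiv ℝ (fun y => Hs v y j i) x (ee e) := by
    intro i j e
    have h1 : (fun y => Hs v y i j) = fun y => Hs v y j i := by
      funext y
      exact Hs_symm (hv.of_le (by norm_cast)) y i j
    rw [h1]
  rw [trace_rearr (tauf v x) (fun i j => hsym x i j)
    (fun i j e => fderiv ℝ (fun y => Hs v y i j) x (ee e)) hGs z]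
  have h9 : W.1 x = ev x W := rfl
  rw [h9]
  ring

end conv

section final

variable {v P : E n → ℝ} {s lo hi : ℝ}

/-- hypothesis `H1` of `MaxP.E1`/`E12`. -/
theorem calabi_H1 (hv : ContDiff ℝ ∞ v) (hP : ContDiff ℝ ∞ P) (hlo : 0 < lo)
    (hell : ∀ x, Ell lo hi (gm v x)) (hma : MAeq P s v) (z : Fin n → ℝ) (x : E n) :
    MaxP.qf v z x - MaxP.Q (Matrix.of fun i j => s * Hs P x i j) z ≤
      LA (tauf v) (MaxP.qf v z) x := by
  obtain ⟨Z, hZ⟩ := exists_facts hv hP hlo hell hma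
  rw [hZ.L_qf hv hP (fun x i j => Ell.sm_inv_symm (hell x) i j) z x]
  have h1 := MaxP.trace_sandwich_nonneg (A := tauf v x)
    (G := Matrix.of fun i j => ∑ e, z e * fderiv ℝ (fun y => Hs v y i j) x (ee e))
    (MaxP.Ell.posDef hlo (hell x)).inv.posSemidef (by
      ext i j
      simp only [Matrix.transpose_apply, Matrix.of_apply]
      refine Finset.sum_congr rfl fun e _ => ?_
      have h1 : (fun y => Hs v y j i) = fun y => Hs v y i j := by
        funext y
        exact Hs_symm (hv.of_le (by norm_cast)) y j i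
      rw [h1])
  linarith

/-- equality form of `H2`. -/
theorem L_logdet_eq (hv : ContDiff ℝ ∞ v) (hP : ContDiff ℝ ∞ P) (hlo : 0 < lo)
    (hell : ∀ x, Ell lo hi (gm v x)) (hma : MAeq P s v) (x : E n) :
    LA (tauf v) (fun y => Real.log (gm v y).det) x =
      n - (tauf v x * (1 + Matrix.of fun i j => s * Hs P x i j)).trace := by
  obtain ⟨Z, hZ⟩ := exists_facts hv hP hlo hell hma
  have hd : ∀ x, (gm v x).det ≠ 0 := fun x => (Ell.sm_det_pos hlo (hell x)).ne'
  set LD : SA n := ⟨fun y => Real.log (gm v y).det,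
    (XInst.contDiff_det (fun i j => smooth_gm hv i j)).log hd⟩ with hLD
  have h1 : ∀ b, Z.D b LD = ∑ a, Z.x a * Z.g a b - Z.p b := by
    intro b
    rw [← Z.eq b]
    refine ext_ev fun y => ?_
    have h2 : ev y (Z.D b LD) = fderiv ℝ (fun y => Real.log (gm v y).det) y (ee b) := hZ.D b LD y
    rw [h2, fderiv_log_det_gm hv (hd y)]
    simp only [map_sum, map_mul]
    refine Finset.sum_congr rfl fun i _ => Finset.sum_congr rfl fun j _ => ?_
    have h3 : ev y (Z.t i j) = tauf v y i j := hZ.t i j y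
    have h4 : ev y (Z.D b (Z.g i j)) = fderiv ℝ (Z.g i j).1 y (ee b) := hZ.D b _ y
    rw [h3, h4, hZ.g_fun]
  have h5 := congrArg (ev x) (Z.L_logdet LD h1)
  rw [hZ.L LD x] at h5
  have h6 : LD.1 = fun y => Real.log (gm v y).det := rfl
  rw [← h6, h5]
  simp only [map_sub, map_natCast, map_sum, map_mul, hZ.Dp hP]
  have h7 : ∀ a b, ev x (Z.t a b) = tauf v x a b := fun a b => hZ.t a b x
  simp only [h7]
  congr 1

/-- hypothesis `H2` of `MaxP.E2_det`/`E12`. -/
theorem calabi_H2 (hv : ContDiff ℝ ∞ v) (hP : ContDiff ℝ ∞ P) (hlo : 0 < lo)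
    (hell : ∀ x, Ell lo hi (gm v x)) (hma : MAeq P s v) (x : E n) :
    LA (tauf v) (fun y => Real.log (gm v y).det) x ≤
      n - (tauf v x * (1 + Matrix.of fun i j => s * Hs P x i j)).trace :=
  (L_logdet_eq hv hP hlo hell hma x).le

end final

end Crest.Agent.R238.ECal
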