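import Mathlib
import Crest.Agent.R238.GapDefs

/-!
Row 238 (S0369), module H4 (GAP): weighted Bochner identity in `x`-coordinates (helper469).
-/

set_option autoImplicit false

open MeasureTheory Real Set Filter Topology

namespace Crest.Agent.R238.Gap

namespace B

variable {n : ℕ}

lemma cd_pd {f : E n → ℝ} {k : ℕ} {m : ℕ∞} (hm : m = k) (hf : ContDiff ℝ ((k + 1 : ℕ) : ℕ∞) f) (i : Fin n) :
    ContDiff ℝ (m : ℕ∞) (pd i f) := by
  subst hm
  have h1 : ContDiff ℝ (k : ℕ∞) (fderiv ℝ f) := by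
    refine hf.fderiv_right ?_
    norm_cast
  exact h1.clm_apply contDiff_const

lemma cd_pd1 {f : E n → ℝ} (hf : ContDiff ℝ 2 f) (i : Fin n) : ContDiff ℝ 1 (pd i f) := by
  have h1 : ContDiff ℝ 1 (fderiv ℝ f) := hf.fderiv_right (by norm_num)
  exact h1.clm_apply contDiff_const

lemma cd_pd2 {f : E n → ℝ} (hf : ContDiff ℝ 3 f) (i : Fin n) : ContDiff ℝ 2 (pd i f) := by
  have h1 : ContDiff ℝ 2 (fderiv ℝ f) := hf.fderiv_right (by norm_num)
  exact h1.clm_apply contDiff_const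

lemma cont_pd {f : E n → ℝ} (hf : ContDiff ℝ 1 f) (i : Fin n) : Continuous (pd i f) := by
  have h1 : Continuous (fderiv ℝ f) := hf.continuous_fderiv (by norm_num)
  exact h1.clm_apply continuous_const

lemma pd_add {f g : E n → ℝ} {x : E n} (i : Fin n) (hf : DifferentiableAt ℝ f x)
    (hg : DifferentiableAt ℝ g x) : pd i (fun y => f y + g y) x = pd i f x + pd i g x := by
  unfold pd
  rw [fderiv_fun_add hf hg]; rfl

lemma pd_sub {f g : E n → ℝ} {x : E n} (i : Fin n) (hf : DifferentiableAt ℝ f x)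
    (hg : DifferentiableAt ℝ g x) : pd i (fun y => f y - g y) x = pd i f x - pd i g x := by
  unfold pd
  rw [fderiv_fun_sub hf hg]; rfl

lemma pd_mul {f g : E n → ℝ} {x : E n} (i : Fin n) (hf : DifferentiableAt ℝ f x)
    (hg : DifferentiableAt ℝ g x) :
    pd i (fun y => f y * g y) x = pd i f x * g x + f x * pd i g x := by
  unfold pd
  rw [fderiv_fun_mul hf hg]
  simp only [_root_.add_apply, _root_.smul_apply, smul_eq_mul]
  ring

lemma pd_sum {ι : Type*} {s : Finset ι} {f : ι → E n → ℝ} {x : E n} (i : Fin n)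
    (hf : ∀ k ∈ s, DifferentiableAt ℝ (f k) x) :
    pd i (fun y => ∑ k ∈ s, f k y) x = ∑ k ∈ s, pd i (f k) x := by
  unfold pd
  rw [fderiv_fun_sum hf]
  simp

lemma pd_coord (i j : Fin n) (x : E n) : pd i (fun y : E n => y j) x = if i = j then 1 else 0 := by
  unfold pd
  have h : HasFDerivAt (fun y : E n => y j)
      (EuclideanSpace.proj (𝕜 := ℝ) j : E n →L[ℝ] ℝ) x :=
    (EuclideanSpace.proj (𝕜 := ℝ) j : E n →L[ℝ] ℝ).hasFDerivAt
  rw [h.fderiv]
  simp [e, eq_comm]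

lemma fderiv_eq_sum (f : E n → ℝ) (x v : E n) : fderiv ℝ f x v = ∑ i, v i * pd i f x := by
  have h : v = ∑ i, v i • (e i : E n) := by
    ext j
    simp [e, Pi.single_apply]
  conv_lhs => rw [h]
  simp [pd, map_sum]

lemma H_eq {h : E n → ℝ} (hh : ContDiff ℝ 2 h) (x : E n) (i j : Fin n) :
    H h x i j = pd i (pd j h) x := by
  unfold H pd
  have h1 : DifferentiableAt ℝ (fun y => fderiv ℝ h y) x :=
    (hh.fderiv_right (m := 1) (by norm_num)).differentiable (by norm_num) x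
  have h2 : HasFDerivAt (fun y => fderiv ℝ h y (e j))
      ((fderiv ℝ (fun y => fderiv ℝ h y) x).flip (e j)) x := by
    have h3 := h1.hasFDerivAt.clm_apply (hasFDerivAt_const (e j : E n) x)
    simpa using h3
  rw [h2.fderiv]
  rfl

lemma H_symm {h : E n → ℝ} (hh : ContDiff ℝ 2 h) (x : E n) (i j : Fin n) :
    H h x i j = H h x j i := by
  have h1 : IsSymmSndFDerivAt ℝ h x :=
    hh.contDiffAt.isSymmSndFDerivAt (by simp)
  exact h1 _ _

lemma pd_comm {h : E n → ℝ} (hh : ContDiff ℝ 2 h) (x : E n) (i j : Fin n) :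
    pd i (pd j h) x = pd j (pd i h) x := by
  rw [← H_eq hh, ← H_eq hh, H_symm hh]

lemma Lop_eq (τ : E n → Matrix (Fin n) (Fin n) ℝ) {h : E n → ℝ} (hh : ContDiff ℝ 2 h) (x : E n) :
    Lop τ h x = (∑ i, ∑ j, τ x i j * pd i (pd j h) x) - ∑ i, x i * pd i h x := by
  unfold Lop
  rw [fderiv_eq_sum]
  simp only [H_eq hh]

lemma sum4_comm (F : Fin n → Fin n → Fin n → Fin n → ℝ) :
    ∑ c, ∑ d, ∑ i, ∑ j, F c d i j = ∑ j, ∑ i, ∑ d, ∑ c, F c d i j := by
  have h1 : ∀ d, ∑ c, ∑ i, ∑ j, F c d i j = ∑ j, ∑ i, ∑ c, F c d i j := by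
    intro d
    have : ∀ i, ∑ c, ∑ j, F c d i j = ∑ j, ∑ c, F c d i j := fun i => Finset.sum_comm
    rw [Finset.sum_comm, Finset.sum_congr rfl fun i _ => this i, Finset.sum_comm]
  rw [Finset.sum_comm, Finset.sum_congr rfl fun d _ => h1 d, Finset.sum_comm]
  exact Finset.sum_congr rfl fun j _ => Finset.sum_comm

/-- `V = τ ∇h`. -/
noncomputable def Vf (τ : E n → Matrix (Fin n) (Fin n) ℝ) (h : E n → ℝ) (a : Fin n) (x : E n) : ℝ :=
  ∑ b, τ x a b * pd b h x

lemma cd_Vf {τ : E n → Matrix (Fin n) (Fin n) ℝ} (hτ : ∀ i j, ContDiff ℝ 1 (fun x => τ x i j))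
    {h : E n → ℝ} (hh : ContDiff ℝ 2 h) (a : Fin n) : ContDiff ℝ 1 (Vf τ h a) := by
  unfold Vf
  exact ContDiff.sum fun b _ => (hτ a b).mul (cd_pd1 hh b)

lemma pd_Vf {τ : E n → Matrix (Fin n) (Fin n) ℝ} (hτ : ∀ i j, ContDiff ℝ 1 (fun x => τ x i j))
    {h : E n → ℝ} (hh : ContDiff ℝ 2 h) (c a : Fin n) (x : E n) :
    pd c (Vf τ h a) x = ∑ b, (pd c (fun y => τ y a b) x * pd b h x + τ x a b * pd c (pd b h) x) := by
  have h1 : ∀ b, DifferentiableAt ℝ (fun y => τ y a b) x := fun b =>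
    (hτ a b).differentiable (by norm_num) x
  have h2 : ∀ b, DifferentiableAt ℝ (pd b h) x := fun b =>
    (cd_pd1 hh b).differentiable (by norm_num) x
  unfold Vf
  rw [pd_sum c (f := fun b y => τ y a b * pd b h y) (fun b _ => (h1 b).fun_mul (h2 b))]
  exact Finset.sum_congr rfl fun b _ => pd_mul c (h1 b) (h2 b)

/-- the weighted divergence. -/
noncomputable def dv (P : E n → ℝ) (V : Fin n → E n → ℝ) (x : E n) : ℝ :=
  ∑ a, (pd a (V a) x - V a x * (x a + pd a P x))

lemma dv_Vf {lo hi M0 : ℝ} {P : E n → ℝ} {τ : E n → Matrix (Fin n) (Fin n) ℝ}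
    (D : Dat lo hi M0 P τ) {h : E n → ℝ} (hh : ContDiff ℝ 2 h) (x : E n) :
    dv P (Vf τ h) x = Lop τ h x := by
  rw [Lop_eq τ hh]
  unfold dv
  simp only [pd_Vf D.hτ hh]
  have h1 : ∀ a, (∑ b, (pd a (fun y => τ y a b) x * pd b h x + τ x a b * pd a (pd b h) x)) -
      Vf τ h a x * (x a + pd a P x) = (∑ b, τ x a b * pd a (pd b h) x) +
      ∑ b, pd b h x * (pd a (fun y => τ y a b) x - τ x a b * (x a + pd a P x)) := by
    intro a
    unfold Vf
    rw [Finset.sum_mul, ← Finset.sum_sub_distrib, ← Finset.sum_add_distrib]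
    exact Finset.sum_congr rfl fun b _ => by ring
  rw [Finset.sum_congr rfl fun a _ => h1 a, Finset.sum_add_distrib, sub_eq_add_neg]
  congr 1
  rw [Finset.sum_comm]
  have h2 : ∀ b, (∑ a, pd b h x * (pd a (fun y => τ y a b) x - τ x a b * (x a + pd a P x))) =
      - (x b * pd b h x) := by
    intro b
    rw [← Finset.mul_sum, D.div x b]
    ring
  rw [Finset.sum_congr rfl fun b _ => h2 b, Finset.sum_neg_distrib]

lemma dv_smul {P : E n → ℝ} {V : Fin n → E n → ℝ} {f : E n → ℝ} (x : E n)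
    (hV : ∀ a, DifferentiableAt ℝ (V a) x) (hf : DifferentiableAt ℝ f x) :
    dv P (fun a y => V a y * f y) x = dv P V x * f x + ∑ a, V a x * pd a f x := by
  unfold dv
  rw [Finset.sum_mul, ← Finset.sum_add_distrib]
  refine Finset.sum_congr rfl fun a _ => ?_
  rw [pd_mul a (hV a) hf]
  ring

lemma dv_sub {P : E n → ℝ} {V W : Fin n → E n → ℝ} (x : E n)
    (hV : ∀ a, DifferentiableAt ℝ (V a) x) (hW : ∀ a, DifferentiableAt ℝ (W a) x) :
    dv P (fun a y => V a y - W a y) x = dv P V x - dv P W x := by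
  unfold dv
  rw [← Finset.sum_sub_distrib]
  refine Finset.sum_congr rfl fun a _ => ?_
  rw [pd_sub a (hV a) (hW a)]
  ring

lemma dv_sum {ι : Type*} {s : Finset ι} {P : E n → ℝ} {V : ι → Fin n → E n → ℝ} (x : E n)
    (hV : ∀ c ∈ s, ∀ a, DifferentiableAt ℝ (V c a) x) :
    dv P (fun a y => ∑ c ∈ s, V c a y) x = ∑ c ∈ s, dv P (V c) x := by
  unfold dv
  rw [Finset.sum_comm]
  refine Finset.sum_congr rfl fun a _ => ?_
  rw [pd_sum a (f := fun c y => V c a y) (fun c hc => hV c hc a), Finset.sum_mul,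
    ← Finset.sum_sub_distrib]

lemma cd_Lop {τ : E n → Matrix (Fin n) (Fin n) ℝ} (hτ : ∀ i j, ContDiff ℝ 1 (fun x => τ x i j))
    {h : E n → ℝ} (hh : ContDiff ℝ 3 h) : ContDiff ℝ 1 (Lop τ h) := by
  have h2 : ContDiff ℝ 2 h := hh.of_le (by norm_num)
  have : Lop τ h = fun x => (∑ i, ∑ j, τ x i j * pd i (pd j h) x) - ∑ i, x i * pd i h x :=
    funext fun x => Lop_eq τ h2 x
  rw [this]
  refine ContDiff.sub (ContDiff.sum fun i _ => ContDiff.sum fun j _ => (hτ i j).mul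
    (cd_pd1 (cd_pd2 hh j) i)) (ContDiff.sum fun i _ => ContDiff.mul ?_ (cd_pd1 h2 i))
  exact (EuclideanSpace.proj (𝕜 := ℝ) i : E n →L[ℝ] ℝ).contDiff

lemma pd_Lop {τ : E n → Matrix (Fin n) (Fin n) ℝ} (hτ : ∀ i j, ContDiff ℝ 1 (fun x => τ x i j))
    {h : E n → ℝ} (hh : ContDiff ℝ 3 h) (c : Fin n) (x : E n) :
    pd c (Lop τ h) x = Lop τ (pd c h) x - pd c h x +
      ∑ i, ∑ j, pd c (fun y => τ y i j) x * pd i (pd j h) x := by
  have h2 : ContDiff ℝ 2 h := hh.of_le (by norm_num)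
  have : Lop τ h = fun x => (∑ i, ∑ j, τ x i j * pd i (pd j h) x) - ∑ i, x i * pd i h x :=
    funext fun x => Lop_eq τ h2 x
  have d1 : ∀ i j, DifferentiableAt ℝ (fun y => τ y i j) x := fun i j =>
    (hτ i j).differentiable (by norm_num) x
  have d2 : ∀ i j, DifferentiableAt ℝ (pd i (pd j h)) x := fun i j =>
    (cd_pd1 (cd_pd2 hh j) i).differentiable (by norm_num) x
  have d3 : ∀ i, DifferentiableAt ℝ (fun y : E n => y i) x := fun i =>
    (EuclideanSpace.proj (𝕜 := ℝ) i : E n →L[ℝ] ℝ).differentiableAt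
  have d4 : ∀ i, DifferentiableAt ℝ (pd i h) x := fun i =>
    (cd_pd1 h2 i).differentiable (by norm_num) x
  rw [this, pd_sub c (DifferentiableAt.fun_sum fun i _ => DifferentiableAt.fun_sum fun j _ =>
    (d1 i j).fun_mul (d2 i j)) (DifferentiableAt.fun_sum fun i _ => (d3 i).fun_mul (d4 i)),
    pd_sum c (f := fun i y => ∑ j, τ y i j * pd i (pd j h) y)
      (fun i _ => DifferentiableAt.fun_sum fun j _ => (d1 i j).fun_mul (d2 i j)),
    pd_sum c (f := fun i y => y i * pd i h y) (fun i _ => (d3 i).fun_mul (d4 i)),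
    Lop_eq τ (cd_pd2 hh c)]
  have e1 : ∀ i, pd c (fun y => ∑ j, τ y i j * pd i (pd j h) y) x =
      ∑ j, (pd c (fun y => τ y i j) x * pd i (pd j h) x + τ x i j * pd i (pd j (pd c h)) x) := by
    intro i
    rw [pd_sum c (f := fun j y => τ y i j * pd i (pd j h) y) (fun j _ => (d1 i j).fun_mul (d2 i j))]
    refine Finset.sum_congr rfl fun j _ => ?_
    rw [pd_mul c (d1 i j) (d2 i j)]
    congr 2
    rw [pd_comm (cd_pd2 hh j) x c i]
    have : pd c (pd j h) = pd j (pd c h) := funext fun y => pd_comm h2 y c j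
    rw [this]
  have e2 : ∀ i, pd c (fun y => y i * pd i h y) x =
      (if c = i then 1 else 0) * pd i h x + x i * pd i (pd c h) x := by
    intro i
    rw [pd_mul c (d3 i) (d4 i), pd_coord, pd_comm h2 x c i]
  simp only [e1, e2, Finset.sum_add_distrib, ite_mul, one_mul, zero_mul, Finset.sum_ite_eq,
    Finset.mem_univ, if_true]
  ring

/-- `<τ∇h, ∇h>`. -/
noncomputable def Ga (τ : E n → Matrix (Fin n) (Fin n) ℝ) (h : E n → ℝ) (x : E n) : ℝ :=
  ∑ a, ∑ b, τ x a b * pd a h x * pd b h x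

/-- `tr (τ H τ H)`. -/
noncomputable def Qh (τ : E n → Matrix (Fin n) (Fin n) ℝ) (h : E n → ℝ) (x : E n) : ℝ :=
  ∑ a, ∑ c, (∑ d, τ x c d * pd a (pd d h) x) * (∑ b, τ x a b * pd b (pd c h) x)

/-- the field whose divergence gives Bochner. -/
noncomputable def Zf (τ : E n → Matrix (Fin n) (Fin n) ℝ) (h : E n → ℝ) (a : Fin n) (x : E n) : ℝ :=
  Vf τ h a x * Lop τ h x - ∑ c, Vf τ (pd c h) a x * Vf τ h c x

lemma cd_Zf {τ : E n → Matrix (Fin n) (Fin n) ℝ} (hτ : ∀ i j, ContDiff ℝ 1 (fun x => τ x i j))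
    {h : E n → ℝ} (hh : ContDiff ℝ 3 h) (a : Fin n) : ContDiff ℝ 1 (Zf τ h a) := by
  have h2 : ContDiff ℝ 2 h := hh.of_le (by norm_num)
  unfold Zf
  exact ((cd_Vf hτ h2 a).mul (cd_Lop hτ hh)).sub (ContDiff.sum fun c _ =>
    (cd_Vf hτ (cd_pd2 hh c) a).mul (cd_Vf hτ h2 c))

theorem dv_Zf {lo hi M0 : ℝ} {P : E n → ℝ} {τ : E n → Matrix (Fin n) (Fin n) ℝ}
    (D : Dat lo hi M0 P τ) {h : E n → ℝ} (hh : ContDiff ℝ 3 h) (x : E n) :
    dv P (Zf τ h) x = Lop τ h x ^ 2 - Ga τ h x - Qh τ h x := by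
  have h2 : ContDiff ℝ 2 h := hh.of_le (by norm_num)
  have dV : ∀ a, DifferentiableAt ℝ (Vf τ h a) x := fun a =>
    (cd_Vf D.hτ h2 a).differentiable (by norm_num) x
  have dW : ∀ c a, DifferentiableAt ℝ (Vf τ (pd c h) a) x := fun c a =>
    (cd_Vf D.hτ (cd_pd2 hh c) a).differentiable (by norm_num) x
  have dL : DifferentiableAt ℝ (Lop τ h) x := (cd_Lop D.hτ hh).differentiable (by norm_num) x
  unfold Zf
  rw [dv_sub (V := fun a y => Vf τ h a y * Lop τ h y)
    (W := fun a y => ∑ c, Vf τ (pd c h) a y * Vf τ h c y) x (fun a => (dV a).fun_mul dL)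
    (fun a => DifferentiableAt.fun_sum fun c _ => (dW c a).fun_mul (dV c)),
    dv_smul x dV dL, dv_sum (V := fun c a y => Vf τ (pd c h) a y * Vf τ h c y) x
    (fun c _ a => (dW c a).fun_mul (dV c)), dv_Vf D h2]
  have e1 : ∀ c, dv P (fun a y => Vf τ (pd c h) a y * Vf τ h c y) x =
      Lop τ (pd c h) x * Vf τ h c x + ∑ a, Vf τ (pd c h) a x * pd a (Vf τ h c) x := by
    intro c
    rw [dv_smul x (dW c) (dV c), dv_Vf D (cd_pd2 hh c)]
  rw [Finset.sum_congr rfl fun c _ => e1 c]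
  -- now the algebra
  have e2 : ∑ a, Vf τ h a x * pd a (Lop τ h) x =
      (∑ c, Lop τ (pd c h) x * Vf τ h c x) - Ga τ h x +
      ∑ c, Vf τ h c x * ∑ i, ∑ j, pd c (fun y => τ y i j) x * pd i (pd j h) x := by
    have : Ga τ h x = ∑ c, Vf τ h c x * pd c h x := by
      unfold Ga Vf
      refine Finset.sum_congr rfl fun a _ => ?_
      rw [Finset.sum_mul]
      exact Finset.sum_congr rfl fun b _ => by ring
    rw [this, ← Finset.sum_sub_distrib, ← Finset.sum_add_distrib]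
    refine Finset.sum_congr rfl fun c _ => ?_
    rw [pd_Lop D.hτ hh]
    ring
  have e3 : ∑ c, ∑ a, Vf τ (pd c h) a x * pd a (Vf τ h c) x = Qh τ h x +
      ∑ c, ∑ a, (∑ b, τ x a b * pd b (pd c h) x) *
        (∑ d, pd a (fun y => τ y c d) x * pd d h x) := by
    unfold Qh
    rw [Finset.sum_comm (f := fun a c => (∑ d, τ x c d * pd a (pd d h) x) *
      (∑ b, τ x a b * pd b (pd c h) x)), ← Finset.sum_add_distrib]
    refine Finset.sum_congr rfl fun c _ => ?_
    rw [← Finset.sum_add_distrib]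
    refine Finset.sum_congr rfl fun a _ => ?_
    rw [pd_Vf D.hτ h2, Finset.sum_add_distrib]
    unfold Vf
    ring
  have e4 : ∑ c, ∑ a, (∑ b, τ x a b * pd b (pd c h) x) *
        (∑ d, pd a (fun y => τ y c d) x * pd d h x) =
      ∑ c, Vf τ h c x * ∑ i, ∑ j, pd c (fun y => τ y i j) x * pd i (pd j h) x := by
    have l1 : ∑ c, ∑ a, (∑ b, τ x a b * pd b (pd c h) x) *
        (∑ d, pd a (fun y => τ y c d) x * pd d h x) =
        ∑ c, ∑ b, ∑ d, pd b (pd c h) x * pd d h x *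
          ∑ a, τ x a b * pd a (fun y => τ y c d) x := by
      refine Finset.sum_congr rfl fun c _ => ?_
      have k1 : ∀ a, (∑ b, τ x a b * pd b (pd c h) x) * (∑ d, pd a (fun y => τ y c d) x * pd d h x) =
          ∑ b, ∑ d, (τ x a b * pd b (pd c h) x) * (pd a (fun y => τ y c d) x * pd d h x) := by
        intro a
        exact Finset.sum_mul_sum _ _ _ _
      rw [Finset.sum_congr rfl fun a _ => k1 a, Finset.sum_comm]
      refine Finset.sum_congr rfl fun b _ => ?_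
      rw [Finset.sum_comm]
      refine Finset.sum_congr rfl fun d _ => ?_
      rw [Finset.mul_sum]
      exact Finset.sum_congr rfl fun a _ => by ring
    have l2 : ∑ c, Vf τ h c x * ∑ i, ∑ j, pd c (fun y => τ y i j) x * pd i (pd j h) x =
        ∑ j, ∑ i, ∑ d, pd i (pd j h) x * pd d h x *
          ∑ c, τ x c d * pd c (fun y => τ y i j) x := by
      have h4 := sum4_comm (fun c d i j : Fin n =>
        τ x c d * pd d h x * (pd c (fun y => τ y i j) x * pd i (pd j h) x))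
      have k1 : ∀ c, Vf τ h c x * ∑ i, ∑ j, pd c (fun y => τ y i j) x * pd i (pd j h) x =
          ∑ d, ∑ i, ∑ j, τ x c d * pd d h x * (pd c (fun y => τ y i j) x * pd i (pd j h) x) := by
        intro c
        unfold Vf
        rw [Finset.sum_mul]
        refine Finset.sum_congr rfl fun d _ => ?_
        rw [Finset.mul_sum]
        refine Finset.sum_congr rfl fun i _ => ?_
        rw [Finset.mul_sum]
      rw [Finset.sum_congr rfl fun c _ => k1 c, h4]
      refine Finset.sum_congr rfl fun j _ => Finset.sum_congr rfl fun i _ =>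
        Finset.sum_congr rfl fun d _ => ?_
      rw [Finset.mul_sum]
      exact Finset.sum_congr rfl fun c _ => by ring
    rw [l1, l2]
    refine Finset.sum_congr rfl fun c _ => Finset.sum_congr rfl fun b _ =>
      Finset.sum_congr rfl fun d _ => ?_
    congr 1
    -- S3(b;c,d) = S3(d;b,c)
    have s1 : (∑ a, τ x a b * pd a (fun y => τ y c d) x) =
        ∑ a, τ x a b * pd a (fun y => τ y d c) x := by
      refine Finset.sum_congr rfl fun a _ => ?_
      congr 1
      have : (fun y => τ y c d) = fun y => τ y d c := funext fun y => D.symm y c d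
      rw [this]
    rw [s1]
    exact D.tsym x b d c
  rw [e2, Finset.sum_add_distrib, e3, e4]
  ring

end B

end Crest.Agent.R238.Gap
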