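import Crest.Agent.R238.GapDefs

/-!
Row 238 (S0369), module H4, part (C1): integration by parts with the weight
`exp (-(‖x‖²/2 + P x))`, `P` bounded, for functions of polynomial growth, and the
symmetry of the operator `L h = Σ τ_ab ∂_a ∂_b h - x · ∇ h`.
-/

noncomputable section

open MeasureTheory Filter Topology

namespace Crest.Agent.R238.Gap

variable {n : ℕ}

lemma wt_pos (P : E n → ℝ) (x : E n) : 0 < wt P x := Real.exp_pos _

/-! ### polynomial growth -/

lemma PG.of_le {f : E n → ℝ} {K : ℝ} {k : ℕ} (h : ∀ x, |f x| ≤ K * (1 + ‖x‖) ^ k) : PG f :=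
  ⟨K, k, h⟩

lemma PG.of_bdd {f : E n → ℝ} {K : ℝ} (h : ∀ x, |f x| ≤ K) : PG f :=
  ⟨K, 0, fun x => by simpa using h x⟩

lemma pg_const (c : ℝ) : PG (fun _ : E n => c) := PG.of_bdd (K := |c|) fun _ => le_rfl

lemma PG.mono {f g : E n → ℝ} (hg : PG g) (h : ∀ x, |f x| ≤ |g x|) : PG f := by
  obtain ⟨K, k, hK⟩ := hg
  exact ⟨K, k, fun x => (h x).trans (hK x)⟩

lemma pg_nonneg {f : E n → ℝ} (h : PG f) :
    ∃ (K : ℝ) (k : ℕ), 0 ≤ K ∧ ∀ x, |f x| ≤ K * (1 + ‖x‖) ^ k := by
  obtain ⟨K, k, hK⟩ := h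
  exact ⟨K, k, by simpa using (abs_nonneg _).trans (hK 0), hK⟩

lemma PG.add {f g : E n → ℝ} (hf : PG f) (hg : PG g) : PG (fun x => f x + g x) := by
  obtain ⟨K, k, hK0, hK⟩ := pg_nonneg hf
  obtain ⟨M, m, hM0, hM⟩ := pg_nonneg hg
  refine ⟨K + M, k + m, fun x => ?_⟩
  have h1 : (1 : ℝ) ≤ 1 + ‖x‖ := by linarith [norm_nonneg x]
  have hk : (1 + ‖x‖) ^ k ≤ (1 + ‖x‖) ^ (k + m) := pow_le_pow_right₀ h1 (by omega)
  have hm : (1 + ‖x‖) ^ m ≤ (1 + ‖x‖) ^ (k + m) := pow_le_pow_right₀ h1 (by omega)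
  calc |f x + g x| ≤ |f x| + |g x| := abs_add_le _ _
    _ ≤ K * (1 + ‖x‖) ^ k + M * (1 + ‖x‖) ^ m := add_le_add (hK x) (hM x)
    _ ≤ K * (1 + ‖x‖) ^ (k + m) + M * (1 + ‖x‖) ^ (k + m) :=
        add_le_add (mul_le_mul_of_nonneg_left hk hK0) (mul_le_mul_of_nonneg_left hm hM0)
    _ = (K + M) * (1 + ‖x‖) ^ (k + m) := by ring

lemma PG.mul {f g : E n → ℝ} (hf : PG f) (hg : PG g) : PG (fun x => f x * g x) := by
  obtain ⟨K, k, hK0, hK⟩ := pg_nonneg hf
  obtain ⟨M, m, hM0, hM⟩ := pg_nonneg hg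
  refine ⟨K * M, k + m, fun x => ?_⟩
  have h1 : (0 : ℝ) ≤ 1 + ‖x‖ := by linarith [norm_nonneg x]
  calc |f x * g x| = |f x| * |g x| := abs_mul _ _
    _ ≤ (K * (1 + ‖x‖) ^ k) * (M * (1 + ‖x‖) ^ m) :=
        mul_le_mul (hK x) (hM x) (abs_nonneg _) (mul_nonneg hK0 (pow_nonneg h1 _))
    _ = K * M * (1 + ‖x‖) ^ (k + m) := by rw [pow_add]; ring

lemma PG.neg {f : E n → ℝ} (hf : PG f) : PG (fun x => -f x) :=
  hf.mono fun x => by rw [abs_neg]

lemma PG.sub {f g : E n → ℝ} (hf : PG f) (hg : PG g) : PG (fun x => f x - g x) := by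
  have := hf.add hg.neg
  simpa [sub_eq_add_neg] using this

lemma PG.pow {f : E n → ℝ} (hf : PG f) (m : ℕ) : PG (fun x => f x ^ m) := by
  induction m with
  | zero => simpa using pg_const (n := n) 1
  | succ m ih => simpa [pow_succ] using ih.mul hf

lemma PG.abs {f : E n → ℝ} (hf : PG f) : PG (fun x => |f x|) :=
  hf.mono fun x => by rw [abs_abs]

lemma PG.sum {ι : Type*} (s : Finset ι) {f : ι → E n → ℝ} (hf : ∀ i ∈ s, PG (f i)) :
    PG (fun x => ∑ i ∈ s, f i x) := by
  classical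
  induction s using Finset.induction_on with
  | empty => simpa using pg_const (n := n) 0
  | insert a s ha ih =>
    have h1 := ih fun i hi => hf i (Finset.mem_insert_of_mem hi)
    have h2 := (hf a (Finset.mem_insert_self a s)).add h1
    simpa [Finset.sum_insert ha] using h2

lemma pg_norm : PG (fun x : E n => ‖x‖) :=
  ⟨1, 1, fun x => by rw [abs_of_nonneg (norm_nonneg x)]; linarith⟩

lemma pg_coord (i : Fin n) : PG (fun x : E n => x i) :=
  ⟨1, 1, fun x => by
    have := PiLp.norm_apply_le x i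
    rw [Real.norm_eq_abs] at this
    linarith⟩

lemma pg_inner (v : E n) : PG (fun x : E n => inner ℝ v x) :=
  ⟨‖v‖, 1, fun x => by
    have := abs_real_inner_le_norm v x
    nlinarith [norm_nonneg v, norm_nonneg x]⟩

/-! ### integrability -/

lemma integrable_exp_neg_mul_norm_sq {b : ℝ} (hb : 0 < b) :
    Integrable (fun x : E n => Real.exp (-(b * ‖x‖ ^ 2))) := by
  have h := (GaussianFourier.integrable_cexp_neg_mul_sq_norm_add (V := E n)
    (b := (b : ℂ)) (by simpa using hb) 0 0).norm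
  refine h.congr (Eventually.of_forall fun x => ?_)
  simp only [zero_mul, add_zero, Complex.norm_exp]
  congr 1
  have : (-(b : ℂ) * (‖x‖ : ℂ) ^ 2) = ((-(b * ‖x‖ ^ 2) : ℝ) : ℂ) := by push_cast; ring
  rw [this, Complex.ofReal_re]

lemma one_add_pow_le (k : ℕ) {t : ℝ} (ht : 0 ≤ t) :
    (1 + t) ^ k ≤ k.factorial * Real.exp 2 * Real.exp (t ^ 2 / 4) := by
  have h1 := Real.pow_div_factorial_le_exp (1 + t) (by linarith) k
  have hk : (0 : ℝ) < k.factorial := by exact_mod_cast k.factorial_pos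
  rw [div_le_iff₀ hk] at h1
  have h2 : Real.exp (1 + t) ≤ Real.exp 2 * Real.exp (t ^ 2 / 4) := by
    rw [← Real.exp_add]
    exact Real.exp_le_exp.2 (by nlinarith [sq_nonneg (t - 2)])
  calc (1 + t) ^ k ≤ Real.exp (1 + t) * k.factorial := h1
    _ ≤ (Real.exp 2 * Real.exp (t ^ 2 / 4)) * k.factorial :=
        mul_le_mul_of_nonneg_right h2 hk.le
    _ = k.factorial * Real.exp 2 * Real.exp (t ^ 2 / 4) := by ring

lemma wt_le {P : E n → ℝ} {B : ℝ} (hB : ∀ x, |P x| ≤ B) (x : E n) :
    wt P x ≤ Real.exp B * Real.exp (-(‖x‖ ^ 2 / 2)) := by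
  rw [wt, ← Real.exp_add]
  exact Real.exp_le_exp.2 (by linarith [neg_abs_le (P x), hB x])

lemma le_wt {P : E n → ℝ} {B : ℝ} (hB : ∀ x, |P x| ≤ B) (x : E n) :
    Real.exp (-B) * Real.exp (-(‖x‖ ^ 2 / 2)) ≤ wt P x := by
  rw [wt, ← Real.exp_add]
  exact Real.exp_le_exp.2 (by linarith [le_abs_self (P x), hB x])

lemma aesm_wt {P : E n → ℝ} (hP : AEStronglyMeasurable P) :
    AEStronglyMeasurable (wt P) := by
  unfold wt
  refine Real.continuous_exp.comp_aestronglyMeasurable ?_
  refine AEStronglyMeasurable.neg ?_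
  exact ((by fun_prop : Continuous fun x : E n => ‖x‖ ^ 2 / 2).aestronglyMeasurable).add hP

/-- measurable functions of polynomial growth are integrable against the weight -/
theorem integrable_pg_meas {P f : E n → ℝ} {B : ℝ} (hPm : AEStronglyMeasurable P)
    (hB : ∀ x, |P x| ≤ B) (hfm : AEStronglyMeasurable f) (hf : PG f) :
    Integrable (fun x => f x * wt P x) := by
  obtain ⟨K, k, hK0, hK⟩ := pg_nonneg hf
  have hdom : Integrable (fun x : E n =>
      (K * (k.factorial * Real.exp 2) * Real.exp B) * Real.exp (-(1 / 4 * ‖x‖ ^ 2))) :=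
    (integrable_exp_neg_mul_norm_sq (by norm_num)).const_mul _
  refine hdom.mono' (hfm.mul (aesm_wt hPm)) (Eventually.of_forall fun x => ?_)
  have h1 := one_add_pow_le k (norm_nonneg x)
  have h2 := wt_le hB x
  have hexp : Real.exp (‖x‖ ^ 2 / 4) * Real.exp (-(‖x‖ ^ 2 / 2))
      = Real.exp (-(1 / 4 * ‖x‖ ^ 2)) := by
    rw [← Real.exp_add]; congr 1; ring
  rw [Real.norm_eq_abs, abs_mul, abs_of_pos (wt_pos P x)]
  calc |f x| * wt P x ≤ (K * (1 + ‖x‖) ^ k) * (Real.exp B * Real.exp (-(‖x‖ ^ 2 / 2))) :=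
        mul_le_mul (hK x) h2 (wt_pos P x).le
          (mul_nonneg hK0 (pow_nonneg (by linarith [norm_nonneg x]) _))
    _ ≤ (K * (k.factorial * Real.exp 2 * Real.exp (‖x‖ ^ 2 / 4))) *
          (Real.exp B * Real.exp (-(‖x‖ ^ 2 / 2))) :=
        mul_le_mul_of_nonneg_right (mul_le_mul_of_nonneg_left h1 hK0) (by positivity)
    _ = (K * (k.factorial * Real.exp 2) * Real.exp B) *
          (Real.exp (‖x‖ ^ 2 / 4) * Real.exp (-(‖x‖ ^ 2 / 2))) := by ring
    _ = _ := by rw [hexp]

/-- continuous functions of polynomial growth are integrable against the weight -/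
theorem integrable_pg {P f : E n → ℝ} {B : ℝ} (hPc : Continuous P)
    (hB : ∀ x, |P x| ≤ B) (hfc : Continuous f) (hf : PG f) :
    Integrable (fun x => f x * wt P x) :=
  integrable_pg_meas hPc.aestronglyMeasurable hB hfc.aestronglyMeasurable hf

theorem integrable_wt {P : E n → ℝ} {B : ℝ} (hPc : Continuous P) (hB : ∀ x, |P x| ≤ B) :
    Integrable (wt P) := by
  have := integrable_pg hPc hB (f := fun _ => 1) continuous_const (pg_const 1)
  simpa using this

theorem integral_wt_pos {P : E n → ℝ} {B : ℝ} (hPc : Continuous P) (hB : ∀ x, |P x| ≤ B) :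
    0 < ∫ x, wt P x := by
  have h := integrable_wt hPc hB
  rw [integral_pos_iff_support_of_nonneg (fun x => (wt_pos P x).le) h]
  have : Function.support (wt P) = Set.univ := by
    ext x; simp [(wt_pos P x).ne']
  rw [this]
  exact Measure.measure_univ_pos.2 (NeZero.ne _)

/-! ### partial derivatives -/

lemma continuous_pd {f : E n → ℝ} (hf : ContDiff ℝ 1 f) (i : Fin n) : Continuous (pd i f) :=
  (hf.continuous_fderiv one_ne_zero).clm_apply continuous_const

lemma contDiff_pd {f : E n → ℝ} {m : ℕ∞} (hf : ContDiff ℝ (m + 1) f) (i : Fin n) :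
    ContDiff ℝ m (pd i f) :=
  (hf.fderiv_right le_rfl).clm_apply contDiff_const

lemma contDiff_one_pd {f : E n → ℝ} (hf : ContDiff ℝ 2 f) (i : Fin n) :
    ContDiff ℝ 1 (pd i f) :=
  (hf.fderiv_right (by norm_num)).clm_apply contDiff_const

lemma pd_mul {f g : E n → ℝ} {x : E n} (hf : DifferentiableAt ℝ f x)
    (hg : DifferentiableAt ℝ g x) (i : Fin n) :
    pd i (fun y => f y * g y) x = pd i f x * g x + f x * pd i g x := by
  unfold pd
  rw [fderiv_fun_mul hf hg]
  simp only [ContinuousLinearMap.add_apply, ContinuousLinearMap.smul_apply, smul_eq_mul]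
  ring

lemma pd_add {f g : E n → ℝ} {x : E n} (hf : DifferentiableAt ℝ f x)
    (hg : DifferentiableAt ℝ g x) (i : Fin n) :
    pd i (fun y => f y + g y) x = pd i f x + pd i g x := by
  unfold pd
  rw [fderiv_fun_add hf hg]; rfl

lemma pd_norm_sq (i : Fin n) (x : E n) : pd i (fun y => ‖y‖ ^ 2) x = 2 * x i := by
  unfold pd
  rw [fderiv_norm_sq_apply]
  simp [PiLp.inner_apply]

lemma hasFDerivAt_wt {P : E n → ℝ} {x : E n} (hP : DifferentiableAt ℝ P x) :
    HasFDerivAt (wt P) (-(wt P x) • (innerSL ℝ x + fderiv ℝ P x)) x := by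
  have h1 : HasFDerivAt (fun y : E n => ‖y‖ ^ 2 / 2) (innerSL ℝ x) x := by
    have := (hasStrictFDerivAt_norm_sq x).hasFDerivAt.const_mul (1 / 2 : ℝ)
    refine (this.congr_fderiv ?_).congr_of_eventuallyEq (Eventually.of_forall fun y => ?_)
    · ext y; simp
    · simp only [one_div]; ring
  have h2 := ((h1.add hP.hasFDerivAt).neg).exp
  refine h2.congr_fderiv ?_
  rw [smul_neg, neg_smul]; rfl

lemma differentiableAt_wt {P : E n → ℝ} {x : E n} (hP : DifferentiableAt ℝ P x) :
    DifferentiableAt ℝ (wt P) x := (hasFDerivAt_wt hP).differentiableAt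

lemma pd_wt {P : E n → ℝ} {x : E n} (hP : DifferentiableAt ℝ P x) (i : Fin n) :
    pd i (wt P) x = -((x i + pd i P x) * wt P x) := by
  unfold pd
  rw [(hasFDerivAt_wt hP).fderiv]
  simp only [ContinuousLinearMap.smul_apply, ContinuousLinearMap.add_apply, smul_eq_mul,
    innerSL_apply_apply]
  have : inner ℝ x (EuclideanSpace.single i (1 : ℝ)) = x i := by
    simp [PiLp.inner_apply]
  rw [this]; ring

lemma fderiv_wt_apply {P : E n → ℝ} {x : E n} (hP : DifferentiableAt ℝ P x) (v : E n) :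
    fderiv ℝ (wt P) x v = -((inner ℝ x v + fderiv ℝ P x v) * wt P x) := by
  rw [(hasFDerivAt_wt hP).fderiv]
  simp only [ContinuousLinearMap.smul_apply, ContinuousLinearMap.add_apply, smul_eq_mul,
    innerSL_apply_apply]
  ring

/-! ### integration by parts -/

/-- integration by parts against the weight, in direction `v` -/
theorem ibp_dir {P f : E n → ℝ} {B : ℝ} (hP : ContDiff ℝ 1 P) (hB : ∀ x, |P x| ≤ B) {v : E n}
    (hP1 : PG (fun x => fderiv ℝ P x v)) (hf : ContDiff ℝ 1 f) (hf0 : PG f)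
    (hf1 : PG (fun x => fderiv ℝ f x v)) :
    ∫ x, fderiv ℝ f x v * wt P x = ∫ x, f x * (inner ℝ x v + fderiv ℝ P x v) * wt P x := by
  have hPd : Differentiable ℝ P := hP.differentiable one_ne_zero
  have hfd : Differentiable ℝ f := hf.differentiable one_ne_zero
  have hcf' : Continuous (fun x => fderiv ℝ f x v) :=
    (hf.continuous_fderiv one_ne_zero).clm_apply continuous_const
  have hcP' : Continuous (fun x => fderiv ℝ P x v) :=
    (hP.continuous_fderiv one_ne_zero).clm_apply continuous_const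
  have hin : PG (fun x : E n => inner ℝ x v) :=
    (pg_inner v).mono fun x => by rw [real_inner_comm]
  have i1 : Integrable (fun x => fderiv ℝ f x v * wt P x) :=
    integrable_pg hP.continuous hB hcf' hf1
  have i2 : Integrable (fun x => f x * (inner ℝ x v + fderiv ℝ P x v) * wt P x) :=
    integrable_pg hP.continuous hB
      (hf.continuous.mul ((by fun_prop : Continuous fun x : E n => inner ℝ x v).add hcP'))
      (hf0.mul (hin.add hP1))
  have e2 : ∀ x, f x * fderiv ℝ (wt P) x v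
      = -(f x * (inner ℝ x v + fderiv ℝ P x v) * wt P x) := fun x => by
    rw [fderiv_wt_apply (hPd x)]; ring
  have i3 : Integrable (fun x => f x * wt P x) :=
    integrable_pg hP.continuous hB hf.continuous hf0
  have key := integral_mul_fderiv_eq_neg_fderiv_mul_of_integrable (𝕜 := ℝ) (μ := volume)
    (f := f) (g := wt P) (v := v) i1
    (by simp only [e2]; exact i2.neg) i3 (fun x _ => hfd x)
    (fun x _ => differentiableAt_wt (hPd x))
  simp only [e2] at key
  rw [integral_neg] at key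
  linarith

/-- integration by parts against the weight -/
theorem ibp {P f : E n → ℝ} {B : ℝ} (hP : ContDiff ℝ 1 P) (hB : ∀ x, |P x| ≤ B) (i : Fin n)
    (hP1 : PG (pd i P)) (hf : ContDiff ℝ 1 f) (hf0 : PG f) (hf1 : PG (pd i f)) :
    ∫ x, pd i f x * wt P x = ∫ x, f x * (x i + pd i P x) * wt P x := by
  have h := ibp_dir (v := EuclideanSpace.single i (1 : ℝ)) hP hB hP1 hf hf0 hf1
  have e : ∀ x : E n, inner ℝ x (EuclideanSpace.single i (1 : ℝ)) = x i := fun x => by
    simp [PiLp.inner_apply]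
  simp only [e] at h
  exact h

/-- integration by parts of a product -/
theorem ibp_mul {P f g : E n → ℝ} {B : ℝ} (hP : ContDiff ℝ 1 P) (hB : ∀ x, |P x| ≤ B)
    (i : Fin n) (hP1 : PG (pd i P)) (hf : ContDiff ℝ 1 f) (hf0 : PG f) (hf1 : PG (pd i f))
    (hg : ContDiff ℝ 1 g) (hg0 : PG g) (hg1 : PG (pd i g)) :
    ∫ x, (pd i f x * g x) * wt P x
      = ∫ x, f x * (g x * (x i + pd i P x) - pd i g x) * wt P x := by
  have hfd := hf.differentiable one_ne_zero
  have hgd := hg.differentiable one_ne_zero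
  have e1 : ∀ x, pd i (fun y => f y * g y) x = pd i f x * g x + f x * pd i g x := fun x =>
    pd_mul (hfd x) (hgd x) i
  have hfg1 : PG (pd i (fun y => f y * g y)) := by
    have : pd i (fun y => f y * g y) = fun x => pd i f x * g x + f x * pd i g x := funext e1
    rw [this]
    exact (hf1.mul hg0).add (hf0.mul hg1)
  have h := ibp hP hB i hP1 (hf.mul hg) (hf0.mul hg0) hfg1
  have j1 : Integrable (fun x => (pd i f x * g x) * wt P x) :=
    integrable_pg hP.continuous hB ((continuous_pd hf i).mul hg.continuous) (hf1.mul hg0)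
  have j2 : Integrable (fun x => (f x * pd i g x) * wt P x) :=
    integrable_pg hP.continuous hB (hf.continuous.mul (continuous_pd hg i)) (hf0.mul hg1)
  have j3 : Integrable (fun x => (f x * g x * (x i + pd i P x)) * wt P x) :=
    integrable_pg hP.continuous hB
      ((hf.continuous.mul hg.continuous).mul
        ((by fun_prop : Continuous fun x : E n => x i).add (continuous_pd hP i)))
      ((hf0.mul hg0).mul ((pg_coord i).add hP1))
  simp only [e1, add_mul] at h
  rw [integral_add j1 j2] at h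
  have h3 : ∫ x, f x * (g x * (x i + pd i P x) - pd i g x) * wt P x
      = (∫ x, (f x * g x * (x i + pd i P x)) * wt P x) - ∫ x, (f x * pd i g x) * wt P x := by
    rw [← integral_sub j3 j2]
    refine integral_congr_ae (Eventually.of_forall fun x => ?_)
    simp only; ring
  rw [h3]
  have h4 : ∫ x, f x * g x * (x i + pd i P x) * wt P x
      = ∫ x, (f x * g x * (x i + pd i P x)) * wt P x := rfl
  linarith

/-- divergence form: `∫ ⟨∇ f, V⟩ dμ = - ∫ f (Σ ∂_i V_i - V_i (x_i + ∂_i P)) dμ` -/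
theorem ibp_div {P f : E n → ℝ} {B : ℝ} (hP : ContDiff ℝ 1 P) (hB : ∀ x, |P x| ≤ B)
    (hP1 : ∀ i, PG (pd i P)) (hf : ContDiff ℝ 1 f) (hf0 : PG f) (hf1 : ∀ i, PG (pd i f))
    {V : Fin n → E n → ℝ} (hV : ∀ i, ContDiff ℝ 1 (V i)) (hV0 : ∀ i, PG (V i))
    (hV1 : ∀ i, PG (pd i (V i))) :
    ∫ x, (∑ i, pd i f x * V i x) * wt P x
      = -∫ x, f x * (∑ i, (pd i (V i) x - V i x * (x i + pd i P x))) * wt P x := by
  have j1 : ∀ i, Integrable (fun x => (pd i f x * V i x) * wt P x) := fun i =>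
    integrable_pg hP.continuous hB ((continuous_pd hf i).mul (hV i).continuous)
      ((hf1 i).mul (hV0 i))
  have j2 : ∀ i, Integrable (fun x => f x * (V i x * (x i + pd i P x) - pd i (V i) x) * wt P x) :=
    fun i => integrable_pg hP.continuous hB
      (hf.continuous.mul (((hV i).continuous.mul
        ((by fun_prop : Continuous fun x : E n => x i).add (continuous_pd hP i))).sub
          (continuous_pd (hV i) i)))
      (hf0.mul (((hV0 i).mul ((pg_coord i).add (hP1 i))).sub (hV1 i)))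
  have h1 : ∀ i, ∫ x, (pd i f x * V i x) * wt P x
      = ∫ x, f x * (V i x * (x i + pd i P x) - pd i (V i) x) * wt P x := fun i =>
    ibp_mul hP hB i (hP1 i) hf hf0 (hf1 i) (hV i) (hV0 i) (hV1 i)
  calc ∫ x, (∑ i, pd i f x * V i x) * wt P x
      = ∑ i, ∫ x, (pd i f x * V i x) * wt P x := by
        rw [← integral_finsetSum _ fun i _ => j1 i]
        refine integral_congr_ae (Eventually.of_forall fun x => ?_)
        simp only [Finset.sum_mul]
    _ = ∑ i, ∫ x, f x * (V i x * (x i + pd i P x) - pd i (V i) x) * wt P x :=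
        Finset.sum_congr rfl fun i _ => h1 i
    _ = ∫ x, ∑ i, f x * (V i x * (x i + pd i P x) - pd i (V i) x) * wt P x :=
        (integral_finsetSum _ fun i _ => j2 i).symm
    _ = _ := by
        rw [← integral_neg]
        refine integral_congr_ae (Eventually.of_forall fun x => ?_)
        simp only
        rw [← Finset.sum_mul, ← Finset.mul_sum, ← neg_mul, ← mul_neg, ← Finset.sum_neg_distrib]
        congr 3
        ext i; ring

/-- the integral of a weighted divergence vanishes -/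
theorem ibp_zero {P : E n → ℝ} {B : ℝ} (hP : ContDiff ℝ 1 P) (hB : ∀ x, |P x| ≤ B)
    (hP1 : ∀ i, PG (pd i P)) {V : Fin n → E n → ℝ} (hV : ∀ i, ContDiff ℝ 1 (V i))
    (hV0 : ∀ i, PG (V i)) (hV1 : ∀ i, PG (pd i (V i))) :
    ∫ x, (∑ i, (pd i (V i) x - V i x * (x i + pd i P x))) * wt P x = 0 := by
  have h0 : ∀ i, pd i (fun _ : E n => (1 : ℝ)) = fun _ => 0 := fun i => by
    funext x; simp [pd]
  have h := ibp_div hP hB hP1 (f := fun _ => (1 : ℝ)) contDiff_const (pg_const 1)
    (fun i => by rw [h0 i]; exact pg_const 0) hV hV0 hV1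
  simp only [h0, zero_mul, Finset.sum_const_zero, integral_zero, one_mul] at h
  linarith

lemma pd_sum {ι : Type*} {s : Finset ι} {f : ι → E n → ℝ} {x : E n}
    (hf : ∀ b ∈ s, DifferentiableAt ℝ (f b) x) (i : Fin n) :
    pd i (fun y => ∑ b ∈ s, f b y) x = ∑ b ∈ s, pd i (f b) x := by
  unfold pd
  rw [fderiv_fun_sum hf, ContinuousLinearMap.sum_apply]

/-- the Hessian entries are iterated partial derivatives -/
lemma H_eq_pd {h : E n → ℝ} (hh : ContDiff ℝ 2 h) (x : E n) (i j : Fin n) :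
    H h x i j = pd i (pd j h) x := by
  have h1 : DifferentiableAt ℝ (fun y => fderiv ℝ h y) x :=
    ((hh.fderiv_right (m := 1) (by norm_num)).differentiable one_ne_zero) x
  have h2 := (h1.hasFDerivAt.clm_apply (hasFDerivAt_const (e j) x)).fderiv
  change fderiv ℝ (fun y => fderiv ℝ h y) x (e i) (e j)
    = fderiv ℝ (fun y => fderiv ℝ h y (e j)) x (e i)
  rw [h2]
  simp

lemma H_symm {h : E n → ℝ} (hh : ContDiff ℝ 2 h) (x : E n) (i j : Fin n) :
    H h x i j = H h x j i := by
  have := (hh.contDiffAt (x := x)).isSymmSndFDerivAt (by simp)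
  exact this (e i) (e j)

lemma continuous_H {h : E n → ℝ} (hh : ContDiff ℝ 2 h) (i j : Fin n) :
    Continuous (fun x => H h x i j) := by
  have h1 : Continuous (fun x => fderiv ℝ (fun y => fderiv ℝ h y) x) :=
    (hh.fderiv_right (m := 1) (by norm_num)).continuous_fderiv one_ne_zero
  exact (h1.clm_apply continuous_const).clm_apply continuous_const

/-- expansion of a vector in the standard basis -/
lemma sum_single (v : E n) : ∑ b, v b • e b = v := by
  ext i
  simp [Finset.sum_apply, Pi.single_apply]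

lemma clm_apply_eq_sum (T : E n →L[ℝ] ℝ) (v : E n) : T v = ∑ b, v b * T (e b) := by
  conv_lhs => rw [← sum_single v]
  simp [map_sum]

lemma fderiv_apply_eq_sum (h : E n → ℝ) (x v : E n) :
    fderiv ℝ h x v = ∑ b, v b * pd b h x := clm_apply_eq_sum _ _

lemma Lop_eq {τ : E n → Matrix (Fin n) (Fin n) ℝ} {h : E n → ℝ} (hh : ContDiff ℝ 2 h)
    (x : E n) :
    Lop τ h x = (∑ a, ∑ b, τ x a b * pd a (pd b h) x) - ∑ b, x b * pd b h x := by
  simp only [Lop, fderiv_apply_eq_sum, H_eq_pd hh]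

lemma continuous_Lop {τ : E n → Matrix (Fin n) (Fin n) ℝ} (hτ : ∀ a b, Continuous fun x => τ x a b)
    {h : E n → ℝ} (hh : ContDiff ℝ 2 h) : Continuous (Lop τ h) := by
  have : Lop τ h = fun x => (∑ a, ∑ b, τ x a b * H h x a b) - ∑ b, x b * pd b h x := by
    funext x; simp only [Lop, fderiv_apply_eq_sum]
  rw [this]
  refine Continuous.sub ?_ ?_
  · exact continuous_finsetSum _ fun a _ => continuous_finsetSum _ fun b _ =>
      (hτ a b).mul (continuous_H hh a b)
  · exact continuous_finsetSum _ fun b _ =>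
      (by fun_prop : Continuous fun x : E n => x b).mul
        (continuous_pd (hh.of_le (by norm_num)) b)

lemma pg_Lop {τ : E n → Matrix (Fin n) (Fin n) ℝ} (hτ : ∀ a b, PG fun x => τ x a b)
    {h : E n → ℝ} (hh1 : ∀ i, PG (pd i h)) (hh2 : ∀ i j, PG (fun x => H h x i j)) :
    PG (Lop τ h) := by
  have : Gap.Lop τ h = fun x => (∑ a, ∑ b, τ x a b * H h x a b) - ∑ b, x b * pd b h x := by
    funext x; simp only [Gap.Lop, fderiv_apply_eq_sum]
  rw [this]
  exact (PG.sum _ fun a _ => PG.sum _ fun b _ => (hτ a b).mul (hh2 a b)).sub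
    (PG.sum _ fun b _ => (pg_coord b).mul (hh1 b))

/-- **symmetry of `L`**, raw form: `∫ f (L h) dμ = - ∫ ⟨τ ∇ f, ∇ h⟩ dμ`, for every coefficient
field `τ` with `Σ_a (∂_a τ_ab - τ_ab (x_a + ∂_a P)) = - x_b`. -/
theorem sym_raw {P : E n → ℝ} {B : ℝ} (hP : ContDiff ℝ 1 P) (hB : ∀ x, |P x| ≤ B)
    (hP1 : ∀ i, PG (pd i P)) {τ : E n → Matrix (Fin n) (Fin n) ℝ}
    (hτ : ∀ a b, ContDiff ℝ 1 (fun x => τ x a b)) (hτ0 : ∀ a b, PG (fun x => τ x a b))
    (hτ1 : ∀ a b, PG (pd a (fun x => τ x a b)))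
    (hdiv : ∀ x b, ∑ a, (pd a (fun y => τ y a b) x - τ x a b * (x a + pd a P x)) = -x b)
    {f h : E n → ℝ} (hf : ContDiff ℝ 1 f) (hf0 : PG f) (hf1 : ∀ i, PG (pd i f))
    (hh : ContDiff ℝ 2 h) (hh1 : ∀ i, PG (pd i h)) (hh2 : ∀ i j, PG (fun x => H h x i j)) :
    ∫ x, f x * Gap.Lop τ h x * wt P x
      = -∫ x, (∑ a, ∑ b, τ x a b * pd a f x * pd b h x) * wt P x := by
  have hph : ∀ b, ContDiff ℝ 1 (pd b h) := fun b => contDiff_one_pd hh b
  have hh2' : ∀ i j, PG (pd i (pd j h)) := fun i j =>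
    (hh2 i j).mono fun x => by rw [H_eq_pd hh]
  have e1 : ∀ a, pd a (fun x => ∑ b, τ x a b * pd b h x)
      = fun x => ∑ b, (pd a (fun y => τ y a b) x * pd b h x + τ x a b * pd a (pd b h) x) := by
    intro a
    funext x
    have := pd_sum (s := Finset.univ) (f := fun b y => τ y a b * pd b h y) (x := x) (fun b _ =>
      (((hτ a b).differentiable one_ne_zero x).mul ((hph b).differentiable one_ne_zero x))) a
    rw [this]
    refine Finset.sum_congr rfl fun b _ => ?_
    exact pd_mul ((hτ a b).differentiable one_ne_zero x) ((hph b).differentiable one_ne_zero x) a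
  have hV : ∀ a, ContDiff ℝ 1 (fun x => ∑ b, τ x a b * pd b h x) := fun a =>
    ContDiff.sum fun b _ => (hτ a b).mul (hph b)
  have hV0 : ∀ a, PG (fun x => ∑ b, τ x a b * pd b h x) := fun a =>
    PG.sum _ fun b _ => (hτ0 a b).mul (hh1 b)
  have hV1 : ∀ a, PG (pd a (fun x => ∑ b, τ x a b * pd b h x)) := fun a => by
    rw [e1 a]
    exact PG.sum _ fun b _ => ((hτ1 a b).mul (hh1 b)).add ((hτ0 a b).mul (hh2' a b))
  have key := ibp_div hP hB hP1 hf hf0 hf1 hV hV0 hV1
  have e2 : ∀ x, (∑ a, ∑ b, τ x a b * pd a f x * pd b h x)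
      = ∑ a, pd a f x * ∑ b, τ x a b * pd b h x := fun x => by
    refine Finset.sum_congr rfl fun a _ => ?_
    rw [Finset.mul_sum]
    exact Finset.sum_congr rfl fun b _ => by ring
  have e3 : ∀ x, Gap.Lop τ h x
      = ∑ a, (pd a (fun x => ∑ b, τ x a b * pd b h x) x
          - (∑ b, τ x a b * pd b h x) * (x a + pd a P x)) := fun x => by
    have h1 : ∀ a, (pd a (fun x => ∑ b, τ x a b * pd b h x) x
          - (∑ b, τ x a b * pd b h x) * (x a + pd a P x))
        = ∑ b, (τ x a b * pd a (pd b h) x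
          + (pd a (fun y => τ y a b) x - τ x a b * (x a + pd a P x)) * pd b h x) := fun a => by
      rw [e1 a, Finset.sum_mul, ← Finset.sum_sub_distrib]
      exact Finset.sum_congr rfl fun b _ => by ring
    have h2 : ∑ a, ∑ b, (pd a (fun y => τ y a b) x - τ x a b * (x a + pd a P x)) * pd b h x
        = -∑ b, x b * pd b h x := by
      rw [Finset.sum_comm, ← Finset.sum_neg_distrib]
      refine Finset.sum_congr rfl fun b _ => ?_
      rw [← Finset.sum_mul, hdiv x b, neg_mul]
    rw [Finset.sum_congr rfl fun a _ => h1 a]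
    simp only [Finset.sum_add_distrib]
    rw [h2, Lop_eq hh, sub_eq_add_neg]
  simp only [e2, e3]
  linarith

/-! ### the data of the problem -/

lemma Dat.entry_le {lo hi M0 : ℝ} {P : E n → ℝ} {τ : E n → Matrix (Fin n) (Fin n) ℝ}
    (D : Dat lo hi M0 P τ) (x : E n) (i j : Fin n) : |τ x i j| ≤ |lo| + |hi| := by
  have key : ∀ (v : Fin n → ℝ), (∀ k, k ≠ i → k ≠ j → v k = 0) → i ≠ j →
      ∑ a, ∑ b, τ x a b * v a * v b
        = τ x i i * v i * v i + τ x j j * v j * v j + 2 * τ x i j * v i * v j := by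
    intro v hv hij
    have h1 : ∀ a, ∑ b, τ x a b * v a * v b = τ x a i * v a * v i + τ x a j * v a * v j := by
      intro a
      rw [← Finset.sum_subset (Finset.subset_univ {i, j}), Finset.sum_pair hij]
      intro k _ hk
      simp only [Finset.mem_insert, Finset.mem_singleton, not_or] at hk
      rw [hv k hk.1 hk.2, mul_zero]
    rw [Finset.sum_congr rfl fun a _ => h1 a,
      ← Finset.sum_subset (Finset.subset_univ {i, j}), Finset.sum_pair hij, D.symm x j i]
    · ring
    intro k _ hk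
    simp only [Finset.mem_insert, Finset.mem_singleton, not_or] at hk
    rw [hv k hk.1 hk.2]; ring
  have key2 : ∀ (v : Fin n → ℝ), (∀ k, k ≠ i → k ≠ j → v k = 0) → i ≠ j →
      ∑ a, v a ^ 2 = v i ^ 2 + v j ^ 2 := by
    intro v hv hij
    rw [← Finset.sum_subset (Finset.subset_univ {i, j}), Finset.sum_pair hij]
    intro k _ hk
    simp only [Finset.mem_insert, Finset.mem_singleton, not_or] at hk
    rw [hv k hk.1 hk.2]; ring
  have hlo := neg_abs_le lo
  have hhi := le_abs_self hi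
  have hlo' := abs_nonneg lo
  have hhi' := abs_nonneg hi
  by_cases hij : i = j
  · subst hij
    have h1 := D.lower x (Pi.single i 1)
    have h2 := D.upper x (Pi.single i 1)
    simp only [Pi.single_apply, mul_ite, mul_one, mul_zero, ite_pow, one_pow, ne_eq,
      OfNat.ofNat_ne_zero, not_false_eq_true, zero_pow, Finset.sum_ite_eq', Finset.mem_univ,
      if_true] at h1 h2
    rw [_root_.abs_le]; constructor <;> linarith
  · have hji : j ≠ i := fun h => hij h.symm
    let v : Fin n → ℝ := fun k => if k = i then 1 else if k = j then 1 else 0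
    let w : Fin n → ℝ := fun k => if k = i then 1 else if k = j then -1 else 0
    have hv : ∀ k, k ≠ i → k ≠ j → v k = 0 := fun k h1 h2 => by simp [v, h1, h2]
    have hw : ∀ k, k ≠ i → k ≠ j → w k = 0 := fun k h1 h2 => by simp [w, h1, h2]
    have vi : v i = 1 := by simp [v]
    have vj : v j = 1 := by simp [v]
    have wi : w i = 1 := by simp [w]
    have wj : w j = -1 := by simp [w, hji]
    have a1 := D.lower x v
    have a2 := D.upper x v
    have b1 := D.lower x w
    have b2 := D.upper x w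
    rw [key v hv hij, key2 v hv hij, vi, vj] at a1 a2
    rw [key w hw hij, key2 w hw hij, wi, wj] at b1 b2
    rw [_root_.abs_le]; constructor <;> linarith

lemma Dat.pgτ {lo hi M0 : ℝ} {P : E n → ℝ} {τ : E n → Matrix (Fin n) (Fin n) ℝ}
    (D : Dat lo hi M0 P τ) (i j : Fin n) : PG (fun x => τ x i j) :=
  PG.of_bdd (K := |lo| + |hi|) fun x => D.entry_le x i j

/-- **symmetry of `L`** for the data `Dat` -/
theorem Dat.sym {lo hi M0 : ℝ} {P : E n → ℝ} {τ : E n → Matrix (Fin n) (Fin n) ℝ}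
    (D : Dat lo hi M0 P τ) {f h : E n → ℝ} (hf : ContDiff ℝ 1 f) (hf0 : PG f)
    (hf1 : ∀ i, PG (pd i f)) (hh : ContDiff ℝ 2 h) (hh1 : ∀ i, PG (pd i h))
    (hh2 : ∀ i j, PG (fun x => H h x i j)) :
    ∫ x, f x * Gap.Lop τ h x * wt P x
      = -∫ x, (∑ a, ∑ b, τ x a b * pd a f x * pd b h x) * wt P x :=
  sym_raw D.hP D.bP D.gP D.hτ D.pgτ (fun a b => D.gτ a a b) D.div hf hf0 hf1 hh hh1 hh2

end Crest.Agent.R238.Gap
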