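import Mathlib
import Crest.Agent.R238.GapDefs
import Crest.Agent.R238.GapIBP
import Crest.Agent.R238.GapBoch

/-!
Row 238 (S0369), module H4 (GAP): integrated Bochner identity for `C³` functions (helper469).
-/

set_option autoImplicit false

open MeasureTheory Real Set Filter Topology

namespace Crest.Agent.R238.Gap

variable {n : ℕ}

/-- `C¹` functions with polynomial growth of the function and its first derivatives. -/
structure G1 (f : E n → ℝ) : Prop where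
  cd : ContDiff ℝ 1 f
  g0 : PG f
  g1 : ∀ i, PG (pd i f)

namespace G1

lemma diff {f : E n → ℝ} (hf : G1 f) (x : E n) : DifferentiableAt ℝ f x :=
  hf.cd.differentiable (by norm_num) x

lemma add {f g : E n → ℝ} (hf : G1 f) (hg : G1 g) : G1 (fun x => f x + g x) where
  cd := hf.cd.add hg.cd
  g0 := hf.g0.add hg.g0
  g1 i := by
    have : pd i (fun x => f x + g x) = fun x => pd i f x + pd i g x :=
      funext fun x => B.pd_add i (hf.diff x) (hg.diff x)
    rw [this]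
    exact (hf.g1 i).add (hg.g1 i)

lemma sub {f g : E n → ℝ} (hf : G1 f) (hg : G1 g) : G1 (fun x => f x - g x) where
  cd := hf.cd.sub hg.cd
  g0 := hf.g0.sub hg.g0
  g1 i := by
    have : pd i (fun x => f x - g x) = fun x => pd i f x - pd i g x :=
      funext fun x => B.pd_sub i (hf.diff x) (hg.diff x)
    rw [this]
    exact (hf.g1 i).sub (hg.g1 i)

lemma mul {f g : E n → ℝ} (hf : G1 f) (hg : G1 g) : G1 (fun x => f x * g x) where
  cd := hf.cd.mul hg.cd
  g0 := hf.g0.mul hg.g0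
  g1 i := by
    have : pd i (fun x => f x * g x) = fun x => pd i f x * g x + f x * pd i g x :=
      funext fun x => B.pd_mul i (hf.diff x) (hg.diff x)
    rw [this]
    exact ((hf.g1 i).mul hg.g0).add (hf.g0.mul (hg.g1 i))

lemma sum {ι : Type*} (s : Finset ι) {f : ι → E n → ℝ} (hf : ∀ k ∈ s, G1 (f k)) :
    G1 (fun x => ∑ k ∈ s, f k x) where
  cd := ContDiff.sum fun k hk => (hf k hk).cd
  g0 := PG.sum s fun k hk => (hf k hk).g0
  g1 i := by
    have : pd i (fun x => ∑ k ∈ s, f k x) = fun x => ∑ k ∈ s, pd i (f k) x :=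
      funext fun x => B.pd_sum i (fun k hk => (hf k hk).diff x)
    rw [this]
    exact PG.sum s fun k hk => (hf k hk).g1 i

lemma coord (j : Fin n) : G1 (fun x : E n => x j) where
  cd := (EuclideanSpace.proj (𝕜 := ℝ) j : E n →L[ℝ] ℝ).contDiff
  g0 := pg_coord j
  g1 i := by
    have : pd i (fun x : E n => x j) = fun _ => if i = j then 1 else 0 :=
      funext fun x => B.pd_coord i j x
    rw [this]
    exact pg_const _

end G1

/-- `C³` functions with polynomial growth of the derivatives of order `1, 2, 3`. -/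
structure G3 (h : E n → ℝ) : Prop where
  cd : ContDiff ℝ 3 h
  g1 : ∀ i, PG (pd i h)
  g2 : ∀ i j, PG (pd i (pd j h))
  g3 : ∀ i j k, PG (pd i (pd j (pd k h)))

lemma G3.c2 {h : E n → ℝ} (hh : G3 h) : ContDiff ℝ 2 h := hh.cd.of_le (by norm_num)

lemma G3.pd1 {h : E n → ℝ} (hh : G3 h) (i : Fin n) : G1 (pd i h) where
  cd := B.cd_pd1 hh.c2 i
  g0 := hh.g1 i
  g1 j := hh.g2 j i

lemma G3.pd2 {h : E n → ℝ} (hh : G3 h) (i j : Fin n) : G1 (pd i (pd j h)) where
  cd := B.cd_pd1 (B.cd_pd2 hh.cd j) i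
  g0 := hh.g2 i j
  g1 k := hh.g3 k i j

lemma Dat.g1τ {lo hi M0 : ℝ} {P : E n → ℝ} {τ : E n → Matrix (Fin n) (Fin n) ℝ}
    (D : Dat lo hi M0 P τ) (i j : Fin n) : G1 (fun x => τ x i j) where
  cd := D.hτ i j
  g0 := D.pgτ i j
  g1 k := D.gτ k i j

lemma g1_Vf {lo hi M0 : ℝ} {P : E n → ℝ} {τ : E n → Matrix (Fin n) (Fin n) ℝ}
    (D : Dat lo hi M0 P τ) {h : E n → ℝ} (hh : ∀ i, G1 (pd i h)) (a : Fin n) :
    G1 (B.Vf τ h a) :=
  G1.sum _ fun b _ => (D.g1τ a b).mul (hh b)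

lemma g1_Lop {lo hi M0 : ℝ} {P : E n → ℝ} {τ : E n → Matrix (Fin n) (Fin n) ℝ}
    (D : Dat lo hi M0 P τ) {h : E n → ℝ} (hh : G3 h) : G1 (Lop τ h) := by
  have : Lop τ h = fun x => (∑ i, ∑ j, τ x i j * pd i (pd j h) x) - ∑ i, x i * pd i h x :=
    funext fun x => B.Lop_eq τ hh.c2 x
  rw [this]
  exact (G1.sum _ fun i _ => G1.sum _ fun j _ => (D.g1τ i j).mul (hh.pd2 i j)).sub
    (G1.sum _ fun i _ => (G1.coord i).mul (hh.pd1 i))

lemma g1_Zf {lo hi M0 : ℝ} {P : E n → ℝ} {τ : E n → Matrix (Fin n) (Fin n) ℝ}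
    (D : Dat lo hi M0 P τ) {h : E n → ℝ} (hh : G3 h) (a : Fin n) : G1 (B.Zf τ h a) :=
  ((g1_Vf D hh.pd1 a).mul (g1_Lop D hh)).sub (G1.sum _ fun c _ =>
    (g1_Vf D (h := pd c h) (fun i => hh.pd2 i c) a).mul (g1_Vf D hh.pd1 c))

lemma cont_Ga {τ : E n → Matrix (Fin n) (Fin n) ℝ} (hτ : ∀ i j, ContDiff ℝ 1 (fun x => τ x i j))
    {h : E n → ℝ} (hh : ContDiff ℝ 1 h) : Continuous (B.Ga τ h) := by
  unfold B.Ga
  exact continuous_finsetSum _ fun a _ => continuous_finsetSum _ fun b _ =>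
    (((hτ a b).continuous).mul (B.cont_pd hh a)).mul (B.cont_pd hh b)

lemma cont_Qh {τ : E n → Matrix (Fin n) (Fin n) ℝ} (hτ : ∀ i j, ContDiff ℝ 1 (fun x => τ x i j))
    {h : E n → ℝ} (hh : ContDiff ℝ 2 h) : Continuous (B.Qh τ h) := by
  unfold B.Qh
  have h2 : ∀ i j, Continuous (pd i (pd j h)) := fun i j => B.cont_pd (B.cd_pd1 hh j) i
  exact continuous_finsetSum _ fun a _ => continuous_finsetSum _ fun c _ =>
    (continuous_finsetSum _ fun d _ => (hτ c d).continuous.mul (h2 a d)).mul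
      (continuous_finsetSum _ fun b _ => (hτ a b).continuous.mul (h2 b c))

lemma pg_Ga {lo hi M0 : ℝ} {P : E n → ℝ} {τ : E n → Matrix (Fin n) (Fin n) ℝ}
    (D : Dat lo hi M0 P τ) {h : E n → ℝ} (hh : ∀ i, PG (pd i h)) : PG (B.Ga τ h) :=
  PG.sum _ fun a _ => PG.sum _ fun b _ => ((D.pgτ a b).mul (hh a)).mul (hh b)

lemma pg_Qh {lo hi M0 : ℝ} {P : E n → ℝ} {τ : E n → Matrix (Fin n) (Fin n) ℝ}
    (D : Dat lo hi M0 P τ) {h : E n → ℝ} (hh : ∀ i j, PG (pd i (pd j h))) : PG (B.Qh τ h) :=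
  PG.sum _ fun a _ => PG.sum _ fun c _ => (PG.sum _ fun d _ => (D.pgτ c d).mul (hh a d)).mul
    (PG.sum _ fun b _ => (D.pgτ a b).mul (hh b c))

lemma cont_Lop {τ : E n → Matrix (Fin n) (Fin n) ℝ} (hτ : ∀ i j, ContDiff ℝ 1 (fun x => τ x i j))
    {h : E n → ℝ} (hh : ContDiff ℝ 2 h) : Continuous (Lop τ h) := by
  have : Lop τ h = fun x => (∑ i, ∑ j, τ x i j * pd i (pd j h) x) - ∑ i, x i * pd i h x :=
    funext fun x => B.Lop_eq τ hh x
  rw [this]
  have h2 : ∀ i j, Continuous (pd i (pd j h)) := fun i j => B.cont_pd (B.cd_pd1 hh j) i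
  refine (continuous_finsetSum _ fun i _ => continuous_finsetSum _ fun j _ =>
    (hτ i j).continuous.mul (h2 i j)).sub (continuous_finsetSum _ fun i _ => ?_)
  exact ((EuclideanSpace.proj (𝕜 := ℝ) i : E n →L[ℝ] ℝ).continuous).mul
    (B.cont_pd (hh.of_le (by norm_num)) i)

/-- **Bochner**, `C³` functions. -/
theorem boch3 {lo hi M0 : ℝ} {P : E n → ℝ} {τ : E n → Matrix (Fin n) (Fin n) ℝ}
    (D : Dat lo hi M0 P τ) {h : E n → ℝ} (hh : G3 h) :
    ∫ x, Lop τ h x ^ 2 * wt P x = (∫ x, B.Ga τ h x * wt P x) + ∫ x, B.Qh τ h x * wt P x := by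
  have h0 := ibp_zero D.hP D.bP D.gP (V := B.Zf τ h) (fun i => (g1_Zf D hh i).cd)
    (fun i => (g1_Zf D hh i).g0) (fun i => (g1_Zf D hh i).g1 i)
  have h1 : ∀ x, (∑ i, (pd i (B.Zf τ h i) x - B.Zf τ h i x * (x i + pd i P x))) * wt P x =
      Lop τ h x ^ 2 * wt P x - (B.Ga τ h x * wt P x + B.Qh τ h x * wt P x) := by
    intro x
    have := B.dv_Zf D hh.cd x
    unfold B.dv at this
    rw [this]; ring
  simp only [h1] at h0
  have hc := D.hP.continuous
  have iL : Integrable (fun x => Lop τ h x ^ 2 * wt P x) :=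
    integrable_pg hc D.bP ((cont_Lop D.hτ hh.c2).pow 2) ((g1_Lop D hh).g0.pow 2)
  have iG : Integrable (fun x => B.Ga τ h x * wt P x) :=
    integrable_pg hc D.bP (cont_Ga D.hτ (hh.cd.of_le (by norm_num))) (pg_Ga D hh.g1)
  have iQ : Integrable (fun x => B.Qh τ h x * wt P x) :=
    integrable_pg hc D.bP (cont_Qh D.hτ hh.c2) (pg_Qh D hh.g2)
  have hs : Integrable (fun x => B.Ga τ h x * wt P x + B.Qh τ h x * wt P x) := iG.add iQ
  rw [integral_sub iL hs, integral_add iG iQ] at h0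
  linarith

end Crest.Agent.R238.Gap
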