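import Mathlib
import Crest.Agent.R238.GapDefs

/-!
Row 238 (S0369), module H4 (GAP): mollification of even `C²` functions with bounded Hessian
(helper470).
-/

set_option autoImplicit false

open MeasureTheory Real Set Filter Topology Metric
open scoped ContDiff

namespace Crest.Agent.R238.Gap

namespace Mol

variable {n : ℕ} {G : Type*} [NormedAddCommGroup G] [NormedSpace ℝ G]

/-- convolution with a weight `w`. -/
noncomputable def Mo (w : E n → ℝ) (h : E n → G) (x : E n) : G := ∫ t, w t • h (x - t)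

theorem Mo_eq_conv (w : E n → ℝ) (h : E n → G) :
    Mo w h = MeasureTheory.convolution w h (ContinuousLinearMap.lsmul ℝ ℝ) volume := rfl

/-- integrability of the integrand. -/
theorem integrable_int {w : E n → ℝ} (hw : Continuous w) (hc : HasCompactSupport w)
    {h : E n → G} (hh : Continuous h) (x : E n) : Integrable (fun t => w t • h (x - t)) := by
  refine Continuous.integrable_of_hasCompactSupport (hw.smul (hh.comp (by fun_prop))) ?_
  exact hc.smul_right

/-- differentiation under the integral sign. -/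
theorem hasFDerivAt_Mo [CompleteSpace G] {w : E n → ℝ} (hw : Continuous w)
    (hc : HasCompactSupport w) {h : E n → G} (hh : ContDiff ℝ 1 h) (x₀ : E n) :
    HasFDerivAt (Mo w h) (Mo w (fderiv ℝ h) x₀) x₀ := by
  obtain ⟨R, hR⟩ := hc.isBounded.subset_closedBall (0 : E n)
  have hcd : Continuous (fderiv ℝ h) := hh.continuous_fderiv one_ne_zero
  obtain ⟨C, hC⟩ := (isCompact_closedBall (0 : E n) (‖x₀‖ + 1 + R)).exists_bound_of_continuousOn
    hcd.continuousOn
  have hd : ∀ x t, HasFDerivAt (fun x => h (x - t)) (fderiv ℝ h (x - t)) x := fun x t ↦ by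
    simpa using!
      (hh.differentiable one_ne_zero).differentiableAt.hasFDerivAt.comp x
        ((hasFDerivAt_id x).sub (hasFDerivAt_const t x))
  refine hasFDerivAt_integral_of_dominated_of_fderiv_le (bound := fun t => |w t| * C)
    (F' := fun x t => w t • fderiv ℝ h (x - t))
    (ball_mem_nhds x₀ zero_lt_one) ?_ ?_ ?_ ?_ ?_ ?_
  · exact Eventually.of_forall fun x => (integrable_int hw hc hh.continuous x).aestronglyMeasurable
  · exact integrable_int hw hc hh.continuous x₀
  · exact (integrable_int hw hc hcd x₀).aestronglyMeasurable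
  · refine Eventually.of_forall fun t x hx => ?_
    by_cases ht : w t = 0
    · simp [ht]
    · rw [norm_smul, Real.norm_eq_abs]
      refine mul_le_mul_of_nonneg_left (hC _ ?_) (abs_nonneg _)
      have h1 : ‖t‖ ≤ R := by simpa using hR (subset_tsupport w (Function.mem_support.2 ht))
      have h2 : ‖x - x₀‖ < 1 := by simpa [dist_eq_norm] using hx
      have h3 : ‖x‖ ≤ ‖x₀‖ + 1 := by
        have := norm_le_insert' x x₀
        linarith
      simp only [mem_closedBall, dist_zero_right]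
      exact (norm_sub_le _ _).trans (by linarith)
  · have h1 : Integrable (fun t => w t) := hw.integrable_of_hasCompactSupport hc
    exact h1.abs.mul_const C
  · exact Eventually.of_forall fun t x _ => (hd x t).const_smul (w t)

theorem fderiv_Mo [CompleteSpace G] {w : E n → ℝ} (hw : Continuous w)
    (hc : HasCompactSupport w) {h : E n → G} (hh : ContDiff ℝ 1 h) :
    fderiv ℝ (Mo w h) = Mo w (fderiv ℝ h) := by
  funext x
  exact (hasFDerivAt_Mo hw hc hh x).fderiv

theorem contDiff_Mo {w : E n → ℝ} (hw : ContDiff ℝ ∞ w)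
    (hc : HasCompactSupport w) {h : E n → G} (hh : Continuous h) : ContDiff ℝ ∞ (Mo w h) := by
  rw [Mo_eq_conv]
  exact hc.contDiff_convolution_left _ hw hh.locallyIntegrable

theorem Mo_clm [CompleteSpace G] {G' : Type*} [NormedAddCommGroup G'] [NormedSpace ℝ G']
    [CompleteSpace G'] {w : E n → ℝ} (hw : Continuous w)
    (hc : HasCompactSupport w) {h : E n → G} (hh : Continuous h) (L : G →L[ℝ] G') (x : E n) :
    L (Mo w h x) = Mo w (fun y => L (h y)) x := by
  unfold Mo
  rw [← ContinuousLinearMap.integral_comp_comm L (integrable_int hw hc hh x)]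
  simp

theorem norm_Mo_le {w : E n → ℝ} (hw : Continuous w) (hc : HasCompactSupport w)
    (h0 : ∀ t, 0 ≤ w t) (h1 : ∫ t, w t = 1)
    {h : E n → G} {B : ℝ} (hB : ∀ x, ‖h x‖ ≤ B) (x : E n) : ‖Mo w h x‖ ≤ B := by
  unfold Mo
  have hi : Integrable (fun t => w t * B) := (hw.integrable_of_hasCompactSupport hc).mul_const B
  refine (norm_integral_le_of_norm_le hi (Eventually.of_forall fun t => ?_)).trans_eq ?_
  · rw [norm_smul, Real.norm_eq_abs, abs_of_nonneg (h0 t)]
    exact mul_le_mul_of_nonneg_left (hB _) (h0 t)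
  · rw [integral_mul_const, h1, one_mul]

theorem Mo_even {w : E n → ℝ} (hw : ∀ t, w (-t) = w t) {h : E n → G} (hh : ∀ x, h (-x) = h x)
    (x : E n) : Mo w h (-x) = Mo w h x := by
  unfold Mo
  rw [← integral_neg_eq_self]
  refine integral_congr_ae (Eventually.of_forall fun t => ?_)
  simp only [hw]
  congr 1
  rw [← hh]
  congr 1
  abel

/-- bound for the derivative of a mollification of a bounded continuous function. -/
theorem exists_bound_fderiv_Mo {w : E n → ℝ} (hw : ContDiff ℝ ∞ w)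
    (hc : HasCompactSupport w) {h : E n → ℝ} (hh : Continuous h) {B : ℝ} (hB : ∀ x, |h x| ≤ B) :
    ∃ B', ∀ x, ‖fderiv ℝ (Mo w h) x‖ ≤ B' := by
  have hfc : Continuous (fderiv ℝ w) := hw.continuous_fderiv (by simp)
  have hi : Integrable (fun t => ‖fderiv ℝ w t‖ * B) := by
    have := (hfc.integrable_of_hasCompactSupport (μ := (volume : Measure (E n)))
      (hc.fderiv ℝ)).norm
    exact this.mul_const B
  refine ⟨∫ t, ‖fderiv ℝ w t‖ * B, fun x => ?_⟩
  have h1 := hc.hasFDerivAt_convolution_left (ContinuousLinearMap.lsmul ℝ ℝ : ℝ →L[ℝ] ℝ →L[ℝ] ℝ)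
    (μ := (volume : Measure (E n))) (hw.of_le (by simp)) (hh.locallyIntegrable) x
  rw [Mo_eq_conv, h1.fderiv]
  unfold MeasureTheory.convolution
  refine norm_integral_le_of_norm_le hi (Eventually.of_forall fun t => ?_)
  have hB0 : 0 ≤ B := (abs_nonneg _).trans (hB 0)
  refine ContinuousLinearMap.opNorm_le_bound _ (by positivity) fun v => ?_
  have : (((ContinuousLinearMap.lsmul ℝ ℝ : ℝ →L[ℝ] ℝ →L[ℝ] ℝ).precompL (E n) (fderiv ℝ w t))
      (h (x - t))) v = (fderiv ℝ w t v) * h (x - t) := by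
    simp [ContinuousLinearMap.precompL]
  rw [this, norm_mul]
  calc ‖fderiv ℝ w t v‖ * ‖h (x - t)‖ ≤ (‖fderiv ℝ w t‖ * ‖v‖) * B := by
        refine mul_le_mul ((fderiv ℝ w t).le_opNorm v) (hB _) (norm_nonneg _) (by positivity)
    _ = ‖fderiv ℝ w t‖ * B * ‖v‖ := by ring

/-- the standard bumps. -/
noncomputable def bump (n : ℕ) (j : ℕ) : ContDiffBump (0 : E n) where
  rIn := 1 / (2 * ((j : ℝ) + 1))
  rOut := 1 / ((j : ℝ) + 1)
  rIn_pos := by positivity
  rIn_lt_rOut := by
    apply one_div_lt_one_div_of_lt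
    · positivity
    · have : (0 : ℝ) ≤ j := Nat.cast_nonneg j
      linarith

/-- the weight. -/
noncomputable def wj (n : ℕ) (j : ℕ) : E n → ℝ := (bump n j).normed volume

theorem wj_contDiff (n j : ℕ) : ContDiff ℝ ∞ (wj n j) := (bump n j).contDiff_normed

theorem wj_cont (n j : ℕ) : Continuous (wj n j) := (wj_contDiff n j).continuous

theorem wj_cs (n j : ℕ) : HasCompactSupport (wj n j) := (bump n j).hasCompactSupport_normed

theorem wj_nonneg (n j : ℕ) (t : E n) : 0 ≤ wj n j t := (bump n j).nonneg_normed t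

theorem wj_int (n j : ℕ) : ∫ t, wj n j t = 1 := (bump n j).integral_normed

theorem wj_neg (n j : ℕ) (t : E n) : wj n j (-t) = wj n j t := (bump n j).normed_neg t

theorem tendsto_Mo [CompleteSpace G] {h : E n → G} (hh : Continuous h) (x : E n) :
    Tendsto (fun j => Mo (wj n j) h x) atTop (𝓝 (h x)) := by
  have hφ : Tendsto (fun j => (bump n j).rOut) atTop (𝓝 0) :=
    tendsto_one_div_add_atTop_nhds_zero_nat
  exact ContDiffBump.convolution_tendsto_right_of_continuous (μ := (volume : Measure (E n)))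
    (φ := bump n) hφ hh x

end Mol

open Mol

/-- Hessian of the mollification. -/
theorem H_Mo {n : ℕ} {h : E n → ℝ} (hh : ContDiff ℝ 2 h) (j : ℕ) (a b : Fin n) (x : E n) :
    H (Mo (wj n j) h) x a b = Mo (wj n j) (fun y => H h y a b) x := by
  unfold H
  have h1 : ContDiff ℝ 1 h := hh.of_le (by norm_num)
  have h2 : ContDiff ℝ 1 (fderiv ℝ h) := hh.fderiv_right (by norm_num)
  have e1 : (fun y => fderiv ℝ (Mo (wj n j) h) y) = Mo (wj n j) (fderiv ℝ h) :=
    fderiv_Mo (wj_cont n j) (wj_cs n j) h1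
  rw [e1, fderiv_Mo (wj_cont n j) (wj_cs n j) h2]
  have h3 : Continuous (fderiv ℝ (fderiv ℝ h)) := h2.continuous_fderiv one_ne_zero
  have h4 := Mo_clm (G := E n →L[ℝ] E n →L[ℝ] ℝ) (G' := E n →L[ℝ] ℝ)
    (wj_cont n j) (wj_cs n j) (h := fderiv ℝ (fderiv ℝ h)) h3
    (ContinuousLinearMap.apply ℝ (E n →L[ℝ] ℝ) (e a)) x
  simp only [ContinuousLinearMap.apply_apply] at h4
  rw [h4]
  have h5 := Mo_clm (G := E n →L[ℝ] ℝ) (G' := ℝ) (wj_cont n j) (wj_cs n j)
    (h := fun y => fderiv ℝ (fderiv ℝ h) y (e a)) (by fun_prop)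
    (ContinuousLinearMap.apply ℝ ℝ (e b)) x
  simp only [ContinuousLinearMap.apply_apply] at h5
  rw [h5]

theorem cont_H {n : ℕ} {h : E n → ℝ} (hh : ContDiff ℝ 2 h) (a b : Fin n) :
    Continuous (fun y => H h y a b) := by
  unfold H
  have h2 : ContDiff ℝ 1 (fderiv ℝ h) := hh.fderiv_right (by norm_num)
  have h3 : Continuous (fderiv ℝ (fderiv ℝ h)) := h2.continuous_fderiv one_ne_zero
  fun_prop

/-- **MOL.** -/
theorem exists_mollification {n : ℕ} {h : E n → ℝ} (hh : ContDiff ℝ 2 h) (he : Ev h) {B : ℝ}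
    (hB : ∀ x i j, |H h x i j| ≤ B) :
    ∃ hj : ℕ → E n → ℝ, (∀ j, ContDiff ℝ ∞ (hj j)) ∧ (∀ j, Ev (hj j)) ∧
      (∀ j x a b, |H (hj j) x a b| ≤ B) ∧
      (∀ j, ∃ B' : ℝ, ∀ x a b c, |pd c (fun y => H (hj j) y a b) x| ≤ B') ∧
      (∀ x, Tendsto (fun j => hj j x) atTop (𝓝 (h x))) ∧
      (∀ a x, Tendsto (fun j => pd a (hj j) x) atTop (𝓝 (pd a h x))) ∧
      (∀ x a b, Tendsto (fun j => H (hj j) x a b) atTop (𝓝 (H h x a b))) ∧
      (∀ x, Tendsto (fun j => fderiv ℝ (hj j) x) atTop (𝓝 (fderiv ℝ h x))) ∧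
      ∃ B0 : ℝ, ∀ j, |hj j 0| ≤ B0 := by
  have h1 : ContDiff ℝ 1 h := hh.of_le (by norm_num)
  have hfd : ∀ x, Tendsto (fun j => fderiv ℝ (Mo (wj n j) h) x) atTop (𝓝 (fderiv ℝ h x)) := by
    intro x
    have e1 : ∀ j, fderiv ℝ (Mo (wj n j) h) = Mo (wj n j) (fderiv ℝ h) :=
      fun j => fderiv_Mo (wj_cont n j) (wj_cs n j) h1
    simp only [e1]
    exact tendsto_Mo (h1.continuous_fderiv one_ne_zero) x
  refine ⟨fun j => Mo (wj n j) h, fun j => contDiff_Mo (wj_contDiff n j) (wj_cs n j)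
    hh.continuous, fun j x => Mo_even (wj_neg n j) he x, ?_, ?_, ?_, ?_, ?_, hfd, ?_⟩
  · intro j x a b
    rw [H_Mo hh, ← Real.norm_eq_abs]
    refine norm_Mo_le (wj_cont n j) (wj_cs n j) (wj_nonneg n j) (wj_int n j)
      (fun y => ?_) x
    rw [Real.norm_eq_abs]
    exact hB y a b
  · intro j
    have : ∀ a b, ∃ B', ∀ x, ‖fderiv ℝ (Mo (wj n j) (fun y => H h y a b)) x‖ ≤ B' := fun a b =>
      exists_bound_fderiv_Mo (wj_contDiff n j) (wj_cs n j) (cont_H hh a b) (fun x => hB x a b)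
    choose B' hB' using this
    refine ⟨∑ a, ∑ b, |B' a b|, fun x a b c => ?_⟩
    have e1 : (fun y => H (Mo (wj n j) h) y a b) = Mo (wj n j) (fun y => H h y a b) := by
      funext y
      exact H_Mo hh j a b y
    unfold pd
    rw [e1]
    have e2 : ‖(e c : E n)‖ = 1 := by simp [e]
    calc |fderiv ℝ (Mo (wj n j) (fun y => H h y a b)) x (e c)|
        ≤ ‖fderiv ℝ (Mo (wj n j) (fun y => H h y a b)) x‖ * ‖(e c : E n)‖ := by
          rw [← Real.norm_eq_abs]
          exact ContinuousLinearMap.le_opNorm _ _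
      _ ≤ B' a b := by rw [e2, mul_one]; exact hB' a b x
      _ ≤ |B' a b| := le_abs_self _
      _ ≤ ∑ b, |B' a b| := Finset.single_le_sum (f := fun b => |B' a b|)
          (fun _ _ => abs_nonneg _) (Finset.mem_univ b)
      _ ≤ ∑ a, ∑ b, |B' a b| := Finset.single_le_sum (f := fun a => ∑ b, |B' a b|)
          (fun _ _ => Finset.sum_nonneg fun _ _ => abs_nonneg _) (Finset.mem_univ a)
  · exact fun x => tendsto_Mo hh.continuous x
  · intro a x
    unfold pd
    exact ((ContinuousLinearMap.apply ℝ ℝ (e a)).continuous.tendsto _).comp (hfd x)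
  · intro x a b
    simp only [H_Mo hh]
    exact tendsto_Mo (cont_H hh a b) x
  · have ht : Tendsto (fun j => Mo (wj n j) h 0) atTop (𝓝 (h 0)) := tendsto_Mo hh.continuous 0
    obtain ⟨B0, hB0⟩ := (isBounded_range_of_tendsto _ ht).exists_norm_le
    exact ⟨B0, fun j => hB0 _ ⟨j, rfl⟩⟩

end Crest.Agent.R238.Gap
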