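import Mathlib
import Crest.Agent.R238.GapDefs
import Crest.Agent.R238.GapIBP
import Crest.Agent.R238.GapBoch
import Crest.Agent.R238.GapB3
import Crest.Agent.R238.GapMol

/-!
Row 238 (S0369), module H4 (GAP): integrated Bochner identity for even `C²` functions with bounded
Hessian, by mollification (helper609, on top of helper469's `boch3` and helper470's
`exists_mollification`).
-/

set_option autoImplicit false

open MeasureTheory Real Set Filter Topology
open scoped ContDiff

namespace Crest.Agent.R238.Gap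

variable {n : ℕ}

namespace BC2

lemma abs_coord_le (v : E n) (i : Fin n) : |v i| ≤ ‖v‖ := by
  simpa using PiLp.norm_apply_le v i

lemma pd_odd {h : E n → ℝ} (hd : Differentiable ℝ h) (hev : Ev h) (i : Fin n) :
    pd i h 0 = 0 := by
  have h1 : (fun x => h (-x)) = h := funext hev
  have h2 : HasFDerivAt (fun x : E n => h (-x))
      ((fderiv ℝ h (-(0 : E n))).comp (-(ContinuousLinearMap.id ℝ (E n)))) 0 :=
    ((hd (-(0 : E n))).hasFDerivAt).comp (0 : E n) ((hasFDerivAt_id (0 : E n)).neg)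
  rw [h1, neg_zero] at h2
  have h3 := h2.fderiv
  have h4 : pd i h 0 = - pd i h 0 := by
    unfold pd
    conv_lhs => rw [h3]
    simp
  linarith

lemma norm_fderiv_le {f : E n → ℝ} {K : ℝ} (hB : ∀ x i, |pd i f x| ≤ K) (x : E n) :
    ‖fderiv ℝ f x‖ ≤ n * |K| := by
  refine ContinuousLinearMap.opNorm_le_bound _ (by positivity) fun v => ?_
  rw [B.fderiv_eq_sum, Real.norm_eq_abs]
  calc |∑ i, v i * pd i f x| ≤ ∑ i, |v i * pd i f x| := Finset.abs_sum_le_sum_abs _ _
    _ ≤ ∑ _i : Fin n, ‖v‖ * |K| := by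
        refine Finset.sum_le_sum fun i _ => ?_
        rw [abs_mul]
        exact mul_le_mul (abs_coord_le v i) ((hB x i).trans (le_abs_self K)) (abs_nonneg _)
          (norm_nonneg _)
    _ = n * |K| * ‖v‖ := by simp; ring

/-- linear growth of the gradient of an even function with bounded Hessian. -/
lemma grad_bound {h : E n → ℝ} (hh : ContDiff ℝ 2 h) (hev : Ev h) {K : ℝ}
    (hB : ∀ x i j, |H h x i j| ≤ K) (x : E n) (i : Fin n) : |pd i h x| ≤ n * |K| * ‖x‖ := by
  have h1 : Differentiable ℝ (pd i h) := (B.cd_pd1 hh i).differentiable (by norm_num)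
  have h2 : ∀ y, ‖fderiv ℝ (pd i h) y‖ ≤ n * |K| := fun y =>
    norm_fderiv_le (fun z k => by rw [← B.H_eq hh z k i]; exact hB z k i) y
  have h3 := Convex.norm_image_sub_le_of_norm_fderiv_le (𝕜 := ℝ) (s := Set.univ)
    (fun y _ => h1 y) (fun y _ => h2 y) convex_univ (Set.mem_univ (0 : E n)) (Set.mem_univ x)
  rw [pd_odd (hh.differentiable (by norm_num)) hev i, sub_zero, sub_zero, Real.norm_eq_abs] at h3
  exact h3

/-- dominated convergence for `∫ F_j wt`. -/
lemma dct {P : E n → ℝ} {M0 : ℝ} (hP : Continuous P) (bP : ∀ x, |P x| ≤ M0)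
    {F : ℕ → E n → ℝ} {f g : E n → ℝ} (hF : ∀ j, Continuous (F j)) (hg : Continuous g)
    (pg : PG g) (hb : ∀ j x, |F j x| ≤ g x) (hl : ∀ x, Tendsto (fun j => F j x) atTop (𝓝 (f x))) :
    Tendsto (fun j => ∫ x, F j x * wt P x) atTop (𝓝 (∫ x, f x * wt P x)) := by
  have hw : Continuous (wt P) := by unfold wt; fun_prop
  refine tendsto_integral_of_dominated_convergence (fun x => g x * wt P x) (fun j => ?_) ?_
    (fun j => ?_) ?_
  · exact ((hF j).mul hw).aestronglyMeasurable
  · exact integrable_pg hP bP hg pg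
  · refine Eventually.of_forall fun x => ?_
    rw [norm_mul, Real.norm_eq_abs, Real.norm_eq_abs, abs_of_pos (wt_pos P x)]
    exact mul_le_mul_of_nonneg_right (hb j x) (wt_pos P x).le
  · exact Eventually.of_forall fun x => (hl x).mul_const _

end BC2

open BC2

/-- **Bochner** for even `C²` functions with bounded Hessian. -/
theorem boch2 {lo hi M0 : ℝ} {P : E n → ℝ} {τ : E n → Matrix (Fin n) (Fin n) ℝ}
    (D : Dat lo hi M0 P τ) {h : E n → ℝ} (hev : Ev h) (h2 : ContDiff ℝ 2 h) {Bd : ℝ}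
    (hB : ∀ x i j, |H h x i j| ≤ Bd) :
    ∫ x, Lop τ h x ^ 2 * wt P x = (∫ x, B.Ga τ h x * wt P x) + ∫ x, B.Qh τ h x * wt P x := by
  obtain ⟨hj, c1, e1, b1, b2, -, l1, l2, -, -⟩ := exists_mollification h2 hev hB
  have c2 : ∀ j, ContDiff ℝ 2 (hj j) := fun j => by exact_mod_cast contDiff_infty.1 (c1 j) 2
  have c3 : ∀ j, ContDiff ℝ 3 (hj j) := fun j => by exact_mod_cast contDiff_infty.1 (c1 j) 3
  have hB0 : 0 ≤ |Bd| := abs_nonneg _
  set T : ℝ := |lo| + |hi| with hT
  have hT0 : 0 ≤ T := by positivity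
  set C : ℝ := n * |Bd| with hC
  have hC0 : 0 ≤ C := by positivity
  have gb : ∀ j x i, |pd i (hj j) x| ≤ C * ‖x‖ := fun j x i => grad_bound (c2 j) (e1 j) (b1 j) x i
  have hb : ∀ j x i k, |pd i (pd k (hj j)) x| ≤ |Bd| := fun j x i k => by
    rw [← B.H_eq (c2 j)]
    exact (b1 j x i k).trans (le_abs_self _)
  have pgC : PG (fun x : E n => C * ‖x‖) := (pg_const C).mul pg_norm
  -- `G3`
  have g3 : ∀ j, G3 (hj j) := fun j => by
    refine ⟨c3 j, fun i => ?_, fun i k => ?_, fun i k l => ?_⟩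
    · refine pgC.mono fun x => ?_
      rw [abs_of_nonneg (by positivity : 0 ≤ C * ‖x‖)]
      exact gb j x i
    · exact PG.of_bdd (K := |Bd|) fun x => hb j x i k
    · obtain ⟨B', hB'⟩ := b2 j
      refine PG.of_bdd (K := B') fun x => ?_
      have : pd k (pd l (hj j)) = fun y => H (hj j) y k l := funext fun y => (B.H_eq (c2 j) y k l).symm
      rw [this]
      exact hB' x k l i
  have key : ∀ j, ∫ x, Lop τ (hj j) x ^ 2 * wt P x =
      (∫ x, B.Ga τ (hj j) x * wt P x) + ∫ x, B.Qh τ (hj j) x * wt P x := fun j => boch3 D (g3 j)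
  have hPc := D.hP.continuous
  -- pointwise limits
  have l2' : ∀ x a b, Tendsto (fun j => pd a (pd b (hj j)) x) atTop (𝓝 (pd a (pd b h) x)) := by
    intro x a b
    have := l2 x a b
    rw [B.H_eq h2] at this
    exact this.congr fun j => B.H_eq (c2 j) x a b
  have tL : ∀ x, Tendsto (fun j => Lop τ (hj j) x) atTop (𝓝 (Lop τ h x)) := by
    intro x
    rw [B.Lop_eq τ h2]
    refine Tendsto.congr (fun j => (B.Lop_eq τ (c2 j) x).symm) ?_
    refine Tendsto.sub (tendsto_finsetSum _ fun i _ => tendsto_finsetSum _ fun k _ =>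
      (l2' x i k).const_mul _) (tendsto_finsetSum _ fun i _ => (l1 i x).const_mul _)
  have tG : ∀ x, Tendsto (fun j => B.Ga τ (hj j) x) atTop (𝓝 (B.Ga τ h x)) := by
    intro x
    unfold B.Ga
    exact tendsto_finsetSum _ fun a _ => tendsto_finsetSum _ fun b _ =>
      ((l1 a x).const_mul _).mul (l1 b x)
  have tQ : ∀ x, Tendsto (fun j => B.Qh τ (hj j) x) atTop (𝓝 (B.Qh τ h x)) := by
    intro x
    unfold B.Qh
    exact tendsto_finsetSum _ fun a _ => tendsto_finsetSum _ fun c _ =>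
      (tendsto_finsetSum _ fun d _ => (l2' x a d).const_mul _).mul
        (tendsto_finsetSum _ fun b _ => (l2' x b c).const_mul _)
  -- dominating functions
  set gL : E n → ℝ := fun x => (∑ _i : Fin n, ∑ _k : Fin n, T * |Bd|) + ∑ _i : Fin n, ‖x‖ * (C * ‖x‖)
    with hgL
  have gLc : Continuous gL := by rw [hgL]; fun_prop
  have gLp : PG gL := (pg_const _).add (PG.sum _ fun _ _ => pg_norm.mul pgC)
  have gL0 : ∀ x, 0 ≤ gL x := fun x => by rw [hgL]; positivity
  have bL : ∀ j x, |Lop τ (hj j) x| ≤ gL x := by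
    intro j x
    rw [B.Lop_eq τ (c2 j)]
    refine (abs_sub _ _).trans (add_le_add ?_ ?_)
    · refine (Finset.abs_sum_le_sum_abs _ _).trans (Finset.sum_le_sum fun i _ => ?_)
      refine (Finset.abs_sum_le_sum_abs _ _).trans (Finset.sum_le_sum fun k _ => ?_)
      rw [abs_mul]
      exact mul_le_mul (D.entry_le x i k) (hb j x i k) (abs_nonneg _) hT0
    · refine (Finset.abs_sum_le_sum_abs _ _).trans (Finset.sum_le_sum fun i _ => ?_)
      rw [abs_mul]
      exact mul_le_mul (abs_coord_le x i) (gb j x i) (abs_nonneg _) (norm_nonneg _)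
  set gG : E n → ℝ := fun x => ∑ _a : Fin n, ∑ _b : Fin n, T * (C * ‖x‖) * (C * ‖x‖) with hgG
  have gGc : Continuous gG := by rw [hgG]; fun_prop
  have gGp : PG gG := PG.sum _ fun _ _ => PG.sum _ fun _ _ => ((pg_const T).mul pgC).mul pgC
  have bG : ∀ j x, |B.Ga τ (hj j) x| ≤ gG x := by
    intro j x
    unfold B.Ga
    refine (Finset.abs_sum_le_sum_abs _ _).trans (Finset.sum_le_sum fun a _ => ?_)
    refine (Finset.abs_sum_le_sum_abs _ _).trans (Finset.sum_le_sum fun b _ => ?_)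
    rw [abs_mul, abs_mul]
    exact mul_le_mul (mul_le_mul (D.entry_le x a b) (gb j x a) (abs_nonneg _) hT0) (gb j x b)
      (abs_nonneg _) (by positivity)
  set gQ : E n → ℝ := fun _ => ∑ _a : Fin n, ∑ _c : Fin n,
    (∑ _d : Fin n, T * |Bd|) * (∑ _b : Fin n, T * |Bd|) with hgQ
  have gQc : Continuous gQ := by rw [hgQ]; fun_prop
  have gQp : PG gQ := pg_const _
  have bQ : ∀ j x, |B.Qh τ (hj j) x| ≤ gQ x := by
    intro j x
    unfold B.Qh
    refine (Finset.abs_sum_le_sum_abs _ _).trans (Finset.sum_le_sum fun a _ => ?_)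
    refine (Finset.abs_sum_le_sum_abs _ _).trans (Finset.sum_le_sum fun c _ => ?_)
    rw [abs_mul]
    refine mul_le_mul ?_ ?_ (abs_nonneg _) (by positivity)
    · refine (Finset.abs_sum_le_sum_abs _ _).trans (Finset.sum_le_sum fun d _ => ?_)
      rw [abs_mul]
      exact mul_le_mul (D.entry_le x c d) (hb j x a d) (abs_nonneg _) hT0
    · refine (Finset.abs_sum_le_sum_abs _ _).trans (Finset.sum_le_sum fun b _ => ?_)
      rw [abs_mul]
      exact mul_le_mul (D.entry_le x a b) (hb j x b c) (abs_nonneg _) hT0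
  have t1 := dct (F := fun j x => Lop τ (hj j) x ^ 2) (f := fun x => Lop τ h x ^ 2) hPc D.bP
    (fun j => (cont_Lop D.hτ (c2 j)).pow 2) (gLc.pow 2) (gLp.pow 2)
    (fun j x => by
      rw [abs_pow]
      exact pow_le_pow_left₀ (abs_nonneg _) (bL j x) 2)
    (fun x => (tL x).pow 2)
  have t2 := dct (F := fun j x => B.Ga τ (hj j) x) (f := B.Ga τ h) hPc D.bP
    (fun j => cont_Ga D.hτ ((c2 j).of_le (by norm_num))) gGc gGp bG tG
  have t3 := dct (F := fun j x => B.Qh τ (hj j) x) (f := B.Qh τ h) hPc D.bP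
    (fun j => cont_Qh D.hτ (c2 j)) gQc gQp bQ tQ
  refine tendsto_nhds_unique t1 ?_
  exact (t2.add t3).congr fun j => (key j).symm

end Crest.Agent.R238.Gap
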