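/-
Row 238, module H4 (gap), part C5 (helper92): interpolation
`sup_{|x| ≤ R} |h| ≤ ε sup|D²h| + K |h|_{L²(wt)}`.
-/
import Crest.Agent.R238.GapIBP

set_option autoImplicit false
open MeasureTheory

namespace Crest.Agent.R238.Gap

variable {n : ℕ}

/-- operator norm of the second derivative from the entries of the Hessian -/
lemma norm_fderiv2_le {h : E n → ℝ} {B : ℝ} (hB : ∀ x i j, |H h x i j| ≤ B) (hB0 : 0 ≤ B) (x : E n) :
    ‖fderiv ℝ (fderiv ℝ h) x‖ ≤ (n : ℝ) ^ 2 * B := by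
  have hexp : ∀ v : E n, v = ∑ i, v i • (EuclideanSpace.single i (1:ℝ) : E n) := fun v => by
    have := (EuclideanSpace.basisFun (Fin n) ℝ).sum_repr v
    simpa using this.symm
  refine ContinuousLinearMap.opNorm_le_bound _ (by positivity) fun v => ?_
  refine ContinuousLinearMap.opNorm_le_bound _ (by positivity) fun w => ?_
  have e1 : fderiv ℝ (fderiv ℝ h) x v w = ∑ i, ∑ j, v i * w j * H h x i j := by
    conv_lhs => rw [hexp v, hexp w]
    simp only [map_sum, map_smul, _root_.sum_apply, _root_.smul_apply,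
      smul_eq_mul, H, e]
    rw [Finset.sum_comm]
    refine Finset.sum_congr rfl fun i _ => ?_
    rw [Finset.mul_sum]
    refine Finset.sum_congr rfl fun j _ => ?_
    ring
  rw [e1, Real.norm_eq_abs]
  calc |∑ i, ∑ j, v i * w j * H h x i j| ≤ ∑ i, ∑ j, |v i * w j * H h x i j| := by
        refine (Finset.abs_sum_le_sum_abs _ _).trans (Finset.sum_le_sum fun i _ => ?_)
        exact Finset.abs_sum_le_sum_abs _ _
    _ ≤ ∑ _i : Fin n, ∑ _j : Fin n, ‖v‖ * ‖w‖ * B := by
        refine Finset.sum_le_sum fun i _ => Finset.sum_le_sum fun j _ => ?_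
        rw [abs_mul, abs_mul]
        have h1 : |v i| ≤ ‖v‖ := PiLp.norm_apply_le v i
        have h2 : |w j| ≤ ‖w‖ := PiLp.norm_apply_le w j
        exact mul_le_mul (mul_le_mul h1 h2 (abs_nonneg _) (norm_nonneg _)) (hB x i j) (abs_nonneg _)
          (by positivity)
    _ = (n : ℝ) ^ 2 * B * ‖v‖ * ‖w‖ := by
        simp; ring

lemma norm_fderiv_sub_le {h : E n → ℝ} {B : ℝ} (hh : ContDiff ℝ 2 h)
    (hB : ∀ x i j, |H h x i j| ≤ B) (hB0 : 0 ≤ B) (x y : E n) :
    ‖fderiv ℝ h y - fderiv ℝ h x‖ ≤ (n : ℝ) ^ 2 * B * ‖y - x‖ := by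
  have hd : Differentiable ℝ (fderiv ℝ h) :=
    (hh.fderiv_right (m := 1) (by norm_num)).differentiable (by norm_num)
  exact convex_univ.norm_image_sub_le_of_norm_fderiv_le (fun z _ => hd z)
    (fun z _ => norm_fderiv2_le hB hB0 z) (Set.mem_univ _) (Set.mem_univ _)

/-- first order Taylor estimate -/
lemma taylor_one {h : E n → ℝ} {B : ℝ} (hh : ContDiff ℝ 2 h)
    (hB : ∀ x i j, |H h x i j| ≤ B) (hB0 : 0 ≤ B) (x z : E n) :
    |h (x + z) - h x - fderiv ℝ h x z| ≤ (n : ℝ) ^ 2 * B * ‖z‖ ^ 2 := by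
  have hd : Differentiable ℝ h := hh.differentiable (by norm_num)
  have key := (convex_closedBall x ‖z‖).norm_image_sub_le_of_norm_fderiv_le' (f := h)
    (φ := fderiv ℝ h x) (C := (n : ℝ) ^ 2 * B * ‖z‖) (x := x) (y := x + z)
    (fun y _ => hd y) (fun y hy => ?_) (Metric.mem_closedBall_self (norm_nonneg _))
    (by simp)
  · rw [add_sub_cancel_left, Real.norm_eq_abs] at key
    calc _ ≤ _ := key
      _ = _ := by ring
  · refine (norm_fderiv_sub_le hh hB hB0 x y).trans ?_
    rw [Metric.mem_closedBall, dist_eq_norm] at hy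
    exact mul_le_mul_of_nonneg_left hy (by positivity)

/-- symmetric second difference -/
lemma second_diff {h : E n → ℝ} {B : ℝ} (hh : ContDiff ℝ 2 h)
    (hB : ∀ x i j, |H h x i j| ≤ B) (hB0 : 0 ≤ B) (x z : E n) :
    |h (x + z) + h (x - z) - 2 * h x| ≤ 2 * ((n : ℝ) ^ 2 * B * ‖z‖ ^ 2) := by
  have h1 := taylor_one hh hB hB0 x z
  have h2 := taylor_one hh hB hB0 x (-z)
  rw [norm_neg, map_neg, ← sub_eq_add_neg] at h2
  rw [abs_le] at h1 h2 ⊢
  constructor <;> linarith [h1.1, h1.2, h2.1, h2.2]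

/-- **Interpolation** (C5). -/
theorem interp (n : ℕ) (M0 R ε : ℝ) (hε : 0 < ε) : ∃ K : ℝ, 0 ≤ K ∧ ∀ P : E n → ℝ, Continuous P →
    (∀ x, |P x| ≤ M0) → ∀ h : E n → ℝ, ContDiff ℝ 2 h → ∀ B : ℝ, 0 ≤ B →
    (∀ x i j, |H h x i j| ≤ B) → ∀ N : ℝ, Integrable (fun x => h x ^ 2 * wt P x) →
    (∫ x, h x ^ 2 * wt P x) ≤ N ^ 2 → 0 ≤ N → ∀ x : E n, ‖x‖ ≤ R → |h x| ≤ ε * B + K * N := by
  -- the radius
  obtain ⟨r, hr0, hr⟩ : ∃ r : ℝ, 0 < r ∧ (n : ℝ) ^ 2 * r ^ 2 ≤ ε := by
    refine ⟨Real.sqrt (ε / ((n : ℝ) ^ 2 + 1)), Real.sqrt_pos.mpr (by positivity), ?_⟩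
    rw [Real.sq_sqrt (by positivity)]
    have h1 : (0:ℝ) < (n : ℝ) ^ 2 + 1 := by positivity
    rw [mul_div_assoc', div_le_iff₀ h1]
    nlinarith [sq_nonneg (n : ℝ)]
  set w0 : ℝ := Real.exp (-M0) * Real.exp (-((|R| + r) ^ 2 / 2)) with hw0
  have hw0pos : 0 < w0 := by positivity
  set V : ℝ := (volume : Measure (E n)).real (Metric.ball 0 r) with hV
  have hVpos : 0 < V := by
    rw [hV, Measure.real]
    exact ENNReal.toReal_pos (Metric.measure_ball_pos _ _ hr0).ne' measure_ball_lt_top.ne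
  refine ⟨(Real.sqrt (w0 * V))⁻¹, by positivity, ?_⟩
  intro P hP hPM h hh B hB0 hB N hint hN hN0 x hx
  by_contra hcon
  rw [not_le] at hcon
  set A : ℝ := |h x| - ε * B with hA
  have hApos : 0 < A := by
    have : 0 ≤ (Real.sqrt (w0 * V))⁻¹ * N := by positivity
    linarith
  -- pointwise inequality
  set F : E n → ℝ := fun y => w0⁻¹ * (h y ^ 2 * wt P y) with hF
  have hFint : Integrable F := hint.const_mul _
  have hF0 : ∀ y, 0 ≤ F y := fun y => by
    have := (wt_pos P y).le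
    simp only [hF]; positivity
  have hFge : ∀ y : E n, ‖y‖ ≤ |R| + r → h y ^ 2 ≤ F y := by
    intro y hy
    have h1 : w0 ≤ wt P y := by
      refine le_trans ?_ (le_wt hPM y)
      rw [hw0]
      refine mul_le_mul_of_nonneg_left (Real.exp_le_exp.mpr ?_) (Real.exp_pos _).le
      have : ‖y‖ ^ 2 ≤ (|R| + r) ^ 2 := pow_le_pow_left₀ (norm_nonneg _) hy 2
      linarith
    simp only [hF]
    rw [le_inv_mul_iff₀ hw0pos]
    rw [mul_comm]
    exact mul_le_mul_of_nonneg_left h1 (sq_nonneg _)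
  have hpt : ∀ z : E n, (Metric.ball (0 : E n) r).indicator (fun _ => A ^ 2) z ≤
      (1 / 2) * (F (x + z) + F (x - z)) := by
    intro z
    by_cases hz : z ∈ Metric.ball (0 : E n) r
    · rw [Set.indicator_of_mem hz]
      rw [Metric.mem_ball, dist_zero_right] at hz
      have hxR : ‖x‖ ≤ |R| := hx.trans (le_abs_self _)
      have h1 := hFge (x + z) ((norm_add_le _ _).trans (by linarith))
      have h2 := hFge (x - z) ((norm_sub_le _ _).trans (by linarith))
      have h3 := second_diff hh hB hB0 x z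
      have h4 : (n : ℝ) ^ 2 * B * ‖z‖ ^ 2 ≤ ε * B := by
        have : ‖z‖ ^ 2 ≤ r ^ 2 := pow_le_pow_left₀ (norm_nonneg _) hz.le 2
        calc (n : ℝ) ^ 2 * B * ‖z‖ ^ 2 ≤ (n : ℝ) ^ 2 * B * r ^ 2 := by gcongr
          _ = ((n : ℝ) ^ 2 * r ^ 2) * B := by ring
          _ ≤ ε * B := by gcongr
      have h5 : 2 * A ≤ |h (x + z) + h (x - z)| := by
        have h6 : 2 * |h x| ≤ |h (x + z) + h (x - z)| + 2 * (ε * B) := by
          have : |2 * h x| ≤ |h (x + z) + h (x - z)| + |h (x + z) + h (x - z) - 2 * h x| := by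
            have e : 2 * h x = (h (x + z) + h (x - z)) - (h (x + z) + h (x - z) - 2 * h x) := by ring
            calc |2 * h x| = |(h (x + z) + h (x - z)) - (h (x + z) + h (x - z) - 2 * h x)| := by
                  rw [← e]
              _ ≤ _ := abs_sub _ _
          rw [abs_mul, abs_two] at this
          linarith
        rw [hA]; linarith
      have h7 : (2 * A) ^ 2 ≤ (h (x + z) + h (x - z)) ^ 2 := by
        rw [← sq_abs (h (x + z) + h (x - z))]
        exact pow_le_pow_left₀ (by linarith) h5 2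
      nlinarith [sq_nonneg (h (x + z) - h (x - z))]
    · rw [Set.indicator_of_notMem hz]
      have := hF0 (x + z)
      have := hF0 (x - z)
      positivity
  have hi1 : Integrable (fun z => F (x + z)) := hFint.comp_add_left x
  have hi2 : Integrable (fun z => F (x - z)) := hFint.comp_sub_left x
  have hI := integral_mono (μ := (volume : Measure (E n))) (f := fun z =>
    (Metric.ball (0 : E n) r).indicator (fun _ => A ^ 2) z)
    (g := fun z => (1 / 2) * (F (x + z) + F (x - z))) ?_ ((hi1.add hi2).const_mul _) hpt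
  · rw [integral_indicator measurableSet_ball, setIntegral_const, integral_const_mul,
      integral_add hi1 hi2, integral_add_left_eq_self F x, integral_sub_left_eq_self F volume x] at hI
    have hF1 : ∫ y, F y ≤ w0⁻¹ * N ^ 2 := by
      simp only [hF]
      rw [integral_const_mul]
      exact mul_le_mul_of_nonneg_left hN (by positivity)
    have h8 : V * A ^ 2 ≤ w0⁻¹ * N ^ 2 := by
      have : V * A ^ 2 = volume.real (Metric.ball (0 : E n) r) • A ^ 2 := rfl
      rw [this]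
      linarith
    have h9 : A ^ 2 ≤ ((Real.sqrt (w0 * V))⁻¹ * N) ^ 2 := by
      rw [mul_pow, inv_pow, Real.sq_sqrt (by positivity), mul_inv]
      have : A ^ 2 ≤ V⁻¹ * (w0⁻¹ * N ^ 2) := by
        rw [le_inv_mul_iff₀ hVpos]; exact h8
      calc _ ≤ _ := this
        _ = _ := by ring
    have h10 : A ≤ (Real.sqrt (w0 * V))⁻¹ * N :=
      (pow_le_pow_iff_left₀ hApos.le (by positivity) two_ne_zero).mp h9
    linarith
  · exact (integrable_indicator_iff measurableSet_ball).mpr
      (integrableOn_const (hs := measure_ball_lt_top.ne))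

end Crest.Agent.R238.Gap
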