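import Mathlib
import Crest.Agent.R285.Gauss
import Crest.Agent.R238.GapDefs

/-!
Row 238: Poincaré inequality for the standard Gaussian (Maurey–Pisier rotation trick, constant
`π^2/8`) and its Holley–Stroock perturbation.
-/

set_option autoImplicit false

open MeasureTheory ProbabilityTheory Real Set
open scoped ENNReal NNReal

noncomputable section

namespace Crest.Agent.R238.GapPoinc

variable {V : Type*} [NormedAddCommGroup V] [InnerProductSpace ℝ V] [FiniteDimensional ℝ V]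
  [MeasurableSpace V] [BorelSpace V]

/-- Cauchy–Schwarz on an interval. -/
theorem sq_intervalIntegral_le {g : ℝ → ℝ} {a b : ℝ} (hab : a < b) (hg : Continuous g) :
    (∫ t in a..b, g t) ^ 2 ≤ (b - a) * ∫ t in a..b, g t ^ 2 := by
  set m : ℝ := (∫ t in a..b, g t) / (b - a) with hm
  have hba : 0 < b - a := sub_pos.2 hab
  have h0 : 0 ≤ ∫ t in a..b, (g t - m) ^ 2 :=
    intervalIntegral.integral_nonneg hab.le fun t _ => sq_nonneg _
  have h1 : ∫ t in a..b, (g t - m) ^ 2 =
      (∫ t in a..b, g t ^ 2) - 2 * m * (∫ t in a..b, g t) + m ^ 2 * (b - a) := by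
    have e : ∀ t, (g t - m) ^ 2 = (g t ^ 2 - 2 * m * g t) + m ^ 2 := by intro t; ring
    simp_rw [e]
    rw [intervalIntegral.integral_add, intervalIntegral.integral_sub,
      intervalIntegral.integral_const_mul, intervalIntegral.integral_const]
    · simp only [smul_eq_mul]; ring
    all_goals apply Continuous.intervalIntegrable; fun_prop
  rw [h1] at h0
  have h2 : m * (b - a) = ∫ t in a..b, g t := by rw [hm]; field_simp
  have h3 : 0 ≤ (b - a) * ((∫ t in a..b, g t ^ 2) - 2 * m * (∫ t in a..b, g t) + m ^ 2 * (b - a)) :=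
    mul_nonneg hba.le h0
  rw [← h2] at h3 ⊢
  nlinarith

/-- Second moment of a linear form. -/
theorem lintegral_sq_stdGaussian (L : StrongDual ℝ V) :
    ∫⁻ y, ENNReal.ofReal (L y ^ 2) ∂(stdGaussian V) = ENNReal.ofReal (‖L‖ ^ 2) := by
  have h := variance_dual_stdGaussian L
  have hL : MemLp L 2 (stdGaussian V) := by
    exact IsGaussian.memLp_dual _ L 2 (by simp)
  rw [variance_eq_sub hL] at h
  have h0 : (stdGaussian V)[L] = 0 := integral_strongDual_stdGaussian L
  rw [← ofReal_integral_eq_lintegral_ofReal]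
  · congr 1
    rw [← h]
    simp only [Pi.pow_apply]
    rw [h0]; simp
  · exact hL.integrable_sq
  · exact ae_of_all _ fun y => sq_nonneg _

omit [FiniteDimensional ℝ V] [MeasurableSpace V] [BorelSpace V] in
theorem pointwise {f : V → ℝ} (hf : ContDiff ℝ 1 f) (x y : V) :
    (f y - f x) ^ 2 ≤ (π / 2) * ∫ t in (0 : ℝ)..(π / 2),
      (fderiv ℝ f (Real.cos t • x + Real.sin t • y) (-Real.sin t • x + Real.cos t • y)) ^ 2 := by
  have hd : ∀ t : ℝ, HasDerivAt (fun t => f (Real.cos t • x + Real.sin t • y))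
      (fderiv ℝ f (Real.cos t • x + Real.sin t • y) (-Real.sin t • x + Real.cos t • y)) t := by
    intro t
    have h1 : HasDerivAt (fun t : ℝ => Real.cos t • x + Real.sin t • y)
        (-Real.sin t • x + Real.cos t • y) t :=
      ((Real.hasDerivAt_cos t).smul_const x).add ((Real.hasDerivAt_sin t).smul_const y)
    exact ((hf.differentiable (by simp)).differentiableAt.hasFDerivAt).comp_hasDerivAt t h1
  have hc : Continuous fun t : ℝ =>
      fderiv ℝ f (Real.cos t • x + Real.sin t • y) (-Real.sin t • x + Real.cos t • y) := by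
    have hcf : Continuous (fderiv ℝ f) := hf.continuous_fderiv (by simp)
    have h1 : Continuous fun t : ℝ => fderiv ℝ f (Real.cos t • x + Real.sin t • y) :=
      hcf.comp (by fun_prop)
    exact h1.clm_apply (by fun_prop)
  have hint := intervalIntegral.integral_eq_sub_of_hasDerivAt (a := (0 : ℝ)) (b := π / 2)
    (fun t _ => hd t) (hc.intervalIntegrable _ _)
  have h := sq_intervalIntegral_le (a := (0 : ℝ)) (b := π / 2) (by positivity) hc
  rw [hint] at h
  simpa using h

/-- The rotated pair, as a plain function. -/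
def rot (t : ℝ) (p : V × V) : V × V :=
  (Real.cos t • p.1 + Real.sin t • p.2, -Real.sin t • p.1 + Real.cos t • p.2)

omit [FiniteDimensional ℝ V] [MeasurableSpace V] [BorelSpace V] in
theorem continuous_rot : Continuous fun q : (V × V) × ℝ => rot q.2 q.1 := by
  unfold rot; fun_prop

theorem lintegral_rot {G : V × V → ℝ} (hG : Continuous G) (t : ℝ) :
    ∫⁻ p, ENNReal.ofReal (G (rot t p)) ∂((stdGaussian V).prod (stdGaussian V)) =
      ∫⁻ p, ENNReal.ofReal (G p) ∂((stdGaussian V).prod (stdGaussian V)) := by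
  have hrot := IsGaussian.map_rotation_eq_self_of_forall_strongDual_eq_zero (μ := stdGaussian V)
    (fun L => integral_strongDual_stdGaussian L) t
  conv_rhs => rw [← hrot]
  rw [lintegral_map hG.measurable.ennreal_ofReal (ContinuousLinearMap.continuous _).measurable]
  rfl

theorem lintegral_rot2 {G : V × V → ℝ} (hG : Continuous G) :
    ∫⁻ p, (∫⁻ t in Ioc (0 : ℝ) (π / 2), ENNReal.ofReal (G (rot t p)))
        ∂((stdGaussian V).prod (stdGaussian V)) =
      ENNReal.ofReal (π / 2) * ∫⁻ p, ENNReal.ofReal (G p)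
        ∂((stdGaussian V).prod (stdGaussian V)) := by
  have hm : Measurable fun q : (V × V) × ℝ => ENNReal.ofReal (G (rot q.2 q.1)) :=
    (hG.comp continuous_rot).measurable.ennreal_ofReal
  rw [lintegral_lintegral_swap hm.aemeasurable]
  simp_rw [lintegral_rot hG]
  rw [lintegral_const, Measure.restrict_apply MeasurableSet.univ, univ_inter,
          Real.volume_Ioc, sub_zero, mul_comm]

theorem lintegral_main {f : V → ℝ} (hf : ContDiff ℝ 1 f) :
    ∫⁻ p, ENNReal.ofReal ((f p.2 - f p.1) ^ 2) ∂((stdGaussian V).prod (stdGaussian V)) ≤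
      ENNReal.ofReal (π ^ 2 / 4) * ∫⁻ x, ENNReal.ofReal (‖fderiv ℝ f x‖ ^ 2) ∂(stdGaussian V) := by
  have hcf : Continuous (fderiv ℝ f) := hf.continuous_fderiv (by simp)
  -- the integrand
  have hGc : Continuous fun p : V × V => (fderiv ℝ f p.1 p.2) ^ 2 :=
    ((hcf.comp continuous_fst).clm_apply continuous_snd).pow 2
  obtain ⟨G, hG⟩ : ∃ G : V × V → ℝ, G = fun p => (fderiv ℝ f p.1 p.2) ^ 2 := ⟨_, rfl⟩
  rw [← hG] at hGc
  have h1 : ∀ p : V × V, ENNReal.ofReal ((f p.2 - f p.1) ^ 2) ≤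
      ENNReal.ofReal (π / 2) * ∫⁻ t in Ioc (0 : ℝ) (π / 2), ENNReal.ofReal (G (rot t p)) := by
    intro p
    have h := pointwise hf p.1 p.2
    refine (ENNReal.ofReal_le_ofReal h).trans ?_
    rw [ENNReal.ofReal_mul (by positivity)]
    gcongr
    rw [intervalIntegral.integral_of_le (by positivity), ofReal_integral_eq_lintegral_ofReal]
    · rw [hG]; rfl
    · have h3 : Continuous fun t : ℝ => ((p, t) : (V × V) × ℝ) := Continuous.prodMk_right p
      have h4 : Continuous fun t : ℝ => G (rot t p) := (hGc.comp continuous_rot).comp h3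
      have h5 : IntegrableOn (fun t : ℝ => G (rot t p)) (Ioc (0 : ℝ) (π / 2)) :=
        h4.integrableOn_Ioc
      rw [hG] at h5
      exact h5
    · exact ae_of_all _ fun t => sq_nonneg _
  calc ∫⁻ p, ENNReal.ofReal ((f p.2 - f p.1) ^ 2) ∂((stdGaussian V).prod (stdGaussian V))
      ≤ ∫⁻ p, (ENNReal.ofReal (π / 2) * ∫⁻ t in Ioc (0 : ℝ) (π / 2), ENNReal.ofReal (G (rot t p)))
          ∂((stdGaussian V).prod (stdGaussian V)) := lintegral_mono h1
    _ = ENNReal.ofReal (π / 2) * ∫⁻ p, (∫⁻ t in Ioc (0 : ℝ) (π / 2), ENNReal.ofReal (G (rot t p)))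
          ∂((stdGaussian V).prod (stdGaussian V)) := by
        rw [lintegral_const_mul' _ _ (by simp)]
    _ = ENNReal.ofReal (π / 2) * (ENNReal.ofReal (π / 2) * ∫⁻ p, ENNReal.ofReal (G p)
          ∂((stdGaussian V).prod (stdGaussian V))) := by
        rw [lintegral_rot2 hGc]
    _ = ENNReal.ofReal (π ^ 2 / 4) * ∫⁻ p, ENNReal.ofReal (G p)
          ∂((stdGaussian V).prod (stdGaussian V)) := by
        rw [← mul_assoc, ← ENNReal.ofReal_mul (by positivity)]
        congr 2
        ring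
    _ = ENNReal.ofReal (π ^ 2 / 4) * ∫⁻ x, ENNReal.ofReal (‖fderiv ℝ f x‖ ^ 2)
          ∂(stdGaussian V) := by
        congr 1
        rw [lintegral_prod _ hGc.measurable.ennreal_ofReal.aemeasurable]
        refine lintegral_congr fun x => ?_
        rw [hG]
        exact lintegral_sq_stdGaussian (fderiv ℝ f x)

/-- **Gaussian Poincaré inequality** with constant `π^2/8`. -/
theorem gauss_poincare {f : V → ℝ} (hf : ContDiff ℝ 1 f)
    (h1 : Integrable (fun x => f x ^ 2) (stdGaussian V))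
    (h2 : Integrable (fun x => ‖fderiv ℝ f x‖ ^ 2) (stdGaussian V)) :
    (∫ x, f x ^ 2 ∂(stdGaussian V)) - (∫ x, f x ∂(stdGaussian V)) ^ 2 ≤
      (π ^ 2 / 8) * ∫ x, ‖fderiv ℝ f x‖ ^ 2 ∂(stdGaussian V) := by
  set γ := stdGaussian V with hγ
  have hfL : MemLp f 2 γ := by
    rw [memLp_two_iff_integrable_sq hf.continuous.aestronglyMeasurable]
    exact h1
  have hfi : Integrable f γ := hfL.integrable (by norm_num)
  have hm := lintegral_main hf
  rw [← hγ] at hm
  have i1 : Integrable (fun p : V × V => f p.2 ^ 2) (γ.prod γ) := h1.comp_snd γ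
  have i2 : Integrable (fun p : V × V => f p.1 ^ 2) (γ.prod γ) := h1.comp_fst γ
  have i3 : Integrable (fun p : V × V => f p.1 * f p.2) (γ.prod γ) := hfi.mul_prod hfi
  have hexp : ∀ p : V × V, (f p.2 - f p.1) ^ 2 = (f p.2 ^ 2 + f p.1 ^ 2) - 2 * (f p.1 * f p.2) := by
    intro p; ring
  have i4 : Integrable (fun p : V × V => (f p.2 - f p.1) ^ 2) (γ.prod γ) := by
    simp_rw [hexp]
    exact (i1.add i2).sub (i3.const_mul 2)
  rw [← ofReal_integral_eq_lintegral_ofReal i4 (ae_of_all _ fun p => sq_nonneg _),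
    ← ofReal_integral_eq_lintegral_ofReal h2 (ae_of_all _ fun p => sq_nonneg _),
    ← ENNReal.ofReal_mul (by positivity),
    ENNReal.ofReal_le_ofReal_iff (by positivity)] at hm
  have e1 : ∫ p, (f p.2 - f p.1) ^ 2 ∂(γ.prod γ) =
      2 * ((∫ x, f x ^ 2 ∂γ) - (∫ x, f x ∂γ) ^ 2) := by
    simp_rw [hexp]
    have i5 : Integrable (fun p : V × V => f p.2 ^ 2 + f p.1 ^ 2) (γ.prod γ) := i1.add i2
    rw [integral_sub i5 (i3.const_mul 2), integral_add i1 i2, integral_const_mul,
      integral_prod_mul, integral_fun_snd (fun x => f x ^ 2), integral_fun_fst (fun x => f x ^ 2)]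
    simp only [probReal_univ, one_smul]
    ring
  rw [e1] at hm
  linarith

end Crest.Agent.R238.GapPoinc

namespace Crest.Agent.R238.GapPc

open Crest.Agent.R285 Crest.Agent.R238.GapPoinc Crest.Agent.R238.Gap

variable {n : ℕ}

theorem norm_fderiv_sq (f : E n → ℝ) (x : E n) :
    ‖fderiv ℝ f x‖ ^ 2 = ∑ i, (pd i f x) ^ 2 := by
  rw [(EuclideanSpace.basisFun (Fin n) ℝ).norm_dual (fderiv ℝ f x)]
  refine Finset.sum_congr rfl fun i _ => ?_
  simp only [pd, EuclideanSpace.basisFun_apply, Real.norm_eq_abs]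

theorem integrable_pow_stdGaussian (k : ℕ) :
    Integrable (fun x : E n => (1 + ‖x‖) ^ k) (stdGaussian (E n)) := by
  have h1 : MemLp (fun x : E n => 1 + ‖x‖) (k : ℝ≥0∞) (stdGaussian (E n)) := by
    have h0 : MemLp (id : E n → E n) (k : ℝ≥0∞) (stdGaussian (E n)) :=
      IsGaussian.memLp_id (stdGaussian (E n)) (k : ℝ≥0∞) (ENNReal.natCast_ne_top k)
    have h2 : MemLp (fun x : E n => ‖x‖) (k : ℝ≥0∞) (stdGaussian (E n)) := h0.norm
    have h3 : MemLp (fun _ : E n => (1 : ℝ)) (k : ℝ≥0∞) (stdGaussian (E n)) := memLp_const 1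
    exact h3.add h2
  have h3 : Integrable (fun x : E n => ‖1 + ‖x‖‖ ^ k) (stdGaussian (E n)) :=
    h1.integrable_norm_pow'
  refine h3.congr (ae_of_all _ fun x => ?_)
  have h4 : (0 : ℝ) ≤ 1 + ‖x‖ := by positivity
  simp only [Real.norm_of_nonneg h4]

theorem integrable_of_PG {f : E n → ℝ} (hf : Continuous f) (g : PG f) :
    Integrable f (stdGaussian (E n)) := by
  obtain ⟨K, k, h⟩ := g
  refine ((integrable_pow_stdGaussian k).const_mul K).mono' hf.aestronglyMeasurable
    (ae_of_all _ fun x => ?_)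
  simpa using h x

theorem PG_sq {f : E n → ℝ} (g : PG f) : PG (fun x => f x ^ 2) := by
  obtain ⟨K, k, h⟩ := g
  refine ⟨K ^ 2, 2 * k, fun x => ?_⟩
  rw [abs_pow]
  calc |f x| ^ 2 ≤ (K * (1 + ‖x‖) ^ k) ^ 2 := by gcongr; exact h x
    _ = K ^ 2 * (1 + ‖x‖) ^ (2 * k) := by rw [mul_pow, ← pow_mul, mul_comm k 2]

/-- integrability against the Gaussian weight. -/
theorem integrable_mul_exp {g : E n → ℝ} (hg : Integrable g (stdGaussian (E n))) :
    Integrable (fun x => g x * rexp (-(‖x‖ ^ 2 / 2))) := by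
  rw [integrable_stdGaussian_iff] at hg
  have h0 : (0 : ℝ) < (2 * π) ^ (-(Module.finrank ℝ (E n) : ℝ) / 2) := by positivity
  refine (hg.const_mul ((2 * π) ^ (-(Module.finrank ℝ (E n) : ℝ) / 2))⁻¹).congr
    (ae_of_all _ fun x => ?_)
  simp only [gdens, smul_eq_mul]
  rw [neg_div (2 : ℝ) (‖x‖ ^ 2)]
  field_simp

theorem integral_stdGaussian_mul (g : E n → ℝ) :
    ∫ x, g x ∂(stdGaussian (E n)) = (2 * π) ^ (-(Module.finrank ℝ (E n) : ℝ) / 2) *
      ∫ x, g x * rexp (-(‖x‖ ^ 2 / 2)) := by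
  rw [integral_stdGaussian, ← integral_const_mul]
  refine integral_congr_ae (ae_of_all _ fun x => ?_)
  simp only [gdens, smul_eq_mul]
  rw [neg_div (2 : ℝ) (‖x‖ ^ 2)]
  ring

/-- **Poincaré inequality** for `e^{-(|x|²/2+P)}` (Holley–Stroock), with the Gaussian mean as
centring constant. -/
theorem poincare {P : E n → ℝ} (hP : Continuous P) {M0 : ℝ} (bP : ∀ x, |P x| ≤ M0)
    {f : E n → ℝ} (hf : ContDiff ℝ 1 f) (gf : PG f) (gpd : ∀ i, PG (pd i f)) :
    ∫ x, (f x - ∫ y, f y ∂(stdGaussian (E n))) ^ 2 * wt P x ≤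
      (π ^ 2 / 8) * rexp (2 * M0) * ∫ x, (∑ i, (pd i f x) ^ 2) * wt P x := by
  set c : ℝ := ∫ y, f y ∂(stdGaussian (E n)) with hc
  have hpdc : ∀ i, Continuous (pd i f) := fun i =>
    (hf.continuous_fderiv (by simp)).clm_apply continuous_const
  have hcont : Continuous f := hf.continuous
  -- integrability under the Gaussian
  have if1 : Integrable f (stdGaussian (E n)) := integrable_of_PG hcont gf
  have if2 : Integrable (fun x => f x ^ 2) (stdGaussian (E n)) :=
    integrable_of_PG (hcont.pow 2) (PG_sq gf)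
  have id2 : Integrable (fun x => ∑ i, (pd i f x) ^ 2) (stdGaussian (E n)) :=
    integrable_finsetSum _ fun i _ => integrable_of_PG ((hpdc i).pow 2) (PG_sq (gpd i))
  have id2' : Integrable (fun x => ‖fderiv ℝ f x‖ ^ 2) (stdGaussian (E n)) := by
    refine id2.congr (ae_of_all _ fun x => ?_)
    simp only [norm_fderiv_sq]
  have h := gauss_poincare hf if2 id2'
  have ifc : Integrable (fun x => (f x - c) ^ 2) (stdGaussian (E n)) := by
    have : ∀ x, (f x - c) ^ 2 = (f x ^ 2 - 2 * c * f x) + c ^ 2 := fun x => by ring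
    simp_rw [this]
    exact (if2.sub (if1.const_mul _)).add (integrable_const _)
  have e1 : ∫ x, (f x - c) ^ 2 ∂(stdGaussian (E n)) =
      (∫ x, f x ^ 2 ∂(stdGaussian (E n))) - (∫ x, f x ∂(stdGaussian (E n))) ^ 2 := by
    have : ∀ x, (f x - c) ^ 2 = (f x ^ 2 - 2 * c * f x) + c ^ 2 := fun x => by ring
    simp_rw [this]
    rw [integral_add, integral_sub if2 (if1.const_mul _), integral_const_mul, integral_const]
    · simp only [probReal_univ, one_smul]; rw [← hc]; ring
    · exact if2.sub (if1.const_mul _)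
    · exact integrable_const _
  rw [← e1] at h
  simp_rw [norm_fderiv_sq] at h
  rw [integral_stdGaussian_mul, integral_stdGaussian_mul] at h
  have h0 : (0 : ℝ) < (2 * π) ^ (-(Module.finrank ℝ (E n) : ℝ) / 2) := by positivity
  have h' : ∫ x, (f x - c) ^ 2 * rexp (-(‖x‖ ^ 2 / 2)) ≤
      π ^ 2 / 8 * ∫ x, (∑ i, (pd i f x) ^ 2) * rexp (-(‖x‖ ^ 2 / 2)) := by
    refine le_of_mul_le_mul_left ?_ h0
    linarith
  -- comparison of the weights
  have w1 : ∀ x, wt P x ≤ rexp M0 * rexp (-(‖x‖ ^ 2 / 2)) := by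
    intro x
    rw [wt, ← Real.exp_add]
    apply Real.exp_le_exp.2
    have := (abs_le.1 (bP x)).1
    linarith
  have w2 : ∀ x, rexp (-(‖x‖ ^ 2 / 2)) ≤ rexp M0 * wt P x := by
    intro x
    rw [wt, ← Real.exp_add]
    apply Real.exp_le_exp.2
    have := (abs_le.1 (bP x)).2
    linarith
  have wpos : ∀ x, 0 ≤ wt P x := fun x => (Real.exp_pos _).le
  have wc : Continuous (wt P) := by
    unfold wt
    fun_prop
  have j1 := integrable_mul_exp ifc
  have j2 := integrable_mul_exp id2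
  have j3 : Integrable (fun x => (∑ i, (pd i f x) ^ 2) * wt P x) := by
    refine (j2.const_mul (rexp M0)).mono' ?_ (ae_of_all _ fun x => ?_)
    · refine Continuous.aestronglyMeasurable ?_
      exact (continuous_finsetSum _ fun i _ => (hpdc i).pow 2).mul wc
    · rw [Real.norm_eq_abs, abs_of_nonneg (mul_nonneg (Finset.sum_nonneg fun i _ => sq_nonneg _)
        (wpos x))]
      have hs : 0 ≤ ∑ i, (pd i f x) ^ 2 := Finset.sum_nonneg fun i _ => sq_nonneg _
      calc (∑ i, (pd i f x) ^ 2) * wt P x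
          ≤ (∑ i, (pd i f x) ^ 2) * (rexp M0 * rexp (-(‖x‖ ^ 2 / 2))) :=
            mul_le_mul_of_nonneg_left (w1 x) hs
        _ = rexp M0 * ((∑ i, (pd i f x) ^ 2) * rexp (-(‖x‖ ^ 2 / 2))) := by ring
  calc ∫ x, (f x - c) ^ 2 * wt P x
      ≤ ∫ x, rexp M0 * ((f x - c) ^ 2 * rexp (-(‖x‖ ^ 2 / 2))) := by
        refine integral_mono_of_nonneg (ae_of_all _ fun x => mul_nonneg (sq_nonneg _) (wpos x))
          (j1.const_mul _) (ae_of_all _ fun x => ?_)
        simp only
        calc (f x - c) ^ 2 * wt P x ≤ (f x - c) ^ 2 * (rexp M0 * rexp (-(‖x‖ ^ 2 / 2))) :=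
              mul_le_mul_of_nonneg_left (w1 x) (sq_nonneg _)
          _ = _ := by ring
    _ = rexp M0 * ∫ x, (f x - c) ^ 2 * rexp (-(‖x‖ ^ 2 / 2)) := integral_const_mul _ _
    _ ≤ rexp M0 * (π ^ 2 / 8 * ∫ x, (∑ i, (pd i f x) ^ 2) * rexp (-(‖x‖ ^ 2 / 2))) := by
        gcongr
    _ ≤ rexp M0 * (π ^ 2 / 8 * ∫ x, rexp M0 * ((∑ i, (pd i f x) ^ 2) * wt P x)) := by
        refine mul_le_mul_of_nonneg_left (mul_le_mul_of_nonneg_left ?_ (by positivity))
          (Real.exp_pos _).le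
        refine integral_mono j2 (j3.const_mul (rexp M0)) fun x => ?_
        have hs : 0 ≤ ∑ i, (pd i f x) ^ 2 := Finset.sum_nonneg fun i _ => sq_nonneg _
        calc (∑ i, (pd i f x) ^ 2) * rexp (-(‖x‖ ^ 2 / 2))
            ≤ (∑ i, (pd i f x) ^ 2) * (rexp M0 * wt P x) := mul_le_mul_of_nonneg_left (w2 x) hs
          _ = rexp M0 * ((∑ i, (pd i f x) ^ 2) * wt P x) := by ring
    _ = (π ^ 2 / 8) * rexp (2 * M0) * ∫ x, (∑ i, (pd i f x) ^ 2) * wt P x := by
        rw [integral_const_mul, two_mul M0, Real.exp_add]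
        ring

/-- the Gaussian mean of an odd function vanishes. -/
theorem integral_odd_stdGaussian {f : E n → ℝ} (hodd : ∀ x, f (-x) = -f x) :
    ∫ y, f y ∂(stdGaussian (E n)) = 0 := by
  rw [integral_stdGaussian_mul]
  have h1 : ∫ x, f x * rexp (-(‖x‖ ^ 2 / 2)) = ∫ x, f (-x) * rexp (-(‖-x‖ ^ 2 / 2)) :=
    (integral_neg_eq_self (fun x => f x * rexp (-(‖x‖ ^ 2 / 2))) volume).symm
  have h2 : ∫ x, f (-x) * rexp (-(‖-x‖ ^ 2 / 2)) = -∫ x, f x * rexp (-(‖x‖ ^ 2 / 2)) := by
    rw [← integral_neg]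
    refine integral_congr_ae (ae_of_all _ fun x => ?_)
    simp only [hodd, norm_neg]
    ring
  have h3 : ∫ x, f x * rexp (-(‖x‖ ^ 2 / 2)) = 0 := by linarith
  rw [h3, mul_zero]

/-- **(C3)**: Poincaré inequality for odd functions. -/
theorem odd_poincare {P : E n → ℝ} (hP : Continuous P) {M0 : ℝ} (bP : ∀ x, |P x| ≤ M0)
    {f : E n → ℝ} (hf : ContDiff ℝ 1 f) (hodd : ∀ x, f (-x) = -f x)
    (gf : PG f) (gpd : ∀ i, PG (pd i f)) :
    ∫ x, f x ^ 2 * wt P x ≤
      (π ^ 2 / 8) * rexp (2 * M0) * ∫ x, (∑ i, (pd i f x) ^ 2) * wt P x := by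
  have h := poincare hP bP hf gf gpd
  rw [integral_odd_stdGaussian hodd] at h
  simpa only [sub_zero] using h

end Crest.Agent.R238.GapPc
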