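import Mathlib
import Crest.Agent.R238.GapDefs
import Crest.Agent.R238.GapIBP
import Crest.Agent.R238.GapBoch
import Crest.Agent.R238.GapB3
import Crest.Agent.R238.GapPoinc

/-!
Row 238 (S0369), module H4 (GAP): the `L²` gap for even functions (helper469).
-/

set_option autoImplicit false

open MeasureTheory Real Set Filter Topology

namespace Crest.Agent.R238.Gap

variable {n : ℕ}

lemma abs_coord_le (x : E n) (i : Fin n) : |x i| ≤ ‖x‖ := by
  have := PiLp.norm_apply_le x i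
  simpa using this

lemma norm_fderiv_le_sum (f : E n → ℝ) (x : E n) : ‖fderiv ℝ f x‖ ≤ ∑ i, |pd i f x| := by
  refine ContinuousLinearMap.opNorm_le_bound _ (Finset.sum_nonneg fun i _ => abs_nonneg _) ?_
  intro v
  rw [B.fderiv_eq_sum, Real.norm_eq_abs, Finset.sum_mul]
  refine (Finset.abs_sum_le_sum_abs _ _).trans (Finset.sum_le_sum fun i _ => ?_)
  rw [abs_mul, mul_comm]
  exact mul_le_mul_of_nonneg_left (abs_coord_le v i) (abs_nonneg _)

lemma norm_fderiv_sq_le (f : E n → ℝ) (x : E n) : ‖fderiv ℝ f x‖ ^ 2 ≤ ∑ i, pd i f x ^ 2 := by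
  have h0 : 0 ≤ ∑ i, pd i f x ^ 2 := Finset.sum_nonneg fun i _ => sq_nonneg _
  have h1 : ‖fderiv ℝ f x‖ ≤ √(∑ i, pd i f x ^ 2) := by
    refine ContinuousLinearMap.opNorm_le_bound _ (Real.sqrt_nonneg _) ?_
    intro v
    rw [B.fderiv_eq_sum, Real.norm_eq_abs, EuclideanSpace.norm_eq, ← Real.sqrt_mul h0]
    apply Real.abs_le_sqrt
    have := Finset.sum_mul_sq_le_sq_mul_sq Finset.univ (fun i => v i) (fun i => pd i f x)
    simpa [mul_comm, Real.norm_eq_abs, sq_abs] using this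
  calc ‖fderiv ℝ f x‖ ^ 2 ≤ (√(∑ i, pd i f x ^ 2)) ^ 2 := by gcongr
    _ = _ := Real.sq_sqrt h0

lemma pg_of_pd {f : E n → ℝ} (hf : ContDiff ℝ 1 f) (h1 : ∀ i, PG (pd i f)) : PG f := by
  have h2 : PG (fun x => ∑ i, |pd i f x|) := PG.sum _ fun i _ => (h1 i).abs
  obtain ⟨K, k, hK0, hK⟩ := pg_nonneg h2
  refine ⟨|f 0| + K, k + 1, fun x => ?_⟩
  have h3 : ‖f x - f 0‖ ≤ (K * (1 + ‖x‖) ^ k) * ‖x - 0‖ := by
    refine Convex.norm_image_sub_le_of_norm_fderiv_le (𝕜 := ℝ) (s := Metric.closedBall 0 ‖x‖)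
      (fun y _ => hf.differentiable (by norm_num) y) ?_ (convex_closedBall _ _) ?_ ?_
    · intro y hy
      have hy' : ‖y‖ ≤ ‖x‖ := by simpa using hy
      refine (norm_fderiv_le_sum f y).trans ?_
      have := hK y
      rw [abs_of_nonneg (Finset.sum_nonneg fun i _ => abs_nonneg _)] at this
      refine this.trans ?_
      gcongr
    · simp
    · simp
  have h4 : 0 ≤ ‖x‖ := norm_nonneg x
  have h5 : (1 : ℝ) ≤ (1 + ‖x‖) ^ (k + 1) := one_le_pow₀ (by linarith)
  have h6 : (1 + ‖x‖) ^ k * ‖x‖ ≤ (1 + ‖x‖) ^ (k + 1) := by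
    rw [pow_succ]
    exact mul_le_mul_of_nonneg_left (by linarith) (by positivity)
  rw [sub_zero, Real.norm_eq_abs] at h3
  calc |f x| = |f 0 + (f x - f 0)| := by ring_nf
    _ ≤ |f 0| + |f x - f 0| := abs_add_le _ _
    _ ≤ |f 0| * 1 + K * ((1 + ‖x‖) ^ k * ‖x‖) := by
        rw [mul_one]; linarith [h3]
    _ ≤ |f 0| * (1 + ‖x‖) ^ (k + 1) + K * (1 + ‖x‖) ^ (k + 1) := by
        gcongr
    _ = _ := by ring

/-- growth of even `C²` functions with bounded Hessian. -/
structure GH (h : E n → ℝ) : Prop where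
  cd : ContDiff ℝ 2 h
  g0 : PG h
  g1 : ∀ i, PG (pd i h)
  g2 : ∀ i j, PG (pd i (pd j h))

lemma gh_of_bdd {h : E n → ℝ} (hh : ContDiff ℝ 2 h) {Bd : ℝ} (hB : ∀ x i j, |H h x i j| ≤ Bd) :
    GH h := by
  have g2 : ∀ i j, PG (pd i (pd j h)) := fun i j =>
    PG.of_bdd (K := Bd) fun x => by rw [← B.H_eq hh]; exact hB x i j
  have g1 : ∀ j, PG (pd j h) := fun j => pg_of_pd (B.cd_pd1 hh j) fun i => g2 i j
  exact ⟨hh, pg_of_pd (hh.of_le (by norm_num)) g1, g1, g2⟩

lemma gh_of_g3 {h : E n → ℝ} (hh : G3 h) : GH h :=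
  ⟨hh.c2, pg_of_pd (hh.cd.of_le (by norm_num)) hh.g1, hh.g1, hh.g2⟩

lemma pd_odd {h : E n → ℝ} (hd : Differentiable ℝ h) (hev : Ev h) (i : Fin n) (x : E n) :
    pd i h (-x) = - pd i h x := by
  have h1 : (fun y => h (-y)) = h := funext hev
  have h2 : HasFDerivAt (fun y => h (-y)) ((fderiv ℝ h (-x)).comp (-ContinuousLinearMap.id ℝ (E n))) x :=
    (hd (-x)).hasFDerivAt.comp x (hasFDerivAt_id x).neg
  rw [h1] at h2
  unfold pd
  rw [h2.fderiv]
  simp

lemma wt_even {P : E n → ℝ} (hP : Ev P) (x : E n) : wt P (-x) = wt P x := by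
  unfold wt
  rw [norm_neg, hP x]

lemma int_odd {P : E n → ℝ} (hP : Ev P) {f : E n → ℝ} (hf : ∀ x, f (-x) = - f x) :
    ∫ x, f x * wt P x = 0 := by
  have h1 : ∫ x, f (-x) * wt P (-x) = ∫ x, f x * wt P x :=
    integral_neg_eq_self (fun x => f x * wt P x) volume
  simp only [hf, wt_even hP, neg_mul, integral_neg] at h1
  linarith

section
open scoped MatrixOrder Matrix.Norms.L2Operator
lemma psd_decomp {C : Matrix (Fin n) (Fin n) ℝ} (hC : C.PosSemidef) :
    ∃ Bm : Matrix (Fin n) (Fin n) ℝ, C = Bm.transpose * Bm := by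
  obtain ⟨Bm, hB⟩ := CStarAlgebra.nonneg_iff_eq_star_mul_self.mp hC.nonneg
  refine ⟨Bm, ?_⟩
  rw [hB]
  congr 1
end

/-- `tr(A H A H) ≥ lo² |H|²`. -/
lemma tr_lower {lo : ℝ} (hlo : 0 ≤ lo) (A S : Matrix (Fin n) (Fin n) ℝ) (hA : ∀ i j, A i j = A j i)
    (hl : ∀ v : Fin n → ℝ, lo * ∑ i, v i ^ 2 ≤ ∑ i, ∑ j, A i j * v i * v j)
    (hS : ∀ i j, S i j = S j i) :
    lo ^ 2 * ∑ i, ∑ j, S i j ^ 2 ≤
      ∑ a, ∑ c, (∑ d, A c d * S a d) * (∑ b, A a b * S b c) := by
  classical
  set C : Matrix (Fin n) (Fin n) ℝ := A - lo • (1 : Matrix (Fin n) (Fin n) ℝ) with hC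
  have hSt : S.transpose = S := by ext i j; exact hS j i
  have hCps : C.PosSemidef := by
    refine Matrix.PosSemidef.of_dotProduct_mulVec_nonneg ?_ ?_
    · ext i j
      simp [hC, Matrix.conjTranspose_apply, Matrix.sub_apply, Matrix.smul_apply, Matrix.one_apply,
        hA i j, eq_comm]
    · intro v
      have h1 := hl v
      have h2 : star v ⬝ᵥ C.mulVec v = (∑ i, ∑ j, A i j * v i * v j) - lo * ∑ i, v i ^ 2 := by
        rw [hC, Matrix.sub_mulVec, dotProduct_sub, Matrix.smul_mulVec, Matrix.one_mulVec]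
        congr 1
        · simp only [dotProduct, Matrix.mulVec, star_trivial, Finset.mul_sum]
          exact Finset.sum_congr rfl fun i _ => Finset.sum_congr rfl fun j _ => by ring
        · simp only [dotProduct, star_trivial, Pi.smul_apply, smul_eq_mul, Finset.mul_sum]
          exact Finset.sum_congr rfl fun i _ => by ring
      rw [h2]; linarith
  obtain ⟨Bm, hBm⟩ := psd_decomp hCps
  have hAC : A = C + lo • (1 : Matrix (Fin n) (Fin n) ℝ) := by rw [hC]; simp
  have key : ∑ a, ∑ c, (∑ d, A c d * S a d) * (∑ b, A a b * S b c) =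
      Matrix.trace (A * S * A * S) := by
    have h1 : ∀ a c, (∑ d, A c d * S a d) = (S * A) a c := by
      intro a c
      rw [Matrix.mul_apply]
      exact Finset.sum_congr rfl fun d _ => by rw [hA c d]; ring
    have h2 : ∀ a c, (∑ b, A a b * S b c) = (A * S) a c := fun a c => by rw [Matrix.mul_apply]
    simp only [h1, h2]
    rw [Matrix.mul_assoc (A * S), Matrix.trace]
    simp only [Matrix.diag_apply, Matrix.mul_apply (M := A * S)]
    refine Finset.sum_congr rfl fun a _ => Finset.sum_congr rfl fun c _ => ?_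
    have h3 : (A * S) c a = (S * A) a c := by
      rw [Matrix.mul_apply, Matrix.mul_apply]
      exact Finset.sum_congr rfl fun d _ => by rw [hA c d, hS d a]; ring
    rw [h3]; ring
  have nn : ∀ M : Matrix (Fin n) (Fin n) ℝ, 0 ≤ Matrix.trace (M.transpose * M) := by
    intro M
    rw [Matrix.trace]
    refine Finset.sum_nonneg fun i _ => ?_
    rw [Matrix.diag_apply, Matrix.mul_apply]
    exact Finset.sum_nonneg fun j _ => by rw [Matrix.transpose_apply]; exact mul_self_nonneg _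
  have hS2 : ∑ i, ∑ j, S i j ^ 2 = Matrix.trace (S * S) := by
    rw [Matrix.trace]
    refine Finset.sum_congr rfl fun i _ => ?_
    rw [Matrix.diag_apply, Matrix.mul_apply]
    exact Finset.sum_congr rfl fun j _ => by rw [hS j i]; ring
  rw [key, hS2, hAC]
  have e1 : (C + lo • (1 : Matrix (Fin n) (Fin n) ℝ)) * S * (C + lo • (1 : Matrix (Fin n) (Fin n) ℝ)) * S
      = C * S * C * S + lo • (C * S * S) + lo • (S * C * S) + lo ^ 2 • (S * S) := by
    simp only [add_mul, mul_add, smul_mul_assoc, mul_smul_comm, one_mul, mul_one, smul_smul,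
      smul_add, sq]
    abel
  rw [e1, Matrix.trace_add, Matrix.trace_add, Matrix.trace_add, Matrix.trace_smul,
    Matrix.trace_smul, Matrix.trace_smul]
  have t1 : 0 ≤ Matrix.trace (C * S * C * S) := by
    have : Matrix.trace (C * S * C * S) =
        Matrix.trace ((Bm * S * Bm.transpose).transpose * (Bm * S * Bm.transpose)) := by
      rw [Matrix.transpose_mul, Matrix.transpose_mul, Matrix.transpose_transpose, hSt, hBm]
      rw [Matrix.trace_mul_comm (Bm.transpose * Bm * S * (Bm.transpose * Bm)) S]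
      rw [← Matrix.mul_assoc, ← Matrix.mul_assoc, ← Matrix.mul_assoc, ← Matrix.mul_assoc,
        ← Matrix.mul_assoc, ← Matrix.mul_assoc]
      rw [Matrix.trace_mul_comm _ Bm]
      simp only [Matrix.mul_assoc]
    rw [this]; exact nn _
  have t2 : 0 ≤ Matrix.trace (S * C * S) := by
    have : Matrix.trace (S * C * S) = Matrix.trace ((Bm * S).transpose * (Bm * S)) := by
      rw [Matrix.transpose_mul, hSt, hBm]
      simp only [Matrix.mul_assoc]
    rw [this]; exact nn _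
  have t3 : Matrix.trace (C * S * S) = Matrix.trace (S * C * S) := by
    rw [Matrix.trace_mul_comm (C * S) S, Matrix.mul_assoc]
  rw [t3]
  have := mul_nonneg hlo t2
  simp only [smul_eq_mul]
  linarith

/-- the Bochner inequality for `h` (integrated form). -/
def BochIneq (P : E n → ℝ) (τ : E n → Matrix (Fin n) (Fin n) ℝ) (h : E n → ℝ) : Prop :=
  (∫ x, B.Ga τ h x * wt P x) + ∫ x, B.Qh τ h x * wt P x ≤ ∫ x, Lop τ h x ^ 2 * wt P x

/-- Poincaré constant. -/
noncomputable def Kp (_n : ℕ) (M0 : ℝ) : ℝ :=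
  (π ^ 2 / 8) * Real.exp (2 * M0)

lemma Kp_pos (n : ℕ) (M0 : ℝ) : 0 < Kp n M0 := by
  unfold Kp
  positivity

lemma wt_pos' (P : E n → ℝ) (x : E n) : 0 < wt P x := Real.exp_pos _

/-- Poincaré inequality for odd functions. -/
lemma poinc_odd {P : E n → ℝ} {M0 : ℝ} (hPc : Continuous P) (hP : ∀ x, |P x| ≤ M0)
    {f : E n → ℝ} (hf : ContDiff ℝ 1 f) (hf0 : PG f) (hf1 : ∀ i, PG (pd i f))
    (hodd : ∀ x, f (-x) = - f x) :
    ∫ x, f x ^ 2 * wt P x ≤ Kp n M0 * ∫ x, (∑ i, pd i f x ^ 2) * wt P x :=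
  GapPc.odd_poincare hPc hP hf hodd hf0 hf1

/-- the gap parameter. -/
noncomputable def dl (n : ℕ) (lo hi M0 : ℝ) : ℝ := lo ^ 2 / (Kp n M0 * (|hi| + 1))

lemma dl_pos (n : ℕ) {lo hi M0 : ℝ} (hlo : 0 < lo) : 0 < dl n lo hi M0 := by
  have := Kp_pos n M0
  unfold dl
  positivity

/-- the gap constant. -/
noncomputable def Kg (n : ℕ) (lo hi M0 : ℝ) : ℝ :=
  2 + 2 / (dl n lo hi M0 / (1 + dl n lo hi M0)) ^ 2

lemma Kg_pos (n : ℕ) {lo hi M0 : ℝ} (hlo : 0 < lo) : 0 < Kg n lo hi M0 := by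
  have := dl_pos n (hi := hi) (M0 := M0) hlo
  unfold Kg
  positivity

/-- **GAP**, from the Bochner inequality for `h`. -/
theorem gap_of_boch {lo hi M0 : ℝ} (hlo : 0 < lo) {P : E n → ℝ}
    {τ : E n → Matrix (Fin n) (Fin n) ℝ} (D : Dat lo hi M0 P τ)
    {h : E n → ℝ} (hev : Ev h) (hh : GH h) (hb : BochIneq P τ h) :
    ∫ x, h x ^ 2 * wt P x ≤ Kg n lo hi M0 * ∫ x, (Lop τ h x + h x) ^ 2 * wt P x := by
  have hPc := D.hP.continuous
  have hc0 : Continuous h := hh.cd.continuous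
  have hcL : Continuous (Lop τ h) := cont_Lop D.hτ hh.cd
  have hgH : ∀ i j, PG (fun x => H h x i j) := fun i j => by
    have : (fun x => H h x i j) = pd i (pd j h) := funext fun x => B.H_eq hh.cd x i j
    rw [this]; exact hh.g2 i j
  have hgL : PG (Lop τ h) := pg_Lop D.pgτ hh.g1 hgH
  have hcd : ∀ i, Continuous (pd i h) := fun i => B.cont_pd (hh.cd.of_le (by norm_num)) i
  have hcdd : ∀ i j, Continuous (pd i (pd j h)) := fun i j => B.cont_pd (B.cd_pd1 hh.cd j) i
  -- the integrals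
  set G := ∫ x, B.Ga τ h x * wt P x with hG
  set Q := ∫ x, B.Qh τ h x * wt P x with hQ
  set Bq := ∫ x, Lop τ h x ^ 2 * wt P x with hBq
  set F := ∫ x, (Lop τ h x + h x) ^ 2 * wt P x with hF
  set S := ∫ x, (∑ i, pd i h x ^ 2) * wt P x with hS
  set R := ∫ x, (∑ i, ∑ j, pd i (pd j h) x ^ 2) * wt P x with hR
  have w0 : ∀ x, 0 ≤ wt P x := fun x => (wt_pos' P x).le
  have iG : Integrable (fun x => B.Ga τ h x * wt P x) :=
    integrable_pg hPc D.bP (cont_Ga D.hτ (hh.cd.of_le (by norm_num))) (pg_Ga D hh.g1)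
  have iQ : Integrable (fun x => B.Qh τ h x * wt P x) :=
    integrable_pg hPc D.bP (cont_Qh D.hτ hh.cd) (pg_Qh D hh.g2)
  have iB : Integrable (fun x => Lop τ h x ^ 2 * wt P x) :=
    integrable_pg hPc D.bP (hcL.pow 2) (hgL.pow 2)
  have iF : Integrable (fun x => (Lop τ h x + h x) ^ 2 * wt P x) :=
    integrable_pg hPc D.bP ((hcL.add hc0).pow 2) ((hgL.add hh.g0).pow 2)
  have iS : Integrable (fun x => (∑ i, pd i h x ^ 2) * wt P x) :=
    integrable_pg hPc D.bP (continuous_finsetSum _ fun i _ => (hcd i).pow 2)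
      (PG.sum _ fun i _ => (hh.g1 i).pow 2)
  have iR : Integrable (fun x => (∑ i, ∑ j, pd i (pd j h) x ^ 2) * wt P x) :=
    integrable_pg hPc D.bP (continuous_finsetSum _ fun i _ => continuous_finsetSum _ fun j _ =>
      (hcdd i j).pow 2) (PG.sum _ fun i _ => PG.sum _ fun j _ => (hh.g2 i j).pow 2)
  have ihL : Integrable (fun x => h x * Lop τ h x * wt P x) :=
    integrable_pg hPc D.bP (hc0.mul hcL) (hh.g0.mul hgL)
  have ih2 : Integrable (fun x => h x ^ 2 * wt P x) :=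
    integrable_pg hPc D.bP (hc0.pow 2) (hh.g0.pow 2)
  -- positivity
  have hS0 : 0 ≤ S := integral_nonneg fun x =>
    mul_nonneg (Finset.sum_nonneg fun i _ => sq_nonneg _) (w0 x)
  have hR0 : 0 ≤ R := integral_nonneg fun x =>
    mul_nonneg (Finset.sum_nonneg fun i _ => Finset.sum_nonneg fun j _ => sq_nonneg _) (w0 x)
  have hGS : G ≤ (|hi| + 1) * S := by
    rw [hG, hS, ← integral_const_mul]
    refine integral_mono iG (iS.const_mul _) fun x => ?_
    have h1 : B.Ga τ h x ≤ hi * ∑ i, pd i h x ^ 2 := D.upper x (fun i => pd i h x)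
    have h2 : 0 ≤ ∑ i, pd i h x ^ 2 := Finset.sum_nonneg fun i _ => sq_nonneg _
    have h3 : B.Ga τ h x ≤ (|hi| + 1) * ∑ i, pd i h x ^ 2 :=
      h1.trans (mul_le_mul_of_nonneg_right (by linarith [le_abs_self hi]) h2)
    have := mul_le_mul_of_nonneg_right h3 (w0 x)
    simp only
    linarith
  have hG0 : 0 ≤ G := by
    refine integral_nonneg fun x => mul_nonneg ?_ (w0 x)
    have h1 : lo * ∑ i, pd i h x ^ 2 ≤ B.Ga τ h x := D.lower x (fun i => pd i h x)
    have h2 : 0 ≤ ∑ i, pd i h x ^ 2 := Finset.sum_nonneg fun i _ => sq_nonneg _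
    exact (mul_nonneg hlo.le h2).trans h1
  have hQR : lo ^ 2 * R ≤ Q := by
    rw [hQ, hR, ← integral_const_mul]
    refine integral_mono (iR.const_mul _) iQ fun x => ?_
    have h1 := tr_lower hlo.le (τ x) (fun i j => pd i (pd j h) x) (D.symm x) (D.lower x)
      (fun i j => B.pd_comm hh.cd x i j)
    have := mul_le_mul_of_nonneg_right h1 (w0 x)
    simp only [B.Qh]
    linarith
  -- Poincaré
  have hSR : S ≤ Kp n M0 * R := by
    have e1 : S = ∑ i, ∫ x, pd i h x ^ 2 * wt P x := by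
      rw [hS, ← integral_finsetSum]
      · exact integral_congr_ae (Eventually.of_forall fun x => by simp only [Finset.sum_mul])
      · exact fun i _ => integrable_pg hPc D.bP ((hcd i).pow 2) ((hh.g1 i).pow 2)
    have e2 : R = ∑ i, ∫ x, (∑ j, pd j (pd i h) x ^ 2) * wt P x := by
      rw [hR, ← integral_finsetSum]
      · refine integral_congr_ae (Eventually.of_forall fun x => ?_)
        simp only [← Finset.sum_mul]
        rw [Finset.sum_comm]
      · exact fun i _ => integrable_pg hPc D.bP (continuous_finsetSum _ fun j _ =>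
          (hcdd j i).pow 2) (PG.sum _ fun j _ => (hh.g2 j i).pow 2)
    rw [e1, e2, Finset.mul_sum]
    exact Finset.sum_le_sum fun i _ => poinc_odd hPc D.bP (B.cd_pd1 hh.cd i) (hh.g1 i)
      (fun j => hh.g2 j i) (pd_odd (hh.cd.differentiable (by norm_num)) hev i)
  -- symmetry
  have hsym : ∫ x, h x * Lop τ h x * wt P x = - G :=
    D.sym (hh.cd.of_le (by norm_num)) hh.g0 hh.g1 hh.cd hh.g1 hgH
  set d := dl n lo hi M0 with hd
  have hd0 : 0 < d := dl_pos n hlo
  have hKp := Kp_pos n M0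
  have hdG : d * G ≤ Q := by
    have h1 : d * G ≤ lo ^ 2 * R := by
      have h2 : G ≤ (|hi| + 1) * (Kp n M0 * R) :=
        hGS.trans (mul_le_mul_of_nonneg_left hSR (by positivity))
      have h3 : d * ((|hi| + 1) * (Kp n M0 * R)) = lo ^ 2 * R := by
        rw [hd]; unfold dl; field_simp
      calc d * G ≤ d * ((|hi| + 1) * (Kp n M0 * R)) := mul_le_mul_of_nonneg_left h2 hd0.le
        _ = _ := h3
    exact h1.trans hQR
  have hB1 : (1 + d) * G ≤ Bq := by
    have : G + Q ≤ Bq := hb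
    linarith
  -- `Bq - G = ∫ L h (L h + h)`
  set t := d / (1 + d) with ht
  have ht0 : 0 < t := by positivity
  have hB0 : 0 ≤ Bq := integral_nonneg fun x => mul_nonneg (sq_nonneg _) (w0 x)
  have hBG : Bq - G ≤ t / 2 * Bq + 1 / (2 * t) * F := by
    have e1 : Bq - G = ∫ x, (Lop τ h x ^ 2 * wt P x + h x * Lop τ h x * wt P x) := by
      rw [integral_add iB ihL, hsym]; ring
    have e2 : t / 2 * Bq + 1 / (2 * t) * F =
        ∫ x, (t / 2 * (Lop τ h x ^ 2 * wt P x) + 1 / (2 * t) * ((Lop τ h x + h x) ^ 2 * wt P x)) := by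
      rw [integral_add (iB.const_mul _) (iF.const_mul _), integral_const_mul, integral_const_mul]
    rw [e1, e2]
    refine integral_mono (iB.add ihL) ((iB.const_mul _).add (iF.const_mul _)) fun x => ?_
    simp only
    have h1 : Lop τ h x * (Lop τ h x + h x) ≤
        t / 2 * Lop τ h x ^ 2 + 1 / (2 * t) * (Lop τ h x + h x) ^ 2 := by
      have h2 : 0 ≤ (t * Lop τ h x - (Lop τ h x + h x)) ^ 2 / (2 * t) := by positivity
      have h3 : (t * Lop τ h x - (Lop τ h x + h x)) ^ 2 / (2 * t) =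
          t / 2 * Lop τ h x ^ 2 + 1 / (2 * t) * (Lop τ h x + h x) ^ 2 -
          Lop τ h x * (Lop τ h x + h x) := by
        field_simp; ring
      linarith
    have := mul_le_mul_of_nonneg_right h1 (w0 x)
    nlinarith
  have htB : t * Bq ≤ Bq - G := by
    have h1 : G ≤ Bq / (1 + d) := by
      rw [le_div_iff₀ (by positivity)]; linarith
    have h2 : Bq - Bq / (1 + d) = t * Bq := by rw [ht]; field_simp; ring
    linarith
  have hBF : Bq ≤ F / t ^ 2 := by
    have h1 : t / 2 * Bq ≤ 1 / (2 * t) * F := by linarith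
    rw [le_div_iff₀ (by positivity)]
    have h2 := mul_le_mul_of_nonneg_left h1 (by positivity : 0 ≤ 2 * t)
    have h3 : 2 * t * (1 / (2 * t) * F) = F := by field_simp
    nlinarith
  have hfin : ∫ x, h x ^ 2 * wt P x ≤ 2 * F + 2 * Bq := by
    have e2 : 2 * F + 2 * Bq =
        ∫ x, (2 * ((Lop τ h x + h x) ^ 2 * wt P x) + 2 * (Lop τ h x ^ 2 * wt P x)) := by
      rw [integral_add (iF.const_mul _) (iB.const_mul _), integral_const_mul, integral_const_mul]
    rw [e2]
    refine integral_mono ih2 ((iF.const_mul _).add (iB.const_mul _)) fun x => ?_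
    simp only
    have h1 : h x ^ 2 ≤ 2 * (Lop τ h x + h x) ^ 2 + 2 * Lop τ h x ^ 2 := by
      nlinarith [sq_nonneg (2 * Lop τ h x + h x)]
    have := mul_le_mul_of_nonneg_right h1 (w0 x)
    linarith
  have : Kg n lo hi M0 * F = 2 * F + 2 * (F / t ^ 2) := by
    unfold Kg; rw [← hd, ← ht]; ring
  rw [this]
  linarith

end Crest.Agent.R238.Gap
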