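import Mathlib
import Crest.Agent.R238.GapDefs
import Crest.Agent.R238.GapIBP
import Crest.Agent.R238.GapMain
import Crest.Agent.R238.GapBochC2
import Crest.Agent.R238.GapInterp

/-!
Row 238 (S0369), module H4 (GAP), final exports (helper469):

* `gap` : `∫ h² wt ≤ Kg n lo hi M0 * ∫ (L h + h)² wt` for even `C²` `h` with bounded Hessian;
* `sup_est` : `sup_{|x| ≤ R} |h| ≤ ε sup |D²h| + K sup |L h + h|`.
-/

set_option autoImplicit false

open MeasureTheory Real Set Filter Topology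

namespace Crest.Agent.R238.Gap

variable {n : ℕ}

/-- **GAP** : the spectral gap on even functions. -/
theorem gap {lo hi M0 : ℝ} (hlo : 0 < lo) {P : E n → ℝ}
    {τ : E n → Matrix (Fin n) (Fin n) ℝ} (D : Dat lo hi M0 P τ)
    {h : E n → ℝ} (hev : Ev h) (h2 : ContDiff ℝ 2 h) {Bd : ℝ}
    (hB : ∀ x i j, |H h x i j| ≤ Bd) :
    ∫ x, h x ^ 2 * wt P x ≤ Kg n lo hi M0 * ∫ x, (Lop τ h x + h x) ^ 2 * wt P x :=
  gap_of_boch hlo D hev (gh_of_bdd h2 hB) (boch2 D hev h2 hB).ge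

/-- integrability of `h² wt`. -/
theorem int_sq {lo hi M0 : ℝ} {P : E n → ℝ}
    {τ : E n → Matrix (Fin n) (Fin n) ℝ} (D : Dat lo hi M0 P τ)
    {h : E n → ℝ} (h2 : ContDiff ℝ 2 h) {Bd : ℝ} (hB : ∀ x i j, |H h x i j| ≤ Bd) :
    Integrable (fun x => h x ^ 2 * wt P x) :=
  integrable_pg D.hP.continuous D.bP (h2.continuous.pow 2) ((gh_of_bdd h2 hB).g0.pow 2)

/-- integrability of `(L h + h)² wt`. -/
theorem int_Lsq {lo hi M0 : ℝ} {P : E n → ℝ}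
    {τ : E n → Matrix (Fin n) (Fin n) ℝ} (D : Dat lo hi M0 P τ)
    {h : E n → ℝ} (h2 : ContDiff ℝ 2 h) {Bd : ℝ} (hB : ∀ x i j, |H h x i j| ≤ Bd) :
    Integrable (fun x => (Lop τ h x + h x) ^ 2 * wt P x) := by
  have hh := gh_of_bdd h2 hB
  have hgH : ∀ i j, PG (fun x => H h x i j) := fun i j => PG.of_bdd (K := Bd) fun x => hB x i j
  exact integrable_pg D.hP.continuous D.bP (((cont_Lop D.hτ h2).add h2.continuous).pow 2)
    (((pg_Lop D.pgτ hh.g1 hgH).add hh.g0).pow 2)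

/-- the total mass bound. -/
lemma int_wt_le {P : E n → ℝ} {M0 : ℝ} (hPc : Continuous P) (hP : ∀ x, |P x| ≤ M0) :
    ∫ x, wt P x ≤ Real.exp M0 * ∫ x : E n, Real.exp (-(1 / 2 * ‖x‖ ^ 2)) := by
  rw [← integral_const_mul]
  refine integral_mono (integrable_wt hPc hP)
    ((integrable_exp_neg_mul_norm_sq (by norm_num)).const_mul _) fun x => ?_
  refine (wt_le hP x).trans (le_of_eq ?_)
  have e1 : -(‖x‖ ^ 2 / 2) = -(1 / 2 * ‖x‖ ^ 2) := by ring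
  rw [e1]

/-- **sup estimate** : `sup_{|x| ≤ R} |h| ≤ ε sup |D²h| + K sup |L h + h|` for even `h`. -/
theorem sup_est (n : ℕ) (lo hi M0 R ε : ℝ) (hlo : 0 < lo) (_hlh : lo ≤ hi) (hε : 0 < ε) :
    ∃ K : ℝ, 0 ≤ K ∧ ∀ (P : E n → ℝ) (τ : E n → Matrix (Fin n) (Fin n) ℝ),
      Dat lo hi M0 P τ → ∀ h : E n → ℝ, Ev h → ContDiff ℝ 2 h → ∀ B N : ℝ, 0 ≤ B →
        (∀ x i j, |H h x i j| ≤ B) → (∀ x, |Lop τ h x + h x| ≤ N) →
        ∀ x, ‖x‖ ≤ R → |h x| ≤ ε * B + K * N := by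
  obtain ⟨K, hK, HI⟩ := interp n M0 R ε hε
  set W : ℝ := Real.exp M0 * ∫ x : E n, Real.exp (-(1 / 2 * ‖x‖ ^ 2)) with hW
  have hW0 : 0 ≤ W := mul_nonneg (Real.exp_pos _).le (integral_nonneg fun x => (Real.exp_pos _).le)
  have hKg : 0 ≤ Kg n lo hi M0 := (Kg_pos n hlo).le
  refine ⟨K * √(Kg n lo hi M0 * W), by positivity, ?_⟩
  intro P τ D h hev h2 B N hB0 hB hN x hx
  have hN0 : 0 ≤ N := (abs_nonneg _).trans (hN 0)
  have hPc := D.hP.continuous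
  have h3 : ∫ x, (Lop τ h x + h x) ^ 2 * wt P x ≤ N ^ 2 * W := by
    calc ∫ x, (Lop τ h x + h x) ^ 2 * wt P x ≤ ∫ x, N ^ 2 * wt P x := by
          refine integral_mono (int_Lsq D h2 hB) ((integrable_wt hPc D.bP).const_mul _) fun y => ?_
          refine mul_le_mul_of_nonneg_right ?_ (wt_pos P y).le
          rw [← sq_abs]
          exact pow_le_pow_left₀ (abs_nonneg _) (hN y) 2
      _ = N ^ 2 * ∫ x, wt P x := integral_const_mul _ _
      _ ≤ N ^ 2 * W := mul_le_mul_of_nonneg_left (int_wt_le hPc D.bP) (sq_nonneg _)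
  have h4 : ∫ x, h x ^ 2 * wt P x ≤ (√(Kg n lo hi M0 * W) * N) ^ 2 := by
    rw [mul_pow, Real.sq_sqrt (mul_nonneg hKg hW0)]
    refine (gap hlo D hev h2 hB).trans ?_
    calc Kg n lo hi M0 * ∫ x, (Lop τ h x + h x) ^ 2 * wt P x
        ≤ Kg n lo hi M0 * (N ^ 2 * W) := mul_le_mul_of_nonneg_left h3 hKg
      _ = _ := by ring
  have h5 := HI P hPc D.bP h h2 B hB0 hB (√(Kg n lo hi M0 * W) * N) (int_sq D h2 hB) h4
    (by positivity) x hx
  calc |h x| ≤ ε * B + K * (√(Kg n lo hi M0 * W) * N) := h5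
    _ = _ := by ring

end Crest.Agent.R238.Gap
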