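import Crest.Agent.R238.SchApr
import Crest.Agent.R238.AEstF

/-!
Row 238: (B) without hypotheses (glue of helper452's `Apr.schStmt_of_rep` and helper8's `repStmt`).
-/

namespace Crest.Agent.R238

theorem Apr.schStmt_all : Apr.SchStmt := Apr.schStmt_of_rep AEst.repStmt

theorem SF.schStmt_all : SF.SchStmt := SF.schStmt_of_rep AEst.repStmt

end Crest.Agent.R238
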