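import Crest.Agent.R238.AprMain
import Crest.Agent.R238.SchAll
import Crest.Agent.R238.GapFinal
import Crest.Agent.R238.ECalE12

/-!
Row 238, node APR (helper143): final: `D3Stmt → AprStmt` (D3Stmt = `ECalD3.lean` of helper254).
-/

set_option autoImplicit false

namespace Crest.Agent.R238.Apr

open Crest.Agent.R238

theorem supStmt : SupStmt := fun n lo hi M0 R ε hlo hlh hε =>
  Gap.sup_est n lo hi M0 R ε hlo hlh hε

theorem pwStmt : PwStmt := fun _n _P _v _s _lo _hi hP hv hlo hell hma =>
  ⟨fun z x => ECal.calabi_H1 hv hP hlo hell hma z x, fun x => ECal.calabi_H2 hv hP hlo hell hma x⟩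

theorem apr_of_d3 (hD3 : D3Stmt) : AprStmt :=
  apr_of pwStmt hD3 schStmt_all supStmt

end Crest.Agent.R238.Apr
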