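import Crest.Agent.R238.AprLin
import Crest.Agent.R238.StepDefs

/-!
Row 238 (S0369), existence assembly (helper912): inverse matrices of elliptic Hölder fields and
exterior smallness.  Everything stated with plain inequalities.
-/

set_option autoImplicit false

open Finset

namespace Crest.Agent.R238.ExtInv

open Crest.Agent.R238

variable {n : ℕ}

/-- entries of a triple product -/
theorem triple_le {A B C : Matrix (Fin n) (Fin n) ℝ} {p q r : ℝ}
    (hA : ∀ i j, |A i j| ≤ p) (hB : ∀ i j, |B i j| ≤ q) (hC : ∀ i j, |C i j| ≤ r)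
    (i j : Fin n) : |(A * B * C) i j| ≤ (n : ℝ) ^ 2 * (p * q * r) := by
  rw [Matrix.mul_apply]
  simp only [Matrix.mul_apply]
  have hpq : ∀ k l, |A i k * B k l * C l j| ≤ p * q * r := by
    intro k l
    rw [abs_mul, abs_mul]
    have h0 : 0 ≤ p := (abs_nonneg _).trans (hA i k)
    have h1 : 0 ≤ q := (abs_nonneg _).trans (hB k l)
    exact mul_le_mul (mul_le_mul (hA _ _) (hB _ _) (abs_nonneg _) h0) (hC _ _) (abs_nonneg _)
      (mul_nonneg h0 h1)
  calc |∑ l, (∑ k, A i k * B k l) * C l j| ≤ ∑ l, |(∑ k, A i k * B k l) * C l j| :=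
        abs_sum_le_sum_abs _ _
    _ ≤ ∑ _l : Fin n, ∑ _k : Fin n, p * q * r := by
        refine sum_le_sum fun l _ => ?_
        rw [sum_mul]
        exact (abs_sum_le_sum_abs _ _).trans (sum_le_sum fun k _ => hpq k l)
    _ = (n : ℝ) ^ 2 * (p * q * r) := by
        simp only [sum_const, card_univ, Fintype.card_fin, nsmul_eq_mul]
        ring

/-- resolvent identity -/
theorem inv_sub_inv {A B : Matrix (Fin n) (Fin n) ℝ} (hA : A⁻¹ * A = 1) (hB : B * B⁻¹ = 1) :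
    A⁻¹ - B⁻¹ = A⁻¹ * (B - A) * B⁻¹ := by
  rw [Matrix.mul_sub, Matrix.sub_mul, hA, Matrix.one_mul, Matrix.mul_assoc, hB, Matrix.mul_one]

theorem inv_entry {lo hi : ℝ} {A : Matrix (Fin n) (Fin n) ℝ} (h : Ell lo hi A) (hlo : 0 < lo)
    (hhi : 0 < hi) (i j : Fin n) : |A⁻¹ i j| ≤ 1 / lo :=
  Apr.Ell.entry (Apr.Ell.inv h hlo hhi) (by positivity) i j

theorem inv_diff {lo hi d : ℝ} {A B : Matrix (Fin n) (Fin n) ℝ} (hA : Ell lo hi A)
    (hB : Ell lo hi B) (hlo : 0 < lo) (hhi : 0 < hi) (hd : ∀ i j, |A i j - B i j| ≤ d)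
    (i j : Fin n) : |A⁻¹ i j - B⁻¹ i j| ≤ (n : ℝ) ^ 2 * (1 / lo) ^ 2 * d := by
  have h1 := inv_sub_inv (Apr.Ell.inv_mul hA hlo) (Apr.Ell.mul_inv hB hlo)
  have h2 : A⁻¹ i j - B⁻¹ i j = (A⁻¹ * (B - A) * B⁻¹) i j := by
    rw [← h1, Matrix.sub_apply]
  rw [h2]
  have h3 : ∀ k l, |(B - A) k l| ≤ d := by
    intro k l
    rw [Matrix.sub_apply, abs_sub_comm]
    exact hd k l
  refine (triple_le (inv_entry hA hlo hhi) h3 (inv_entry hB hlo hhi) i j).trans (le_of_eq ?_)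
  ring

/-- Hölder bound for the inverse field -/
theorem hb_inv {a lo hi M : ℝ} {A : E n → Matrix (Fin n) (Fin n) ℝ} (hlo : 0 < lo)
    (hhi : 0 < hi) (hA : ∀ x, Ell lo hi (A x)) (hM : ∀ i j, HB a M (fun x => A x i j))
    (i j : Fin n) :
    HB a (1 / lo + (n : ℝ) ^ 2 * (1 / lo) ^ 2 * |M|) (fun x => (A x)⁻¹ i j) := by
  have h0 : (0 : ℝ) ≤ (n : ℝ) ^ 2 * (1 / lo) ^ 2 * |M| := by positivity
  have h1 : (0 : ℝ) ≤ 1 / lo := by positivity
  refine ⟨fun x => ?_, fun x y => ?_⟩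
  · exact (inv_entry (hA x) hlo hhi i j).trans (by linarith)
  · have h2 := inv_diff (hA x) (hA y) hlo hhi (d := |M| * ‖x - y‖ ^ a) (fun k l =>
      ((hM k l).2 x y).trans (mul_le_mul_of_nonneg_right (le_abs_self M)
        (Real.rpow_nonneg (norm_nonneg _) _))) i j
    refine h2.trans ?_
    have h3 : 0 ≤ ‖x - y‖ ^ a := Real.rpow_nonneg (norm_nonneg _) _
    calc (n : ℝ) ^ 2 * (1 / lo) ^ 2 * (|M| * ‖x - y‖ ^ a)
        = ((n : ℝ) ^ 2 * (1 / lo) ^ 2 * |M|) * ‖x - y‖ ^ a := by ring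
      _ ≤ _ := mul_le_mul_of_nonneg_right (by linarith) h3

/-- a symmetric matrix with entries near the identity is elliptic -/
theorem ell_of_near_one {A : Matrix (Fin n) (Fin n) ℝ} (hs : ∀ i j, A i j = A j i) {ε : ℝ}
    (hε : 0 ≤ ε) (h : ∀ i j, |A i j - (1 : Matrix (Fin n) (Fin n) ℝ) i j| ≤ ε) :
    Ell (1 - n * ε) (1 + n * ε) A := by
  refine ⟨hs, fun z => ?_⟩
  have h1 : ∑ i, ∑ j, A i j * z i * z j
      = ∑ i, z i ^ 2 + ∑ i, ∑ j, (A i j - (1 : Matrix (Fin n) (Fin n) ℝ) i j) * z i * z j := by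
    have e1 : ∑ i, z i ^ 2 = ∑ i, ∑ j, (1 : Matrix (Fin n) (Fin n) ℝ) i j * z i * z j := by
      rw [← Apr.Q_one]; rfl
    rw [e1, ← sum_add_distrib]
    refine sum_congr rfl fun i _ => ?_
    rw [← sum_add_distrib]
    exact sum_congr rfl fun j _ => by ring
  have h2 : |∑ i, ∑ j, (A i j - (1 : Matrix (Fin n) (Fin n) ℝ) i j) * z i * z j|
      ≤ n * ε * ∑ i, z i ^ 2 := by
    have h3 : ∀ i j, |(A i j - (1 : Matrix (Fin n) (Fin n) ℝ) i j) * z i * z j|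
        ≤ ε * ((z i ^ 2 + z j ^ 2) / 2) := by
      intro i j
      rw [mul_assoc, abs_mul]
      refine mul_le_mul (h i j) ?_ (abs_nonneg _) hε
      rw [abs_mul]
      nlinarith [sq_nonneg (|z i| - |z j|), sq_abs (z i), sq_abs (z j)]
    calc |∑ i, ∑ j, (A i j - (1 : Matrix (Fin n) (Fin n) ℝ) i j) * z i * z j|
        ≤ ∑ i, ∑ j, |(A i j - (1 : Matrix (Fin n) (Fin n) ℝ) i j) * z i * z j| :=
          (abs_sum_le_sum_abs _ _).trans (sum_le_sum fun i _ => abs_sum_le_sum_abs _ _)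
      _ ≤ ∑ i, ∑ j, ε * ((z i ^ 2 + z j ^ 2) / 2) :=
          sum_le_sum fun i _ => sum_le_sum fun j _ => h3 i j
      _ = n * ε * ∑ i, z i ^ 2 := by
          have : ∀ i : Fin n, ∑ j, ε * ((z i ^ 2 + z j ^ 2) / 2)
              = ε / 2 * (n * z i ^ 2 + ∑ j, z j ^ 2) := by
            intro i
            rw [← mul_sum, ← sum_div, sum_add_distrib, sum_const, card_univ, Fintype.card_fin,
              nsmul_eq_mul]
            ring
          rw [sum_congr rfl fun i _ => this i, ← mul_sum, sum_add_distrib, ← mul_sum, sum_const,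
            card_univ, Fintype.card_fin, nsmul_eq_mul]
          ring
  rw [h1]
  rw [abs_le] at h2
  constructor
  · nlinarith [h2.1]
  · nlinarith [h2.2]

/-- exterior smallness passes to the inverse: `K = 4 n² + 2 n` -/
theorem ext_inv {a ε R : ℝ} {A : E n → Matrix (Fin n) (Fin n) ℝ} (hs : ∀ x i j, A x i j = A x j i)
    (hε0 : 0 ≤ ε) (hε : n * ε ≤ 1 / 2)
    (h1 : ∀ x i j, R ≤ ‖x‖ → |A x i j - (1 : Matrix (Fin n) (Fin n) ℝ) i j| ≤ ε)
    (h2 : ∀ x y i j, R ≤ ‖x‖ → R ≤ ‖y‖ → |A x i j - A y i j| ≤ ε * ‖x - y‖ ^ a) :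
    (∀ x i j, R ≤ ‖x‖ → |(A x)⁻¹ i j - (1 : Matrix (Fin n) (Fin n) ℝ) i j|
        ≤ (4 * (n : ℝ) ^ 2) * ε) ∧
      ∀ x y i j, R ≤ ‖x‖ → R ≤ ‖y‖ → |(A x)⁻¹ i j - (A y)⁻¹ i j|
        ≤ (4 * (n : ℝ) ^ 2) * ε * ‖x - y‖ ^ a := by
  have hell : ∀ x, R ≤ ‖x‖ → Ell (1 / 2) (3 / 2) (A x) := by
    intro x hx
    have h3 := ell_of_near_one (hs x) hε0 (fun i j => h1 x i j hx)
    refine ⟨h3.1, fun z => ⟨le_trans ?_ (h3.2 z).1, le_trans (h3.2 z).2 ?_⟩⟩
    · exact mul_le_mul_of_nonneg_right (by linarith) (sum_nonneg fun i _ => sq_nonneg _)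
    · exact mul_le_mul_of_nonneg_right (by linarith) (sum_nonneg fun i _ => sq_nonneg _)
  have hone : Ell (1 / 2) (3 / 2) (1 : Matrix (Fin n) (Fin n) ℝ) := by
    have h3 := ell_of_near_one (n := n) (A := 1) (ε := 0) (fun i j => by
      rw [Matrix.one_apply, Matrix.one_apply]; simp [eq_comm]) le_rfl (fun i j => by simp)
    refine ⟨h3.1, fun z => ⟨le_trans ?_ (h3.2 z).1, le_trans (h3.2 z).2 ?_⟩⟩
    · exact mul_le_mul_of_nonneg_right (by norm_num) (sum_nonneg fun i _ => sq_nonneg _)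
    · exact mul_le_mul_of_nonneg_right (by norm_num) (sum_nonneg fun i _ => sq_nonneg _)
  refine ⟨fun x i j hx => ?_, fun x y i j hx hy => ?_⟩
  · have h3 := inv_diff (hell x hx) hone (by norm_num) (by norm_num) (fun k l => h1 x k l hx) i j
    rw [inv_one] at h3
    refine h3.trans (le_of_eq ?_)
    ring
  · have h3 := inv_diff (hell x hx) (hell y hy) (by norm_num) (by norm_num)
      (fun k l => h2 x y k l hx hy) i j
    refine h3.trans (le_of_eq ?_)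
    ring

theorem Hs_symm {v : E n → ℝ} (hv : ContDiff ℝ 2 v) (x : E n) (i j : Fin n) :
    Hs v x i j = Hs v x j i := by
  have h := (hv.contDiffAt (x := x)).isSymmSndFDerivAt (by simp)
  exact h.eq _ _

theorem gm_apply (v : E n → ℝ) (x : E n) (i j : Fin n) :
    gm v x i j = (1 : Matrix (Fin n) (Fin n) ℝ) i j + Hs v x i j := by
  simp [gm]

theorem gm_symm {v : E n → ℝ} (hv : ContDiff ℝ 2 v) (x : E n) (i j : Fin n) :
    gm v x i j = gm v x j i := by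
  rw [gm_apply, gm_apply, Hs_symm hv, Matrix.one_apply, Matrix.one_apply]
  simp [eq_comm]

/-- stability of exterior smallness under a small change of `D²v` -/
theorem ext_add {a ε δ R : ℝ} {v v' : E n → ℝ}
    (h1 : ∀ x i j, R ≤ ‖x‖ → |gm v x i j - (1 : Matrix (Fin n) (Fin n) ℝ) i j| ≤ ε)
    (h2 : ∀ x y i j, R ≤ ‖x‖ → R ≤ ‖y‖ → |gm v x i j - gm v y i j| ≤ ε * ‖x - y‖ ^ a)
    (hd : ∀ i j, HB a δ (fun x => Hs v' x i j - Hs v x i j)) :
    (∀ x i j, R ≤ ‖x‖ → |gm v' x i j - (1 : Matrix (Fin n) (Fin n) ℝ) i j| ≤ ε + δ) ∧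
      ∀ x y i j, R ≤ ‖x‖ → R ≤ ‖y‖ → |gm v' x i j - gm v' y i j| ≤ (ε + δ) * ‖x - y‖ ^ a := by
  refine ⟨fun x i j hx => ?_, fun x y i j hx hy => ?_⟩
  · have e1 := h1 x i j hx
    have e2 := (hd i j).1 x
    rw [gm_apply] at e1 ⊢
    have : (1 : Matrix (Fin n) (Fin n) ℝ) i j + Hs v' x i j - (1 : Matrix (Fin n) (Fin n) ℝ) i j
        = ((1 : Matrix (Fin n) (Fin n) ℝ) i j + Hs v x i j - (1 : Matrix (Fin n) (Fin n) ℝ) i j)
          + (Hs v' x i j - Hs v x i j) := by ring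
    rw [this]
    exact (abs_add_le _ _).trans (add_le_add e1 e2)
  · have e1 := h2 x y i j hx hy
    have e2 := (hd i j).2 x y
    rw [gm_apply, gm_apply] at e1 ⊢
    have : (1 : Matrix (Fin n) (Fin n) ℝ) i j + Hs v' x i j
          - ((1 : Matrix (Fin n) (Fin n) ℝ) i j + Hs v' y i j)
        = ((1 : Matrix (Fin n) (Fin n) ℝ) i j + Hs v x i j
          - ((1 : Matrix (Fin n) (Fin n) ℝ) i j + Hs v y i j))
          + ((Hs v' x i j - Hs v x i j) - (Hs v' y i j - Hs v y i j)) := by ring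
    rw [this, add_mul]
    exact (abs_add_le _ _).trans (add_le_add e1 e2)

end Crest.Agent.R238.ExtInv
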