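import Crest.Agent.R238.AprLin
import Crest.Agent.R238.StepDefs
import Crest.Agent.R238.TopDefs
import Crest.Agent.R238.ExtInv

/-!
Row 238, node APR (helper143): Lipschitz and Hölder bounds from bounds on partial derivatives;
constants of the datum `P`.
-/

set_option autoImplicit false

open Set Filter
open scoped ContDiff Topology

namespace Crest.Agent.R238.Apr

open Crest.Agent.R238

variable {n : ℕ}

theorem eq_sum_ee (h : E n) : h = ∑ k, h k • ee k := by
  ext i
  simp [Finset.sum_apply, Pi.single_apply]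

/-- operator norm from values on the basis -/
theorem opNorm_le_of_basis (L : E n →L[ℝ] ℝ) {K : ℝ} (hK0 : 0 ≤ K)
    (hK : ∀ k, |L (ee k)| ≤ K) : ‖L‖ ≤ n * K := by
  refine L.opNorm_le_bound (by positivity) fun h => ?_
  have h1 : L h = ∑ k, h k * L (ee k) := by
    conv_lhs => rw [eq_sum_ee h]
    rw [map_sum]
    simp only [map_smul, smul_eq_mul]
  rw [h1, Real.norm_eq_abs]
  calc |∑ k, h k * L (ee k)| ≤ ∑ k, |h k * L (ee k)| := Finset.abs_sum_le_sum_abs _ _
    _ ≤ ∑ _k : Fin n, ‖h‖ * K := by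
        refine Finset.sum_le_sum fun k _ => ?_
        rw [abs_mul]
        have h2 : |h k| ≤ ‖h‖ := by
          have := PiLp.norm_apply_le h k
          rwa [Real.norm_eq_abs] at this
        exact mul_le_mul h2 (hK k) (abs_nonneg _) (norm_nonneg _)
    _ = n * K * ‖h‖ := by
        rw [Finset.sum_const, Finset.card_univ, Fintype.card_fin, nsmul_eq_mul]; ring

/-- partial derivatives bounded by `K` ⇒ Lipschitz with constant `n K` -/
theorem lip_of_partial {f : E n → ℝ} (hf : Differentiable ℝ f) {K : ℝ}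
    (hK : ∀ x k, |fderiv ℝ f x (ee k)| ≤ K) (x y : E n) :
    |f x - f y| ≤ n * |K| * ‖x - y‖ := by
  have h1 : ∀ z ∈ (univ : Set (E n)), ‖fderiv ℝ f z‖ ≤ n * |K| := fun z _ =>
    opNorm_le_of_basis _ (abs_nonneg K) fun k => (hK z k).trans (le_abs_self K)
  have h2 := (convex_univ (𝕜 := ℝ) (E := E n)).norm_image_sub_le_of_norm_fderiv_le
    (fun z _ => hf.differentiableAt) h1 (mem_univ y) (mem_univ x)
  rwa [Real.norm_eq_abs] at h2

/-- bounded and Lipschitz ⇒ Hölder -/
theorem hb_of_lip {f : E n → ℝ} {a B L : ℝ} (ha : 0 < a) (ha1 : a < 1) (hB : ∀ x, |f x| ≤ B)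
    (hL0 : 0 ≤ L) (hL : ∀ x y, |f x - f y| ≤ L * ‖x - y‖) : HB a (2 * B + L) f := by
  have hB0 : 0 ≤ B := (abs_nonneg _).trans (hB 0)
  refine ⟨fun x => (hB x).trans (by linarith), fun x y => ?_⟩
  rcases le_total ‖x - y‖ 1 with h1 | h1
  · rcases eq_or_lt_of_le (norm_nonneg (x - y)) with h0 | h0
    · have h2 := hL x y
      rw [← h0, mul_zero] at h2
      rw [← h0]
      exact h2.trans (by positivity)
    · have h2 : ‖x - y‖ ≤ ‖x - y‖ ^ a := by
        calc ‖x - y‖ = ‖x - y‖ ^ (1 : ℝ) := (Real.rpow_one _).symm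
          _ ≤ ‖x - y‖ ^ a := Real.rpow_le_rpow_of_exponent_ge h0 h1 ha1.le
      calc |f x - f y| ≤ L * ‖x - y‖ := hL x y
        _ ≤ L * ‖x - y‖ ^ a := mul_le_mul_of_nonneg_left h2 hL0
        _ ≤ (2 * B + L) * ‖x - y‖ ^ a := by
          apply mul_le_mul_of_nonneg_right _ (by positivity); linarith
  · have h2 : 1 ≤ ‖x - y‖ ^ a := Real.one_le_rpow h1 ha.le
    have h3 : |f x - f y| ≤ 2 * B := by
      have hx := hB x; have hy := hB y
      calc |f x - f y| ≤ |f x| + |f y| := abs_sub _ _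
        _ ≤ 2 * B := by linarith
    calc |f x - f y| ≤ 2 * B := h3
      _ ≤ (2 * B + L) * 1 := by linarith
      _ ≤ (2 * B + L) * ‖x - y‖ ^ a := mul_le_mul_of_nonneg_left h2 (by positivity)

/-- `Hs f · i j` is smooth if `f` is -/
theorem contDiff_Hs {f : E n → ℝ} (hf : ContDiff ℝ ∞ f) (i j : Fin n) :
    ContDiff ℝ ∞ (fun x => Hs f x i j) := by
  unfold Hs
  have h1 : ContDiff ℝ ∞ (fderiv ℝ f) := hf.fderiv_right (by simp)
  have h2 : ContDiff ℝ ∞ (fderiv ℝ (fderiv ℝ f)) := h1.fderiv_right (by simp)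
  exact (h2.clm_apply contDiff_const).clm_apply contDiff_const

end Crest.Agent.R238.Apr
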