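import Crest.Agent.R238.SoftConc

/-! Row 238, ASM part 1: from the data of `LocalIneq` to the potential `P` of the existence half,
and the final algebra. (helper477) -/

set_option autoImplicit false
open scoped ContDiff Topology
open Set Filter MeasureTheory

noncomputable section

namespace Crest.Agent.R238.Asm

open Crest.Agent.R238.Soft

variable {n m : ℕ}

/-! ### convexity and second derivative -/

theorem hasDerivAt_line {f : E n → ℝ} {f' : E n →L[ℝ] ℝ} {x w : E n} {t : ℝ}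
    (h : HasFDerivAt f f' (x + t • w)) : HasDerivAt (fun s : ℝ => f (x + s • w)) (f' w) t := by
  have h1 : HasDerivAt (fun s : ℝ => x + s • w) w t := by
    have := ((hasDerivAt_id t).smul_const w).const_add x
    simpa using this
  exact h.comp_hasDerivAt t h1

theorem hasDerivAt_line2 {f : E n → ℝ} (hf : ContDiff ℝ 2 f) (x w : E n) (t : ℝ) :
    HasDerivAt (fun s : ℝ => fderiv ℝ f (x + s • w) w)
      (fderiv ℝ (fderiv ℝ f) (x + t • w) w w) t := by
  have h0 : Differentiable ℝ (fderiv ℝ f) :=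
    (hf.fderiv_right (m := 1) (by norm_num)).differentiable (by norm_num)
  have h1 : HasDerivAt (fun s : ℝ => x + s • w) w t := by
    have := ((hasDerivAt_id t).smul_const w).const_add x
    simpa using this
  have h2 : HasDerivAt (fun s : ℝ => fderiv ℝ f (x + s • w))
      (fderiv ℝ (fderiv ℝ f) (x + t • w) w) t := (h0 _).hasFDerivAt.comp_hasDerivAt t h1
  exact ((ContinuousLinearMap.apply ℝ ℝ w).hasFDerivAt.comp_hasDerivAt t h2)

theorem convex_snd {f : E n → ℝ} (hf : ContDiff ℝ 2 f) (hc : ConvexOn ℝ univ f) (x w : E n) :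
    0 ≤ fderiv ℝ (fderiv ℝ f) x w w := by
  have hd : Differentiable ℝ f := hf.differentiable (by norm_num)
  have hg : ConvexOn ℝ univ (fun s : ℝ => f (x + s • w)) := by
    refine ⟨convex_univ, fun s _ t _ a b ha hb hab => ?_⟩
    have h1 := hc.2 (mem_univ (x + s • w)) (mem_univ (x + t • w)) ha hb hab
    refine le_trans (le_of_eq ?_) h1
    show f _ = f _
    congr 1
    have hx : x = a • x + b • x := by rw [← add_smul, hab, one_smul]
    simp only [smul_add, smul_smul, smul_eq_mul, add_smul]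
    nth_rewrite 1 [hx]
    abel
  have hd1 : deriv (fun s : ℝ => f (x + s • w)) = fun s => fderiv ℝ f (x + s • w) w :=
    funext fun t => (hasDerivAt_line (hd _).hasFDerivAt).deriv
  have hm : Monotone (deriv (fun s : ℝ => f (x + s • w))) := by
    have := hg.monotoneOn_deriv
      (fun t _ => (hasDerivAt_line (hd (x + t • w)).hasFDerivAt).differentiableAt)
    exact monotoneOn_univ.1 this
  have h2 := hm.deriv_nonneg (x := 0)
  rw [hd1, (hasDerivAt_line2 hf x w 0).deriv] at h2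
  simpa using h2

/-! ### one wall -/

/-- one wall as a function on `E n` -/
def wl (a : E n) (φ : ℝ → ℝ) (x : E n) : ℝ := φ (inner ℝ a x)

theorem wl_smooth {φ : ℝ → ℝ} (h : Wall φ) (a : E n) : ContDiff ℝ ∞ (wl a φ) :=
  h.smooth.comp (contDiff_const.inner ℝ contDiff_id)

theorem hasFDerivAt_wl {φ : ℝ → ℝ} (h : Differentiable ℝ φ) (a x : E n) :
    HasFDerivAt (wl a φ) (deriv φ (inner ℝ a x) • innerSL ℝ a) x := by
  have h1 : HasFDerivAt (fun y : E n => (inner ℝ a y : ℝ)) (innerSL ℝ a) x :=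
    (innerSL ℝ a).hasFDerivAt
  exact (h _).hasDerivAt.comp_hasFDerivAt x h1

theorem fderiv_wl {φ : ℝ → ℝ} (h : Wall φ) (a : E n) :
    fderiv ℝ (wl a φ) = fun x => deriv φ (inner ℝ a x) • innerSL ℝ a :=
  funext fun x => (hasFDerivAt_wl h.diff a x).fderiv

theorem fderiv_wl_apply {φ : ℝ → ℝ} (h : Wall φ) (a x w : E n) :
    fderiv ℝ (wl a φ) x w = deriv φ (inner ℝ a x) * inner ℝ a w := by
  rw [fderiv_wl h]; simp

theorem fderiv2_wl_apply {φ : ℝ → ℝ} (h : Wall φ) (a x w z : E n) :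
    fderiv ℝ (fderiv ℝ (wl a φ)) x w z
      = deriv (deriv φ) (inner ℝ a x) * inner ℝ a w * inner ℝ a z := by
  rw [fderiv_wl h]
  have h1 : HasFDerivAt (fun x : E n => deriv φ (inner ℝ a x))
      (deriv (deriv φ) (inner ℝ a x) • innerSL ℝ a) x := hasFDerivAt_wl h.diff1 a x
  have h2 := h1.smul_const (innerSL ℝ a : E n →L[ℝ] ℝ)
  rw [h2.fderiv]
  simp

theorem wl_convex {φ : ℝ → ℝ} (h : Wall φ) (a : E n) : ConvexOn ℝ univ (wl a φ) := by
  have h1 : ConvexOn ℝ univ φ :=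
    (h.mono_deriv).convexOn_univ_of_deriv h.diff
  have h2 := h1.comp_linearMap (innerSL ℝ a : E n →L[ℝ] ℝ).toLinearMap
  exact h2

theorem wl_even {φ : ℝ → ℝ} (h : Wall φ) (a x : E n) : wl a φ (-x) = wl a φ x := by
  unfold wl
  rw [inner_neg_right, h.even]

theorem Hw_eq (ν : Fin m → E n) (φ : Fin m → ℝ → ℝ) :
    Hw ν φ = fun x => ∑ k, wl (ν k) (φ k) x := rfl

theorem Hw_smooth {φ : Fin m → ℝ → ℝ} (hw : ∀ k, Wall (φ k)) (ν : Fin m → E n) :
    ContDiff ℝ ∞ (Hw ν φ) := by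
  rw [Hw_eq]
  exact ContDiff.sum fun k _ => wl_smooth (hw k) (ν k)

theorem Hw_even {φ : Fin m → ℝ → ℝ} (hw : ∀ k, Wall (φ k)) (ν : Fin m → E n) (x : E n) :
    Hw ν φ (-x) = Hw ν φ x := by
  rw [Hw_eq]
  exact Finset.sum_congr rfl fun k _ => wl_even (hw k) _ _

theorem fr_eq {φ : Fin m → ℝ → ℝ} (hw : ∀ k, Wall (φ k)) (ν : Fin m → E n) (r : Fin m → ℝ)
    (x : E n) : fr ν φ r x = ∑ k, r k * fderiv ℝ (wl (ν k) (φ k)) x x := by
  unfold fr
  refine Finset.sum_congr rfl fun k _ => ?_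
  rw [fderiv_wl_apply (hw k)]; ring

theorem Nr_eq {φ : Fin m → ℝ → ℝ} (hw : ∀ k, Wall (φ k)) (ν : Fin m → E n) (r : Fin m → ℝ)
    (x : E n) : Nr ν φ r x = ∑ k, r k ^ 2 * (fderiv ℝ (wl (ν k) (φ k)) x x
      + fderiv ℝ (fderiv ℝ (wl (ν k) (φ k))) x x x) := by
  unfold Nr
  refine Finset.sum_congr rfl fun k _ => ?_
  rw [fderiv_wl_apply (hw k), fderiv2_wl_apply (hw k)]; ring

theorem fr_even {φ : Fin m → ℝ → ℝ} (hw : ∀ k, Wall (φ k)) (ν : Fin m → E n) (r : Fin m → ℝ)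
    (x : E n) : fr ν φ r (-x) = fr ν φ r x := by
  unfold fr
  refine Finset.sum_congr rfl fun k _ => ?_
  rw [inner_neg_right, (hw k).odd]; ring

/-! ### the perturbation `P` -/

/-- `P = V + H - |x|²/2 - b` -/
def PP (ν : Fin m → E n) (φ : Fin m → ℝ → ℝ) (V : E n → ℝ) (b : ℝ) (x : E n) : ℝ :=
  V x + Hw ν φ x - ‖x‖ ^ 2 / 2 - b

section
variable {ν : Fin m → E n} {φ : Fin m → ℝ → ℝ} {V : E n → ℝ} {b : ℝ}

theorem PP_smooth (hw : ∀ k, Wall (φ k)) (hV : ContDiff ℝ ∞ V) : ContDiff ℝ ∞ (PP ν φ V b) := by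
  unfold PP
  exact (((hV.add (Hw_smooth hw ν)).sub ((contDiff_id.norm_sq ℝ).div_const 2))).sub
    contDiff_const

theorem PP_even (hw : ∀ k, Wall (φ k)) (hV : ∀ x, V (-x) = V x) (x : E n) :
    PP ν φ V b (-x) = PP ν φ V b x := by
  unfold PP
  rw [hV, Hw_even hw, norm_neg]

theorem PP_support {R : ℝ} (hout : ∀ x, R ≤ ‖x‖ → V x + Hw ν φ x = ‖x‖ ^ 2 / 2 + b) :
    HasCompactSupport (PP ν φ V b) := by
  refine HasCompactSupport.intro (isCompact_closedBall (0 : E n) R) fun x hx => ?_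
  have : R ≤ ‖x‖ := by
    rw [mem_closedBall_zero_iff, not_le] at hx
    exact hx.le
  unfold PP
  rw [hout x this]; ring

theorem U_eq (x : E n) : V x + Hw ν φ x = ‖x‖ ^ 2 / 2 + PP ν φ V b x + b := by
  unfold PP; ring

theorem fderiv_normsq : fderiv ℝ (fun x : E n => ‖x‖ ^ 2) = fun x => (2 : ℝ) • innerSL ℝ x := by
  funext x
  rw [(hasStrictFDerivAt_norm_sq x).hasFDerivAt.fderiv]
  ext y; simp

theorem fderiv2_normsq (x w z : E n) :
    fderiv ℝ (fderiv ℝ (fun x : E n => ‖x‖ ^ 2)) x w z = 2 * inner ℝ w z := by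
  rw [fderiv_normsq]
  have h1 : HasFDerivAt (fun x : E n => (2 : ℝ) • (innerSL ℝ x : E n →L[ℝ] ℝ))
      ((2 : ℝ) • (innerSL ℝ : E n →L[ℝ] E n →L[ℝ] ℝ)) x :=
    ((innerSL ℝ : E n →L[ℝ] E n →L[ℝ] ℝ).hasFDerivAt).const_smul (2 : ℝ)
  rw [h1.fderiv]
  simp
  rfl

theorem PP_lower (hw : ∀ k, Wall (φ k)) (hV : ContDiff ℝ ∞ V) {c : ℝ}
    (hc : ConvexOn ℝ univ (fun x => V x + Hw ν φ x - c * ‖x‖ ^ 2)) (x w : E n) :
    2 * c * ‖w‖ ^ 2 ≤ ‖w‖ ^ 2 + fderiv ℝ (fderiv ℝ (PP ν φ V b)) x w w := by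
  have hn : ContDiff ℝ ∞ (fun x : E n => ‖x‖ ^ 2) := contDiff_id.norm_sq ℝ
  have hP := PP_smooth (ν := ν) (b := b) hw hV
  have e1 : (fun x => V x + Hw ν φ x - c * ‖x‖ ^ 2)
      = fun x => PP ν φ V b x + ((1 / 2 - c) * ‖x‖ ^ 2 + b) := by
    funext x; unfold PP; ring
  rw [e1] at hc
  have hQ : ContDiff ℝ ∞ (fun x : E n => (1 / 2 - c) * ‖x‖ ^ 2 + b) :=
    (contDiff_const.mul hn).add contDiff_const
  have h0 := convex_snd (f := fun x => PP ν φ V b x + ((1 / 2 - c) * ‖x‖ ^ 2 + b))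
    ((hP.add hQ).of_le (by norm_cast)) hc x w
  have d1 : fderiv ℝ (fun x => PP ν φ V b x + ((1 / 2 - c) * ‖x‖ ^ 2 + b))
      = fun x => fderiv ℝ (PP ν φ V b) x + (1 / 2 - c) • fderiv ℝ (fun x : E n => ‖x‖ ^ 2) x := by
    funext y
    have a1 := (hP.differentiable (by simp) y).hasFDerivAt
    have a2 := (hn.differentiable (by simp) y).hasFDerivAt
    exact (a1.add ((a2.const_mul (1 / 2 - c)).add_const b)).fderiv
  rw [d1] at h0
  have b1 : HasFDerivAt (fderiv ℝ (PP ν φ V b)) (fderiv ℝ (fderiv ℝ (PP ν φ V b)) x) x :=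
    ((hP.fderiv_right (m := 1) (by norm_cast)).differentiable (by norm_num) x).hasFDerivAt
  have b2 : HasFDerivAt (fderiv ℝ (fun x : E n => ‖x‖ ^ 2))
      (fderiv ℝ (fderiv ℝ (fun x : E n => ‖x‖ ^ 2)) x) x :=
    ((hn.fderiv_right (m := 1) (by norm_cast)).differentiable (by norm_num) x).hasFDerivAt
  have b3 : fderiv ℝ (fun x => fderiv ℝ (PP ν φ V b) x
      + (1 / 2 - c) • fderiv ℝ (fun x : E n => ‖x‖ ^ 2) x) x
      = fderiv ℝ (fderiv ℝ (PP ν φ V b)) x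
        + (1 / 2 - c) • fderiv ℝ (fderiv ℝ (fun x : E n => ‖x‖ ^ 2)) x :=
    (b1.add (b2.const_smul (1 / 2 - c))).fderiv
  rw [b3] at h0
  simp only [add_apply, smul_apply, smul_eq_mul,
    fderiv2_normsq, real_inner_self_eq_norm_sq] at h0
  linarith

end

end Crest.Agent.R238.Asm
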