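import Crest.Agent.R238.Asm1

/-! Row 238, ASM part 2: integrability and the final algebra. (helper477) -/

set_option autoImplicit false
open scoped ContDiff Topology
open Set Filter MeasureTheory

noncomputable section

namespace Crest.Agent.R238.Asm

open Crest.Agent.R238.Soft

variable {n m : ℕ}

/-- a quadratic bound for `f` and `N` -/
theorem fN_bound {φ : Fin m → ℝ → ℝ} (hw : ∀ k, Wall (φ k)) (ν : Fin m → E n)
    (r : Fin m → ℝ) : ∃ A, 0 ≤ A ∧ ∀ x, |fr ν φ r x| ≤ A * ‖x‖ ^ 2 ∧ |Nr ν φ r x| ≤ A * ‖x‖ ^ 2 := by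
  obtain ⟨A, hA0, hA⟩ := FN_le hw ν r 0
  refine ⟨A, hA0, fun x => ?_⟩
  have h := hA 0 x (by simp)
  have e : ∀ k, tk ν r k 0 x = inner ℝ (ν k) x := fun k => by simp [tk]
  simpa only [Fs, Ns, fr, Nr, e] using h

theorem fr_continuous {φ : Fin m → ℝ → ℝ} (hw : ∀ k, Wall (φ k)) (ν : Fin m → E n)
    (r : Fin m → ℝ) : Continuous (fr ν φ r) := by
  have := continuous_Fs hw ν r 0
  have e : Fs ν φ r 0 = fr ν φ r := by
    funext x; simp [Fs, fr, tk]
  rwa [e] at this

theorem Nr_continuous {φ : Fin m → ℝ → ℝ} (hw : ∀ k, Wall (φ k)) (ν : Fin m → E n)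
    (r : Fin m → ℝ) : Continuous (Nr ν φ r) := by
  have := continuous_Ns hw ν r 0
  have e : Ns ν φ r 0 = Nr ν φ r := by
    funext x; simp [Ns, Nr, tk]
  rwa [e] at this

theorem fr_smooth {φ : Fin m → ℝ → ℝ} (hw : ∀ k, Wall (φ k)) (ν : Fin m → E n)
    (r : Fin m → ℝ) : ContDiff ℝ ∞ (fr ν φ r) := by
  unfold fr
  exact ContDiff.sum fun k _ => contDiff_const.mul
    ((contDiff_const.inner ℝ contDiff_id).mul
      ((hw k).contDiff_deriv.comp (contDiff_const.inner ℝ contDiff_id)))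

/-- functions of quadratic growth (to the power ≤ 2) are integrable for `exp(-(|x|²/2 + P))`. -/
theorem integrable_growth {P g : E n → ℝ} {M A : ℝ} (hP : Continuous P) (hM : ∀ x, |P x| ≤ M)
    (hg : Continuous g) (hA : ∀ x, |g x| ≤ A * (1 + ‖x‖ ^ 2 + (‖x‖ ^ 2) ^ 2)) :
    Integrable (fun x => g x * Real.exp (-(‖x‖ ^ 2 / 2 + P x))) := by
  obtain ⟨D, hD0, hD⟩ := poly_exp_le (ε := 1) one_pos
  have hbd : Integrable (fun x : E n => A * Real.exp M * D * Real.exp (-(1 / 4) * ‖x‖ ^ 2)) :=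
    (integrable_gauss (by norm_num)).const_mul _
  refine hbd.mono' ?_ (Eventually.of_forall fun x => ?_)
  · exact (hg.mul (Real.continuous_exp.comp (by fun_prop))).aestronglyMeasurable
  · have h1 : Real.exp (-(‖x‖ ^ 2 / 2 + P x)) ≤ Real.exp M * Real.exp (-(1 / 2) * ‖x‖ ^ 2) := by
      rw [← Real.exp_add]
      apply Real.exp_le_exp.2
      have := neg_le_abs (P x)
      have := hM x
      linarith
    have h2 := hD (‖x‖ ^ 2) (by positivity)
    have h3 := hA x
    have hA0 : 0 ≤ A := by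
      have h4 := (abs_nonneg _).trans (hA 0)
      simpa using h4
    rw [norm_mul, Real.norm_eq_abs, Real.norm_eq_abs, Real.abs_exp]
    calc |g x| * Real.exp (-(‖x‖ ^ 2 / 2 + P x))
        ≤ (A * (1 + ‖x‖ ^ 2 + (‖x‖ ^ 2) ^ 2)) * (Real.exp M * Real.exp (-(1 / 2) * ‖x‖ ^ 2)) := by
          gcongr
      _ = A * Real.exp M * ((1 + ‖x‖ ^ 2 + (‖x‖ ^ 2) ^ 2) * Real.exp (-(1 / 2) * ‖x‖ ^ 2)) := by
          ring
      _ ≤ A * Real.exp M * (D * Real.exp (-(1 / 4) * ‖x‖ ^ 2)) := by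
          have : 0 ≤ A * Real.exp M := by positivity
          gcongr
      _ = _ := by ring

theorem cs_bounded {P : E n → ℝ} (hP : Continuous P) (hs : HasCompactSupport P) :
    ∃ M, ∀ x, |P x| ≤ M := by
  obtain ⟨C, hC⟩ := hs.exists_bound_of_continuous hP
  exact ⟨C, fun x => by simpa using hC x⟩

section
variable {P : E n → ℝ} {φ : Fin m → ℝ → ℝ}

theorem int_one (hP : Continuous P) (hs : HasCompactSupport P) :
    Integrable (fun x => Real.exp (-(‖x‖ ^ 2 / 2 + P x))) := by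
  obtain ⟨M, hM⟩ := cs_bounded hP hs
  have := integrable_growth (g := fun _ => 1) (A := 1) hP hM continuous_const
    (fun x => by rw [abs_one]; nlinarith [sq_nonneg ‖x‖, sq_nonneg (‖x‖ ^ 2)])
  simpa using this

theorem int_f (hP : Continuous P) (hs : HasCompactSupport P) (hw : ∀ k, Wall (φ k))
    (ν : Fin m → E n) (r : Fin m → ℝ) :
    Integrable (fun x => fr ν φ r x * Real.exp (-(‖x‖ ^ 2 / 2 + P x))) := by
  obtain ⟨M, hM⟩ := cs_bounded hP hs
  obtain ⟨A, hA0, hA⟩ := fN_bound hw ν r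
  refine integrable_growth (A := A) hP hM (fr_continuous hw ν r) fun x => (hA x).1.trans ?_
  gcongr
  nlinarith [sq_nonneg ‖x‖, sq_nonneg (‖x‖ ^ 2)]

theorem int_N (hP : Continuous P) (hs : HasCompactSupport P) (hw : ∀ k, Wall (φ k))
    (ν : Fin m → E n) (r : Fin m → ℝ) :
    Integrable (fun x => Nr ν φ r x * Real.exp (-(‖x‖ ^ 2 / 2 + P x))) := by
  obtain ⟨M, hM⟩ := cs_bounded hP hs
  obtain ⟨A, hA0, hA⟩ := fN_bound hw ν r
  refine integrable_growth (A := A) hP hM (Nr_continuous hw ν r) fun x => (hA x).2.trans ?_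
  gcongr
  nlinarith [sq_nonneg ‖x‖, sq_nonneg (‖x‖ ^ 2)]

theorem int_f2 (hP : Continuous P) (hs : HasCompactSupport P) (hw : ∀ k, Wall (φ k))
    (ν : Fin m → E n) (r : Fin m → ℝ) :
    Integrable (fun x => fr ν φ r x ^ 2 * Real.exp (-(‖x‖ ^ 2 / 2 + P x))) := by
  obtain ⟨M, hM⟩ := cs_bounded hP hs
  obtain ⟨A, hA0, hA⟩ := fN_bound hw ν r
  refine integrable_growth (A := A ^ 2) hP hM ((fr_continuous hw ν r).pow 2) fun x => ?_
  have h1 := (hA x).1
  have h2 : |fr ν φ r x| ^ 2 ≤ (A * ‖x‖ ^ 2) ^ 2 := by gcongr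
  rw [abs_pow]
  refine h2.trans ?_
  rw [mul_pow]
  gcongr
  nlinarith [sq_nonneg ‖x‖, sq_nonneg (‖x‖ ^ 2)]

end

/-- final algebra: a variance bound around any centre `a` gives `Static` -/
theorem static_of_centre {ν : Fin m → E n} {φ : Fin m → ℝ → ℝ} {r : Fin m → ℝ} {U : E n → ℝ}
    (h1 : Integrable (fun x => Real.exp (-U x)))
    (hf : Integrable (fun x => fr ν φ r x * Real.exp (-U x)))
    (hf2 : Integrable (fun x => fr ν φ r x ^ 2 * Real.exp (-U x)))
    (a : ℝ)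
    (h : ∫ x, (fr ν φ r x - a) ^ 2 * Real.exp (-U x) ≤ ∫ x, Nr ν φ r x * Real.exp (-U x)) :
    Static ν φ r U := by
  unfold Static
  have e : ∫ x, (fr ν φ r x - a) ^ 2 * Real.exp (-U x)
      = (∫ x, fr ν φ r x ^ 2 * Real.exp (-U x)) - 2 * a * (∫ x, fr ν φ r x * Real.exp (-U x))
        + a ^ 2 * ∫ x, Real.exp (-U x) := by
    rw [← integral_const_mul, ← integral_const_mul, ← integral_sub hf2 (hf.const_mul _)]
    have hh := integral_add (hf2.sub (hf.const_mul (2 * a))) (h1.const_mul (a ^ 2))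
    simp only [Pi.sub_apply] at hh
    rw [← hh]
    refine integral_congr_ae (Eventually.of_forall fun x => ?_)
    simp only []
    ring
  rw [e] at h
  have hZ : 0 ≤ ∫ x, Real.exp (-U x) := integral_nonneg fun x => (Real.exp_pos _).le
  set Z := ∫ x, Real.exp (-U x)
  set F := ∫ x, fr ν φ r x * Real.exp (-U x)
  set Q := ∫ x, fr ν φ r x ^ 2 * Real.exp (-U x)
  set K := ∫ x, Nr ν φ r x * Real.exp (-U x)
  nlinarith [mul_le_mul_of_nonneg_left h hZ, sq_nonneg (F - a * Z)]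

/-- adding a constant to the potential does not change `Static` -/
theorem static_shift {ν : Fin m → E n} {φ : Fin m → ℝ → ℝ} {r : Fin m → ℝ} {U W : E n → ℝ} {b : ℝ}
    (hUW : ∀ x, W x = U x + b) (h : Static ν φ r U) : Static ν φ r W := by
  unfold Static at h ⊢
  have e : ∀ x, Real.exp (-W x) = Real.exp (-b) * Real.exp (-U x) := fun x => by
    rw [hUW, ← Real.exp_add]; congr 1; ring
  have k1 : ∀ g : E n → ℝ, ∫ x, g x * Real.exp (-W x)
      = Real.exp (-b) * ∫ x, g x * Real.exp (-U x) := fun g => by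
    rw [← integral_const_mul]
    refine integral_congr_ae (Eventually.of_forall fun x => ?_)
    simp only [e]; ring
  have k0 : ∫ x, Real.exp (-W x) = Real.exp (-b) * ∫ x, Real.exp (-U x) := by
    rw [← integral_const_mul]
    refine integral_congr_ae (Eventually.of_forall fun x => ?_)
    simp only [e]
  rw [k1 (fun x => fr ν φ r x ^ 2), k1 (fr ν φ r), k1 (Nr ν φ r), k0]
  have hp : 0 < Real.exp (-b) := Real.exp_pos _
  nlinarith [mul_le_mul_of_nonneg_left h (sq_nonneg (Real.exp (-b)))]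

end Crest.Agent.R238.Asm
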