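import Crest.Agent.R238.Asm2
import Crest.Agent.R238.TopDefs

/-! Row 238, ASM part 3: `Exi n → Ident n → Dens n → Soft.LocalIneq n`. (helper477) -/

set_option autoImplicit false
open scoped ContDiff Topology
open Set Filter MeasureTheory

noncomputable section

namespace Crest.Agent.R238.Asm

open Crest.Agent.R238.Soft

variable {n m : ℕ}

/-! ### smoothness of `Lop v h` -/

theorem Hs_smooth {f : E n → ℝ} (hf : ContDiff ℝ ∞ f) (i j : Fin n) :
    ContDiff ℝ ∞ (fun x => Hs f x i j) := by
  unfold Hs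
  have h1 : ContDiff ℝ ∞ (fderiv ℝ f) := hf.fderiv_right (by simp)
  have h2 : ContDiff ℝ ∞ (fderiv ℝ (fderiv ℝ f)) := h1.fderiv_right (by simp)
  exact (h2.clm_apply contDiff_const).clm_apply contDiff_const

theorem det_smooth {M : E n → Matrix (Fin n) (Fin n) ℝ}
    (hM : ∀ i j, ContDiff ℝ ∞ (fun x => M x i j)) : ContDiff ℝ ∞ (fun x => (M x).det) := by
  simp only [Matrix.det_apply]
  refine ContDiff.sum fun σ _ => ?_
  refine ContDiff.const_smul _ ?_
  exact contDiff_prod fun i _ => hM _ _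

theorem gM_smooth {v : E n → ℝ} (hv : ContDiff ℝ ∞ v) (i j : Fin n) :
    ContDiff ℝ ∞ (fun x => gM v x i j) := by
  unfold gM
  simp only [Matrix.add_apply, Matrix.of_apply]
  exact contDiff_const.add (Hs_smooth hv i j)

theorem Ell.det_pos {lo hi : ℝ} (hlo : 0 < lo) {A : Matrix (Fin n) (Fin n) ℝ}
    (hA : Ell lo hi A) : 0 < A.det := by
  have h : A.PosDef := by
    refine Matrix.PosDef.of_dotProduct_mulVec_pos ?_ fun z hz => ?_
    · ext i j
      simp only [Matrix.conjTranspose_apply, star_trivial]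
      exact hA.1 j i
    · have h1 := (hA.2 z).1
      have h2 : 0 < ∑ i, z i ^ 2 := by
        obtain ⟨i, hi⟩ : ∃ i, z i ≠ 0 := by
          by_contra hcon
          push Not at hcon
          exact hz (funext hcon)
        exact Finset.sum_pos' (fun i _ => sq_nonneg _) ⟨i, Finset.mem_univ _, by positivity⟩
      have h3 : star z ⬝ᵥ A.mulVec z = ∑ i, ∑ j, A i j * z i * z j := by
        simp only [dotProduct, Matrix.mulVec, Pi.star_apply, star_trivial, Finset.mul_sum]
        refine Finset.sum_congr rfl fun i _ => Finset.sum_congr rfl fun j _ => ?_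
        ring
      rw [h3]
      exact lt_of_lt_of_le (by positivity) h1
  exact h.det_pos

theorem tauM_smooth {v : E n → ℝ} (hv : ContDiff ℝ ∞ v) {lo hi : ℝ} (hlo : 0 < lo)
    (hE : ∀ x, Ell lo hi (gM v x)) (i j : Fin n) : ContDiff ℝ ∞ (fun x => tauM v x i j) := by
  unfold tauM
  have h1 : ∀ x, (gM v x)⁻¹ i j = ((gM v x).det)⁻¹ * (gM v x).adjugate i j := fun x => by
    rw [Matrix.inv_def]
    simp [Ring.inverse_eq_inv']
  simp only [h1]
  have h2 : ContDiff ℝ ∞ (fun x => (gM v x).adjugate i j) := by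
    simp only [Matrix.adjugate_apply]
    refine det_smooth fun k l => ?_
    by_cases hk : k = j
    · subst hk
      simp only [Matrix.updateRow_self]
      exact contDiff_const
    · simp only [Matrix.updateRow_ne hk]
      exact gM_smooth hv k l
  exact ((det_smooth fun i j => gM_smooth hv i j).inv
    fun x => (Ell.det_pos hlo (hE x)).ne').mul h2

theorem Lop_smooth {v h : E n → ℝ} (hv : ContDiff ℝ ∞ v) {lo hi : ℝ} (hlo : 0 < lo)
    (hE : ∀ x, Ell lo hi (gM v x)) (hh : ContDiff ℝ ∞ h) : ContDiff ℝ ∞ (Lop v h) := by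
  unfold Lop LA
  refine ContDiff.sub (ContDiff.sum fun i _ => ContDiff.sum fun j _ =>
    (tauM_smooth hv hlo hE i j).mul (Hs_smooth hh i j)) ?_
  exact (hh.fderiv_right (m := ∞) (by simp)).clm_apply contDiff_id

theorem Lop_eq_zero {v h : E n → ℝ} {x : E n} (hx : x ∉ tsupport h) : Lop v h x = 0 := by
  have h0 : h =ᶠ[𝓝 x] fun _ => 0 := notMem_tsupport_iff_eventuallyEq.1 hx
  have h1 : fderiv ℝ h =ᶠ[𝓝 x] fun _ => (0 : E n →L[ℝ] ℝ) := by
    refine (h0.fderiv (𝕜 := ℝ)).trans (Eventually.of_forall fun y => ?_)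
    simp
  have h2 : fderiv ℝ (fderiv ℝ h) x = 0 := by
    rw [h1.fderiv_eq (𝕜 := ℝ)]
    simp
  unfold Lop LA Hs
  rw [h2, h1.self_of_nhds]
  simp

theorem Lop_tst {v h : E n → ℝ} (hv : ContDiff ℝ ∞ v) {lo hi : ℝ} (hlo : 0 < lo)
    (hE : ∀ x, Ell lo hi (gM v x)) (hh : Tst h) : Tst (Lop v h) :=
  ⟨Lop_smooth hv hlo hE hh.smooth, HasCompactSupport.intro hh.supp fun _ hx => Lop_eq_zero hx⟩

theorem tst_add {f g : E n → ℝ} (hf : Tst f) (hg : Tst g) : Tst (fun x => f x + g x) :=
  ⟨hf.smooth.add hg.smooth, hf.supp.add hg.supp⟩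

theorem tst_int_mul {g F : E n → ℝ} (hg : Tst g) (hF : Continuous F) :
    Integrable (fun x => F x * g x) := by
  have h1 : Continuous (fun x => F x * g x) := hF.mul hg.smooth.continuous
  exact h1.integrable_of_hasCompactSupport (hg.supp.mul_left)

theorem wt_cont {P : E n → ℝ} (hP : Continuous P) : Continuous (wt P) := by
  unfold wt; fun_prop

/-- **ASM**: existence, identity and density give the local inequality -/
theorem localIneq_of_top (hex : Exi n) (hid : Ident n) (hde : Dens n) : Soft.LocalIneq n := by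
  intro m ν φ r V hw hV hVe hVc hsc hout
  obtain ⟨ε, hε, hsc⟩ := hsc
  obtain ⟨b, R, hout⟩ := hout
  set P := PP ν φ V b with hPdef
  have hPs : ContDiff ℝ ∞ P := PP_smooth hw hV
  have hPc : Continuous P := hPs.continuous
  have hPk : HasCompactSupport P := PP_support hout
  have hU : ∀ x, V x + Hw ν φ x = ‖x‖ ^ 2 / 2 + P x + b := fun x => U_eq x
  have hPD : PDat P := by
    refine ⟨⟨hPs, hPk⟩, PP_even hw hVe, ε, hε, ?_⟩
    have e : (fun x => ‖x‖ ^ 2 / 2 + P x - ε * ‖x‖ ^ 2)
        = fun x => (V x + Hw ν φ x - ε * ‖x‖ ^ 2) + (-b) := by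
      funext x; rw [hU]; ring
    rw [e]
    exact hsc.add_const (-b)
  obtain ⟨v, hsol, hiso⟩ := hex P hPD
  obtain ⟨h0, hineq⟩ := hid P v hPD hsol
  have hineq := hineq m ν φ r V b hw hV hVe hVc hU
  obtain ⟨lo, hi, hlo, hE⟩ := hsol.ell
  have hvs := hsol.nice.smooth
  -- basic integrability
  have i1 : Integrable (wt P) := int_one hPc hPk
  have i2 : Integrable (fun x => fr ν φ r x * wt P x) := int_f hPc hPk hw ν r
  have i3 : Integrable (fun x => fr ν φ r x ^ 2 * wt P x) := int_f2 hPc hPk hw ν r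
  have i4 : Integrable (fun x => Nr ν φ r x * wt P x) := int_N hPc hPk hw ν r
  have hZ : 0 < ∫ x, wt P x := by
    refine (integral_pos_iff_support_of_nonneg (fun x => (Real.exp_pos _).le) i1).2 ?_
    have : Function.support (fun x => Real.exp (-(‖x‖ ^ 2 / 2 + P x))) = univ := by
      ext x; simp [Function.mem_support, (Real.exp_pos _).ne']
    rw [this]
    exact isOpen_univ.measure_pos _ univ_nonempty
  set Z := ∫ x, wt P x with hZdef
  set a : ℝ := (∫ x, fr ν φ r x * wt P x) / Z with ha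
  obtain ⟨A, hA0, hA⟩ := fN_bound hw ν r
  have hfc := fr_continuous hw ν r
  have hF0 : ∫ x, (fr ν φ r x - a) * wt P x = 0 := by
    have e : ∀ x, (fr ν φ r x - a) * wt P x = fr ν φ r x * wt P x - a * wt P x := fun x => by ring
    simp only [e]
    rw [integral_sub i2 (i1.const_mul a), integral_const_mul, ha]
    field_simp
    ring
  have key : ∀ δ : ℝ, 0 < δ →
      ∫ x, (fr ν φ r x - a) ^ 2 * wt P x ≤ (∫ x, Nr ν φ r x * wt P x) + δ := by
    intro δ hδ
    obtain ⟨ϕ, hϕ, hle⟩ := hde P v hPD hsol hiso (fun x => fr ν φ r x - a)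
      (hfc.sub continuous_const) (fun x => by simp only [fr_even hw])
      ⟨A + |a|, fun x => by
        have h1 := (hA x).1
        have h2 := abs_sub (fr ν φ r x) a
        have h3 : 0 ≤ ‖x‖ ^ 2 := by positivity
        have h4 : 0 ≤ |a| := abs_nonneg a
        calc |fr ν φ r x - a| ≤ |fr ν φ r x| + |a| := h2
          _ ≤ A * ‖x‖ ^ 2 + |a| := by linarith
          _ ≤ (A + |a|) * (1 + ‖x‖ ^ 2) := by nlinarith [mul_nonneg h4 h3]⟩ hF0 δ hδ
    have hin := hineq ϕ hϕ
    have hT1 : Tst (fun y => Lop v ϕ y + ϕ y) := tst_add (Lop_tst hvs hlo hE hϕ) hϕ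
    have hG : Tst (LL v ϕ) := Lop_tst hvs hlo hE hT1
    have hG0 : ∫ x, LL v ϕ x * wt P x = 0 := h0 _ hT1
    have wc := wt_cont hPc
    have j1 : Integrable (fun x => LL v ϕ x * wt P x) := by
      have := tst_int_mul hG wc
      simpa [mul_comm] using this
    have j2 : Integrable (fun x => fr ν φ r x * LL v ϕ x * wt P x) := by
      have := tst_int_mul hG (hfc.mul wc)
      refine this.congr (Eventually.of_forall fun x => ?_)
      simp only [Pi.mul_apply]; ring
    have j3 : Integrable (fun x => LL v ϕ x ^ 2 * wt P x) := by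
      have := tst_int_mul hG (hG.smooth.continuous.mul wc)
      refine this.congr (Eventually.of_forall fun x => ?_)
      simp only [Pi.mul_apply]; ring
    have j4 : Integrable (fun x => (fr ν φ r x - a) ^ 2 * wt P x) := by
      have : Integrable (fun x => fr ν φ r x ^ 2 * wt P x - 2 * a * (fr ν φ r x * wt P x)
          + a ^ 2 * wt P x) := (i3.sub (i2.const_mul (2 * a))).add (i1.const_mul (a ^ 2))
      refine this.congr (Eventually.of_forall fun x => ?_)
      simp only []; ring
    have e : ∫ x, (fr ν φ r x - a - LL v ϕ x) ^ 2 * wt P x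
        = (∫ x, (fr ν φ r x - a) ^ 2 * wt P x)
          - (2 * (∫ x, fr ν φ r x * LL v ϕ x * wt P x) - ∫ x, LL v ϕ x ^ 2 * wt P x)
          + 2 * a * ∫ x, LL v ϕ x * wt P x := by
      have hh1 := integral_sub (j4) ((j2.const_mul 2).sub j3)
      have hh2 := integral_add (j4.sub ((j2.const_mul 2).sub j3)) (j1.const_mul (2 * a))
      have hh3 := integral_sub (j2.const_mul 2) j3
      simp only [Pi.sub_apply] at hh1 hh2 hh3
      rw [integral_const_mul] at hh3
      rw [integral_const_mul] at hh2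
      rw [hh1, hh3] at hh2
      rw [← hh2]
      refine integral_congr_ae (Eventually.of_forall fun x => ?_)
      simp only []
      ring
    rw [e, hG0] at hle
    linarith
  have hfin : ∫ x, (fr ν φ r x - a) ^ 2 * wt P x ≤ ∫ x, Nr ν φ r x * wt P x :=
    le_of_forall_pos_le_add key
  have hst : Static ν φ r (fun x => ‖x‖ ^ 2 / 2 + P x) :=
    static_of_centre i1 i2 i3 a hfin
  exact static_shift (b := b) hU hst

end Crest.Agent.R238.Asm
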