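import Crest.Agent.R238.HolDefs

/-!
Row 238 (S0369): BOOTSTRAP, part A (helper303): calculus of `HB`, classes `CK a k`
(`k` derivatives, all bounded and `a`-Hölder), difference quotient lemma.
-/

set_option autoImplicit false

open MeasureTheory Set Filter
open scoped ContDiff Topology

namespace Crest.Agent.R238.Boot

open Crest.Agent.R238

variable {n : ℕ}

/-! ### calculus of `HB` -/

theorem HB.nonneg {a M : ℝ} {f : E n → ℝ} (h : HB a M f) : 0 ≤ M := (abs_nonneg _).trans (h.1 0)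

theorem HB.mono {a M M' : ℝ} {f : E n → ℝ} (h : HB a M f) (hM : M ≤ M') : HB a M' f :=
  ⟨fun x => (h.1 x).trans hM, fun x y => (h.2 x y).trans
    (mul_le_mul_of_nonneg_right hM (Real.rpow_nonneg (norm_nonneg _) _))⟩

theorem hb_const (a c : ℝ) : HB a |c| (fun _ : E n => c) :=
  ⟨fun _ => le_rfl, fun x y => by
    simp only [sub_self, abs_zero]
    exact mul_nonneg (abs_nonneg _) (Real.rpow_nonneg (norm_nonneg _) _)⟩

theorem HB.add {a M M' : ℝ} {f g : E n → ℝ} (h : HB a M f) (h' : HB a M' g) :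
    HB a (M + M') (fun x => f x + g x) := by
  refine ⟨fun x => (abs_add_le _ _).trans (add_le_add (h.1 x) (h'.1 x)), fun x y => ?_⟩
  have e : f x + g x - (f y + g y) = (f x - f y) + (g x - g y) := by ring
  rw [e, add_mul]
  exact (abs_add_le _ _).trans (add_le_add (h.2 x y) (h'.2 x y))

theorem HB.neg {a M : ℝ} {f : E n → ℝ} (h : HB a M f) : HB a M (fun x => - f x) := by
  refine ⟨fun x => by rw [abs_neg]; exact h.1 x, fun x y => ?_⟩
  have e : - f x - - f y = -(f x - f y) := by ring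
  rw [e, abs_neg]
  exact h.2 x y

theorem HB.sub {a M M' : ℝ} {f g : E n → ℝ} (h : HB a M f) (h' : HB a M' g) :
    HB a (M + M') (fun x => f x - g x) := by
  simpa [sub_eq_add_neg] using HB.add h (HB.neg h')

theorem HB.mul {a M M' : ℝ} {f g : E n → ℝ} (h : HB a M f) (h' : HB a M' g) :
    HB a (2 * (M * M')) (fun x => f x * g x) := by
  have hM := HB.nonneg h
  have hM' := HB.nonneg h'
  refine ⟨fun x => ?_, fun x y => ?_⟩
  · rw [abs_mul]
    have := mul_le_mul (h.1 x) (h'.1 x) (abs_nonneg _) hM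
    nlinarith [mul_nonneg hM hM']
  · have e : f x * g x - f y * g y = f x * (g x - g y) + (f x - f y) * g y := by ring
    rw [e]
    have hr : 0 ≤ ‖x - y‖ ^ a := Real.rpow_nonneg (norm_nonneg _) _
    calc |f x * (g x - g y) + (f x - f y) * g y|
        ≤ |f x| * |g x - g y| + |f x - f y| * |g y| := by
          refine (abs_add_le _ _).trans ?_
          rw [abs_mul, abs_mul]
      _ ≤ M * (M' * ‖x - y‖ ^ a) + (M * ‖x - y‖ ^ a) * M' :=
          add_le_add (mul_le_mul (h.1 x) (h'.2 x y) (abs_nonneg _) hM)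
            (mul_le_mul (h.2 x y) (h'.1 y) (abs_nonneg _) (mul_nonneg hM hr))
      _ = 2 * (M * M') * ‖x - y‖ ^ a := by ring

theorem HB.const_mul {a M : ℝ} {f : E n → ℝ} (c : ℝ) (h : HB a M f) :
    HB a (|c| * M) (fun x => c * f x) := by
  refine ⟨fun x => by rw [abs_mul]; exact mul_le_mul_of_nonneg_left (h.1 x) (abs_nonneg _),
    fun x y => ?_⟩
  rw [← mul_sub, abs_mul, mul_assoc]
  exact mul_le_mul_of_nonneg_left (h.2 x y) (abs_nonneg _)

theorem hb_sum {a : ℝ} {ι : Type*} (s : Finset ι) {M : ι → ℝ} {f : ι → E n → ℝ}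
    (h : ∀ i ∈ s, HB a (M i) (f i)) : HB a (∑ i ∈ s, M i) (fun x => ∑ i ∈ s, f i x) := by
  classical
  induction s using Finset.induction_on with
  | empty =>
    simp only [Finset.sum_empty]
    have := hb_const (n := n) a 0
    simpa using this
  | insert i s hi ih =>
    simp only [Finset.sum_insert hi]
    exact HB.add (h i (Finset.mem_insert_self i s))
      (ih fun j hj => h j (Finset.mem_insert_of_mem hj))

theorem HB.inv {a M c : ℝ} {f : E n → ℝ} (h : HB a M f) (hc : 0 < c) (hf : ∀ x, c ≤ |f x|) :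
    HB a (c⁻¹ + c⁻¹ * c⁻¹ * M) (fun x => (f x)⁻¹) := by
  have hM := HB.nonneg h
  have hi : ∀ x, |(f x)⁻¹| ≤ c⁻¹ := fun x => by
    rw [abs_inv]
    exact inv_anti₀ hc (hf x)
  have hci : 0 ≤ c⁻¹ := (inv_pos.2 hc).le
  refine ⟨fun x => (hi x).trans ?_, fun x y => ?_⟩
  · have : 0 ≤ c⁻¹ * c⁻¹ * M := mul_nonneg (mul_nonneg hci hci) hM
    linarith
  · have hx : f x ≠ 0 := abs_pos.1 (hc.trans_le (hf x))
    have hy : f y ≠ 0 := abs_pos.1 (hc.trans_le (hf y))
    have e : (f x)⁻¹ - (f y)⁻¹ = (f x)⁻¹ * (f y)⁻¹ * (f y - f x) := by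
      field_simp
    have hr : 0 ≤ ‖x - y‖ ^ a := Real.rpow_nonneg (norm_nonneg _) _
    rw [e, abs_mul, abs_mul, abs_sub_comm]
    calc |(f x)⁻¹| * |(f y)⁻¹| * |f x - f y| ≤ c⁻¹ * c⁻¹ * (M * ‖x - y‖ ^ a) :=
          mul_le_mul (mul_le_mul (hi x) (hi y) (abs_nonneg _) hci) (h.2 x y) (abs_nonneg _)
            (mul_nonneg hci hci)
      _ = (c⁻¹ * c⁻¹ * M) * ‖x - y‖ ^ a := by ring
      _ ≤ (c⁻¹ + c⁻¹ * c⁻¹ * M) * ‖x - y‖ ^ a :=
          mul_le_mul_of_nonneg_right (by linarith) hr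

theorem HB.comp_add {a M : ℝ} {f : E n → ℝ} (h : HB a M f) (z : E n) :
    HB a M (fun x => f (x + z)) :=
  ⟨fun x => h.1 _, fun x y => by
    have := h.2 (x + z) (y + z)
    rwa [add_sub_add_right_eq_sub] at this⟩

/-- bounded and Lipschitz implies Hölder -/
theorem hb_of_lip {a G L : ℝ} (ha : 0 < a) (ha1 : a ≤ 1) {f : E n → ℝ} (hb : ∀ x, |f x| ≤ G)
    (hl : ∀ x y, |f x - f y| ≤ L * ‖x - y‖) : HB a (2 * G + |L|) f := by
  have hG : 0 ≤ G := (abs_nonneg _).trans (hb 0)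
  refine ⟨fun x => (hb x).trans (by linarith [abs_nonneg L]), fun x y => ?_⟩
  have h0 : 0 ≤ ‖x - y‖ := norm_nonneg _
  rcases le_or_gt ‖x - y‖ 1 with h1 | h1
  · have h2 : ‖x - y‖ ≤ ‖x - y‖ ^ a := by
      calc ‖x - y‖ = ‖x - y‖ ^ (1 : ℝ) := (Real.rpow_one _).symm
        _ ≤ ‖x - y‖ ^ a := by
          rcases h0.eq_or_lt with h3 | h3
          · rw [← h3, Real.zero_rpow one_ne_zero, Real.zero_rpow ha.ne']
          · exact Real.rpow_le_rpow_of_exponent_ge h3 h1 ha1
    calc |f x - f y| ≤ L * ‖x - y‖ := hl x y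
      _ ≤ |L| * ‖x - y‖ := mul_le_mul_of_nonneg_right (le_abs_self L) h0
      _ ≤ |L| * ‖x - y‖ ^ a := mul_le_mul_of_nonneg_left h2 (abs_nonneg _)
      _ ≤ (2 * G + |L|) * ‖x - y‖ ^ a :=
        mul_le_mul_of_nonneg_right (by linarith) (Real.rpow_nonneg h0 _)
  · have h2 : 1 ≤ ‖x - y‖ ^ a := Real.one_le_rpow h1.le ha.le
    calc |f x - f y| ≤ |f x| + |f y| := abs_sub _ _
      _ ≤ G + G := add_le_add (hb x) (hb y)
      _ ≤ (2 * G + |L|) * 1 := by linarith [abs_nonneg L]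
      _ ≤ (2 * G + |L|) * ‖x - y‖ ^ a :=
        mul_le_mul_of_nonneg_left h2 (by linarith [abs_nonneg L])

/-! ### partial derivatives -/

/-- partial derivative -/
noncomputable def pd (i : Fin n) (f : E n → ℝ) (x : E n) : ℝ := fderiv ℝ f x (ee i)

theorem sum_ee (x : E n) : ∑ i, x i • (ee i : E n) = x := by
  ext j
  simp [Finset.sum_apply, Pi.single_apply]

theorem fderiv_eq_sum_pd (f : E n → ℝ) (x h : E n) : fderiv ℝ f x h = ∑ i, h i * pd i f x := by
  conv_lhs => rw [← sum_ee h]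
  rw [map_sum]
  simp only [map_smul, smul_eq_mul, pd]

theorem norm_ee (i : Fin n) : ‖(ee i : E n)‖ = 1 := by simp

theorem abs_coord_le (h : E n) (i : Fin n) : |h i| ≤ ‖h‖ := by
  have := EuclideanSpace.norm_eq h
  have h2 : |h i| ^ 2 ≤ ∑ j, ‖h j‖ ^ 2 := by
    have : ‖h i‖ ^ 2 ≤ ∑ j, ‖h j‖ ^ 2 :=
      Finset.single_le_sum (f := fun j => ‖h j‖ ^ 2) (fun j _ => sq_nonneg _) (Finset.mem_univ i)
    simpa [Real.norm_eq_abs] using this
  rw [this]
  exact Real.le_sqrt_of_sq_le h2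

/-- bounds of `fderiv` from bounds of the partial derivatives -/
theorem norm_fderiv_le {f : E n → ℝ} {x : E n} {M : ℝ} (h : ∀ i, |pd i f x| ≤ M) (hM : 0 ≤ M) :
    ‖fderiv ℝ f x‖ ≤ n * M := by
  refine ContinuousLinearMap.opNorm_le_bound _ (by positivity) fun z => ?_
  rw [fderiv_eq_sum_pd, Real.norm_eq_abs]
  calc |∑ i, z i * pd i f x| ≤ ∑ i, |z i * pd i f x| := Finset.abs_sum_le_sum_abs _ _
    _ ≤ ∑ _i : Fin n, ‖z‖ * M := Finset.sum_le_sum fun i _ => by
        rw [abs_mul]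
        exact mul_le_mul (abs_coord_le z i) (h i) (abs_nonneg _) (norm_nonneg _)
    _ = n * M * ‖z‖ := by
        rw [Finset.sum_const, Finset.card_univ, Fintype.card_fin, nsmul_eq_mul]; ring

theorem abs_pd_le {f : E n → ℝ} {x : E n} (i : Fin n) : |pd i f x| ≤ ‖fderiv ℝ f x‖ := by
  have := (fderiv ℝ f x).le_opNorm (ee i)
  rw [norm_ee, mul_one] at this
  exact this

theorem contDiff_succ_of_pd {f : E n → ℝ} {m : ℕ} (hf : Differentiable ℝ f)
    (h : ∀ i, ContDiff ℝ m (pd i f)) : ContDiff ℝ (m + 1) f := by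
  rw [contDiff_succ_iff_fderiv]
  refine ⟨hf, by simp, ?_⟩
  have e : fderiv ℝ f = fun x => ∑ i, (pd i f x) • (EuclideanSpace.proj i : E n →L[ℝ] ℝ) := by
    funext x
    ext z
    rw [fderiv_eq_sum_pd]
    rw [_root_.sum_apply]
    exact Finset.sum_congr rfl fun i _ => mul_comm _ _
  rw [e]
  exact ContDiff.sum fun i _ => (h i).smul contDiff_const

theorem contDiff_pd {f : E n → ℝ} {m : ℕ} (i : Fin n) (h : ContDiff ℝ (m + 1) f) :
    ContDiff ℝ m (pd i f) :=
  (h.fderiv_right (m := m) (by norm_cast)).clm_apply contDiff_const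

/-- symmetric second derivative, `Hs f x i j = ∂_i ∂_j f` -/
theorem pd_pd_eq {f : E n → ℝ} (h : ContDiff ℝ 2 f) (i j : Fin n) (x : E n) :
    pd i (pd j f) x = Hs f x i j := by
  have h1 : Differentiable ℝ (fderiv ℝ f) :=
    (h.fderiv_right (m := 1) (by norm_num)).differentiable one_ne_zero
  unfold pd Hs
  have h2 : HasFDerivAt (fun y => fderiv ℝ f y (ee j))
      ((ContinuousLinearMap.apply ℝ ℝ (ee j : E n)).comp (fderiv ℝ (fderiv ℝ f) x)) x :=
    (ContinuousLinearMap.apply ℝ ℝ (ee j : E n)).hasFDerivAt.comp x (h1 x).hasFDerivAt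
  rw [h2.fderiv]
  rfl

theorem Hs_symm {f : E n → ℝ} (h : ContDiff ℝ 2 f) (x : E n) (i j : Fin n) :
    Hs f x i j = Hs f x j i := by
  have := (h.contDiffAt (x := x)).isSymmSndFDerivAt (by simp)
  exact this (ee i) (ee j)

theorem pd_comm {f : E n → ℝ} (h : ContDiff ℝ 2 f) (i j : Fin n) (x : E n) :
    pd i (pd j f) x = pd j (pd i f) x := by
  rw [pd_pd_eq h, pd_pd_eq h, Hs_symm h]

/-! ### difference quotients -/

/-- finite difference -/
def dq (h : E n) (f : E n → ℝ) (x : E n) : ℝ := f (x + h) - f x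

/-- difference bound: `Δ_h F ∈ HB a (N ‖h‖)` for small `h` -/
def DQ (a N δ : ℝ) (f : E n → ℝ) : Prop := ∀ h : E n, ‖h‖ ≤ δ → HB a (N * ‖h‖) (dq h f)

theorem dq_tele (f : E n → ℝ) (h x : E n) (m : ℕ) :
    dq ((m : ℝ) • h) f x = ∑ j ∈ Finset.range m, dq h f (x + (j : ℝ) • h) := by
  have := Finset.sum_range_sub (fun j : ℕ => f (x + (j : ℝ) • h)) m
  simp only [Nat.cast_zero, zero_smul, add_zero] at this
  unfold dq
  rw [← this]
  refine Finset.sum_congr rfl fun j _ => ?_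
  have : x + (j : ℝ) • h + h = x + ((j + 1 : ℕ) : ℝ) • h := by
    push_cast
    rw [add_smul, one_smul, add_assoc]
  rw [this]

theorem DQ.all {a N δ : ℝ} (hδ : 0 < δ) {f : E n → ℝ} (h : DQ a N δ f) (k : E n) :
    HB a (N * ‖k‖) (dq k f) := by
  obtain ⟨m, hm⟩ := exists_nat_gt (‖k‖ / δ)
  have hm0 : (0 : ℝ) < m := lt_of_le_of_lt (div_nonneg (norm_nonneg _) hδ.le) hm
  set z : E n := (m : ℝ)⁻¹ • k with hz
  have hz1 : ‖z‖ = ‖k‖ / m := by
    rw [hz, norm_smul, norm_inv, Real.norm_of_nonneg hm0.le, div_eq_inv_mul]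
  have hz2 : ‖z‖ ≤ δ := by
    rw [hz1, div_le_iff₀ hm0]
    rw [div_lt_iff₀ hδ] at hm
    linarith
  have hk : k = (m : ℝ) • z := by
    rw [hz, smul_smul, mul_inv_cancel₀ hm0.ne', one_smul]
  have e : dq k f = fun x => ∑ j ∈ Finset.range m, dq z f (x + (j : ℝ) • z) := by
    funext x
    conv_lhs => rw [hk]
    exact dq_tele f z x m
  have h1 := hb_sum (a := a) (Finset.range m) (M := fun _ => N * ‖z‖)
    (f := fun (j : ℕ) x => dq z f (x + (j : ℝ) • z))
    (fun j _ => HB.comp_add (h z hz2) ((j : ℝ) • z))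
  rw [e]
  have h2 : ∑ _j ∈ Finset.range m, N * ‖z‖ = N * ‖k‖ := by
    rw [Finset.sum_const, Finset.card_range, nsmul_eq_mul, hz1]
    field_simp
  rw [h2] at h1
  exact h1

/-- **limit lemma**: bounded Hölder difference quotients give a Hölder derivative -/
theorem DQ.deriv {a N δ : ℝ} (ha : 0 < a) (hδ : 0 < δ) {f : E n → ℝ} (h : DQ a N δ f) :
    ContDiff ℝ 1 f ∧ ∀ z : E n, HB a (N * ‖z‖) (fun x => fderiv ℝ f x z) := by
  have H : ∀ k : E n, HB a (N * ‖k‖) (dq k f) := fun k => DQ.all hδ h k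
  -- the sequence of dyadic quotients
  set u : E n → E n → ℕ → ℝ := fun x k m => (2 : ℝ) ^ m * dq (((2 : ℝ) ^ m)⁻¹ • k) f x with hu
  set r : ℝ := (2 : ℝ) ^ (-a) with hr
  have hr0 : 0 < r := Real.rpow_pos_of_pos two_pos _
  have hr1 : r < 1 := Real.rpow_lt_one_of_one_lt_of_neg one_lt_two (by linarith)
  have hN : ∀ k : E n, 0 ≤ N * ‖k‖ := fun k => HB.nonneg (H k)
  have step : ∀ x k m, dist (u x k m) (u x k (m + 1)) ≤ (N * ‖k‖) * ‖k‖ ^ a * r ^ m := by
    intro x k m
    set z : E n := ((2 : ℝ) ^ (m + 1))⁻¹ • k with hz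
    have hz2 : ((2 : ℝ) ^ m)⁻¹ • k = z + z := by
      rw [hz, ← two_smul ℝ, smul_smul, pow_succ]
      congr 1
      field_simp
    have e1 : dq (((2 : ℝ) ^ m)⁻¹ • k) f x = dq z f x + dq z f (x + z) := by
      rw [hz2]; unfold dq
      rw [← add_assoc]; ring
    have hzn : ‖z‖ = ((2 : ℝ) ^ (m + 1))⁻¹ * ‖k‖ := by
      rw [hz, norm_smul, norm_inv, Real.norm_of_nonneg (by positivity)]
    have h3 := (H z).2 (x + z) x
    rw [add_sub_cancel_left] at h3
    rw [Real.dist_eq]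
    have e2 : u x k m - u x k (m + 1) = (2 : ℝ) ^ m * (dq z f (x + z) - dq z f x) := by
      simp only [hu]
      rw [e1, ← hz, pow_succ]
      ring
    rw [e2, abs_mul, abs_of_nonneg (by positivity : (0:ℝ) ≤ (2 : ℝ) ^ m)]
    have h4 : ‖z‖ ^ a = ‖k‖ ^ a * (r ^ m * r) := by
      rw [hzn, Real.mul_rpow (by positivity) (norm_nonneg _), mul_comm]
      congr 1
      rw [← pow_succ, hr, Real.inv_rpow (by positivity), ← Real.rpow_natCast,
        ← Real.rpow_mul (by norm_num), ← Real.rpow_natCast, ← Real.rpow_mul (by norm_num),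
        ← Real.rpow_neg (by norm_num)]
      congr 1
      ring
    calc (2 : ℝ) ^ m * |dq z f (x + z) - dq z f x| ≤ (2 : ℝ) ^ m * (N * ‖z‖ * ‖z‖ ^ a) :=
          mul_le_mul_of_nonneg_left h3 (by positivity)
      _ = (1 / 2) * r * ((N * ‖k‖) * ‖k‖ ^ a * r ^ m) := by
          rw [h4, hzn, pow_succ]
          field_simp
      _ ≤ 1 * ((N * ‖k‖) * ‖k‖ ^ a * r ^ m) := by
          refine mul_le_mul_of_nonneg_right (by linarith) ?_
          exact mul_nonneg (mul_nonneg (hN k) (Real.rpow_nonneg (norm_nonneg _) _))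
            (pow_nonneg hr0.le _)
      _ = _ := one_mul _
  have hcau : ∀ x k, CauchySeq (u x k) := fun x k =>
    cauchySeq_of_le_geometric r _ hr1 (step x k)
  choose D hD using fun x k => cauchySeq_tendsto_of_complete (hcau x k)
  -- remainder estimate
  have hrem : ∀ x k, |dq k f x - D x k| ≤ (N * ‖k‖) * ‖k‖ ^ a / (1 - r) := by
    intro x k
    have h1 := dist_le_of_le_geometric_of_tendsto₀ r _ hr1 (step x k) (hD x k)
    have h2 : u x k 0 = dq k f x := by simp [hu]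
    rw [h2, Real.dist_eq] at h1
    exact h1
  have hDb : ∀ x k, |D x k| ≤ N * ‖k‖ := by
    intro x k
    refine le_of_tendsto ((hD x k).abs) (Eventually.of_forall fun m => ?_)
    simp only [hu]
    rw [abs_mul, abs_of_nonneg (by positivity : (0:ℝ) ≤ (2 : ℝ) ^ m)]
    have h3 := (H (((2 : ℝ) ^ m)⁻¹ • k)).1 x
    rw [norm_smul, norm_inv, Real.norm_of_nonneg (by positivity)] at h3
    calc (2 : ℝ) ^ m * |dq (((2 : ℝ) ^ m)⁻¹ • k) f x|
        ≤ (2 : ℝ) ^ m * (N * (((2 : ℝ) ^ m)⁻¹ * ‖k‖)) :=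
          mul_le_mul_of_nonneg_left h3 (by positivity)
      _ = N * ‖k‖ := by field_simp
  have hDh : ∀ x y k, |D x k - D y k| ≤ N * ‖k‖ * ‖x - y‖ ^ a := by
    intro x y k
    refine le_of_tendsto (((hD x k).sub (hD y k)).abs) (Eventually.of_forall fun m => ?_)
    simp only [hu]
    rw [← mul_sub, abs_mul, abs_of_nonneg (by positivity : (0:ℝ) ≤ (2 : ℝ) ^ m)]
    have h3 := (H (((2 : ℝ) ^ m)⁻¹ • k)).2 x y
    rw [norm_smul, norm_inv, Real.norm_of_nonneg (by positivity)] at h3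
    calc (2 : ℝ) ^ m * |dq (((2 : ℝ) ^ m)⁻¹ • k) f x - dq (((2 : ℝ) ^ m)⁻¹ • k) f y|
        ≤ (2 : ℝ) ^ m * (N * (((2 : ℝ) ^ m)⁻¹ * ‖k‖) * ‖x - y‖ ^ a) :=
          mul_le_mul_of_nonneg_left h3 (by positivity)
      _ = N * ‖k‖ * ‖x - y‖ ^ a := by field_simp
  -- additivity
  have hadd : ∀ x k l, D x (k + l) = D x k + D x l := by
    intro x k l
    have h1 : Tendsto (fun m => u x (k + l) m - (u x k m + u x l m)) atTop
        (𝓝 (D x (k + l) - (D x k + D x l))) := (hD x (k + l)).sub ((hD x k).add (hD x l))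
    have h2 : Tendsto (fun m => u x (k + l) m - (u x k m + u x l m)) atTop (𝓝 0) := by
      have hb : ∀ m, ‖u x (k + l) m - (u x k m + u x l m)‖ ≤ N * ‖l‖ * ‖k‖ ^ a * r ^ m := by
        intro m
        set c : ℝ := ((2 : ℝ) ^ m)⁻¹ with hc
        have hc0 : 0 < c := by positivity
        have e1 : dq (c • (k + l)) f x = dq (c • k) f x + dq (c • l) f (x + c • k) := by
          unfold dq
          rw [smul_add, ← add_assoc]; ring
        have e2 : u x (k + l) m - (u x k m + u x l m)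
            = (2 : ℝ) ^ m * (dq (c • l) f (x + c • k) - dq (c • l) f x) := by
          simp only [hu]
          rw [← hc, e1]; ring
        have h3 := (H (c • l)).2 (x + c • k) x
        rw [add_sub_cancel_left, norm_smul, norm_smul, Real.norm_of_nonneg hc0.le] at h3
        have h4 : (c * ‖k‖) ^ a = ‖k‖ ^ a * r ^ m := by
          rw [Real.mul_rpow hc0.le (norm_nonneg _), mul_comm]
          congr 1
          rw [hr, hc, Real.inv_rpow (by positivity), ← Real.rpow_natCast,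
            ← Real.rpow_mul (by norm_num), ← Real.rpow_natCast, ← Real.rpow_mul (by norm_num),
            ← Real.rpow_neg (by norm_num)]
          congr 1
          ring
        rw [e2, Real.norm_eq_abs, abs_mul, abs_of_nonneg (by positivity : (0:ℝ) ≤ (2 : ℝ) ^ m)]
        calc (2 : ℝ) ^ m * |dq (c • l) f (x + c • k) - dq (c • l) f x|
            ≤ (2 : ℝ) ^ m * (N * (c * ‖l‖) * (c * ‖k‖) ^ a) :=
              mul_le_mul_of_nonneg_left h3 (by positivity)
          _ = N * ‖l‖ * ‖k‖ ^ a * r ^ m := by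
              rw [h4, hc]; field_simp
      refine squeeze_zero_norm hb ?_
      have := (tendsto_pow_atTop_nhds_zero_of_lt_one hr0.le hr1).const_mul (N * ‖l‖ * ‖k‖ ^ a)
      simpa using this
    have h3 := tendsto_nhds_unique h1 h2
    linarith
  -- linear map
  have hlin : ∀ x, ∃ A : E n →L[ℝ] ℝ, ∀ k, A k = D x k := by
    intro x
    let A0 : E n →+ ℝ :=
      { toFun := D x
        map_zero' := by
          have := hadd x 0 0
          rw [add_zero] at this
          linarith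
        map_add' := hadd x }
    have hc : Continuous A0 := by
      refine AddMonoidHomClass.continuous_of_bound A0 N fun k => ?_
      exact hDb x k
    exact ⟨A0.toRealLinearMap hc, fun k => rfl⟩
  choose A hA using hlin
  have hder : ∀ x, HasFDerivAt f (A x) x := by
    intro x
    rw [hasFDerivAt_iff_isLittleO_nhds_zero, Asymptotics.isLittleO_iff]
    intro c hc
    have h1 : Tendsto (fun k : E n => N * ‖k‖ ^ a / (1 - r)) (𝓝 0) (𝓝 0) := by
      have h2 : Continuous fun k : E n => N * ‖k‖ ^ a / (1 - r) :=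
        (continuous_const.mul (continuous_norm.rpow_const fun _ => Or.inr ha.le)).div_const _
      have h3 := h2.tendsto 0
      simpa [Real.zero_rpow ha.ne'] using h3
    filter_upwards [h1.eventually (gt_mem_nhds hc)] with k hk
    have h2 := hrem x k
    rw [Real.norm_eq_abs, hA x k]
    calc |f (x + k) - f x - D x k| ≤ (N * ‖k‖) * ‖k‖ ^ a / (1 - r) := h2
      _ = (N * ‖k‖ ^ a / (1 - r)) * ‖k‖ := by ring
      _ ≤ c * ‖k‖ := mul_le_mul_of_nonneg_right hk.le (norm_nonneg _)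
  have hfd : ∀ x, fderiv ℝ f x = A x := fun x => (hder x).fderiv
  have hHB : ∀ z : E n, HB a (N * ‖z‖) (fun x => fderiv ℝ f x z) := by
    intro z
    refine ⟨fun x => ?_, fun x y => ?_⟩
    · show |fderiv ℝ f x z| ≤ _
      rw [hfd, hA]; exact hDb x z
    · show |fderiv ℝ f x z - fderiv ℝ f y z| ≤ _
      rw [hfd, hfd, hA, hA]; exact hDh x y z
  refine ⟨?_, hHB⟩
  have h1 : ContDiff ℝ ((0 : ℕ) + 1) f := by
    refine contDiff_succ_of_pd (fun x => (hder x).differentiableAt) fun i => ?_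
    rw [Nat.cast_zero, contDiff_zero]
    exact HB.continuous ha (hHB (ee i))
  simpa using h1

end Crest.Agent.R238.Boot
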