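import Crest.Agent.R238.BootB
import Crest.Agent.R238.StepDefs
import Crest.Agent.R238.TopDefs

/-!
Row 238 (S0369): BOOTSTRAP, part C (helper303): regularity of all orders for
`(L+1) φ = ψ` and for the Monge-Ampere solution, from the one-step lemma.
-/

set_option autoImplicit false

open MeasureTheory Set Filter
open scoped ContDiff Topology

namespace Crest.Agent.R238.Boot

open Crest.Agent.R238

variable {n : ℕ}

/-- the Schauder estimate (B) for one fixed `τ` -/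
def SchT (a : ℝ) (τ : E n → Matrix (Fin n) (Fin n) ℝ) : Prop :=
  ∃ C R' : ℝ, ∀ lam : ℝ, (lam = 0 ∨ lam = 1) → ∀ (h : E n → ℝ) (N S : ℝ), ContDiff ℝ 2 h →
    (∃ B, ∀ i j, HB a B (fun x => Hs h x i j)) →
    HB a N (fun x => LA τ h x + lam * h x) → (∀ x, ‖x‖ ≤ R' → |h x| ≤ S) →
    ∀ i j, HB a (C * (N + S)) (fun x => Hs h x i j)

/-- linear one-step lemma for `L + 1` (no bound on the gradient) -/
def StepStmt1 (a : ℝ) (τ : E n → Matrix (Fin n) (Fin n) ℝ) : Prop :=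
  ∀ f w : E n → ℝ, CK a 1 f → ContDiff ℝ 2 w → (∀ i j, ∃ M, HB a M (fun x => Hs w x i j)) →
    (∀ x, LA τ w x + w x = f x) →
    ∀ e : Fin n, ContDiff ℝ 2 (Boot.pd e w) ∧
      (∀ i j, ∃ M, HB a M (fun x => Hs (Boot.pd e w) x i j)) ∧
      ∀ x, LA τ (Boot.pd e w) x = Boot.pd e f x
        - ∑ i, ∑ j, Boot.pd e (fun y => τ y i j) x * Hs w x i j

theorem grad_pd_bdd {a : ℝ} {w : E n → ℝ} (h2 : ContDiff ℝ 2 w)
    (hH : ∀ i j, ∃ M, HB a M (fun x => Hs w x i j)) (e : Fin n) :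
    ∃ G, ∀ x, ‖fderiv ℝ (Boot.pd e w) x‖ ≤ G := by
  choose M hM using fun i => hH i e
  have hM0 : ∀ i, 0 ≤ M i := fun i => HB.nonneg (hM i)
  refine ⟨n * ∑ i, M i, fun x => norm_fderiv_le (fun i => ?_)
    (Finset.sum_nonneg fun i _ => hM0 i)⟩
  rw [pd_pd_eq h2]
  exact ((hM i).1 x).trans (Finset.single_le_sum (fun j _ => hM0 j) (Finset.mem_univ i))

theorem ck_Hs_succ {a : ℝ} {k : ℕ} {w : E n → ℝ} (h2 : ContDiff ℝ 2 w)
    (h2e : ∀ e : Fin n, ContDiff ℝ 2 (Boot.pd e w)) (i j : Fin n)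
    (hH : ∃ M, HB a M (fun x => Hs w x i j))
    (hHe : ∀ e : Fin n, CK a k (fun x => Hs (Boot.pd e w) x i j)) :
    CK a (k + 1) (fun x => Hs w x i j) := by
  have h3 : ContDiff ℝ 3 w := contDiff_three h2 h2e
  refine ⟨hH, ?_, fun e => ?_⟩
  · have : (fun x => Hs w x i j) = Boot.pd i (Boot.pd j w) := by
      funext x; exact (pd_pd_eq h2 i j x).symm
    rw [this]
    have h4 : ContDiff ℝ ((1 : ℕ) + 1) (Boot.pd j w) := by exact_mod_cast h2e j
    exact (contDiff_pd i h4).differentiable (by norm_num)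
  · refine cast ?_ (hHe e)
    congr 1
    funext x
    exact (pd_Hs h3 e i j x).symm

/-- all orders for `(L + 1) w = f` -/
theorem lin_all {a : ℝ} (ha : 0 < a) (ha1 : a ≤ 1) {τ : E n → Matrix (Fin n) (Fin n) ℝ}
    (hτ : ∀ k i j, CK a k (fun x => τ x i j)) (hS0 : StepStmt a τ) (hS1 : StepStmt1 a τ)
    {f w : E n → ℝ} (hf : ∀ k, CK a k f) (h2 : ContDiff ℝ 2 w)
    (hH : ∀ i j, ∃ M, HB a M (fun x => Hs w x i j)) (hL : ∀ x, LA τ w x + w x = f x)
    (k : ℕ) : ∀ i j, CK a k (fun x => Hs w x i j) := by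
  have hst := hS1 f w (hf 1) h2 hH hL
  induction k with
  | zero => exact hH
  | succ k ih =>
    intro i j
    refine ck_Hs_succ h2 (fun e => (hst e).1) i j (hH i j) fun e => ?_
    refine lin ha ha1 hS0 k _ (Boot.pd e w) (fun i j => hτ k i j) ?_ (hst e).1 (hst e).2.1
      (grad_pd_bdd h2 hH e) (hst e).2.2 i j
    refine CK.sub ((hf (k + 1)).pd e) ?_
    exact ck_sum _ fun p _ => ck_sum _ fun q _ => CK.mul ((hτ (k + 1) p q).pd e) (ih p q)

/-- all orders for the Monge-Ampere solution (`g e = L (∂_e v)`) -/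
theorem nonlin_all {a : ℝ} (ha : 0 < a) (ha1 : a ≤ 1) {τ : E n → Matrix (Fin n) (Fin n) ℝ}
    {v : E n → ℝ}
    (hτ : ∀ k, (∀ i j, CK a k (fun x => Hs v x i j)) → ∀ i j, CK a k (fun x => τ x i j))
    (hS0 : StepStmt a τ) (h2 : ContDiff ℝ 2 v) (h2e : ∀ e : Fin n, ContDiff ℝ 2 (Boot.pd e v))
    (hH : ∀ i j, ∃ M, HB a M (fun x => Hs v x i j))
    (hHe : ∀ e i j, ∃ M, HB a M (fun x => Hs (Boot.pd e v) x i j))
    {g : Fin n → E n → ℝ} (hg : ∀ k e, CK a k (g e))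
    (hL : ∀ e x, LA τ (Boot.pd e v) x = g e x)
    (k : ℕ) : ∀ i j, CK a k (fun x => Hs v x i j) := by
  induction k with
  | zero => exact hH
  | succ k ih =>
    intro i j
    refine ck_Hs_succ h2 h2e i j (hH i j) fun e => ?_
    exact lin ha ha1 hS0 k (g e) (Boot.pd e v) (hτ k ih) (hg k e) (h2e e) (hHe e)
      (grad_pd_bdd h2 hH e) (hL e) i j

theorem bdd_smul_const' {F : Type*} [NormedAddCommGroup F] [NormedSpace ℝ F] {k : ℕ}
    {g : E n → ℝ} (hg : ContDiff ℝ k g) (c : F)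
    (h : ∃ C : ℝ, ∀ x, ‖iteratedFDeriv ℝ k g x‖ ≤ C) :
    ∃ C : ℝ, ∀ x, ‖iteratedFDeriv ℝ k (fun x => g x • c) x‖ ≤ C := bdd_smul_const hg c h

/-- all orders give `Nice` -/
theorem nice_of_all {a : ℝ} (ha : 0 < a) {w : E n → ℝ} (h2 : ContDiff ℝ 2 w)
    (h : ∀ k i j, CK a k (fun x => Hs w x i j)) : Nice w := by
  have hpp : ∀ i j, Boot.pd i (Boot.pd j w) = fun x => Hs w x i j := fun i j => by
    funext x; exact pd_pd_eq h2 i j x
  have hd2 : ContDiff ℝ ((1 : ℕ) + 1) w := by exact_mod_cast h2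
  have hk1 : ∀ (k : ℕ) (j : Fin n), ContDiff ℝ (k + 1) (Boot.pd j w) := fun k j =>
    contDiff_succ_of_pd ((contDiff_pd j hd2).differentiable (by norm_num)) fun i => by
      rw [hpp]; exact CK.contDiff ha (h k i j)
  have hk2 : ∀ k : ℕ, ContDiff ℝ ((k + 1 : ℕ) + 1) w := fun k =>
    contDiff_succ_of_pd (h2.differentiable (by norm_num)) fun i => by
      exact_mod_cast hk1 k i
  refine ⟨?_, ?_⟩
  · rw [contDiff_infty]
    intro k
    exact (hk2 k).of_le (by norm_cast; omega)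
  · intro k hk
    obtain ⟨m, rfl⟩ := Nat.exists_eq_add_of_le' hk
    have h1 : ∀ j, ∃ C : ℝ, ∀ x, ‖iteratedFDeriv ℝ (m + 1) (Boot.pd j w) x‖ ≤ C := fun j =>
      bdd_of_pd (hk1 m j) fun i => by
        rw [hpp]; exact CK.bdd ha (h m i j)
    have h3 := bdd_of_pd (k := m + 1) (hk2 m) h1
    exact h3

end Crest.Agent.R238.Boot
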