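import Crest.Agent.R238.BootC

/-!
Row 238 (S0369): BOOTSTRAP, part D (helper303): the LINEAR ONE-STEP lemma by finite
differences, from the Schauder estimate `SchT a τ`.
-/

set_option autoImplicit false

open MeasureTheory Set Filter
open scoped ContDiff Topology

namespace Crest.Agent.R238.Boot

open Crest.Agent.R238

variable {n : ℕ}

/-- one-variable mean value -/
theorem mv1 {p p' : ℝ → ℝ} (hp : ∀ t, HasDerivAt p (p' t) t) {K : ℝ}
    (hK : ∀ t ∈ Icc (0 : ℝ) 1, |p' t| ≤ K) : |p 1 - p 0| ≤ K := by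
  obtain ⟨c, hc, h⟩ := exists_hasDerivAt_eq_slope p p' (zero_lt_one (α := ℝ))
    (fun t _ => (hp t).continuousAt.continuousWithinAt) (fun t _ => hp t)
  have := hK c ⟨hc.1.le, hc.2.le⟩
  rw [h] at this
  simpa using this

/-- one-variable Taylor -/
theorem tay1 {p p' p'' : ℝ → ℝ} (hp : ∀ t, HasDerivAt p (p' t) t)
    (hp' : ∀ t, HasDerivAt p' (p'' t) t) {K : ℝ}
    (hK : ∀ t ∈ Icc (0 : ℝ) 1, |p'' t| ≤ K) : |p' 1 - (p 1 - p 0)| ≤ K := by
  have hK0 : 0 ≤ K := (abs_nonneg _).trans (hK 0 ⟨le_rfl, zero_le_one⟩)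
  obtain ⟨c, hc, h⟩ := exists_hasDerivAt_eq_slope p p' (zero_lt_one (α := ℝ))
    (fun t _ => (hp t).continuousAt.continuousWithinAt) (fun t _ => hp t)
  obtain ⟨d, hd, h'⟩ := exists_hasDerivAt_eq_slope p' p'' hc.2
    (fun t _ => (hp' t).continuousAt.continuousWithinAt) (fun t _ => hp' t)
  have h1 : p 1 - p 0 = p' c := by rw [h]; simp
  have h2 : p' 1 - p' c = p'' d * (1 - c) := by
    rw [h', div_mul_cancel₀]
    exact (sub_pos.2 hc.2).ne'
  rw [h1, h2, abs_mul, abs_of_nonneg (sub_nonneg.2 hc.2.le)]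
  have h3 := hK d ⟨(hc.1.trans hd.1).le, hd.2.le⟩
  calc |p'' d| * (1 - c) ≤ K * 1 :=
        mul_le_mul h3 (by linarith [hc.1]) (by linarith [hc.2]) hK0
    _ = K := mul_one K

theorem line0 {f : E n → ℝ} (hf : Differentiable ℝ f) (x h : E n) (t : ℝ) :
    HasDerivAt (fun t : ℝ => f (x + t • h)) (fderiv ℝ f (x + t • h) h) t := by
  have h1 : HasDerivAt (fun t : ℝ => x + t • h) h t := by
    simpa using ((hasDerivAt_id t).smul_const h).const_add x
  exact (hf (x + t • h)).hasFDerivAt.comp_hasDerivAt t h1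

theorem line1 {f : E n → ℝ} (hf : ContDiff ℝ 2 f) (x h : E n) (t : ℝ) :
    HasDerivAt (fun t : ℝ => fderiv ℝ f (x + t • h) h)
      (fderiv ℝ (fderiv ℝ f) (x + t • h) h h) t := by
  have hd : Differentiable ℝ (fderiv ℝ f) :=
    (hf.fderiv_right (m := 1) (by norm_num)).differentiable one_ne_zero
  have h1 : HasDerivAt (fun t : ℝ => x + t • h) h t := by
    simpa using ((hasDerivAt_id t).smul_const h).const_add x
  have h2 : HasDerivAt (fun t : ℝ => fderiv ℝ f (x + t • h))
      (fderiv ℝ (fderiv ℝ f) (x + t • h) h) t :=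
    (hd (x + t • h)).hasFDerivAt.comp_hasDerivAt t h1
  have h3 := h2.clm_apply (hasDerivAt_const t h)
  simpa using h3

/-- second derivative as a double sum -/
theorem fd2_eq (f : E n → ℝ) (x h k : E n) :
    fderiv ℝ (fderiv ℝ f) x h k = ∑ i, ∑ j, h i * (k j * Hs f x i j) := by
  have e1 : fderiv ℝ (fderiv ℝ f) x h = ∑ i, h i • fderiv ℝ (fderiv ℝ f) x (ee i) := by
    conv_lhs => rw [← sum_ee h]
    rw [map_sum]
    simp only [map_smul]
  have e2 : ∀ i, fderiv ℝ (fderiv ℝ f) x (ee i) k = ∑ j, k j * Hs f x i j := by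
    intro i
    conv_lhs => rw [← sum_ee k]
    rw [map_sum]
    simp only [map_smul, smul_eq_mul, Hs]
  rw [e1, _root_.sum_apply]
  refine Finset.sum_congr rfl fun i _ => ?_
  rw [_root_.smul_apply, e2, smul_eq_mul, Finset.mul_sum]

theorem fd2_le {f : E n → ℝ} {x : E n} (h k : E n) {M : ℝ} (hM : ∀ i j, |Hs f x i j| ≤ M) :
    |fderiv ℝ (fderiv ℝ f) x h k| ≤ n * n * M * ‖h‖ * ‖k‖ := by
  rw [fd2_eq]
  calc |∑ i, ∑ j, h i * (k j * Hs f x i j)|
      ≤ ∑ i, ∑ j, |h i * (k j * Hs f x i j)| :=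
        (Finset.abs_sum_le_sum_abs _ _).trans
          (Finset.sum_le_sum fun i _ => Finset.abs_sum_le_sum_abs _ _)
    _ ≤ ∑ _i : Fin n, ∑ _j : Fin n, ‖h‖ * (‖k‖ * M) := by
        refine Finset.sum_le_sum fun i _ => Finset.sum_le_sum fun j _ => ?_
        rw [abs_mul, abs_mul]
        have h1 := abs_coord_le h i
        have h2 := abs_coord_le k j
        have h3 := hM i j
        have h4 : 0 ≤ M := (abs_nonneg _).trans h3
        exact mul_le_mul h1 (mul_le_mul h2 h3 (abs_nonneg _) (norm_nonneg _))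
          (mul_nonneg (abs_nonneg _) (abs_nonneg _)) (norm_nonneg _)
    _ = n * n * M * ‖h‖ * ‖k‖ := by
        simp only [Finset.sum_const, Finset.card_univ, Fintype.card_fin, nsmul_eq_mul]
        ring

theorem fd2_sub_le {f : E n → ℝ} {x y : E n} (h k : E n) {M : ℝ}
    (hM : ∀ i j, |Hs f x i j - Hs f y i j| ≤ M) :
    |fderiv ℝ (fderiv ℝ f) x h k - fderiv ℝ (fderiv ℝ f) y h k| ≤ n * n * M * ‖h‖ * ‖k‖ := by
  rw [fd2_eq, fd2_eq, ← Finset.sum_sub_distrib]
  simp only [← Finset.sum_sub_distrib, ← mul_sub]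
  calc |∑ i, ∑ j, h i * (k j * (Hs f x i j - Hs f y i j))|
      ≤ ∑ i, ∑ j, |h i * (k j * (Hs f x i j - Hs f y i j))| :=
        (Finset.abs_sum_le_sum_abs _ _).trans
          (Finset.sum_le_sum fun i _ => Finset.abs_sum_le_sum_abs _ _)
    _ ≤ ∑ _i : Fin n, ∑ _j : Fin n, ‖h‖ * (‖k‖ * M) := by
        refine Finset.sum_le_sum fun i _ => Finset.sum_le_sum fun j _ => ?_
        rw [abs_mul, abs_mul]
        have h1 := abs_coord_le h i
        have h2 := abs_coord_le k j
        have h3 := hM i j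
        have h4 : 0 ≤ M := (abs_nonneg _).trans h3
        exact mul_le_mul h1 (mul_le_mul h2 h3 (abs_nonneg _) (norm_nonneg _))
          (mul_nonneg (abs_nonneg _) (abs_nonneg _)) (norm_nonneg _)
    _ = n * n * M * ‖h‖ * ‖k‖ := by
        simp only [Finset.sum_const, Finset.card_univ, Fintype.card_fin, nsmul_eq_mul]
        ring

/-- finite differences of a `CK a 1` function -/
theorem dq_hb {a M : ℝ} {f : E n → ℝ} (hf : Differentiable ℝ f)
    (h : ∀ i, HB a M (Boot.pd i f)) (hM : 0 ≤ M) (z : E n) : HB a (n * M * ‖z‖) (dq z f) := by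
  have hb : ∀ x, |fderiv ℝ f x z| ≤ n * M * ‖z‖ := fun x => by
    have := (fderiv ℝ f x).le_opNorm z
    exact this.trans (mul_le_mul_of_nonneg_right (norm_fderiv_le (fun i => (h i).1 x) hM)
      (norm_nonneg _))
  have hd : ∀ x y, |fderiv ℝ f x z - fderiv ℝ f y z| ≤ n * M * ‖z‖ * ‖x - y‖ ^ a := by
    intro x y
    rw [fderiv_eq_sum_pd, fderiv_eq_sum_pd, ← Finset.sum_sub_distrib]
    simp only [← mul_sub]
    calc |∑ i, z i * (Boot.pd i f x - Boot.pd i f y)|
        ≤ ∑ i, |z i * (Boot.pd i f x - Boot.pd i f y)| := Finset.abs_sum_le_sum_abs _ _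
      _ ≤ ∑ _i : Fin n, ‖z‖ * (M * ‖x - y‖ ^ a) := Finset.sum_le_sum fun i _ => by
          rw [abs_mul]
          exact mul_le_mul (abs_coord_le z i) ((h i).2 x y) (abs_nonneg _) (norm_nonneg _)
      _ = n * M * ‖z‖ * ‖x - y‖ ^ a := by
          rw [Finset.sum_const, Finset.card_univ, Fintype.card_fin, nsmul_eq_mul]; ring
  refine ⟨fun x => ?_, fun x y => ?_⟩
  · have := mv1 (fun t => line0 hf x z t) (K := n * M * ‖z‖) (fun t _ => hb _)
    simpa [dq] using this
  · have := mv1 (fun t => (line0 hf x z t).sub (line0 hf y z t))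
      (K := n * M * ‖z‖ * ‖x - y‖ ^ a) (fun t _ => by
        have h1 := hd (x + t • z) (y + t • z)
        rwa [add_sub_add_right_eq_sub] at h1)
    simp only [one_smul, zero_smul, add_zero, Pi.sub_apply] at this
    have e : dq z f x - dq z f y = f (x + z) - f (y + z) - (f x - f y) := by
      unfold dq; ring
    rw [e]
    exact this

/-- second order remainder -/
theorem rem_hb {a M : ℝ} {w : E n → ℝ} (hw : ContDiff ℝ 2 w)
    (h : ∀ i j, HB a M (fun x => Hs w x i j)) (z : E n) :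
    HB a (n * n * M * ‖z‖ * ‖z‖) (fun x => fderiv ℝ w (x + z) z - dq z w x) := by
  have hd : Differentiable ℝ w := hw.differentiable (by norm_num)
  refine ⟨fun x => ?_, fun x y => ?_⟩
  · have := tay1 (fun t => line0 hd x z t) (fun t => line1 hw x z t)
      (K := n * n * M * ‖z‖ * ‖z‖) (fun t _ => fd2_le z z fun i j => (h i j).1 _)
    simpa [dq] using this
  · have := tay1 (fun t => (line0 hd x z t).sub (line0 hd y z t))
      (fun t => (line1 hw x z t).sub (line1 hw y z t))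
      (K := n * n * (M * ‖x - y‖ ^ a) * ‖z‖ * ‖z‖) (fun t _ => fd2_sub_le z z fun i j => by
        have h1 := (h i j).2 (x + t • z) (y + t • z)
        rwa [add_sub_add_right_eq_sub] at h1)
    simp only [one_smul, zero_smul, add_zero, Pi.sub_apply] at this
    have e : fderiv ℝ w (x + z) z - dq z w x - (fderiv ℝ w (y + z) z - dq z w y)
        = fderiv ℝ w (x + z) z - fderiv ℝ w (y + z) z
          - (w (x + z) - w (y + z) - (w x - w y)) := by
      unfold dq; ring
    rw [e]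
    refine this.trans (le_of_eq ?_)
    ring

/-- gradient term, bounded gradient -/
theorem grad_hb {a M G : ℝ} (ha : 0 < a) (ha1 : a ≤ 1) {w : E n → ℝ} (hw : ContDiff ℝ 2 w)
    (h : ∀ x i j, |Hs w x i j| ≤ M) (hM : 0 ≤ M) (hG : ∀ x, ‖fderiv ℝ w x‖ ≤ G) (z : E n) :
    HB a ((2 * G + n * n * M) * ‖z‖) (fun x => fderiv ℝ w (x + z) z) := by
  have hd : Differentiable ℝ (fderiv ℝ w) :=
    (hw.fderiv_right (m := 1) (by norm_num)).differentiable one_ne_zero
  have h1 : ∀ x, |fderiv ℝ w (x + z) z| ≤ G * ‖z‖ := fun x =>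
    ((fderiv ℝ w (x + z)).le_opNorm z).trans (mul_le_mul_of_nonneg_right (hG _) (norm_nonneg _))
  have hop : ∀ x, ‖fderiv ℝ (fderiv ℝ w) x‖ ≤ n * n * M := fun x => by
    refine ContinuousLinearMap.opNorm_le_bound _ (by positivity) fun u => ?_
    refine ContinuousLinearMap.opNorm_le_bound _ (by positivity) fun k => ?_
    rw [Real.norm_eq_abs]
    exact fd2_le u k fun i j => h x i j
  have h2 : ∀ x y, |fderiv ℝ w (x + z) z - fderiv ℝ w (y + z) z|
      ≤ (n * n * M * ‖z‖) * ‖x - y‖ := by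
    intro x y
    have h3 := (convex_univ (𝕜 := ℝ) (E := E n)).norm_image_sub_le_of_norm_fderiv_le
      (f := fderiv ℝ w) (C := n * n * M) (fun u _ => hd u) (fun u _ => hop u)
      (mem_univ (y + z)) (mem_univ (x + z))
    rw [add_sub_add_right_eq_sub] at h3
    have h4 := (fderiv ℝ w (x + z) - fderiv ℝ w (y + z)).le_opNorm z
    rw [_root_.sub_apply] at h4
    calc |fderiv ℝ w (x + z) z - fderiv ℝ w (y + z) z|
        ≤ ‖fderiv ℝ w (x + z) - fderiv ℝ w (y + z)‖ * ‖z‖ := h4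
      _ ≤ (n * n * M * ‖x - y‖) * ‖z‖ := mul_le_mul_of_nonneg_right h3 (norm_nonneg _)
      _ = (n * n * M * ‖z‖) * ‖x - y‖ := by ring
  have h5 := hb_of_lip ha ha1 h1 h2
  refine HB.mono h5 (le_of_eq ?_)
  rw [abs_of_nonneg (by positivity)]
  ring

/-! ### the finite difference of `w` -/

theorem contDiff_dq {m : ℕ} {w : E n → ℝ} (hw : ContDiff ℝ m w) (z : E n) :
    ContDiff ℝ m (dq z w) :=
  (hw.comp (contDiff_id.add contDiff_const)).sub hw

theorem fderiv_dq {w : E n → ℝ} (hw : Differentiable ℝ w) (z x : E n) :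
    fderiv ℝ (dq z w) x = fderiv ℝ w (x + z) - fderiv ℝ w x := by
  have h1 : HasFDerivAt (fun y => w (y + z)) (fderiv ℝ w (x + z)) x :=
    (hasFDerivAt_comp_add_right z).2 (hw (x + z)).hasFDerivAt
  exact (h1.sub (hw x).hasFDerivAt).fderiv

theorem Hs_dq {w : E n → ℝ} (hw : ContDiff ℝ 2 w) (z x : E n) (i j : Fin n) :
    Hs (dq z w) x i j = dq z (fun y => Hs w y i j) x := by
  have hd : Differentiable ℝ w := hw.differentiable (by norm_num)
  have hd2 : Differentiable ℝ (fderiv ℝ w) :=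
    (hw.fderiv_right (m := 1) (by norm_num)).differentiable one_ne_zero
  have e : fderiv ℝ (dq z w) = fun y => fderiv ℝ w (y + z) - fderiv ℝ w y := by
    funext y; exact fderiv_dq hd z y
  unfold Hs
  rw [e]
  have h1 : HasFDerivAt (fun y => fderiv ℝ w (y + z)) (fderiv ℝ (fderiv ℝ w) (x + z)) x :=
    (hasFDerivAt_comp_add_right z).2 (hd2 (x + z)).hasFDerivAt
  have h2 : HasFDerivAt (fun y => fderiv ℝ w (y + z) - fderiv ℝ w y)
      (fderiv ℝ (fderiv ℝ w) (x + z) - fderiv ℝ (fderiv ℝ w) x) x :=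
    h1.sub (hd2 x).hasFDerivAt
  rw [h2.fderiv]
  rfl

/-- equation for the finite difference -/
theorem LA_dq {τ : E n → Matrix (Fin n) (Fin n) ℝ} {w : E n → ℝ} (hw : ContDiff ℝ 2 w)
    (z x : E n) : LA τ (dq z w) x = dq z (LA τ w) x
      - ∑ i, ∑ j, dq z (fun y => τ y i j) x * Hs w (x + z) i j + fderiv ℝ w (x + z) z := by
  have hd : Differentiable ℝ w := hw.differentiable (by norm_num)
  have e0 : fderiv ℝ w (x + z) (x + z) = fderiv ℝ w (x + z) x + fderiv ℝ w (x + z) z :=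
    map_add _ _ _
  have e00 : (fderiv ℝ w (x + z) - fderiv ℝ w x) x
      = fderiv ℝ w (x + z) x - fderiv ℝ w x x := rfl
  simp only [LA, Hs_dq hw, fderiv_dq hd, dq, e0, e00]
  have e : ∀ i j, τ x i j * (Hs w (x + z) i j - Hs w x i j)
      = τ (x + z) i j * Hs w (x + z) i j - τ x i j * Hs w x i j
        - (τ (x + z) i j - τ x i j) * Hs w (x + z) i j := fun i j => by ring
  simp only [e, Finset.sum_sub_distrib]
  ring

/-- common part of the linear step -/
theorem step_core {a : ℝ} (ha : 0 < a) {τ : E n → Matrix (Fin n) (Fin n) ℝ}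
    (hS : SchT a τ) (hτ : ∀ i j, CK a 1 (fun x => τ x i j)) {w : E n → ℝ}
    (h2 : ContDiff ℝ 2 w) (hH : ∀ i j, ∃ M, HB a M (fun x => Hs w x i j))
    (hR : ∃ N, ∀ z : E n, ‖z‖ ≤ 1 →
      HB a (N * ‖z‖) (fun x => dq z (LA τ w) x + fderiv ℝ w (x + z) z)) :
    ∀ i j, ContDiff ℝ 1 (fun x => Hs w x i j) ∧
      ∀ e, ∃ M, HB a M (Boot.pd e (fun x => Hs w x i j)) := by
  obtain ⟨C, R', hS⟩ := hS
  obtain ⟨N, hN⟩ := hR
  choose T hT using fun i j => fun e => ((hτ i j).2.2 e : ∃ M, HB a M _)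
  choose H hH using hH
  set T0 : ℝ := ∑ i, ∑ j, ∑ e, T i j e with hT0
  have hTn : ∀ i j e, 0 ≤ T i j e := fun i j e => HB.nonneg (hT i j e)
  have hTle : ∀ i j e, T i j e ≤ T0 := by
    intro i j e
    calc T i j e ≤ ∑ e, T i j e :=
          Finset.single_le_sum (fun e _ => hTn i j e) (Finset.mem_univ e)
      _ ≤ ∑ j, ∑ e, T i j e := Finset.single_le_sum (f := fun j => ∑ e, T i j e)
          (fun j _ => Finset.sum_nonneg fun e _ => hTn i j e) (Finset.mem_univ j)
      _ ≤ T0 := Finset.single_le_sum (f := fun i => ∑ j, ∑ e, T i j e)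
          (fun i _ => Finset.sum_nonneg fun j _ => Finset.sum_nonneg fun e _ => hTn i j e)
          (Finset.mem_univ i)
  have hT0n : 0 ≤ T0 := Finset.sum_nonneg fun i _ => Finset.sum_nonneg fun j _ =>
    Finset.sum_nonneg fun e _ => hTn i j e
  -- local gradient bound
  have hcont : Continuous (fderiv ℝ w) := h2.continuous_fderiv (by norm_num)
  obtain ⟨G, hG⟩ := (isCompact_closedBall (0 : E n) (|R'| + 1)).exists_bound_of_continuousOn
    hcont.continuousOn
  have hd : Differentiable ℝ w := h2.differentiable (by norm_num)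
  have hG0 : 0 ≤ G := (norm_nonneg _).trans (hG 0 (Metric.mem_closedBall_self (by positivity)))
  set N1 : ℝ := N + ∑ i : Fin n, ∑ j : Fin n, 2 * ((n * T0) * H i j) with hN1
  have key : ∀ i j, DQ a (C * (N1 + G)) 1 (fun x => Hs w x i j) := by
    intro i j z hz
    have h2q : ContDiff ℝ 2 (dq z w) := by
      have : ContDiff ℝ ((2 : ℕ)) w := by exact_mod_cast h2
      exact_mod_cast contDiff_dq this z
    have hHq : ∀ i j, HB a (2 * H i j) (fun x => Hs (dq z w) x i j) := by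
      intro i j
      have e : (fun x => Hs (dq z w) x i j) = fun x => Hs w (x + z) i j - Hs w x i j := by
        funext x; exact Hs_dq h2 z x i j
      rw [e]
      have := HB.sub (HB.comp_add (hH i j) z) (hH i j)
      refine HB.mono this (by linarith)
    have hHq' : ∃ B, ∀ i j, HB a B (fun x => Hs (dq z w) x i j) := by
      refine ⟨∑ i, ∑ j, 2 * H i j, fun i j => HB.mono (hHq i j) ?_⟩
      have hHn : ∀ i j, 0 ≤ 2 * H i j := fun i j => HB.nonneg (hHq i j)
      calc 2 * H i j ≤ ∑ j, 2 * H i j :=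
            Finset.single_le_sum (f := fun j => 2 * H i j) (fun j _ => hHn i j)
              (Finset.mem_univ j)
        _ ≤ ∑ i, ∑ j, 2 * H i j := Finset.single_le_sum (f := fun i => ∑ j, 2 * H i j)
            (fun i _ => Finset.sum_nonneg fun j _ => hHn i j) (Finset.mem_univ i)
    have hrhs : HB a (N1 * ‖z‖) (fun x => LA τ (dq z w) x + 0 * dq z w x) := by
      have e : (fun x => LA τ (dq z w) x + 0 * dq z w x)
          = fun x => (dq z (LA τ w) x + fderiv ℝ w (x + z) z)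
            - ∑ i, ∑ j, dq z (fun y => τ y i j) x * Hs w (x + z) i j := by
        funext x
        rw [LA_dq h2]; ring
      rw [e]
      have h3 : HB a (∑ i : Fin n, ∑ j : Fin n, 2 * ((n * T0 * ‖z‖) * H i j))
          (fun x => ∑ i, ∑ j, dq z (fun y => τ y i j) x * Hs w (x + z) i j) := by
        refine hb_sum _ fun p _ => hb_sum _ fun q _ => ?_
        refine HB.mul (dq_hb (hτ p q).2.1 (fun e => HB.mono (hT p q e) (hTle p q e)) hT0n z)
          (HB.comp_add (hH p q) z)
      refine HB.mono (HB.sub (hN z hz) h3) (le_of_eq ?_)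
      rw [hN1, add_mul, Finset.sum_mul]
      congr 1
      refine Finset.sum_congr rfl fun p _ => ?_
      rw [Finset.sum_mul]
      refine Finset.sum_congr rfl fun q _ => ?_
      ring
    have hloc : ∀ x, ‖x‖ ≤ R' → |dq z w x| ≤ G * ‖z‖ := by
      intro x hx
      have := mv1 (fun t => line0 hd x z t) (K := G * ‖z‖) (fun t ht => by
        refine ((fderiv ℝ w (x + t • z)).le_opNorm z).trans
          (mul_le_mul_of_nonneg_right (hG _ ?_) (norm_nonneg _))
        rw [mem_closedBall_zero_iff]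
        refine (norm_add_le _ _).trans (add_le_add (hx.trans (le_abs_self _)) ?_)
        rw [norm_smul, Real.norm_of_nonneg ht.1]
        exact mul_le_one₀ ht.2 (norm_nonneg _) hz)
      simpa [dq] using this
    have := hS 0 (Or.inl rfl) (dq z w) (N1 * ‖z‖) (G * ‖z‖) h2q hHq' hrhs hloc i j
    have e2 : (fun x => Hs (dq z w) x i j) = dq z (fun y => Hs w y i j) := by
      funext x; exact Hs_dq h2 z x i j
    rw [e2] at this
    refine HB.mono this (le_of_eq (by ring))
  intro i j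
  have h3 := DQ.deriv ha one_pos (key i j)
  exact ⟨h3.1, fun e => ⟨_, h3.2 (ee e)⟩⟩

/-- derivative of `LA τ w` -/
theorem pd_LA {τ : E n → Matrix (Fin n) (Fin n) ℝ} {w : E n → ℝ}
    (hτ : ∀ i j, Differentiable ℝ (fun x => τ x i j)) (h3 : ContDiff ℝ 3 w)
    (e : Fin n) (x : E n) :
    Boot.pd e (LA τ w) x = LA τ (Boot.pd e w) x
      + ∑ i, ∑ j, Boot.pd e (fun y => τ y i j) x * Hs w x i j - Boot.pd e w x := by
  have h2 : ContDiff ℝ 2 w := h3.of_le (by norm_num)
  have hpp : ∀ i j, (fun x => Hs w x i j) = Boot.pd i (Boot.pd j w) := fun i j => by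
    funext x; exact (pd_pd_eq h2 i j x).symm
  have hHd : ∀ i j, Differentiable ℝ (fun x => Hs w x i j) := fun i j => by
    rw [hpp]
    have h4 : ContDiff ℝ ((1 + 1 : ℕ) + 1) w := by exact_mod_cast h3
    have h5 : ContDiff ℝ ((1 : ℕ) + 1) (Boot.pd j w) := by exact_mod_cast contDiff_pd j h4
    exact (contDiff_pd i h5).differentiable (by norm_num)
  have hdd : Differentiable ℝ (fderiv ℝ w) :=
    (h2.fderiv_right (m := 1) (by norm_num)).differentiable one_ne_zero
  have hg : HasFDerivAt (fun y => fderiv ℝ w y y)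
      (fderiv ℝ w x + (fderiv ℝ (fderiv ℝ w) x).flip x) x := by
    have := (hdd x).hasFDerivAt.clm_apply (hasFDerivAt_id x)
    simpa using this
  have hs : HasFDerivAt (fun y => ∑ i, ∑ j, τ y i j * Hs w y i j)
      (∑ i, ∑ j, (τ x i j • fderiv ℝ (fun y => Hs w y i j) x
        + Hs w x i j • fderiv ℝ (fun y => τ y i j) x)) x :=
    HasFDerivAt.fun_sum fun i _ => HasFDerivAt.fun_sum fun j _ =>
      ((hτ i j) x).hasFDerivAt.mul ((hHd i j) x).hasFDerivAt
  have h6 : fderiv ℝ (LA τ w) x = _ := (hs.sub hg).fderiv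
  have e1 : fderiv ℝ (Boot.pd e w) x x = fderiv ℝ (fderiv ℝ w) x (ee e) x := by
    have h7 : HasFDerivAt (fun y => fderiv ℝ w y (ee e))
        ((fderiv ℝ (fderiv ℝ w) x).flip (ee e)) x := by
      have := (hdd x).hasFDerivAt.clm_apply (hasFDerivAt_const (ee e : E n) x)
      simpa using this
    have h8 : fderiv ℝ (Boot.pd e w) x x = fderiv ℝ (fderiv ℝ w) x x (ee e) := by
      show fderiv ℝ (fun y => fderiv ℝ w y (ee e)) x x = _
      rw [h7.fderiv]; rfl
    rw [h8]
    exact (h2.contDiffAt (x := x)).isSymmSndFDerivAt (by simp) x (ee e)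
  show fderiv ℝ (LA τ w) x (ee e) = _
  rw [h6, _root_.sub_apply, _root_.add_apply, ContinuousLinearMap.flip_apply]
  unfold LA
  rw [e1]
  simp only [_root_.sum_apply, _root_.add_apply, _root_.smul_apply, smul_eq_mul]
  have e3 : ∀ i j, Hs (Boot.pd e w) x i j = fderiv ℝ (fun y => Hs w y i j) x (ee e) :=
    fun i j => (pd_Hs h3 e i j x).symm
  simp only [e3, Finset.sum_add_distrib]
  have e4 : ∑ i, ∑ j, Hs w x i j * fderiv ℝ (fun y => τ y i j) x (ee e)
      = ∑ i, ∑ j, Boot.pd e (fun y => τ y i j) x * Hs w x i j :=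
    Finset.sum_congr rfl fun i _ => Finset.sum_congr rfl fun j _ => mul_comm _ _
  rw [e4]
  show _ = _ - Boot.pd e w x
  unfold Boot.pd
  ring

theorem step_c2 {a : ℝ} {w : E n → ℝ} (h2 : ContDiff ℝ 2 w)
    (hc : ∀ i j, ContDiff ℝ 1 (fun x => Hs w x i j) ∧
      ∀ e, ∃ M, HB a M (Boot.pd e (fun x => Hs w x i j))) (e : Fin n) :
    ContDiff ℝ 2 (Boot.pd e w) ∧ (∀ i j, ∃ M, HB a M (fun x => Hs (Boot.pd e w) x i j)) := by
  have hd2 : ContDiff ℝ ((1 : ℕ) + 1) w := by exact_mod_cast h2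
  have hc2 : ∀ e : Fin n, ContDiff ℝ 2 (Boot.pd e w) := fun e => by
    have : ContDiff ℝ ((1 : ℕ) + 1) (Boot.pd e w) :=
      contDiff_succ_of_pd ((contDiff_pd e hd2).differentiable (by norm_num)) fun i => by
        have e1 : Boot.pd i (Boot.pd e w) = fun x => Hs w x i e := by
          funext x; exact pd_pd_eq h2 i e x
        rw [e1]
        exact_mod_cast (hc i e).1
    exact_mod_cast this
  refine ⟨hc2 e, fun i j => ?_⟩
  have h3 : ContDiff ℝ 3 w := contDiff_three h2 hc2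
  have e2 : (fun x => Hs (Boot.pd e w) x i j) = Boot.pd e (fun x => Hs w x i j) := by
    funext x; exact (pd_Hs h3 e i j x).symm
  rw [e2]
  exact (hc i j).2 e

/-- **linear one-step lemma**, `λ = 0` -/
theorem step0 {a : ℝ} (ha : 0 < a) (ha1 : a ≤ 1) {τ : E n → Matrix (Fin n) (Fin n) ℝ}
    (hS : SchT a τ) (hτ : ∀ i j, CK a 1 (fun x => τ x i j)) : StepStmt a τ := by
  intro f w hf h2 hH hG hL e
  obtain ⟨G, hG⟩ := hG
  have hfL : LA τ w = f := funext hL
  choose H hH' using hH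
  have hHn : ∀ i j, 0 ≤ H i j := fun i j => HB.nonneg (hH' i j)
  set M : ℝ := ∑ i, ∑ j, H i j with hM
  have hMle : ∀ i j, H i j ≤ M := by
    intro i j
    calc H i j ≤ ∑ j, H i j := Finset.single_le_sum (fun j _ => hHn i j) (Finset.mem_univ j)
      _ ≤ M := Finset.single_le_sum (f := fun i => ∑ j, H i j)
          (fun i _ => Finset.sum_nonneg fun j _ => hHn i j) (Finset.mem_univ i)
  have hM0 : 0 ≤ M := Finset.sum_nonneg fun i _ => Finset.sum_nonneg fun j _ => hHn i j
  choose F hF using fun e => (hf.2.2 e : ∃ M, HB a M _)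
  have hFn : ∀ e, 0 ≤ F e := fun e => HB.nonneg (hF e)
  have hR : ∃ N, ∀ z : E n, ‖z‖ ≤ 1 →
      HB a (N * ‖z‖) (fun x => dq z (LA τ w) x + fderiv ℝ w (x + z) z) := by
    refine ⟨n * (∑ e, F e) + (2 * G + n * n * M), fun z _ => ?_⟩
    rw [hfL]
    have h4 := dq_hb hf.2.1 (fun e => HB.mono (hF e)
      (Finset.single_le_sum (fun e _ => hFn e) (Finset.mem_univ e)))
      (Finset.sum_nonneg fun e _ => hFn e) z
    have h5 := grad_hb ha ha1 h2 (fun x i j => ((hH' i j).1 x).trans (hMle i j)) hM0 hG z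
    refine HB.mono (HB.add h4 h5) (le_of_eq (by ring))
  have hc := step_core ha hS hτ h2 (fun i j => ⟨_, hH' i j⟩) hR
  obtain ⟨c1, c2⟩ := step_c2 h2 hc e
  refine ⟨c1, c2, fun x => ?_⟩
  have h3 : ContDiff ℝ 3 w := contDiff_three h2 fun e => (step_c2 h2 hc e).1
  have h6 := pd_LA (fun i j => (hτ i j).2.1) h3 e x
  rw [hfL] at h6
  linarith

/-- **linear one-step lemma**, `λ = 1` -/
theorem step1 {a : ℝ} (ha : 0 < a) {τ : E n → Matrix (Fin n) (Fin n) ℝ}
    (hS : SchT a τ) (hτ : ∀ i j, CK a 1 (fun x => τ x i j)) : StepStmt1 a τ := by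
  intro f w hf h2 hH hL e
  have hfL : LA τ w = fun x => f x - w x := funext fun x => by linarith [hL x]
  choose H hH' using hH
  have hHn : ∀ i j, 0 ≤ H i j := fun i j => HB.nonneg (hH' i j)
  set M : ℝ := ∑ i, ∑ j, H i j with hM
  have hMle : ∀ i j, H i j ≤ M := by
    intro i j
    calc H i j ≤ ∑ j, H i j := Finset.single_le_sum (fun j _ => hHn i j) (Finset.mem_univ j)
      _ ≤ M := Finset.single_le_sum (f := fun i => ∑ j, H i j)
          (fun i _ => Finset.sum_nonneg fun j _ => hHn i j) (Finset.mem_univ i)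
  have hM0 : 0 ≤ M := Finset.sum_nonneg fun i _ => Finset.sum_nonneg fun j _ => hHn i j
  choose F hF using fun e => (hf.2.2 e : ∃ M, HB a M _)
  have hFn : ∀ e, 0 ≤ F e := fun e => HB.nonneg (hF e)
  have hR : ∃ N, ∀ z : E n, ‖z‖ ≤ 1 →
      HB a (N * ‖z‖) (fun x => dq z (LA τ w) x + fderiv ℝ w (x + z) z) := by
    refine ⟨n * (∑ e, F e) + n * n * M, fun z hz => ?_⟩
    have h4 := dq_hb hf.2.1 (fun e => HB.mono (hF e)
      (Finset.single_le_sum (fun e _ => hFn e) (Finset.mem_univ e)))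
      (Finset.sum_nonneg fun e _ => hFn e) z
    have h5 := rem_hb h2 (fun i j => HB.mono (hH' i j) (hMle i j)) z
    have e1 : (fun x => dq z (LA τ w) x + fderiv ℝ w (x + z) z)
        = fun x => dq z f x + (fderiv ℝ w (x + z) z - dq z w x) := by
      funext x
      rw [hfL]
      unfold dq
      ring
    rw [e1]
    refine HB.mono (HB.add h4 h5) ?_
    have h6 : n * n * M * ‖z‖ * ‖z‖ ≤ n * n * M * ‖z‖ * 1 :=
      mul_le_mul_of_nonneg_left hz (by positivity)
    linarith
  have hc := step_core ha hS hτ h2 (fun i j => ⟨_, hH' i j⟩) hR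
  obtain ⟨c1, c2⟩ := step_c2 h2 hc e
  refine ⟨c1, c2, fun x => ?_⟩
  have h3 : ContDiff ℝ 3 w := contDiff_three h2 fun e => (step_c2 h2 hc e).1
  have h6 := pd_LA (fun i j => (hτ i j).2.1) h3 e x
  have h7 : Boot.pd e (LA τ w) x = Boot.pd e f x - Boot.pd e w x := by
    rw [hfL]
    unfold Boot.pd
    have : HasFDerivAt (fun x => f x - w x) (fderiv ℝ f x - fderiv ℝ w x) x :=
      (hf.2.1 x).hasFDerivAt.sub ((h2.differentiable (by norm_num)) x).hasFDerivAt
    rw [this.fderiv]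
    rfl
  linarith

end Crest.Agent.R238.Boot
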