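import Crest.Agent.R238.IsoAsm
import Crest.Agent.R238.BootC

/-!
Row 238, node ISO-ASM (helper890): `IsoStmt` from `Apr.SchStmt` and the one-step lemma in the
form of `BootC` (`SchT → StepStmt ∧ StepStmt1`).
-/

set_option autoImplicit false

open MeasureTheory Set Filter
open scoped ContDiff Topology

namespace Crest.Agent.R238.IsoAsm

open Crest.Agent.R238

variable {n : ℕ}

/-- (B) for `τ = tauf v` (both values of `lam`) from the general statement -/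
theorem schT_of (hS : Apr.SchStmt) {a lo hi : ℝ} (ha : 0 < a) (ha1 : a < 1) (h0 : 0 < lo)
    (h01 : lo ≤ hi) {v : E n → ℝ} (hE : ∀ x, Ell lo hi (gm v x))
    (hH : ∀ i j, ∃ M, HB a M (fun x => Hs v x i j))
    (hext : ∀ ε : ℝ, 0 < ε → ∃ R : ℝ, ExtS a ε R v) : Boot.SchT a (tauf v) := by
  have hhi : 0 < hi := h0.trans_le h01
  obtain ⟨ε₀, hε₀, H⟩ := hS n a hi⁻¹ lo⁻¹ ha ha1 (inv_pos.2 hhi) (inv_anti₀ h0 h01)
  have hl : 0 < lo⁻¹ := inv_pos.2 h0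
  set q : ℝ := (n : ℝ) * lo⁻¹ + (n : ℝ) ^ 2 * lo⁻¹ ^ 2 with hq
  have hq0 : 0 ≤ q := by positivity
  obtain ⟨R, hR⟩ := hext (ε₀ / (q + 1)) (by positivity)
  have hδ : q * (ε₀ / (q + 1)) ≤ ε₀ := by
    rw [mul_div_assoc', div_le_iff₀ (by positivity)]
    nlinarith
  have hfar : Apr.Far a ε₀ R (tauf v) :=
    far_tauf h0 h01 hε₀.le hE hδ (by positivity) hR
  choose M hM using hH
  set M0 : ℝ := ∑ i, ∑ j, M i j with hM0
  have hMn : ∀ i j, 0 ≤ M i j := fun i j => Boot.HB.nonneg (hM i j)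
  have hMle : ∀ i j, M i j ≤ M0 := fun i j =>
    (Finset.single_le_sum (f := fun j => M i j) (fun j _ => hMn i j) (Finset.mem_univ j)).trans
      (Finset.single_le_sum (f := fun i => ∑ j, M i j)
        (fun i _ => Finset.sum_nonneg fun j _ => hMn i j) (Finset.mem_univ i))
  have hb : ∀ i j, HB a ((n : ℝ) ^ 2 * lo⁻¹ ^ 2 * M0 + lo⁻¹) (fun x => tauf v x i j) :=
    fun i j => TauExt.hb_tauf h0 h01 hE (fun i j => Boot.HB.mono (hM i j) (hMle i j)) i j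
  obtain ⟨C, R', _, H1⟩ := H ((n : ℝ) ^ 2 * lo⁻¹ ^ 2 * M0 + lo⁻¹) R
  refine ⟨C, R', fun lam hlam h N S h2 hB hN hSb i j => ?_⟩
  exact H1 (tauf v) (fun x => TauExt.ell_tauf h0 h01 (hE x)) hb hfar lam hlam h N S h2 hB hN
    hSb i j

/-- one-step lemma in the form of `BootC` -/
def BootStep : Prop := ∀ (n : ℕ) (a : ℝ), 0 < a → a < 1 →
  ∀ τ : E n → Matrix (Fin n) (Fin n) ℝ, (∀ i j, Boot.CK a 1 (fun x => τ x i j)) →
    Boot.SchT a τ → Boot.StepStmt a τ ∧ Boot.StepStmt1 a τ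

/-- **ISO-ASM**, second form -/
theorem iso_of_boot (hS : Apr.SchStmt) (hO : BootStep) : IsoStmt := by
  intro n a ha ha1 v hv _ hell hext hsrj ψ hψ hψe
  obtain ⟨lo, hi', h0, hE'⟩ := hell
  set hi : ℝ := max lo hi' with hhi
  have h01 : lo ≤ hi := le_max_left _ _
  have hE : ∀ x, Ell lo hi (gm v x) := fun x => ell_widen (hE' x)
  have hτ : ∀ k i j, Boot.CK a k (fun x => tauf v x i j) := fun k i j =>
    ck_boot.1 (CK_tauf ha.le ha1.le hv h0 hE k i j)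
  have hHv : ∀ i j, ∃ M, HB a M (fun x => Hs v x i j) := fun i j =>
    CK_of_nice ha.le ha1.le hv 0 i j
  have hB := schT_of hS ha ha1 h0 h01 hE hHv hext
  obtain ⟨hst, hst1⟩ := hO n a ha ha1 (tauf v) (fun i j => hτ 1 i j) hB
  have hψk : ∀ k, Boot.CK a k ψ := fun k => ck_boot.1 (CK.of_tst ha.le ha1.le hψ)
  obtain ⟨N, hN⟩ := (hψk 0).hb
  obtain ⟨h, ⟨B, hc⟩, hL⟩ := hsrj ψ N hN hψe
  have hk : ∀ k i j, CK a k (fun x => Hs h x i j) := fun k i j =>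
    ck_boot.2 (Boot.lin_all ha ha1.le hτ hst hst1 hψk hc.c2 (fun i j => ⟨B, hc.hb i j⟩) hL k i j)
  exact ⟨h, nice_of_CK ha hc.c2 hk, hc.even, hL⟩

end Crest.Agent.R238.IsoAsm
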