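import Crest.Agent.R238.BootD
import Crest.Agent.R238.IsoMain

/-!
Row 238 (S0369): BOOTSTRAP, part E (helper303): `IsoAsm.BootStep`, hence
`Apr.SchStmt → IsoStmt`.
-/

set_option autoImplicit false

namespace Crest.Agent.R238.Boot

open Crest.Agent.R238

theorem bootStep : IsoAsm.BootStep := fun _ _ ha ha1 _ hτ hS =>
  ⟨step0 ha ha1.le hS hτ, step1 ha hS hτ⟩

theorem iso_stmt (hS : Apr.SchStmt) : IsoStmt := IsoAsm.iso_of_boot hS bootStep

end Crest.Agent.R238.Boot
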