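import Crest.Agent.R238.TopDefs
import Crest.Agent.R238.StepDefs

/-!
Row 238, node H6 (helper438): the class `CK a k` of functions all of whose iterated partial
derivatives of order `≤ k` are bounded and `a`-Hölder; closure properties; matrix inverse;
`ContDiff`, boundedness of `iteratedFDeriv`.
-/

set_option autoImplicit false

open MeasureTheory Set Filter
open scoped ContDiff Topology

namespace Crest.Agent.R238

variable {n : ℕ} {a : ℝ}

/-- all iterated partial derivatives of order `≤ k` are bounded and `a`-Hölder -/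
def CK (a : ℝ) : ℕ → (E n → ℝ) → Prop
  | 0, f => ∃ M, HB a M f
  | k + 1, f => (∃ M, HB a M f) ∧ Differentiable ℝ f ∧
      ∀ i, CK a k (fun x => fderiv ℝ f x (ee i))

namespace CK

section HBalg

variable {M N c : ℝ} {f g : E n → ℝ}

theorem hb_mono {M' : ℝ} (h : HB a M f) (hM : M ≤ M') : HB a M' f :=
  ⟨fun x => (h.1 x).trans hM, fun x y => (h.2 x y).trans
    (mul_le_mul_of_nonneg_right hM (Real.rpow_nonneg (norm_nonneg _) _))⟩

theorem hb_nonneg (h : HB a M f) : 0 ≤ M := (abs_nonneg _).trans (h.1 0)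

theorem hb_const (c : ℝ) : HB a |c| (fun _ : E n => c) :=
  ⟨fun _ => le_rfl, fun x y => by
    simp only [sub_self, abs_zero]
    exact mul_nonneg (abs_nonneg _) (Real.rpow_nonneg (norm_nonneg _) _)⟩

theorem hb_add (hf : HB a M f) (hg : HB a N g) : HB a (M + N) (fun x => f x + g x) := by
  refine ⟨fun x => (abs_add_le _ _).trans (add_le_add (hf.1 x) (hg.1 x)), fun x y => ?_⟩
  have h1 : f x + g x - (f y + g y) = (f x - f y) + (g x - g y) := by ring
  rw [h1, add_mul]
  exact (abs_add_le _ _).trans (add_le_add (hf.2 x y) (hg.2 x y))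

theorem hb_neg (hf : HB a M f) : HB a M (fun x => - f x) := by
  refine ⟨fun x => by rw [abs_neg]; exact hf.1 x, fun x y => ?_⟩
  have h1 : - f x - - f y = -(f x - f y) := by ring
  rw [h1, abs_neg]
  exact hf.2 x y

theorem hb_mul (hf : HB a M f) (hg : HB a N g) : HB a (2 * M * N) (fun x => f x * g x) := by
  have hM := hb_nonneg hf
  have hN := hb_nonneg hg
  have hMN : 0 ≤ M * N := mul_nonneg hM hN
  refine ⟨fun x => ?_, fun x y => ?_⟩
  · rw [abs_mul]
    have := mul_le_mul (hf.1 x) (hg.1 x) (abs_nonneg _) hM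
    linarith
  · have h1 : f x * g x - f y * g y = (f x - f y) * g x + f y * (g x - g y) := by ring
    rw [h1]
    have h5 : 0 ≤ ‖x - y‖ ^ a := Real.rpow_nonneg (norm_nonneg _) a
    have h2 : |(f x - f y) * g x| ≤ (M * ‖x - y‖ ^ a) * N := by
      rw [abs_mul]
      exact mul_le_mul (hf.2 x y) (hg.1 x) (abs_nonneg _) (mul_nonneg hM h5)
    have h3 : |f y * (g x - g y)| ≤ M * (N * ‖x - y‖ ^ a) := by
      rw [abs_mul]
      exact mul_le_mul (hf.1 y) (hg.2 x y) (abs_nonneg _) hM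
    calc |(f x - f y) * g x + f y * (g x - g y)|
        ≤ |(f x - f y) * g x| + |f y * (g x - g y)| := abs_add_le _ _
      _ ≤ (M * ‖x - y‖ ^ a) * N + M * (N * ‖x - y‖ ^ a) := add_le_add h2 h3
      _ = 2 * M * N * ‖x - y‖ ^ a := by ring

theorem hb_inv (hc : 0 < c) (hf : HB a M f) (h : ∀ x, c ≤ f x) :
    HB a (1 / c + M / c ^ 2) (fun x => (f x)⁻¹) := by
  have hM := hb_nonneg hf
  have hM2 : 0 ≤ M / c ^ 2 := by positivity
  refine ⟨fun x => ?_, fun x y => ?_⟩
  · have hx : 0 < f x := hc.trans_le (h x)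
    rw [abs_of_nonneg (inv_nonneg.2 hx.le)]
    have : (f x)⁻¹ ≤ 1 / c := by
      rw [← one_div]
      exact one_div_le_one_div_of_le hc (h x)
    linarith
  · have hx : 0 < f x := hc.trans_le (h x)
    have hy : 0 < f y := hc.trans_le (h y)
    have h5 : 0 ≤ ‖x - y‖ ^ a := Real.rpow_nonneg (norm_nonneg _) a
    have h1 : (f x)⁻¹ - (f y)⁻¹ = (f y - f x) / (f x * f y) := by
      field_simp
    rw [h1, abs_div, abs_of_pos (mul_pos hx hy), div_le_iff₀ (mul_pos hx hy)]
    have h2 : |f y - f x| ≤ M * ‖x - y‖ ^ a := by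
      rw [abs_sub_comm]; exact hf.2 x y
    have h3 : c ^ 2 ≤ f x * f y := by
      rw [sq]
      exact mul_le_mul (h x) (h y) hc.le hx.le
    calc |f y - f x| ≤ M * ‖x - y‖ ^ a := h2
      _ = (M / c ^ 2 * ‖x - y‖ ^ a) * c ^ 2 := by field_simp
      _ ≤ (M / c ^ 2 * ‖x - y‖ ^ a) * (f x * f y) :=
          mul_le_mul_of_nonneg_left h3 (mul_nonneg hM2 h5)
      _ ≤ ((1 / c + M / c ^ 2) * ‖x - y‖ ^ a) * (f x * f y) := by
          refine mul_le_mul_of_nonneg_right (mul_le_mul_of_nonneg_right ?_ h5)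
            (mul_pos hx hy).le
          have : 0 ≤ 1 / c := by positivity
          linarith

theorem hb_log (hc : 0 < c) (hf : HB a M f) (h : ∀ x, c ≤ f x) :
    HB a (|Real.log c| + |Real.log M| + M / c) (fun x => Real.log (f x)) := by
  have hM := hb_nonneg hf
  have hM2 : 0 ≤ M / c := by positivity
  have hcM : c ≤ M := (h 0).trans ((le_abs_self _).trans (hf.1 0))
  refine ⟨fun x => ?_, fun x y => ?_⟩
  · have hx : 0 < f x := hc.trans_le (h x)
    have h1 : Real.log c ≤ Real.log (f x) := Real.log_le_log hc (h x)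
    have h2 : Real.log (f x) ≤ Real.log M := Real.log_le_log hx ((le_abs_self _).trans (hf.1 x))
    have h3 := neg_abs_le (Real.log c)
    have h4 := le_abs_self (Real.log M)
    have h5 := abs_nonneg (Real.log c)
    have h6 := abs_nonneg (Real.log M)
    rw [abs_le]
    constructor <;> linarith
  · have hx : 0 < f x := hc.trans_le (h x)
    have hy : 0 < f y := hc.trans_le (h y)
    have h5 : 0 ≤ ‖x - y‖ ^ a := Real.rpow_nonneg (norm_nonneg _) a
    have key : ∀ u v : ℝ, c ≤ u → c ≤ v → Real.log u - Real.log v ≤ |u - v| / c := by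
      intro u v hu hv
      have hu0 := hc.trans_le hu
      have hv0 := hc.trans_le hv
      rw [← Real.log_div hu0.ne' hv0.ne']
      have h7 := Real.log_le_sub_one_of_pos (div_pos hu0 hv0)
      have h8 : u / v - 1 = (u - v) / v := by field_simp
      rw [h8] at h7
      refine h7.trans ?_
      rw [div_le_div_iff₀ hv0 hc]
      have h9 : (u - v) * c ≤ |u - v| * c := mul_le_mul_of_nonneg_right (le_abs_self _) hc.le
      have h10 : |u - v| * c ≤ |u - v| * v := mul_le_mul_of_nonneg_left hv (abs_nonneg _)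
      linarith
    have h1 : |Real.log (f x) - Real.log (f y)| ≤ |f x - f y| / c := by
      rw [abs_le]
      constructor
      · have := key (f y) (f x) (h y) (h x)
        rw [abs_sub_comm] at this
        linarith
      · exact key (f x) (f y) (h x) (h y)
    refine h1.trans ?_
    rw [div_le_iff₀ hc]
    refine (hf.2 x y).trans ?_
    have e1 : M * ‖x - y‖ ^ a = (M / c * ‖x - y‖ ^ a) * c := by field_simp
    rw [e1]
    refine mul_le_mul_of_nonneg_right (mul_le_mul_of_nonneg_right ?_ h5) hc.le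
    have := abs_nonneg (Real.log c)
    have := abs_nonneg (Real.log M)
    linarith

theorem hb_lip (ha0 : 0 ≤ a) (ha1 : a ≤ 1) {L : ℝ} (hb : ∀ x, |f x| ≤ M)
    (hl : ∀ x y, |f x - f y| ≤ L * ‖x - y‖) : HB a (2 * M + |L|) f := by
  have hM : 0 ≤ M := (abs_nonneg _).trans (hb 0)
  have hL := abs_nonneg L
  refine ⟨fun x => (hb x).trans (by linarith), fun x y => ?_⟩
  rcases le_total ‖x - y‖ 1 with h1 | h1
  · rcases eq_or_lt_of_le (norm_nonneg (x - y)) with h0 | h0
    · have hxy : x = y := sub_eq_zero.1 (norm_eq_zero.1 h0.symm)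
      subst hxy
      simp only [sub_self, abs_zero]
      exact mul_nonneg (by linarith) (Real.rpow_nonneg (norm_nonneg _) _)
    · have h2 : ‖x - y‖ ≤ ‖x - y‖ ^ a := by
        conv_lhs => rw [← Real.rpow_one ‖x - y‖]
        exact Real.rpow_le_rpow_of_exponent_ge h0 h1 ha1
      calc |f x - f y| ≤ L * ‖x - y‖ := hl x y
        _ ≤ |L| * ‖x - y‖ := mul_le_mul_of_nonneg_right (le_abs_self _) h0.le
        _ ≤ |L| * ‖x - y‖ ^ a := mul_le_mul_of_nonneg_left h2 hL
        _ ≤ (2 * M + |L|) * ‖x - y‖ ^ a :=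
            mul_le_mul_of_nonneg_right (by linarith) (Real.rpow_nonneg (norm_nonneg _) _)
  · have h2 : 1 ≤ ‖x - y‖ ^ a := Real.one_le_rpow h1 ha0
    calc |f x - f y| ≤ |f x| + |f y| := abs_sub _ _
      _ ≤ M + M := add_le_add (hb x) (hb y)
      _ ≤ (2 * M + |L|) * 1 := by linarith
      _ ≤ (2 * M + |L|) * ‖x - y‖ ^ a := mul_le_mul_of_nonneg_left h2 (by linarith)

end HBalg

variable {k l : ℕ} {f g : E n → ℝ}

theorem hb (h : CK a k f) : ∃ M, HB a M f := by
  cases k with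
  | zero => exact h
  | succ k => exact h.1

theorem diff (h : CK a (k + 1) f) : Differentiable ℝ f := h.2.1

theorem der (h : CK a (k + 1) f) (i : Fin n) : CK a k (fun x => fderiv ℝ f x (ee i)) := h.2.2 i

theorem zero_iff : CK a 0 f ↔ ∃ M, HB a M f := Iff.rfl

theorem succ_iff : CK a (k + 1) f ↔ (∃ M, HB a M f) ∧ Differentiable ℝ f ∧
    ∀ i, CK a k (fun x => fderiv ℝ f x (ee i)) := Iff.rfl

theorem pred : ∀ {k : ℕ} {f : E n → ℝ}, CK a (k + 1) f → CK a k f
  | 0, _, h => h.1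
  | _ + 1, _, h => ⟨h.1, h.2.1, fun i => pred (h.2.2 i)⟩

theorem mono (h : CK a k f) (hl : l ≤ k) : CK a l f := by
  induction hl with
  | refl => exact h
  | step _ ih => exact ih h.pred

theorem congr (h : CK a k f) (hfg : ∀ x, f x = g x) : CK a k g := by
  have : f = g := funext hfg
  rwa [← this]

theorem const (k : ℕ) : ∀ c : ℝ, CK a k (fun _ : E n => c) := by
  induction k with
  | zero => exact fun c => ⟨_, hb_const c⟩
  | succ k ih =>
    refine fun c => ⟨⟨_, hb_const c⟩, differentiable_const c, fun i => ?_⟩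
    refine (ih 0).congr fun x => ?_
    simp

theorem add : ∀ {k : ℕ} {f g : E n → ℝ}, CK a k f → CK a k g → CK a k (fun x => f x + g x)
  | 0, _, _, ⟨M, hf⟩, ⟨N, hg⟩ => ⟨M + N, hb_add hf hg⟩
  | _ + 1, f, g, hf, hg => by
    obtain ⟨M, hM⟩ := hf.1
    obtain ⟨N, hN⟩ := hg.1
    refine ⟨⟨_, hb_add hM hN⟩, hf.2.1.add hg.2.1, fun i => ?_⟩
    refine (add (hf.2.2 i) (hg.2.2 i)).congr fun x => ?_
    rw [fderiv_fun_add (hf.2.1 x) (hg.2.1 x)]
    rfl

theorem neg : ∀ {k : ℕ} {f : E n → ℝ}, CK a k f → CK a k (fun x => - f x)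
  | 0, _, ⟨M, hf⟩ => ⟨M, hb_neg hf⟩
  | _ + 1, f, hf => by
    obtain ⟨M, hM⟩ := hf.1
    refine ⟨⟨_, hb_neg hM⟩, hf.2.1.neg, fun i => ?_⟩
    refine (neg (hf.2.2 i)).congr fun x => ?_
    rw [fderiv_fun_neg]
    rfl

theorem sub (hf : CK a k f) (hg : CK a k g) : CK a k (fun x => f x - g x) :=
  (hf.add hg.neg).congr fun x => by ring

theorem mul : ∀ {k : ℕ} {f g : E n → ℝ}, CK a k f → CK a k g → CK a k (fun x => f x * g x)
  | 0, _, _, ⟨M, hf⟩, ⟨N, hg⟩ => ⟨_, hb_mul hf hg⟩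
  | _ + 1, f, g, hf, hg => by
    obtain ⟨M, hM⟩ := hf.1
    obtain ⟨N, hN⟩ := hg.1
    refine ⟨⟨_, hb_mul hM hN⟩, hf.2.1.mul hg.2.1, fun i => ?_⟩
    refine ((mul hf.pred (hg.2.2 i)).add (mul hg.pred (hf.2.2 i))).congr fun x => ?_
    rw [fderiv_fun_mul (hf.2.1 x) (hg.2.1 x)]
    simp [smul_eq_mul]

theorem const_mul (c : ℝ) (hf : CK a k f) : CK a k (fun x => c * f x) := (const k c).mul hf

theorem sum {ι : Type*} (s : Finset ι) {F : ι → E n → ℝ} (h : ∀ i ∈ s, CK a k (F i)) :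
    CK a k (fun x => ∑ i ∈ s, F i x) := by
  classical
  induction s using Finset.induction_on with
  | empty => simpa using const k 0
  | insert i s hi ih =>
    simp only [Finset.sum_insert hi]
    exact (h i (Finset.mem_insert_self _ _)).add
      (ih fun j hj => h j (Finset.mem_insert_of_mem hj))

theorem prod {ι : Type*} (s : Finset ι) {F : ι → E n → ℝ} (h : ∀ i ∈ s, CK a k (F i)) :
    CK a k (fun x => ∏ i ∈ s, F i x) := by
  classical
  induction s using Finset.induction_on with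
  | empty => simpa using const k 1
  | insert i s hi ih =>
    simp only [Finset.prod_insert hi]
    exact (h i (Finset.mem_insert_self _ _)).mul
      (ih fun j hj => h j (Finset.mem_insert_of_mem hj))

theorem inv {c : ℝ} (hc : 0 < c) : ∀ {k : ℕ} {f : E n → ℝ}, CK a k f → (∀ x, c ≤ f x) →
    CK a k (fun x => (f x)⁻¹)
  | 0, _, ⟨M, hf⟩, h => ⟨_, hb_inv hc hf h⟩
  | _ + 1, f, hf, h => by
    obtain ⟨M, hM⟩ := hf.1
    have h0 : ∀ x, f x ≠ 0 := fun x => (hc.trans_le (h x)).ne'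
    refine ⟨⟨_, hb_inv hc hM h⟩, hf.2.1.inv h0, fun i => ?_⟩
    have hi := inv hc hf.pred h
    refine ((hf.2.2 i).mul (hi.mul hi)).neg.congr fun x => ?_
    have h1 := (hasDerivAt_inv (h0 x)).comp_hasFDerivAt x (hf.2.1 x).hasFDerivAt
    have h2 : fderiv ℝ (fun x => (f x)⁻¹) x = (-(f x ^ 2)⁻¹) • fderiv ℝ f x := h1.fderiv
    rw [h2]
    rw [smul_apply, smul_eq_mul]
    have := h0 x
    field_simp

theorem log {c : ℝ} (hc : 0 < c) (hf : CK a k f) (h : ∀ x, c ≤ f x) :
    CK a k (fun x => Real.log (f x)) := by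
  cases k with
  | zero => obtain ⟨M, hM⟩ := hf; exact ⟨_, hb_log hc hM h⟩
  | succ k =>
    obtain ⟨M, hM⟩ := hf.1
    have h0 : ∀ x, f x ≠ 0 := fun x => (hc.trans_le (h x)).ne'
    refine ⟨⟨_, hb_log hc hM h⟩, hf.2.1.log h0, fun i => ?_⟩
    refine ((hf.2.2 i).mul (inv hc hf.pred h)).congr fun x => ?_
    have h1 := ((hf.2.1 x).hasFDerivAt.log (h0 x)).fderiv
    rw [h1]
    simp [mul_comm]

/-- smooth with compact support -/
theorem of_tst (ha0 : 0 ≤ a) (ha1 : a ≤ 1) : ∀ {k : ℕ} {f : E n → ℝ}, Tst f → CK a k f := by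
  have key : ∀ f : E n → ℝ, Tst f → ∃ M, HB a M f := by
    intro f hf
    have hc : Continuous f := hf.smooth.continuous
    obtain ⟨M, hM⟩ := hf.supp.exists_bound_of_continuous hc
    have hd : Continuous (fderiv ℝ f) := hf.smooth.continuous_fderiv (by simp)
    have hsd : HasCompactSupport (fderiv ℝ f) := hf.supp.fderiv ℝ
    obtain ⟨L, hL⟩ := hsd.exists_bound_of_continuous hd
    refine ⟨_, hb_lip ha0 ha1 (M := M) (L := L) (fun x => hM x) fun x y => ?_⟩
    have h1 := Convex.norm_image_sub_le_of_norm_fderiv_le (𝕜 := ℝ) (f := f) (C := L)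
      (s := univ) (x := y) (y := x)
      (fun z _ => (hf.smooth.differentiable (by simp)) z) (fun z _ => hL z) convex_univ
      (mem_univ _) (mem_univ _)
    simpa [Real.norm_eq_abs] using h1
  intro k
  induction k with
  | zero => exact fun {f} hf => key f hf
  | succ k ih =>
    intro f hf
    refine ⟨key f hf, hf.smooth.differentiable (by simp), fun i => ih ⟨?_, ?_⟩⟩
    · exact (hf.smooth.fderiv_right (m := ∞) (by simp)).clm_apply contDiff_const
    · exact (hf.supp.fderiv ℝ).comp_left (g := fun L : E n →L[ℝ] ℝ => L (ee i)) (by simp)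

section Mat

variable {A : E n → Matrix (Fin n) (Fin n) ℝ}

theorem det' {m : ℕ} {A : E n → Matrix (Fin m) (Fin m) ℝ}
    (h : ∀ i j, CK a k (fun x => A x i j)) : CK a k (fun x => (A x).det) := by
  simp only [Matrix.det_apply]
  refine sum _ fun σ _ => ?_
  refine ((prod Finset.univ fun i _ => h (σ i) i).const_mul
    ((Equiv.Perm.sign σ : ℤ) : ℝ)).congr fun x => ?_
  rw [Units.smul_def, zsmul_eq_mul]

theorem adjugate {m : ℕ} {A : E n → Matrix (Fin m) (Fin m) ℝ}
    (h : ∀ i j, CK a k (fun x => A x i j)) (i j : Fin m) :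
    CK a k (fun x => (A x).adjugate i j) := by
  simp only [Matrix.adjugate_apply]
  refine det' fun p q => ?_
  by_cases hp : p = j
  · subst hp
    simp only [Matrix.updateRow_self]
    exact const k _
  · simp only [Matrix.updateRow_ne hp]
    exact h p q

theorem matInv {m : ℕ} {A : E n → Matrix (Fin m) (Fin m) ℝ} {c : ℝ} (hc : 0 < c)
    (h : ∀ i j, CK a k (fun x => A x i j)) (hd : ∀ x, c ≤ (A x).det) (i j : Fin m) :
    CK a k (fun x => (A x)⁻¹ i j) := by
  refine ((inv hc (det' h) hd).mul (adjugate h i j)).congr fun x => ?_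
  rw [Matrix.inv_def, Matrix.smul_apply, smul_eq_mul, Ring.inverse_eq_inv']

/-- eigenvalue bound -/
theorem det_lower {m : ℕ} {lo : ℝ} (hlo : 0 < lo) {A : Matrix (Fin m) (Fin m) ℝ}
    (hs : ∀ i j, A i j = A j i)
    (hq : ∀ z : Fin m → ℝ, lo * ∑ i, z i ^ 2 ≤ ∑ i, ∑ j, A i j * z i * z j) :
    lo ^ m ≤ A.det := by
  have hH : A.IsHermitian := by
    ext i j
    simp [hs i j]
  rw [hH.det_eq_prod_eigenvalues]
  have h1 : ∀ i, lo ≤ hH.eigenvalues i := by
    intro i
    have h2 := hH.eigenvalues_eq i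
    have h3 : ∑ j, (hH.eigenvectorBasis i).ofLp j ^ 2 = 1 := by
      have h5 := hH.eigenvectorBasis.orthonormal.1 i
      rw [EuclideanSpace.norm_eq, Real.sqrt_eq_one] at h5
      simpa using h5
    have h4 := hq (hH.eigenvectorBasis i).ofLp
    rw [h3, mul_one] at h4
    rw [h2]
    refine h4.trans (le_of_eq ?_)
    simp only [dotProduct, Matrix.mulVec, Finset.mul_sum, star_trivial, RCLike.re_to_real,
      Pi.star_apply]
    exact Finset.sum_congr rfl fun p _ => Finset.sum_congr rfl fun q _ => by ring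
  calc lo ^ m = ∏ _i : Fin m, lo := by simp
    _ ≤ ∏ i, (hH.eigenvalues i : ℝ) := Finset.prod_le_prod (fun _ _ => hlo.le) fun i _ => h1 i
    _ = _ := by simp

end Mat

/-- expansion of a continuous linear functional in the dual basis -/
theorem clm_eq_sum {F : Type*} [NormedAddCommGroup F] [NormedSpace ℝ F] (L : E n →L[ℝ] F) :
    L = ∑ i, (EuclideanSpace.proj i : E n →L[ℝ] ℝ).smulRight (L (ee i)) := by
  ext y
  have h := (EuclideanSpace.basisFun (Fin n) ℝ).sum_repr y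
  conv_lhs => rw [← h]
  simp

theorem contDiff (ha : 0 < a) : ∀ {k : ℕ} {f : E n → ℝ}, CK a k f → ContDiff ℝ k f
  | 0, f, ⟨M, hM⟩ => contDiff_zero.2 (hM.continuous ha)
  | k + 1, f, h => by
    have h1 : ContDiff ℝ k (fderiv ℝ f) := by
      have h2 : fderiv ℝ f = fun x => ∑ i, (EuclideanSpace.proj i : E n →L[ℝ] ℝ).smulRight
          (fderiv ℝ f x (ee i)) := funext fun x => clm_eq_sum _
      rw [h2]
      refine ContDiff.sum fun i _ => ?_
      exact (ContinuousLinearMap.smulRightL ℝ (E n) ℝ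
        (EuclideanSpace.proj i : E n →L[ℝ] ℝ)).contDiff.comp (contDiff ha (h.2.2 i))
    exact_mod_cast contDiff_succ_iff_fderiv.2 ⟨h.2.1, by simp, h1⟩

theorem contDiff_top (ha : 0 < a) {f : E n → ℝ} (h : ∀ k, CK a k f) : ContDiff ℝ ∞ f :=
  contDiff_infty.2 fun k => (h k).contDiff ha

/-- bound for a sum of compositions with continuous linear maps -/
theorem iter_sum_bdd {ι F G : Type*} [NormedAddCommGroup F] [NormedSpace ℝ F]
    [NormedAddCommGroup G] [NormedSpace ℝ G] (s : Finset ι) (L : ι → F →L[ℝ] G)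
    (F' : ι → E n → F) (k : ℕ) (hc : ∀ i ∈ s, ContDiff ℝ k (F' i))
    (hb : ∀ i ∈ s, ∃ C, ∀ x, ‖iteratedFDeriv ℝ k (F' i) x‖ ≤ C) :
    ∃ C, ∀ x, ‖iteratedFDeriv ℝ k (fun x => ∑ i ∈ s, L i (F' i x)) x‖ ≤ C := by
  choose! C hC using hb
  refine ⟨∑ i ∈ s, ‖L i‖ * C i, fun x => ?_⟩
  have h0 : (fun x => ∑ i ∈ s, L i (F' i x)) = fun z => ∑ i ∈ s, (⇑(L i) ∘ F' i) z := rfl
  rw [h0, iteratedFDeriv_fun_sum_apply
    (fun i hi => ((L i).contDiff.comp (hc i hi)).contDiffAt)]
  refine (norm_sum_le _ _).trans (Finset.sum_le_sum fun i hi => ?_)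
  have h1 := (L i).norm_iteratedFDeriv_comp_left (x := x) (n := k) (N := k)
    (hc i hi).contDiffAt le_rfl
  exact h1.trans (mul_le_mul_of_nonneg_left (hC i hi x) (norm_nonneg _))

theorem iter_bdd (ha : 0 < a) : ∀ {k : ℕ} {f : E n → ℝ}, CK a k f →
    ∃ C, ∀ x, ‖iteratedFDeriv ℝ k f x‖ ≤ C
  | 0, f, ⟨M, hM⟩ => ⟨M, fun x => by
      rw [norm_iteratedFDeriv_zero]; exact hM.1 x⟩
  | k + 1, f, h => by
    have h2 : fderiv ℝ f = fun x => ∑ i, (ContinuousLinearMap.smulRightL ℝ (E n) ℝ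
        (EuclideanSpace.proj i : E n →L[ℝ] ℝ)) (fderiv ℝ f x (ee i)) :=
      funext fun x => clm_eq_sum _
    obtain ⟨C, hC⟩ := iter_sum_bdd Finset.univ (fun i => ContinuousLinearMap.smulRightL ℝ (E n) ℝ
        (EuclideanSpace.proj i : E n →L[ℝ] ℝ)) (fun i x => fderiv ℝ f x (ee i)) k
      (fun i _ => (h.2.2 i).contDiff ha) (fun i _ => iter_bdd ha (h.2.2 i))
    refine ⟨C, fun x => ?_⟩
    rw [← norm_iteratedFDeriv_fderiv, h2]
    exact hC x

/-- smooth functions with all derivatives bounded -/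
theorem of_bdd (ha0 : 0 ≤ a) (ha1 : a ≤ 1) : ∀ {k : ℕ} {f : E n → ℝ}, ContDiff ℝ ∞ f →
    (∀ k, ∃ C, ∀ x, ‖iteratedFDeriv ℝ k f x‖ ≤ C) → CK a k f := by
  have key : ∀ f : E n → ℝ, ContDiff ℝ ∞ f →
      (∀ k, ∃ C, ∀ x, ‖iteratedFDeriv ℝ k f x‖ ≤ C) → ∃ M, HB a M f := by
    intro f hf hb
    obtain ⟨M, hM⟩ := hb 0
    obtain ⟨L, hL⟩ := hb 1
    refine ⟨_, hb_lip ha0 ha1 (M := M) (L := L) (fun x => ?_) fun x y => ?_⟩
    · have := hM x
      rwa [norm_iteratedFDeriv_zero] at this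
    have h1 := Convex.norm_image_sub_le_of_norm_fderiv_le (𝕜 := ℝ) (f := f) (C := L)
      (s := univ) (x := y) (y := x)
      (fun z _ => (hf.differentiable (by simp)) z)
      (fun z _ => by have := hL z; rwa [norm_iteratedFDeriv_one] at this) convex_univ
      (mem_univ _) (mem_univ _)
    simpa [Real.norm_eq_abs] using h1
  intro k
  induction k with
  | zero => exact fun {f} hf hb => key f hf hb
  | succ k ih =>
    intro f hf hb
    have hd : ContDiff ℝ ∞ (fderiv ℝ f) := hf.fderiv_right (m := ∞) (by simp)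
    refine ⟨key f hf hb, hf.differentiable (by simp), fun i => ih ?_ fun l => ?_⟩
    · exact hd.clm_apply contDiff_const
    · obtain ⟨C, hC⟩ := hb (l + 1)
      refine ⟨‖ee i‖ * C, fun x => ?_⟩
      have h1 := norm_iteratedFDeriv_clm_apply_const (c := ee i) (n := l) (N := ∞) (x := x)
        hd.contDiffAt (by exact_mod_cast le_top)
      refine h1.trans (mul_le_mul_of_nonneg_left ?_ (norm_nonneg _))
      rw [norm_iteratedFDeriv_fderiv]
      exact hC x

end CK

/-- the second derivative from the matrix of second partial derivatives -/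
theorem fderiv_fderiv_eq_sum {h : E n → ℝ} (x : E n) :
    fderiv ℝ (fderiv ℝ h) x = ∑ p : Fin n × Fin n,
      (ContinuousLinearMap.toSpanSingleton ℝ
        ((EuclideanSpace.proj p.1 : E n →L[ℝ] ℝ).smulRight
          (EuclideanSpace.proj p.2 : E n →L[ℝ] ℝ))) (Hs h x p.1 p.2) := by
  rw [Fintype.sum_prod_type]
  conv_lhs => rw [CK.clm_eq_sum (fderiv ℝ (fderiv ℝ h) x)]
  refine Finset.sum_congr rfl fun i _ => ?_
  conv_lhs => rw [CK.clm_eq_sum (fderiv ℝ (fderiv ℝ h) x (ee i))]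
  ext y z
  simp only [ContinuousLinearMap.smulRight_apply, sum_apply, smul_apply, Finset.smul_sum]
  refine Finset.sum_congr rfl fun j _ => ?_
  simp only [ContinuousLinearMap.toSpanSingleton_apply, smul_apply,
    ContinuousLinearMap.smulRight_apply, smul_eq_mul, Hs]
  ring

/-- smoothness and bounds from `CK` bounds on all second partials -/
theorem nice_of_CK (ha : 0 < a) {h : E n → ℝ} (h2 : ContDiff ℝ 2 h)
    (hk : ∀ k i j, CK a k (fun x => Hs h x i j)) : Nice h := by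
  have e1 : fderiv ℝ (fderiv ℝ h) = fun x => ∑ p : Fin n × Fin n,
      (ContinuousLinearMap.toSpanSingleton ℝ
        ((EuclideanSpace.proj p.1 : E n →L[ℝ] ℝ).smulRight
          (EuclideanSpace.proj p.2 : E n →L[ℝ] ℝ))) (Hs h x p.1 p.2) :=
    funext fun x => fderiv_fderiv_eq_sum x
  have hc : ContDiff ℝ ∞ (fderiv ℝ (fderiv ℝ h)) := by
    rw [e1]
    exact ContDiff.sum fun p _ => (ContinuousLinearMap.contDiff _).comp
      (CK.contDiff_top ha fun k => hk k p.1 p.2)
  have h1 : ContDiff ℝ 1 (fderiv ℝ h) := h2.fderiv_right (m := 1) (by norm_num)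
  have hc1 : ContDiff ℝ ∞ (fderiv ℝ h) :=
    contDiff_infty_iff_fderiv.2 ⟨h1.differentiable (by simp), hc⟩
  refine ⟨contDiff_infty_iff_fderiv.2 ⟨h2.differentiable (by simp), hc1⟩, fun k hk2 => ?_⟩
  obtain ⟨l, rfl⟩ := Nat.exists_eq_add_of_le' hk2
  obtain ⟨C, hC⟩ := CK.iter_sum_bdd (n := n) Finset.univ (fun p : Fin n × Fin n =>
      (ContinuousLinearMap.toSpanSingleton ℝ
        ((EuclideanSpace.proj p.1 : E n →L[ℝ] ℝ).smulRight
          (EuclideanSpace.proj p.2 : E n →L[ℝ] ℝ)))) (fun p x => Hs h x p.1 p.2) l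
      (fun p _ => (hk l p.1 p.2).contDiff ha) (fun p _ => (hk l p.1 p.2).iter_bdd ha)
  refine ⟨C, fun x => ?_⟩
  have e2 : l + 2 = (l + 1) + 1 := rfl
  rw [e2, ← norm_iteratedFDeriv_fderiv, ← norm_iteratedFDeriv_fderiv, e1]
  exact hC x

/-- conversely -/
theorem CK_of_nice (ha0 : 0 ≤ a) (ha1 : a ≤ 1) {h : E n → ℝ} (hn : Nice h) (k : ℕ)
    (i j : Fin n) : CK a k (fun x => Hs h x i j) := by
  have hd : ContDiff ℝ ∞ (fderiv ℝ h) := hn.smooth.fderiv_right (m := ∞) (by simp)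
  have hdd : ContDiff ℝ ∞ (fderiv ℝ (fderiv ℝ h)) := hd.fderiv_right (m := ∞) (by simp)
  have hdi : ContDiff ℝ ∞ (fun x => fderiv ℝ (fderiv ℝ h) x (ee i)) :=
    hdd.clm_apply contDiff_const
  refine CK.of_bdd ha0 ha1 (hdi.clm_apply contDiff_const) fun l => ?_
  obtain ⟨C, hC⟩ := hn.bdd (l + 2) (by omega)
  refine ⟨‖ee j‖ * (‖ee i‖ * C), fun x => ?_⟩
  have h1 := norm_iteratedFDeriv_clm_apply_const (c := ee j) (n := l) (N := ∞) (x := x)
    hdi.contDiffAt (by exact_mod_cast le_top)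
  refine h1.trans (mul_le_mul_of_nonneg_left ?_ (norm_nonneg _))
  have h2 := norm_iteratedFDeriv_clm_apply_const (c := ee i) (n := l) (N := ∞) (x := x)
    hdd.contDiffAt (by exact_mod_cast le_top)
  refine h2.trans (mul_le_mul_of_nonneg_left ?_ (norm_nonneg _))
  rw [norm_iteratedFDeriv_fderiv, norm_iteratedFDeriv_fderiv]
  exact hC x

/-- matrix inverse of an elliptic field -/
theorem CK_matInv_ell {k : ℕ} {lo hi : ℝ} {A : E n → Matrix (Fin n) (Fin n) ℝ}
    (h : ∀ i j, CK a k (fun x => A x i j)) (hlo : 0 < lo) (hA : ∀ x, Ell lo hi (A x))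
    (i j : Fin n) : CK a k (fun x => (A x)⁻¹ i j) :=
  CK.matInv (pow_pos hlo n) h
    (fun x => CK.det_lower hlo (hA x).1 fun z => ((hA x).2 z).1) i j

/-- `1 + D²v` -/
theorem CK_gm {k : ℕ} {v : E n → ℝ} (h : ∀ i j, CK a k (fun x => Hs v x i j)) (i j : Fin n) :
    CK a k (fun x => gm v x i j) := by
  refine ((CK.const k ((1 : Matrix (Fin n) (Fin n) ℝ) i j)).add (h i j)).congr fun x => ?_
  simp [gm]

/-- `τ = (1 + D²v)⁻¹` -/
theorem CK_tauf' {k : ℕ} {lo hi : ℝ} {v : E n → ℝ} (h : ∀ i j, CK a k (fun x => Hs v x i j))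
    (hlo : 0 < lo) (hE : ∀ x, Ell lo hi (gm v x)) (i j : Fin n) :
    CK a k (fun x => tauf v x i j) :=
  CK_matInv_ell (CK_gm h) hlo hE i j

/-- `τ = (1 + D²v)⁻¹` for nice `v` -/
theorem CK_tauf (ha0 : 0 ≤ a) (ha1 : a ≤ 1) {lo hi : ℝ} {v : E n → ℝ} (hv : Nice v)
    (hlo : 0 < lo) (hE : ∀ x, Ell lo hi (gm v x)) (k : ℕ) (i j : Fin n) :
    CK a k (fun x => tauf v x i j) :=
  CK_tauf' (fun i j => CK_of_nice ha0 ha1 hv k i j) hlo hE i j

end Crest.Agent.R238
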