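import Crest.Agent.R238.SoftDefs

/-! Row 238, node R0 (helper618): `Slab n` ⟹ the statement S0369 in dimension `n ≥ 1`. -/

set_option autoImplicit false
open MeasureTheory Set Filter Topology

namespace Crest.Agent.R238

section support

variable {n : ℕ}

/-- support function -/
noncomputable def hs (K : Set (EuclideanSpace ℝ (Fin n))) (u : EuclideanSpace ℝ (Fin n)) : ℝ :=
  sSup ((fun y => inner ℝ y u) '' K)

lemma hs_bdd {K : Set (EuclideanSpace ℝ (Fin n))} (hK : IsCompact K) (u : EuclideanSpace ℝ (Fin n)) :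
    BddAbove ((fun y => inner ℝ y u) '' K) :=
  (hK.image (by fun_prop)).bddAbove

lemma le_hs {K : Set (EuclideanSpace ℝ (Fin n))} (hK : IsCompact K) {x : EuclideanSpace ℝ (Fin n)}
    (hx : x ∈ K) (u : EuclideanSpace ℝ (Fin n)) : inner ℝ x u ≤ hs K u :=
  le_csSup (hs_bdd hK u) ⟨x, hx, rfl⟩

lemma abs_le_hs {K : Set (EuclideanSpace ℝ (Fin n))} (hK : IsCompact K) (hKs : ∀ x ∈ K, -x ∈ K)
    {x : EuclideanSpace ℝ (Fin n)} (hx : x ∈ K) (u : EuclideanSpace ℝ (Fin n)) :
    |inner ℝ x u| ≤ hs K u := by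
  rw [abs_le]
  constructor
  · have := le_hs hK (hKs x hx) u
    rw [inner_neg_left] at this
    linarith
  · exact le_hs hK hx u

lemma hs_sub_le {K : Set (EuclideanSpace ℝ (Fin n))} (hK : IsCompact K) (hne : K.Nonempty) {R : ℝ}
    (hR : ∀ x ∈ K, ‖x‖ ≤ R) (u v : EuclideanSpace ℝ (Fin n)) :
    hs K u ≤ hs K v + R * ‖u - v‖ := by
  apply csSup_le (hne.image _)
  rintro _ ⟨x, hx, rfl⟩
  have h1 : inner ℝ x u = inner ℝ x v + inner ℝ x (u - v) := by
    rw [inner_sub_right]; ring
  have h2 : inner ℝ x (u - v) ≤ R * ‖u - v‖ :=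
    (real_inner_le_norm x (u - v)).trans (mul_le_mul_of_nonneg_right (hR x hx) (norm_nonneg _))
  have h3 := le_hs hK hx v
  show inner ℝ x u ≤ _
  rw [h1]; linarith

lemma continuous_hs {K : Set (EuclideanSpace ℝ (Fin n))} (hK : IsCompact K) (hne : K.Nonempty) :
    Continuous (hs K) := by
  obtain ⟨R, hR⟩ := hK.isBounded.exists_norm_le
  have hR0 : 0 ≤ R := by
    obtain ⟨x, hx⟩ := hne
    exact (norm_nonneg x).trans (hR x hx)
  have : LipschitzWith ⟨R, hR0⟩ (hs K) := by
    apply LipschitzWith.of_dist_le_mul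
    intro u v
    rw [Real.dist_eq, dist_eq_norm, abs_le]
    have h1 := hs_sub_le hK hne hR u v
    have h2 := hs_sub_le hK hne hR v u
    rw [norm_sub_rev v u] at h2
    constructor
    · show -(R * ‖u - v‖) ≤ _
      linarith
    · show _ ≤ R * ‖u - v‖
      linarith
  exact this.continuous

lemma zero_mem_interior {K : Set (EuclideanSpace ℝ (Fin n))} (hKv : Convex ℝ K)
    (hKi : (interior K).Nonempty) (hKs : ∀ x ∈ K, -x ∈ K) :
    (0 : EuclideanSpace ℝ (Fin n)) ∈ interior K := by
  obtain ⟨x, hx⟩ := hKi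
  have hx' : -x ∈ K := hKs x (interior_subset hx)
  have := hKv.combo_interior_self_mem_interior hx hx' (a := 1/2) (b := 1/2) (by norm_num) (by norm_num)
    (by norm_num)
  simpa using this

lemma exists_ball_subset {K : Set (EuclideanSpace ℝ (Fin n))} (hKv : Convex ℝ K)
    (hKi : (interior K).Nonempty) (hKs : ∀ x ∈ K, -x ∈ K) :
    ∃ r : ℝ, 0 < r ∧ Metric.closedBall (0 : EuclideanSpace ℝ (Fin n)) r ⊆ K := by
  have h0 := zero_mem_interior hKv hKi hKs
  rw [mem_interior_iff_mem_nhds, Metric.nhds_basis_closedBall.mem_iff] at h0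
  exact h0

lemma hs_pos {K : Set (EuclideanSpace ℝ (Fin n))} (hK : IsCompact K) (hKv : Convex ℝ K)
    (hKi : (interior K).Nonempty) (hKs : ∀ x ∈ K, -x ∈ K) {u : EuclideanSpace ℝ (Fin n)}
    (hu : ‖u‖ = 1) : 0 < hs K u := by
  obtain ⟨r, hr, hb⟩ := exists_ball_subset hKv hKi hKs
  have hx : r • u ∈ K := hb (by
    rw [mem_closedBall_zero_iff, norm_smul, hu, mul_one, Real.norm_of_nonneg hr.le])
  have := le_hs hK hx u
  rw [inner_smul_left, real_inner_self_eq_norm_sq, hu] at this
  simp at this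
  linarith

end support

/-- Countable family of unit vectors whose first `n` elements are the standard basis, with dense range
in the sphere. -/
lemma exists_dense_seq (n : ℕ) (hn : 1 ≤ n) :
    ∃ v : ℕ → EuclideanSpace ℝ (Fin n), (∀ j, ‖v j‖ = 1) ∧
      (∀ i : Fin n, v i = EuclideanSpace.single i (1 : ℝ)) ∧
      (∀ φ : EuclideanSpace ℝ (Fin n) → ℝ, Continuous φ → (∀ j, 0 ≤ φ (v j)) →
        ∀ u, ‖u‖ = 1 → 0 ≤ φ u) := by
  have : Nonempty (Fin n) := ⟨⟨0, hn⟩⟩
  let S := Metric.sphere (0 : EuclideanSpace ℝ (Fin n)) 1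
  have : Nonempty S := ⟨⟨EuclideanSpace.single ⟨0, hn⟩ (1 : ℝ), by simp [S]⟩⟩
  let d := TopologicalSpace.denseSeq S
  have hd : DenseRange d := TopologicalSpace.denseRange_denseSeq S
  refine ⟨fun j => if h : j < n then EuclideanSpace.single ⟨j, h⟩ (1 : ℝ) else (d (j - n) : _), ?_, ?_, ?_⟩
  · intro j
    by_cases h : j < n
    · simp [h]
    · simp only [h, dif_neg, not_false_iff]
      have := (d (j - n)).2
      simpa [S] using this
  · intro i
    simp
  · intro φ hφ hj u hu
    have hcl : IsClosed {x : S | 0 ≤ φ x} := isClosed_le continuous_const (hφ.comp continuous_subtype_val)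
    have hsub : Set.range d ⊆ {x : S | 0 ≤ φ x} := by
      rintro _ ⟨j, rfl⟩
      have := hj (j + n)
      simpa using this
    have huniv : {x : S | 0 ≤ φ x} = univ := by
      have := hd.closure_eq
      have h2 := closure_minimal hsub hcl
      rw [this] at h2
      exact univ_subset_iff.mp h2
    have : (⟨u, by simpa [S] using hu⟩ : S) ∈ {x : S | 0 ≤ φ x} := by rw [huniv]; trivial
    exact this

theorem s0369_of_slab (n : ℕ) (hn : 1 ≤ n) (H : Soft.Slab n)
    (K L : Set (EuclideanSpace ℝ (Fin n)))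
    (hKc : IsCompact K) (hKv : Convex ℝ K) (hKi : (interior K).Nonempty) (hKs : ∀ x ∈ K, -x ∈ K)
    (hLc : IsCompact L) (hLv : Convex ℝ L) (hLi : (interior L).Nonempty) (hLs : ∀ x ∈ L, -x ∈ L)
    (t : ℝ) (ht0 : 0 ≤ t) (ht1 : t ≤ 1) :
    volume K ^ (1 - t) * volume L ^ t ≤
      volume (⋂ u ∈ Metric.sphere (0 : EuclideanSpace ℝ (Fin n)) 1,
        {x : EuclideanSpace ℝ (Fin n) | inner ℝ x u ≤
          sSup ((fun y => inner ℝ y u) '' K) ^ (1 - t) * sSup ((fun y => inner ℝ y u) '' L) ^ t}) := by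
  have hKne : K.Nonempty := hKi.mono interior_subset
  have hLne : L.Nonempty := hLi.mono interior_subset
  obtain ⟨v, hv1, hvb, hvd⟩ := exists_dense_seq n hn
  have hKp : ∀ j, 0 < hs K (v j) := fun j => hs_pos hKc hKv hKi hKs (hv1 j)
  have hLp : ∀ j, 0 < hs L (v j) := fun j => hs_pos hLc hLv hLi hLs (hv1 j)
  -- the decreasing family
  let W : ℕ → Set (EuclideanSpace ℝ (Fin n)) := fun m =>
    {x | ∀ l : Fin (n + m), |inner ℝ (v l) x| ≤ hs K (v l) ^ (1 - t) * hs L (v l) ^ t}
  have hWclosed : ∀ m, IsClosed (W m) := by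
    intro m
    simp only [W, Set.ofPred_forall]
    apply isClosed_iInter
    intro l
    exact isClosed_le (by fun_prop) continuous_const
  have hWanti : Antitone W := by
    intro m m' hmm x hx l
    exact hx ⟨l, by omega⟩
  have hstep : ∀ m, volume K ^ (1 - t) * volume L ^ t ≤ volume (W m) := by
    intro m
    have := H (n + m) (fun l => v l) (fun l => hs K (v l)) (fun l => hs L (v l))
      (fun l => hKp l) (fun l => hLp l) t ht0 ht1
    have hKsub : K ⊆ {x : EuclideanSpace ℝ (Fin n) | ∀ l : Fin (n + m), |inner ℝ (v l) x| ≤ hs K (v l)} := by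
      intro x hx l
      rw [real_inner_comm]
      exact abs_le_hs hKc hKs hx (v l)
    have hLsub : L ⊆ {x : EuclideanSpace ℝ (Fin n) | ∀ l : Fin (n + m), |inner ℝ (v l) x| ≤ hs L (v l)} := by
      intro x hx l
      rw [real_inner_comm]
      exact abs_le_hs hLc hLs hx (v l)
    exact le_trans (mul_le_mul' (ENNReal.rpow_le_rpow (measure_mono hKsub) (by linarith))
      (ENNReal.rpow_le_rpow (measure_mono hLsub) ht0)) this
  have hfin : volume (W 0) ≠ ⊤ := by
    have hbdd : Bornology.IsBounded (W 0) := by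
      set C : ℝ := ∑ i : Fin n, hs K (v i) ^ (1 - t) * hs L (v i) ^ t with hC
      rw [Metric.isBounded_iff_subset_closedBall (0 : EuclideanSpace ℝ (Fin n))]
      refine ⟨C, fun x hx => ?_⟩
      rw [mem_closedBall_zero_iff]
      have hx' : ∀ i : Fin n, |x i| ≤ hs K (v i) ^ (1 - t) * hs L (v i) ^ t := by
        intro i
        have h := hx ⟨i, by omega⟩
        simp only at h
        rw [hvb i] at h ⊢
        simpa [EuclideanSpace.inner_single_left] using h
      calc ‖x‖ = ‖∑ i : Fin n, (x i) • (EuclideanSpace.single i (1 : ℝ))‖ := by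
            congr 1
            ext j
            simp [Finset.sum_apply, Pi.single_apply]
        _ ≤ ∑ i : Fin n, ‖(x i) • (EuclideanSpace.single i (1 : ℝ) : EuclideanSpace ℝ (Fin n))‖ := norm_sum_le _ _
        _ ≤ C := by
            rw [hC]
            apply Finset.sum_le_sum
            intro i _
            rw [norm_smul]
            simpa using hx' i
    exact hbdd.measure_lt_top.ne
  have hinter : volume (⋂ m, W m) = ⨅ m, volume (W m) :=
    hWanti.measure_iInter (fun m => (hWclosed m).measurableSet.nullMeasurableSet) ⟨0, hfin⟩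
  have hsub : (⋂ m, W m) ⊆ (⋂ u ∈ Metric.sphere (0 : EuclideanSpace ℝ (Fin n)) 1,
        {x : EuclideanSpace ℝ (Fin n) | inner ℝ x u ≤
          sSup ((fun y => inner ℝ y u) '' K) ^ (1 - t) * sSup ((fun y => inner ℝ y u) '' L) ^ t}) := by
    intro x hx
    rw [mem_iInter] at hx
    simp only [mem_iInter, Set.mem_ofPred_eq]
    intro u hu
    have hu1 : ‖u‖ = 1 := by simpa using hu
    have hφ : Continuous (fun u => hs K u ^ (1 - t) * hs L u ^ t - inner ℝ x u) := by
      apply Continuous.sub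
      · apply Continuous.mul
        · exact (continuous_hs hKc hKne).rpow_const (fun _ => Or.inr (by linarith))
        · exact (continuous_hs hLc hLne).rpow_const (fun _ => Or.inr ht0)
      · fun_prop
    have := hvd _ hφ (fun j => by
      have := hx j ⟨j, by omega⟩
      have h2 := (abs_le.mp this).2
      rw [real_inner_comm] at h2
      simp only at h2
      linarith) u hu1
    show inner ℝ x u ≤ hs K u ^ (1 - t) * hs L u ^ t
    linarith
  calc volume K ^ (1 - t) * volume L ^ t ≤ ⨅ m, volume (W m) := le_iInf hstep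
    _ = volume (⋂ m, W m) := hinter.symm
    _ ≤ _ := measure_mono hsub

end Crest.Agent.R238
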