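import Crest.Agent.R238.SoftDefs

/-! Row 238, R2: LocEps => Conc (two derivatives under the integral sign). (helper14) -/

set_option autoImplicit false
open scoped ContDiff Topology
open Set Filter MeasureTheory

noncomputable section

namespace Crest.Agent.R238.Soft

/-! ### walls -/

theorem Wall.diff {φ : ℝ → ℝ} (h : Wall φ) : Differentiable ℝ φ :=
  h.smooth.differentiable (by simp)

theorem Wall.contDiff_deriv {φ : ℝ → ℝ} (h : Wall φ) : ContDiff ℝ ∞ (deriv φ) :=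
  (contDiff_infty_iff_deriv.1 h.smooth).2

theorem Wall.contDiff_deriv2 {φ : ℝ → ℝ} (h : Wall φ) : ContDiff ℝ ∞ (deriv (deriv φ)) :=
  (contDiff_infty_iff_deriv.1 h.contDiff_deriv).2

theorem Wall.diff1 {φ : ℝ → ℝ} (h : Wall φ) : Differentiable ℝ (deriv φ) :=
  h.contDiff_deriv.differentiable (by simp)

theorem Wall.cont {φ : ℝ → ℝ} (h : Wall φ) : Continuous φ := h.smooth.continuous
theorem Wall.cont1 {φ : ℝ → ℝ} (h : Wall φ) : Continuous (deriv φ) := h.contDiff_deriv.continuous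
theorem Wall.cont2 {φ : ℝ → ℝ} (h : Wall φ) : Continuous (deriv (deriv φ)) :=
  h.contDiff_deriv2.continuous

theorem Wall.odd {φ : ℝ → ℝ} (h : Wall φ) (t : ℝ) : deriv φ (-t) = -deriv φ t := by
  have h1 : (fun t => φ (-t)) = φ := funext h.even
  have h2 := deriv_comp_neg φ t
  rw [h1] at h2
  linarith

theorem Wall.deriv_zero {φ : ℝ → ℝ} (h : Wall φ) : deriv φ 0 = 0 := by
  have := h.odd 0
  simp at this
  linarith

theorem Wall.mono_deriv {φ : ℝ → ℝ} (h : Wall φ) : Monotone (deriv φ) :=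
  monotone_of_deriv_nonneg h.diff1 h.conv

/-- the second-derivative bound, chosen nonnegative -/
theorem Wall.bdd' {φ : ℝ → ℝ} (h : Wall φ) : ∃ C, 0 ≤ C ∧ ∀ t, |deriv (deriv φ) t| ≤ C := by
  obtain ⟨C, hC⟩ := h.bdd
  exact ⟨C, (h.conv 0).trans (hC 0), fun t => by rw [abs_of_nonneg (h.conv t)]; exact hC t⟩

theorem Wall.deriv_le {φ : ℝ → ℝ} (h : Wall φ) {C : ℝ} (hC : ∀ t, |deriv (deriv φ) t| ≤ C)
    (t : ℝ) : |deriv φ t| ≤ C * |t| := by
  have := Convex.norm_image_sub_le_of_norm_deriv_le (f := deriv φ) (C := C) (s := univ) (x := 0)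
    (y := t) (fun x _ => h.diff1 x) (fun x _ => by simpa using hC x) convex_univ (mem_univ _)
    (mem_univ _)
  simpa [h.deriv_zero] using this

theorem Wall.ge_zero {φ : ℝ → ℝ} (h : Wall φ) (t : ℝ) : φ 0 ≤ φ t := by
  rcases le_total 0 t with ht | ht
  · have hm : MonotoneOn φ (Ici 0) := by
      apply monotoneOn_of_deriv_nonneg (convex_Ici 0) h.cont.continuousOn h.diff.differentiableOn
      intro x hx
      rw [interior_Ici] at hx
      have := h.mono_deriv (le_of_lt hx)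
      rwa [h.deriv_zero] at this
    exact hm (mem_Ici.2 le_rfl) (mem_Ici.2 ht) ht
  · have hm : AntitoneOn φ (Iic 0) := by
      apply antitoneOn_of_deriv_nonpos (convex_Iic 0) h.cont.continuousOn h.diff.differentiableOn
      intro x hx
      rw [interior_Iic] at hx
      have := h.mono_deriv (le_of_lt hx)
      rwa [h.deriv_zero] at this
    exact hm (mem_Iic.2 ht) (mem_Iic.2 le_rfl) ht

theorem deriv_dil {φ : ℝ → ℝ} (h : Wall φ) (c : ℝ) :
    deriv (fun t => φ (c * t)) = fun t => c * deriv φ (c * t) := by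
  funext t
  have := deriv_comp_mul_left c φ t
  simpa [smul_eq_mul] using this

theorem deriv2_dil {φ : ℝ → ℝ} (h : Wall φ) (c : ℝ) :
    deriv (deriv (fun t => φ (c * t))) = fun t => c ^ 2 * deriv (deriv φ) (c * t) := by
  rw [deriv_dil h c]
  funext t
  have h1 := deriv_comp_mul_left c (deriv φ) t
  rw [smul_eq_mul] at h1
  rw [deriv_const_mul_field, h1]
  ring

theorem Wall.dil {φ : ℝ → ℝ} (h : Wall φ) (c : ℝ) : Wall (fun t => φ (c * t)) where
  smooth := h.smooth.comp (contDiff_const.mul contDiff_id)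
  even t := by
    have := h.even (c * t)
    simpa [mul_neg] using this
  conv t := by
    rw [deriv2_dil h c]
    exact mul_nonneg (sq_nonneg _) (h.conv _)
  bdd := by
    obtain ⟨C, hC0, hC⟩ := h.bdd'
    refine ⟨c ^ 2 * C, fun t => ?_⟩
    rw [deriv2_dil h c]
    exact mul_le_mul_of_nonneg_left ((le_abs_self _).trans (hC _)) (sq_nonneg _)

/-! ### the path -/

variable {n m : ℕ}

/-- `τ_k(s,x)` -/
def tk (ν : Fin m → E n) (r : Fin m → ℝ) (k : Fin m) (s : ℝ) (x : E n) : ℝ :=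
  Real.exp (-(s * r k)) * inner ℝ (ν k) x

def Us (ν : Fin m → E n) (φ : Fin m → ℝ → ℝ) (r : Fin m → ℝ) (ε : ℝ) (s : ℝ) (x : E n) : ℝ :=
  ε * ‖x‖ ^ 2 / 2 + ∑ k, φ k (tk ν r k s x)

def Fs (ν : Fin m → E n) (φ : Fin m → ℝ → ℝ) (r : Fin m → ℝ) (s : ℝ) (x : E n) : ℝ :=
  ∑ k, r k * (tk ν r k s x * deriv (φ k) (tk ν r k s x))

def Ns (ν : Fin m → E n) (φ : Fin m → ℝ → ℝ) (r : Fin m → ℝ) (s : ℝ) (x : E n) : ℝ :=
  ∑ k, r k ^ 2 * (tk ν r k s x * deriv (φ k) (tk ν r k s x)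
    + tk ν r k s x ^ 2 * deriv (deriv (φ k)) (tk ν r k s x))

theorem hasDerivAt_tk (ν : Fin m → E n) (r : Fin m → ℝ) (k : Fin m) (s : ℝ) (x : E n) :
    HasDerivAt (fun s => tk ν r k s x) (-(r k) * tk ν r k s x) s := by
  unfold tk
  have h1 : HasDerivAt (fun s : ℝ => -(s * r k)) (-(1 * r k)) s :=
    ((hasDerivAt_id' s).mul_const (r k)).fun_neg
  have h2 := (h1.exp).mul_const (inner ℝ (ν k) x)
  exact h2.congr_deriv (by ring)

theorem hasDerivAt_Us {φ : Fin m → ℝ → ℝ} (hw : ∀ k, Wall (φ k)) (ν : Fin m → E n)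
    (r : Fin m → ℝ) (ε s : ℝ) (x : E n) :
    HasDerivAt (fun s => Us ν φ r ε s x) (-Fs ν φ r s x) s := by
  unfold Us Fs
  have h1 : ∀ k ∈ Finset.univ, HasDerivAt (fun s => φ k (tk ν r k s x))
      (deriv (φ k) (tk ν r k s x) * (-(r k) * tk ν r k s x)) s := fun k _ =>
    ((hw k).diff _).hasDerivAt.comp s (hasDerivAt_tk ν r k s x)
  have h2 := (HasDerivAt.fun_sum h1).const_add (ε * ‖x‖ ^ 2 / 2)
  refine h2.congr_deriv ?_
  rw [← Finset.sum_neg_distrib]
  refine Finset.sum_congr rfl fun k _ => ?_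
  ring

theorem hasDerivAt_Fs {φ : Fin m → ℝ → ℝ} (hw : ∀ k, Wall (φ k)) (ν : Fin m → E n)
    (r : Fin m → ℝ) (s : ℝ) (x : E n) :
    HasDerivAt (fun s => Fs ν φ r s x) (-Ns ν φ r s x) s := by
  unfold Ns Fs
  have h1 : ∀ k ∈ Finset.univ, HasDerivAt (fun s => r k * (tk ν r k s x * deriv (φ k) (tk ν r k s x)))
      (r k * ((-(r k) * tk ν r k s x) * deriv (φ k) (tk ν r k s x) + tk ν r k s x *
        (deriv (deriv (φ k)) (tk ν r k s x) * (-(r k) * tk ν r k s x)))) s := fun k _ =>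
    ((hasDerivAt_tk ν r k s x).mul
      (((hw k).diff1 _).hasDerivAt.comp s (hasDerivAt_tk ν r k s x))).const_mul (r k)
  have h2 := (HasDerivAt.fun_sum h1)
  refine h2.congr_deriv ?_
  rw [← Finset.sum_neg_distrib]
  refine Finset.sum_congr rfl fun k _ => ?_
  ring

theorem continuous_tk (ν : Fin m → E n) (r : Fin m → ℝ) (k : Fin m) (s : ℝ) :
    Continuous (tk ν r k s) := by
  unfold tk; fun_prop

theorem continuous_Us {φ : Fin m → ℝ → ℝ} (hw : ∀ k, Wall (φ k)) (ν : Fin m → E n)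
    (r : Fin m → ℝ) (ε s : ℝ) : Continuous (Us ν φ r ε s) := by
  unfold Us
  have := fun k => ((hw k).cont).comp (continuous_tk ν r k s)
  refine Continuous.add (by fun_prop) (continuous_finsetSum _ fun k _ => this k)

theorem continuous_Fs {φ : Fin m → ℝ → ℝ} (hw : ∀ k, Wall (φ k)) (ν : Fin m → E n)
    (r : Fin m → ℝ) (s : ℝ) : Continuous (Fs ν φ r s) := by
  unfold Fs
  have := fun k => ((hw k).cont1).comp (continuous_tk ν r k s)
  exact continuous_finsetSum _ fun k _ => continuous_const.mul ((continuous_tk ν r k s).mul (this k))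

theorem continuous_Ns {φ : Fin m → ℝ → ℝ} (hw : ∀ k, Wall (φ k)) (ν : Fin m → E n)
    (r : Fin m → ℝ) (s : ℝ) : Continuous (Ns ν φ r s) := by
  unfold Ns
  have h1 := fun k => ((hw k).cont1).comp (continuous_tk ν r k s)
  have h2 := fun k => ((hw k).cont2).comp (continuous_tk ν r k s)
  exact continuous_finsetSum _ fun k _ => continuous_const.mul
    (((continuous_tk ν r k s).mul (h1 k)).add (((continuous_tk ν r k s).pow 2).mul (h2 k)))

theorem tk_le (ν : Fin m → E n) (r : Fin m → ℝ) (S : ℝ) : ∃ A, 0 ≤ A ∧ ∀ k s x, |s| ≤ S →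
    |tk ν r k s x| ≤ A * ‖x‖ := by
  refine ⟨∑ k, Real.exp (S * |r k|) * ‖ν k‖, by positivity, fun k s x hs => ?_⟩
  unfold tk
  rw [abs_mul, Real.abs_exp]
  have h1 : Real.exp (-(s * r k)) ≤ Real.exp (S * |r k|) := by
    apply Real.exp_le_exp.2
    calc -(s * r k) ≤ |s * r k| := neg_le_abs _
      _ = |s| * |r k| := abs_mul _ _
      _ ≤ S * |r k| := by gcongr
  have h2 : |inner ℝ (ν k) x| ≤ ‖ν k‖ * ‖x‖ := abs_real_inner_le_norm _ _
  calc Real.exp (-(s * r k)) * |inner ℝ (ν k) x| ≤ Real.exp (S * |r k|) * (‖ν k‖ * ‖x‖) := by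
        gcongr
    _ = (Real.exp (S * |r k|) * ‖ν k‖) * ‖x‖ := by ring
    _ ≤ _ := by
        gcongr
        exact Finset.single_le_sum (f := fun k => Real.exp (S * |r k|) * ‖ν k‖)
          (fun k _ => by positivity) (Finset.mem_univ k)

theorem FN_le {φ : Fin m → ℝ → ℝ} (hw : ∀ k, Wall (φ k)) (ν : Fin m → E n)
    (r : Fin m → ℝ) (S : ℝ) : ∃ A, 0 ≤ A ∧ ∀ s x, |s| ≤ S →
    |Fs ν φ r s x| ≤ A * ‖x‖ ^ 2 ∧ |Ns ν φ r s x| ≤ A * ‖x‖ ^ 2 := by
  obtain ⟨T, hT0, hT⟩ := tk_le ν r S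
  choose C hC0 hC using fun k => (hw k).bdd'
  have key1 : ∀ k s x, |s| ≤ S → |tk ν r k s x * deriv (φ k) (tk ν r k s x)| ≤ C k * T ^ 2 * ‖x‖ ^ 2 := by
    intro k s x hs
    have h1 := (hw k).deriv_le (hC k) (tk ν r k s x)
    have h2 := hT k s x hs
    have h3 : |tk ν r k s x| ^ 2 ≤ (T * ‖x‖) ^ 2 := by gcongr
    rw [abs_mul]
    calc |tk ν r k s x| * |deriv (φ k) (tk ν r k s x)| ≤ |tk ν r k s x| * (C k * |tk ν r k s x|) := by
          gcongr
      _ = C k * |tk ν r k s x| ^ 2 := by ring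
      _ ≤ C k * (T * ‖x‖) ^ 2 := mul_le_mul_of_nonneg_left h3 (hC0 k)
      _ = _ := by ring
  have key2 : ∀ k s x, |s| ≤ S → |tk ν r k s x ^ 2 * deriv (deriv (φ k)) (tk ν r k s x)|
      ≤ C k * T ^ 2 * ‖x‖ ^ 2 := by
    intro k s x hs
    have h1 := hC k (tk ν r k s x)
    have h2 := hT k s x hs
    have h3 : |tk ν r k s x| ^ 2 ≤ (T * ‖x‖) ^ 2 := by gcongr
    rw [abs_mul, abs_pow]
    calc |tk ν r k s x| ^ 2 * |deriv (deriv (φ k)) (tk ν r k s x)| ≤ (T * ‖x‖) ^ 2 * C k := by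
          gcongr
      _ = _ := by ring
  refine ⟨∑ k, (|r k| + 2 * r k ^ 2) * (C k * T ^ 2),
    Finset.sum_nonneg fun k _ => mul_nonneg (by positivity) (mul_nonneg (hC0 k) (by positivity)), fun s x hs => ⟨?_, ?_⟩⟩
  · unfold Fs
    refine (Finset.abs_sum_le_sum_abs _ _).trans ?_
    rw [Finset.sum_mul]
    refine Finset.sum_le_sum fun k _ => ?_
    rw [abs_mul]
    have h0 : 0 ≤ C k * T ^ 2 := mul_nonneg (hC0 k) (by positivity)
    calc |r k| * |tk ν r k s x * deriv (φ k) (tk ν r k s x)| ≤ |r k| * (C k * T ^ 2 * ‖x‖ ^ 2) := by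
          gcongr; exact key1 k s x hs
      _ = |r k| * (C k * T ^ 2) * ‖x‖ ^ 2 := by ring
      _ ≤ _ := by
          have : 0 ≤ 2 * r k ^ 2 := by positivity
          gcongr
          linarith
  · unfold Ns
    refine (Finset.abs_sum_le_sum_abs _ _).trans ?_
    rw [Finset.sum_mul]
    refine Finset.sum_le_sum fun k _ => ?_
    rw [abs_mul]
    have h0 : 0 ≤ C k * T ^ 2 := mul_nonneg (hC0 k) (by positivity)
    have h3 := abs_add_le (tk ν r k s x * deriv (φ k) (tk ν r k s x))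
      (tk ν r k s x ^ 2 * deriv (deriv (φ k)) (tk ν r k s x))
    have h4 := key1 k s x hs
    have h5 := key2 k s x hs
    rw [abs_of_nonneg (sq_nonneg (r k))]
    calc r k ^ 2 * |tk ν r k s x * deriv (φ k) (tk ν r k s x)
          + tk ν r k s x ^ 2 * deriv (deriv (φ k)) (tk ν r k s x)|
        ≤ r k ^ 2 * (2 * (C k * T ^ 2 * ‖x‖ ^ 2)) := by
          gcongr; linarith
      _ = 2 * r k ^ 2 * (C k * T ^ 2) * ‖x‖ ^ 2 := by ring
      _ ≤ _ := by
          have : 0 ≤ |r k| := abs_nonneg _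
          gcongr
          linarith

theorem exp_neg_Us_le {φ : Fin m → ℝ → ℝ} (hw : ∀ k, Wall (φ k)) (ν : Fin m → E n)
    (r : Fin m → ℝ) (ε s : ℝ) (x : E n) :
    Real.exp (-Us ν φ r ε s x) ≤ Real.exp (-∑ k, φ k 0) * Real.exp (-(ε / 2) * ‖x‖ ^ 2) := by
  rw [← Real.exp_add]
  apply Real.exp_le_exp.2
  unfold Us
  have : ∑ k, φ k 0 ≤ ∑ k, φ k (tk ν r k s x) := Finset.sum_le_sum fun k _ => (hw k).ge_zero _
  linarith

theorem integrable_gauss {b : ℝ} (hb : 0 < b) : Integrable (fun x : E n => Real.exp (-b * ‖x‖ ^ 2)) := by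
  have h := (GaussianFourier.integrable_cexp_neg_mul_sq_norm_add (b := (b : ℂ)) (V := E n)
    (by simpa using hb) 0 0).re
  refine h.congr (Eventually.of_forall fun x => ?_)
  have : (-(b : ℂ) * ‖x‖ ^ 2 + 0 * (inner ℝ (0 : E n) x : ℝ)) = ((-b * ‖x‖ ^ 2 : ℝ) : ℂ) := by
    push_cast; ring
  simp only [this]
  exact Complex.exp_ofReal_re _

/-- `t^j exp(-ε t²/2) ≤ D exp(-ε t²/4)` for `j = 2, 4` (sum form) -/
theorem poly_exp_le {ε : ℝ} (hε : 0 < ε) : ∃ D, 0 ≤ D ∧ ∀ q : ℝ, 0 ≤ q →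
    (1 + q + q ^ 2) * Real.exp (-(ε / 2) * q) ≤ D * Real.exp (-(ε / 4) * q) := by
  refine ⟨1 + 4 / ε + 2 * (4 / ε) ^ 2, by positivity, fun q hq => ?_⟩
  have h1 : Real.exp (-(ε / 2) * q) = Real.exp (-(ε / 4) * q) * Real.exp (-(ε / 4) * q) := by
    rw [← Real.exp_add]; ring_nf
  rw [h1, ← mul_assoc]
  refine mul_le_mul_of_nonneg_right ?_ (Real.exp_pos _).le
  set y := ε / 4 * q with hy
  have hy0 : 0 ≤ y := by positivity
  have hq' : q = 4 / ε * y := by rw [hy]; field_simp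
  have h2 : Real.exp (-(ε / 4) * q) = (Real.exp y)⁻¹ := by
    rw [← Real.exp_neg]; congr 1; rw [hy]; ring
  rw [h2, ← div_eq_mul_inv, div_le_iff₀ (Real.exp_pos _)]
  have e1 : 1 + y + y ^ 2 / 2 ≤ Real.exp y := Real.quadratic_le_exp_of_nonneg hy0
  have e2 : 1 ≤ Real.exp y := Real.one_le_exp hy0
  have e3 : y ≤ Real.exp y := by nlinarith
  have e4 : y ^ 2 ≤ 2 * Real.exp y := by nlinarith
  have p1 : 0 < 4 / ε := by positivity
  calc 1 + q + q ^ 2 = 1 + 4 / ε * y + (4 / ε) ^ 2 * y ^ 2 := by rw [hq']; ring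
    _ ≤ Real.exp y + 4 / ε * Real.exp y + (4 / ε) ^ 2 * (2 * Real.exp y) := by gcongr
    _ = _ := by ring

/-- domination of all integrands -/
theorem dom {φ : Fin m → ℝ → ℝ} (hw : ∀ k, Wall (φ k)) (ν : Fin m → E n)
    (r : Fin m → ℝ) {ε : ℝ} (hε : 0 < ε) (S : ℝ) : ∃ bd : E n → ℝ, Integrable bd ∧
    ∀ s x, |s| ≤ S → ‖Real.exp (-Us ν φ r ε s x)‖ ≤ bd x ∧
      ‖Fs ν φ r s x * Real.exp (-Us ν φ r ε s x)‖ ≤ bd x ∧
      ‖(Fs ν φ r s x ^ 2 - Ns ν φ r s x) * Real.exp (-Us ν φ r ε s x)‖ ≤ bd x ∧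
      ‖Fs ν φ r s x ^ 2 * Real.exp (-Us ν φ r ε s x)‖ ≤ bd x ∧
      ‖Ns ν φ r s x * Real.exp (-Us ν φ r ε s x)‖ ≤ bd x := by
  obtain ⟨A, hA0, hA⟩ := FN_le hw ν r S
  obtain ⟨D, hD0, hD⟩ := poly_exp_le hε
  set K := Real.exp (-∑ k, φ k 0) with hK
  have hK0 : 0 < K := Real.exp_pos _
  refine ⟨fun x => (1 + A + A ^ 2) * K * D * Real.exp (-(ε / 4) * ‖x‖ ^ 2),
    (integrable_gauss (by positivity)).const_mul _, fun s x hs => ?_⟩
  have hF := (hA s x hs).1
  have hN := (hA s x hs).2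
  have hE := exp_neg_Us_le hw ν r ε s x
  set e := Real.exp (-Us ν φ r ε s x) with he
  have he0 : 0 < e := Real.exp_pos _
  set q := ‖x‖ ^ 2 with hq
  have hq0 : 0 ≤ q := by positivity
  have main : ∀ g : ℝ, |g| ≤ (1 + A + A ^ 2) * (1 + q + q ^ 2) →
      ‖g * e‖ ≤ (1 + A + A ^ 2) * K * D * Real.exp (-(ε / 4) * q) := by
    intro g hg
    rw [norm_mul, Real.norm_eq_abs, Real.norm_eq_abs, abs_of_pos he0]
    have h1 := hD q hq0
    calc |g| * e ≤ ((1 + A + A ^ 2) * (1 + q + q ^ 2)) * (K * Real.exp (-(ε / 2) * q)) := by gcongr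
      _ = (1 + A + A ^ 2) * K * ((1 + q + q ^ 2) * Real.exp (-(ε / 2) * q)) := by ring
      _ ≤ (1 + A + A ^ 2) * K * (D * Real.exp (-(ε / 4) * q)) := by gcongr
      _ = _ := by ring
  have hF2 : |Fs ν φ r s x ^ 2| ≤ A ^ 2 * q ^ 2 := by
    rw [abs_pow]
    calc |Fs ν φ r s x| ^ 2 ≤ (A * q) ^ 2 := by gcongr
      _ = _ := by ring
  have z1 : 0 ≤ A * q := by positivity
  have z2 : 0 ≤ A ^ 2 * q ^ 2 := by positivity
  have z3 : 0 ≤ A ^ 2 * q := by positivity
  have z4 : 0 ≤ A * q ^ 2 := by positivity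
  have z5 : 0 ≤ A ^ 2 := by positivity
  have z6 : 0 ≤ q ^ 2 := by positivity
  refine ⟨?_, main _ ?_, main _ ?_, main _ ?_, main _ ?_⟩
  · have := main 1 (by rw [abs_one]; nlinarith)
    simpa using this
  · nlinarith
  · have := abs_sub (Fs ν φ r s x ^ 2) (Ns ν φ r s x)
    nlinarith
  · nlinarith
  · nlinarith

theorem conc_of_locEps (h : LocEps n) : Conc n := by
  intro m ν φ r ε hε hw
  -- rewrite the integrand
  have hU : ∀ s x, ε * ‖x‖ ^ 2 / 2 + Hw ν (fun k t => φ k (Real.exp (-(s * r k)) * t)) x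
      = Us ν φ r ε s x := fun s x => rfl
  simp only [hU]
  set Z : ℝ → ℝ := fun s => ∫ x : E n, Real.exp (-Us ν φ r ε s x) with hZ
  set Z1 : ℝ → ℝ := fun s => ∫ x : E n, Fs ν φ r s x * Real.exp (-Us ν φ r ε s x) with hZ1
  set Z2 : ℝ → ℝ := fun s => ∫ x : E n, (Fs ν φ r s x ^ 2 - Ns ν φ r s x)
    * Real.exp (-Us ν φ r ε s x) with hZ2
  have cE : ∀ s, Continuous fun x : E n => Real.exp (-Us ν φ r ε s x) := fun s =>
    Real.continuous_exp.comp (continuous_Us hw ν r ε s).neg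
  have cF : ∀ s, Continuous fun x : E n => Fs ν φ r s x * Real.exp (-Us ν φ r ε s x) := fun s =>
    (continuous_Fs hw ν r s).mul (cE s)
  have cG : ∀ s, Continuous fun x : E n => (Fs ν φ r s x ^ 2 - Ns ν φ r s x)
      * Real.exp (-Us ν φ r ε s x) := fun s =>
    (((continuous_Fs hw ν r s).pow 2).sub (continuous_Ns hw ν r s)).mul (cE s)
  have dE : ∀ s x, HasDerivAt (fun s => Real.exp (-Us ν φ r ε s x))
      (Fs ν φ r s x * Real.exp (-Us ν φ r ε s x)) s := by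
    intro s x
    have := (hasDerivAt_Us hw ν r ε s x).fun_neg.exp
    refine this.congr_deriv ?_
    ring
  have dF : ∀ s x, HasDerivAt (fun s => Fs ν φ r s x * Real.exp (-Us ν φ r ε s x))
      ((Fs ν φ r s x ^ 2 - Ns ν φ r s x) * Real.exp (-Us ν φ r ε s x)) s := by
    intro s x
    have := (hasDerivAt_Fs hw ν r s x).fun_mul (dE s x)
    refine this.congr_deriv ?_
    ring
  have int0 : ∀ s, Integrable fun x : E n => Real.exp (-Us ν φ r ε s x) := by
    intro s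
    obtain ⟨bd, hbd, hb⟩ := dom hw ν r hε |s|
    exact hbd.mono' (cE s).aestronglyMeasurable (Eventually.of_forall fun x => (hb s x le_rfl).1)
  have int1 : ∀ s, Integrable fun x : E n => Fs ν φ r s x * Real.exp (-Us ν φ r ε s x) := by
    intro s
    obtain ⟨bd, hbd, hb⟩ := dom hw ν r hε |s|
    exact hbd.mono' (cF s).aestronglyMeasurable (Eventually.of_forall fun x => (hb s x le_rfl).2.1)
  have hd1 : ∀ s, HasDerivAt Z (Z1 s) s := by
    intro s
    obtain ⟨bd, hbd, hb⟩ := dom hw ν r hε (|s| + 1)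
    refine (hasDerivAt_integral_of_dominated_loc_of_deriv_le (s := Metric.ball s 1)
      (Metric.ball_mem_nhds s one_pos) (Eventually.of_forall fun t => (cE t).aestronglyMeasurable)
      (int0 s) (cF s).aestronglyMeasurable (Eventually.of_forall fun x t ht => ?_) hbd
      (Eventually.of_forall fun x t _ => dE t x)).2
    refine (hb t x ?_).2.1
    rw [Metric.mem_ball, Real.dist_eq] at ht
    have := abs_sub_abs_le_abs_sub t s
    linarith
  have hd2 : ∀ s, HasDerivAt Z1 (Z2 s) s := by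
    intro s
    obtain ⟨bd, hbd, hb⟩ := dom hw ν r hε (|s| + 1)
    refine (hasDerivAt_integral_of_dominated_loc_of_deriv_le (s := Metric.ball s 1)
      (Metric.ball_mem_nhds s one_pos) (Eventually.of_forall fun t => (cF t).aestronglyMeasurable)
      (int1 s) (cG s).aestronglyMeasurable (Eventually.of_forall fun x t ht => ?_) hbd
      (Eventually.of_forall fun x t _ => dF t x)).2
    refine (hb t x ?_).2.2.1
    rw [Metric.mem_ball, Real.dist_eq] at ht
    have := abs_sub_abs_le_abs_sub t s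
    linarith
  have Zpos : ∀ s, 0 < Z s := by
    intro s
    exact integral_exp_pos (int0 s)
  have hL : ∀ s, HasDerivAt (fun s => Real.log (Z s)) (Z1 s / Z s) s := fun s =>
    (hd1 s).log (Zpos s).ne'
  have hL2 : ∀ s, HasDerivAt (fun s => Z1 s / Z s) ((Z2 s * Z s - Z1 s * Z1 s) / Z s ^ 2) s :=
    fun s => (hd2 s).div (hd1 s) (Zpos s).ne'
  have hder : deriv (fun s => Real.log (Z s)) = fun s => Z1 s / Z s := funext fun s => (hL s).deriv
  refine concaveOn_univ_of_deriv2_nonpos (fun s => (hL s).differentiableAt) ?_ ?_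
  · rw [hder]
    exact fun s => (hL2 s).differentiableAt
  intro s
  have e2 : deriv^[2] (fun s => Real.log (Z s)) s = (Z2 s * Z s - Z1 s * Z1 s) / Z s ^ 2 := by
    rw [Function.iterate_succ, Function.iterate_one, Function.comp_apply, hder, (hL2 s).deriv]
  rw [e2]
  refine div_nonpos_of_nonpos_of_nonneg ?_ (sq_nonneg _)
  -- the static inequality at time `s`
  have hst := h m ν (fun k t => φ k (Real.exp (-(s * r k)) * t)) r ε hε
    (fun k => (hw k).dil _)
  unfold Static at hst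
  have ef : ∀ x, fr ν (fun k t => φ k (Real.exp (-(s * r k)) * t)) r x = Fs ν φ r s x := by
    intro x
    unfold fr Fs
    refine Finset.sum_congr rfl fun k _ => ?_
    rw [deriv_dil (hw k)]
    unfold tk
    ring
  have eN : ∀ x, Nr ν (fun k t => φ k (Real.exp (-(s * r k)) * t)) r x = Ns ν φ r s x := by
    intro x
    unfold Nr Ns
    refine Finset.sum_congr rfl fun k _ => ?_
    rw [deriv2_dil (hw k), deriv_dil (hw k)]
    unfold tk
    ring
  simp only [ef, eN, hU] at hst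
  obtain ⟨bd, hbd, hb⟩ := dom hw ν r hε |s|
  have iF2 : Integrable fun x : E n => Fs ν φ r s x ^ 2 * Real.exp (-Us ν φ r ε s x) :=
    hbd.mono' (((continuous_Fs hw ν r s).pow 2).mul (cE s)).aestronglyMeasurable
      (Eventually.of_forall fun x => (hb s x le_rfl).2.2.2.1)
  have iN : Integrable fun x : E n => Ns ν φ r s x * Real.exp (-Us ν φ r ε s x) :=
    hbd.mono' ((continuous_Ns hw ν r s).mul (cE s)).aestronglyMeasurable
      (Eventually.of_forall fun x => (hb s x le_rfl).2.2.2.2)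
  have eZ2 : Z2 s = (∫ x : E n, Fs ν φ r s x ^ 2 * Real.exp (-Us ν φ r ε s x))
      - ∫ x : E n, Ns ν φ r s x * Real.exp (-Us ν φ r ε s x) := by
    rw [← integral_sub iF2 iN]
    simp only [hZ2, sub_mul]
  rw [eZ2]
  simp only [hZ, hZ1] at *
  nlinarith [hst]

end Crest.Agent.R238.Soft
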