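import Crest.Agent.R238.SoftConc

/-! Row 238, R1: Conc => Slab (hard wall limit). (helper14) -/

set_option autoImplicit false
open scoped ContDiff Topology ENNReal
open Set Filter MeasureTheory

noncomputable section

namespace Crest.Agent.R238.Soft

/-! ### a wall vanishing exactly on `[-1,1]` -/

/-- second derivative of the wall -/
def g2 (u : ℝ) : ℝ := Real.smoothTransition (u ^ 2 - 1)
def g1 (s : ℝ) : ℝ := ∫ u in (0 : ℝ)..s, g2 u
def g0 (t : ℝ) : ℝ := ∫ s in (0 : ℝ)..t, g1 s

theorem g2_smooth : ContDiff ℝ ∞ g2 :=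
  Real.smoothTransition.contDiff.comp ((contDiff_id.pow 2).sub contDiff_const)

theorem g2_nonneg (u : ℝ) : 0 ≤ g2 u := Real.smoothTransition.nonneg _
theorem g2_le (u : ℝ) : g2 u ≤ 1 := Real.smoothTransition.le_one _
theorem g2_even (u : ℝ) : g2 (-u) = g2 u := by unfold g2; congr 1; ring
theorem g2_zero {u : ℝ} (h : |u| ≤ 1) : g2 u = 0 := by
  apply Real.smoothTransition.zero_of_nonpos
  have := sq_le_one_iff_abs_le_one u |>.2 h
  linarith
theorem g2_pos {u : ℝ} (h : 1 < |u|) : 0 < g2 u := by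
  apply Real.smoothTransition.pos_of_pos
  have := one_lt_sq_iff_one_lt_abs u |>.2 h
  linarith

theorem hasDerivAt_g1 (s : ℝ) : HasDerivAt g1 (g2 s) s :=
  intervalIntegral.integral_hasDerivAt_right (g2_smooth.continuous.intervalIntegrable _ _)
    (g2_smooth.continuous.stronglyMeasurableAtFilter _ _) g2_smooth.continuous.continuousAt

theorem deriv_g1 : deriv g1 = g2 := funext fun s => (hasDerivAt_g1 s).deriv

theorem g1_smooth : ContDiff ℝ ∞ g1 :=
  contDiff_infty_iff_deriv.2 ⟨fun s => (hasDerivAt_g1 s).differentiableAt, by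
    rw [deriv_g1]; exact g2_smooth⟩

theorem hasDerivAt_g0 (t : ℝ) : HasDerivAt g0 (g1 t) t :=
  intervalIntegral.integral_hasDerivAt_right (g1_smooth.continuous.intervalIntegrable _ _)
    (g1_smooth.continuous.stronglyMeasurableAtFilter _ _) g1_smooth.continuous.continuousAt

theorem deriv_g0 : deriv g0 = g1 := funext fun s => (hasDerivAt_g0 s).deriv

theorem g0_smooth : ContDiff ℝ ∞ g0 :=
  contDiff_infty_iff_deriv.2 ⟨fun s => (hasDerivAt_g0 s).differentiableAt, by
    rw [deriv_g0]; exact g1_smooth⟩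

theorem g1_zero : g1 0 = 0 := by simp [g1]
theorem g0_zero : g0 0 = 0 := by simp [g0]

theorem g1_odd (s : ℝ) : g1 (-s) = -g1 s := by
  unfold g1
  have h := intervalIntegral.integral_comp_neg (a := 0) (b := s) (f := g2)
  simp only [g2_even, neg_zero] at h
  rw [h, intervalIntegral.integral_symm]

theorem g0_even (t : ℝ) : g0 (-t) = g0 t := by
  unfold g0
  have h := intervalIntegral.integral_comp_neg (a := 0) (b := t) (f := g1)
  simp only [g1_odd, neg_zero, intervalIntegral.integral_neg] at h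
  have h2 : ∫ x in (-t)..0, g1 x = -∫ x in (0 : ℝ)..(-t), g1 x :=
    intervalIntegral.integral_symm _ _
  linarith

theorem wall_g0 : Wall g0 where
  smooth := g0_smooth
  even := g0_even
  conv t := by rw [deriv_g0, deriv_g1]; exact g2_nonneg t
  bdd := ⟨1, fun t => by rw [deriv_g0, deriv_g1]; exact g2_le t⟩

theorem g1_eq_zero {s : ℝ} (h : |s| ≤ 1) : g1 s = 0 := by
  unfold g1
  have key : ∫ u in (0 : ℝ)..s, g2 u = ∫ u in (0 : ℝ)..s, (0 : ℝ) := ?_
  · rw [key]; simp
  apply intervalIntegral.integral_congr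
  intro u hu
  refine g2_zero ?_
  rw [mem_uIcc] at hu
  rw [abs_le] at h ⊢
  rcases hu with hu | hu <;> constructor <;> linarith [hu.1, hu.2, h.1, h.2]

theorem g0_eq_zero {t : ℝ} (h : |t| ≤ 1) : g0 t = 0 := by
  unfold g0
  have key : ∫ u in (0 : ℝ)..t, g1 u = ∫ u in (0 : ℝ)..t, (0 : ℝ) := ?_
  · rw [key]; simp
  apply intervalIntegral.integral_congr
  intro u hu
  refine g1_eq_zero ?_
  rw [mem_uIcc] at hu
  rw [abs_le] at h ⊢
  rcases hu with hu | hu <;> constructor <;> linarith [hu.1, hu.2, h.1, h.2]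

theorem g0_nonneg (t : ℝ) : 0 ≤ g0 t := by
  have := wall_g0.ge_zero t
  rwa [g0_zero] at this

theorem g1_pos {s : ℝ} (h : 1 < s) : 0 < g1 s := by
  have hm : StrictMonoOn g1 (Ici 1) := by
    apply strictMonoOn_of_deriv_pos (convex_Ici 1) g1_smooth.continuous.continuousOn
    intro x hx
    rw [interior_Ici, mem_Ioi] at hx
    rw [deriv_g1]
    exact g2_pos (lt_of_lt_of_le hx (le_abs_self x))
  have := hm (mem_Ici.2 le_rfl) (mem_Ici.2 h.le) h
  rwa [g1_eq_zero (by simp)] at this

theorem g0_pos_of {t : ℝ} (h : 1 < t) : 0 < g0 t := by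
  have hm : StrictMonoOn g0 (Ici 1) := by
    apply strictMonoOn_of_deriv_pos (convex_Ici 1) g0_smooth.continuous.continuousOn
    intro x hx
    rw [interior_Ici, mem_Ioi] at hx
    rw [deriv_g0]
    exact g1_pos hx
  have := hm (mem_Ici.2 le_rfl) (mem_Ici.2 h.le) h
  rwa [g0_eq_zero (by simp)] at this

theorem g0_pos {t : ℝ} (h : 1 < |t|) : 0 < g0 t := by
  rcases le_total 0 t with ht | ht
  · rw [abs_of_nonneg ht] at h
    exact g0_pos_of h
  · rw [abs_of_nonpos ht] at h
    rw [← g0_even]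
    exact g0_pos_of h

theorem Wall.const_mul {φ : ℝ → ℝ} (h : Wall φ) {N : ℝ} (hN : 0 ≤ N) : Wall (fun t => N * φ t) where
  smooth := contDiff_const.mul h.smooth
  even t := by rw [h.even]
  conv t := by
    have e1 : deriv (fun t => N * φ t) = fun t => N * deriv φ t := funext fun t =>
      deriv_const_mul_field N
    rw [e1, deriv_const_mul_field]
    exact mul_nonneg hN (h.conv t)
  bdd := by
    obtain ⟨C, hC⟩ := h.bdd
    refine ⟨N * C, fun t => ?_⟩
    have e1 : deriv (fun t => N * φ t) = fun t => N * deriv φ t := funext fun t =>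
      deriv_const_mul_field N
    rw [e1, deriv_const_mul_field]
    exact mul_le_mul_of_nonneg_left (hC t) hN

variable {n m : ℕ}

/-- the slab body -/
def KK (ν : Fin m → E n) (a : Fin m → ℝ) : Set (E n) := {x | ∀ k, |inner ℝ (ν k) x| ≤ a k}

theorem isClosed_KK (ν : Fin m → E n) (a : Fin m → ℝ) : IsClosed (KK ν a) := by
  have : KK ν a = ⋂ k, {x : E n | |inner ℝ (ν k) x| ≤ a k} := by
    ext x; simp [KK]
  rw [this]
  exact isClosed_iInter fun k => isClosed_le (by fun_prop) continuous_const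

theorem volume_KK_pos (ν : Fin m → E n) {a : Fin m → ℝ} (ha : ∀ k, 0 < a k) :
    0 < volume (KK ν a) := by
  have hopen : IsOpen {x : E n | ∀ k, |inner ℝ (ν k) x| < a k} := by
    have : {x : E n | ∀ k, |inner ℝ (ν k) x| < a k} = ⋂ k, {x : E n | |inner ℝ (ν k) x| < a k} := by
      ext x; simp
    rw [this]
    exact isOpen_iInter_of_finite fun k => isOpen_lt (by fun_prop) continuous_const
  have hne : ({x : E n | ∀ k, |inner ℝ (ν k) x| < a k}).Nonempty := ⟨0, fun k => by simpa using ha k⟩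
  refine (hopen.measure_pos volume hne).trans_le (measure_mono fun x hx k => (hx k).le)

/-- hard wall limit at fixed `ε` -/
theorem tendsto_hard (ν : Fin m → E n) {a : Fin m → ℝ} (ha : ∀ k, 0 < a k) {ε : ℝ} (hε : 0 < ε) :
    Tendsto (fun N : ℕ => ∫ x : E n, Real.exp (-(ε * ‖x‖ ^ 2 / 2
      + ∑ k, (N : ℝ) * g0 (inner ℝ (ν k) x / a k)))) atTop
      (𝓝 (∫ x in KK ν a, Real.exp (-(ε * ‖x‖ ^ 2 / 2)))) := by
  rw [← integral_indicator (isClosed_KK ν a).measurableSet]
  have hc : Continuous g0 := wall_g0.cont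
  refine tendsto_integral_of_dominated_convergence (fun x => Real.exp (-(ε / 2) * ‖x‖ ^ 2))
    (fun N => ?_) (integrable_gauss (by positivity)) (fun N => Eventually.of_forall fun x => ?_)
    (Eventually.of_forall fun x => ?_)
  · refine Continuous.aestronglyMeasurable ?_
    have : ∀ k, Continuous fun x : E n => g0 (inner ℝ (ν k) x / a k) := fun k =>
      hc.comp (by fun_prop)
    fun_prop
  · rw [Real.norm_eq_abs, Real.abs_exp]
    apply Real.exp_le_exp.2
    have : 0 ≤ ∑ k, (N : ℝ) * g0 (inner ℝ (ν k) x / a k) :=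
      Finset.sum_nonneg fun k _ => mul_nonneg (Nat.cast_nonneg _) (g0_nonneg _)
    linarith
  · by_cases hx : x ∈ KK ν a
    · rw [indicator_of_mem hx]
      have : ∀ N : ℕ, Real.exp (-(ε * ‖x‖ ^ 2 / 2 + ∑ k, (N : ℝ) * g0 (inner ℝ (ν k) x / a k)))
          = Real.exp (-(ε * ‖x‖ ^ 2 / 2)) := by
        intro N
        congr 2
        have : ∑ k, (N : ℝ) * g0 (inner ℝ (ν k) x / a k) = 0 := by
          refine Finset.sum_eq_zero fun k _ => ?_
          rw [g0_eq_zero, mul_zero]
          rw [abs_div, abs_of_pos (ha k), div_le_one (ha k)]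
          exact hx k
        rw [this, add_zero]
      simp only [this]
      exact tendsto_const_nhds
    · rw [indicator_of_notMem hx]
      have : ∃ k, a k < |inner ℝ (ν k) x| := by
        by_contra h
        push Not at h
        exact hx h
      obtain ⟨k, hk⟩ := this
      have hp : 0 < g0 (inner ℝ (ν k) x / a k) := by
        apply g0_pos
        rw [abs_div, abs_of_pos (ha k), one_lt_div (ha k)]
        exact hk
      refine squeeze_zero (fun N => (Real.exp_pos _).le) (g := fun N : ℕ =>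
        Real.exp (-((N : ℝ) * g0 (inner ℝ (ν k) x / a k)))) (fun N => ?_) ?_
      · apply Real.exp_le_exp.2
        have h1 : (N : ℝ) * g0 (inner ℝ (ν k) x / a k)
            ≤ ∑ k, (N : ℝ) * g0 (inner ℝ (ν k) x / a k) :=
          Finset.single_le_sum (f := fun k => (N : ℝ) * g0 (inner ℝ (ν k) x / a k))
            (fun k _ => mul_nonneg (Nat.cast_nonneg _) (g0_nonneg _)) (Finset.mem_univ k)
        have h2 : 0 ≤ ε * ‖x‖ ^ 2 / 2 := by positivity
        linarith
      · have h3 : Tendsto (fun N : ℕ => (N : ℝ) * g0 (inner ℝ (ν k) x / a k)) atTop atTop :=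
          tendsto_natCast_atTop_atTop.atTop_mul_const hp
        exact Real.tendsto_exp_atBot.comp (tendsto_neg_atTop_atBot.comp h3)

/-- Gaussian measure of a slab body -/
def gm (ν : Fin m → E n) (a : Fin m → ℝ) (ε : ℝ) : ℝ := ∫ x in KK ν a, Real.exp (-(ε * ‖x‖ ^ 2 / 2))

theorem integrable_gm {ε : ℝ} (hε : 0 < ε) :
    Integrable (fun x : E n => Real.exp (-(ε * ‖x‖ ^ 2 / 2))) := by
  refine (integrable_gauss (n := n) (b := ε / 2) (by positivity)).congr
    (Eventually.of_forall fun x => ?_)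
  dsimp only
  congr 1; ring

theorem gm_pos (ν : Fin m → E n) {a : Fin m → ℝ} (ha : ∀ k, 0 < a k) {ε : ℝ} (hε : 0 < ε) :
    0 < gm ν a ε := by
  unfold gm
  rw [setIntegral_pos_iff_support_of_nonneg_ae]
  · have : Function.support (fun x : E n => Real.exp (-(ε * ‖x‖ ^ 2 / 2))) = univ := by
      ext x; simp [Real.exp_ne_zero]
    rw [this, univ_inter]
    exact volume_KK_pos ν ha
  · exact Eventually.of_forall fun x => (Real.exp_pos _).le
  · exact (integrable_gm hε).integrableOn

/-- interpolated half width -/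
def mid (a b : Fin m → ℝ) (s : ℝ) (k : Fin m) : ℝ := a k ^ (1 - s) * b k ^ s

theorem mid_pos {a b : Fin m → ℝ} (ha : ∀ k, 0 < a k) (hb : ∀ k, 0 < b k) (s : ℝ) (k : Fin m) :
    0 < mid a b s k := mul_pos (Real.rpow_pos_of_pos (ha k) _) (Real.rpow_pos_of_pos (hb k) _)

theorem mid_inv {a b : Fin m → ℝ} (ha : ∀ k, 0 < a k) (hb : ∀ k, 0 < b k) (s : ℝ) (k : Fin m) :
    (mid a b s k)⁻¹ = Real.exp (-(s * Real.log (b k / a k))) / a k := by
  have e1 : mid a b s k = a k * Real.exp (s * Real.log (b k / a k)) := by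
    unfold mid
    rw [Real.rpow_def_of_pos (ha k), Real.rpow_def_of_pos (hb k), Real.log_div (hb k).ne' (ha k).ne']
    conv_rhs => rw [← Real.exp_log (ha k), ← Real.exp_add]
    rw [← Real.exp_add, Real.log_exp]
    congr 1; ring
  rw [e1, mul_inv, Real.exp_neg]
  field_simp

theorem gm_ineq (h : Conc n) (ν : Fin m → E n) {a b : Fin m → ℝ} (ha : ∀ k, 0 < a k)
    (hb : ∀ k, 0 < b k) {ε : ℝ} (hε : 0 < ε) {t : ℝ} (ht0 : 0 ≤ t) (ht1 : t ≤ 1) :
    gm ν a ε ^ (1 - t) * gm ν b ε ^ t ≤ gm ν (mid a b t) ε := by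
  set Z : ℕ → ℝ → ℝ := fun N s => ∫ x : E n, Real.exp (-(ε * ‖x‖ ^ 2 / 2
      + ∑ k, (N : ℝ) * g0 (inner ℝ (ν k) x / mid a b s k))) with hZ
  have hlim : ∀ s, Tendsto (fun N => Z N s) atTop (𝓝 (gm ν (mid a b s) ε)) := fun s =>
    tendsto_hard ν (mid_pos ha hb s) hε
  have m0 : mid a b 0 = a := by funext k; simp [mid]
  have m1 : mid a b 1 = b := by funext k; simp [mid]
  have l0 := hlim 0
  have l1 := hlim 1
  rw [m0] at l0
  rw [m1] at l1
  have lt := hlim t
  have hN : ∀ N : ℕ, Z N 0 ^ (1 - t) * Z N 1 ^ t ≤ Z N t := by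
    intro N
    have hw : ∀ k, Wall (fun u => (N : ℝ) * g0 ((a k)⁻¹ * u)) := fun k =>
      (wall_g0.dil _).const_mul (Nat.cast_nonneg N)
    have hc := h m ν (fun k u => (N : ℝ) * g0 ((a k)⁻¹ * u)) (fun k => Real.log (b k / a k)) ε hε hw
    have hZe : ∀ s, (∫ x : E n, Real.exp (-(ε * ‖x‖ ^ 2 / 2 + Hw ν (fun k t =>
        (fun k u => (N : ℝ) * g0 ((a k)⁻¹ * u)) k (Real.exp (-(s * Real.log (b k / a k))) * t)) x)))
        = Z N s := by
      intro s
      simp only [hZ, Hw]
      congr 1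
      funext x
      congr 2
      congr 1
      refine Finset.sum_congr rfl fun k _ => ?_
      congr 2
      rw [div_eq_mul_inv _ (mid a b s k), mid_inv ha hb]
      ring
    simp only [hZe] at hc
    have hpos : ∀ s, 0 < Z N s := by
      intro s
      have : Integrable (fun x : E n => Real.exp (-(ε * ‖x‖ ^ 2 / 2
          + ∑ k, (N : ℝ) * g0 (inner ℝ (ν k) x / mid a b s k)))) := by
        refine (integrable_gm (n := n) hε).mono' ?_ (Eventually.of_forall fun x => ?_)
        · refine Continuous.aestronglyMeasurable ?_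
          have : ∀ k, Continuous fun x : E n => g0 (inner ℝ (ν k) x / mid a b s k) := fun k =>
            wall_g0.cont.comp (by fun_prop)
          fun_prop
        · rw [Real.norm_eq_abs, Real.abs_exp]
          apply Real.exp_le_exp.2
          have : 0 ≤ ∑ k, (N : ℝ) * g0 (inner ℝ (ν k) x / mid a b s k) :=
            Finset.sum_nonneg fun k _ => mul_nonneg (Nat.cast_nonneg _) (g0_nonneg _)
          linarith
      exact integral_exp_pos this
    have h2 := hc.2 (mem_univ (0 : ℝ)) (mem_univ (1 : ℝ)) (sub_nonneg.2 ht1) ht0 (by ring)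
    simp only [smul_eq_mul, mul_zero, mul_one, zero_add] at h2
    rw [Real.rpow_def_of_pos (hpos 0), Real.rpow_def_of_pos (hpos 1), ← Real.exp_add,
      ← Real.exp_log (hpos t)]
    apply Real.exp_le_exp.2
    linarith
  refine le_of_tendsto_of_tendsto ?_ lt (Eventually.of_forall hN)
  refine Tendsto.mul ?_ ?_
  · exact l0.rpow_const (Or.inl (gm_pos ν ha hε).ne')
  · exact l1.rpow_const (Or.inl (gm_pos ν hb hε).ne')

/-- `ε → 0` -/
theorem tendsto_gm (ν : Fin m → E n) (a : Fin m → ℝ) :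
    Tendsto (fun j : ℕ => ENNReal.ofReal (gm ν a (1 / ((j : ℝ) + 1)))) atTop (𝓝 (volume (KK ν a))) := by
  have e1 : ∀ j : ℕ, ENNReal.ofReal (gm ν a (1 / ((j : ℝ) + 1)))
      = ∫⁻ x in KK ν a, ENNReal.ofReal (Real.exp (-(1 / ((j : ℝ) + 1) * ‖x‖ ^ 2 / 2))) := by
    intro j
    unfold gm
    rw [ofReal_integral_eq_lintegral_ofReal]
    · exact (integrable_gm (by positivity)).integrableOn
    · exact Eventually.of_forall fun x => (Real.exp_pos _).le
  simp only [e1]
  have e2 : volume (KK ν a) = ∫⁻ x in KK ν a, 1 := by simp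
  rw [e2]
  refine lintegral_tendsto_of_tendsto_of_monotone (fun j => ?_) (Eventually.of_forall fun x => ?_)
    (Eventually.of_forall fun x => ?_)
  · exact (ENNReal.measurable_ofReal.comp (Continuous.measurable (by fun_prop))).aemeasurable
  · intro i j hij
    apply ENNReal.ofReal_le_ofReal
    apply Real.exp_le_exp.2
    have h1 : (1 : ℝ) / ((j : ℝ) + 1) ≤ 1 / ((i : ℝ) + 1) := by
      apply one_div_le_one_div_of_le (by positivity)
      have : (i : ℝ) ≤ j := by exact_mod_cast hij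
      linarith
    have h2 : 0 ≤ ‖x‖ ^ 2 / 2 := by positivity
    nlinarith [mul_le_mul_of_nonneg_right h1 h2]
  · have h1 : Tendsto (fun j : ℕ => (1 : ℝ) / ((j : ℝ) + 1)) atTop (𝓝 0) :=
      tendsto_one_div_add_atTop_nhds_zero_nat
    have h2 : Tendsto (fun j : ℕ => Real.exp (-(1 / ((j : ℝ) + 1) * ‖x‖ ^ 2 / 2))) atTop (𝓝 1) := by
      have := Real.continuous_exp.tendsto _ |>.comp ((((h1.mul_const (‖x‖ ^ 2)).div_const 2).neg))
      simpa using! this
    have := ENNReal.tendsto_ofReal h2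
    simpa using this

theorem slab_of_conc (h : Conc n) : Slab n := by
  intro m ν a b ha hb t ht0 ht1
  show volume (KK ν a) ^ (1 - t) * volume (KK ν b) ^ t ≤ volume (KK ν (mid a b t))
  refine le_of_tendsto_of_tendsto ?_ (tendsto_gm ν (mid a b t)) (Eventually.of_forall fun j => ?_)
    (f := fun j : ℕ => ENNReal.ofReal (gm ν a (1 / ((j : ℝ) + 1))) ^ (1 - t)
      * ENNReal.ofReal (gm ν b (1 / ((j : ℝ) + 1))) ^ t)
  · refine ENNReal.Tendsto.mul ?_ ?_ ?_ ?_
    · exact (ENNReal.continuous_rpow_const.tendsto _).comp (tendsto_gm ν a)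
    · left
      exact (ENNReal.rpow_pos_of_nonneg (volume_KK_pos ν ha) (sub_nonneg.2 ht1)).ne'
    · exact (ENNReal.continuous_rpow_const.tendsto _).comp (tendsto_gm ν b)
    · left
      exact (ENNReal.rpow_pos_of_nonneg (volume_KK_pos ν hb) ht0).ne'
  · have hε : (0 : ℝ) < 1 / ((j : ℝ) + 1) := by positivity
    have := gm_ineq h ν ha hb hε ht0 ht1
    show ENNReal.ofReal (gm ν a (1 / ((j : ℝ) + 1))) ^ (1 - t)
      * ENNReal.ofReal (gm ν b (1 / ((j : ℝ) + 1))) ^ t
        ≤ ENNReal.ofReal (gm ν (mid a b t) (1 / ((j : ℝ) + 1)))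
    rw [ENNReal.ofReal_rpow_of_nonneg (gm_pos ν ha hε).le (sub_nonneg.2 ht1),
      ENNReal.ofReal_rpow_of_nonneg (gm_pos ν hb hε).le ht0, ← ENNReal.ofReal_mul
        (Real.rpow_nonneg (gm_pos ν ha hε).le _)]
    exact ENNReal.ofReal_le_ofReal this

end Crest.Agent.R238.Soft
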