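import Crest.Agent.R238.SoftTrunc
import Crest.Agent.R238.SoftConc
import Crest.Agent.R238.SoftSlab

/-! Row 238: the composed reduction `LocalIneq n → Slab n`. (helper14, helper492) -/

namespace Crest.Agent.R238.Soft

/-- LOCAL ⟹ SLAB -/
theorem slab_of_localIneq (n : ℕ) (h : LocalIneq n) : Slab n :=
  slab_of_conc (conc_of_locEps (locEps_of_localIneq n h))

end Crest.Agent.R238.Soft
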