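import Mathlib

/-! Row 238, H10 (density): the abstract Hilbert space argument. (helper892) -/

set_option autoImplicit false
open scoped Topology InnerProductSpace
open Set Filter

noncomputable section

namespace Crest.Agent.R238.Den

variable {H : Type*} [NormedAddCommGroup H] [InnerProductSpace ℝ H] [CompleteSpace H]
variable {T : Type*} [AddCommGroup T] [Module ℝ T]

/-- If `W` is in the closure of the test functions and orthogonal to `L(L+1)` of the test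
functions, then `W` is a multiple of `J one`. -/
theorem abs_const (J : T →ₗ[ℝ] H) (L : T →ₗ[ℝ] T) (A : Submodule ℝ T) (N : Submodule ℝ T)
    (one : T)
    (hsymm : ∀ a b : T, ⟪J (L a), J b⟫_ℝ = ⟪J a, J (L b)⟫_ℝ)
    (hext2 : ∀ W : H, (∀ φ ∈ A, ⟪W, J (L (L φ + φ))⟫_ℝ = 0) → ∀ f ∈ N, ⟪W, J (L (L f + f))⟫_ℝ = 0)
    (hext1 : ∀ W : H, (∀ φ ∈ A, ⟪W, J (L φ)⟫_ℝ = 0) → ∀ f ∈ N, ⟪W, J (L f)⟫_ℝ = 0)
    (hdense : ∀ f ∈ N, J f ∈ closure (J '' (A : Set T)))
    (hgap : ∃ K : ℝ, ∀ h ∈ N, ‖J h‖ ≤ K * ‖J (L h + h)‖)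
    (hiso : ∀ χ ∈ A, ∃ h ∈ N, L h + h = χ)
    (hpoi : ∃ C : ℝ, ∀ h ∈ N, ‖J h‖ ^ 2 * ‖J one‖ ^ 2 - ⟪J h, J one⟫_ℝ ^ 2
      ≤ C * (- ⟪J (L h), J h⟫_ℝ))
    (W : H) (hWc : W ∈ closure (J '' (A : Set T)))
    (hW0 : ∀ φ ∈ A, ⟪W, J (L (L φ + φ))⟫_ℝ = 0) :
    ‖W‖ ^ 2 * ‖J one‖ ^ 2 - ⟪W, J one⟫_ℝ ^ 2 ≤ 0 := by
  classical
  obtain ⟨K, hK⟩ := hgap
  obtain ⟨C, hC⟩ := hpoi
  set S : Submodule ℝ H := A.map J with hS
  have hSc : ∀ g ∈ N, J g ∈ S.topologicalClosure := by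
    intro g hg
    have := hdense g hg
    rw [← SetLike.mem_coe, Submodule.topologicalClosure_coe]
    simpa [hS] using this
  have hWS : W ∈ S.topologicalClosure := by
    rw [← SetLike.mem_coe, Submodule.topologicalClosure_coe]
    simpa [hS] using hWc
  have hW2 := hext2 W hW0
  have hW1 : ∀ g ∈ N, ⟪W, J (L g)⟫_ℝ = 0 := by
    refine hext1 W fun χ hχ => ?_
    obtain ⟨h, hN, hh⟩ := hiso χ hχ
    have := hW2 h hN
    rwa [hh] at this
  -- approximating sequence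
  obtain ⟨y, hy, hylim⟩ := mem_closure_iff_seq_limit.1 hWc
  choose χ hχA hχ using hy
  choose h hhN hh using fun j => hiso (χ j) (hχA j)
  have hdiff : ∀ i j, ‖J (h i) - J (h j)‖ ≤ K * ‖y i - y j‖ := by
    intro i j
    have h1 := hK (h i - h j) (N.sub_mem (hhN i) (hhN j))
    have h2 : L (h i - h j) + (h i - h j) = χ i - χ j := by
      rw [map_sub, ← hh i, ← hh j]; abel
    rw [h2, map_sub, map_sub, hχ, hχ] at h1
    exact h1
  have hcau : CauchySeq (fun j => J (h j)) := by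
    have hy' : CauchySeq y := hylim.cauchySeq
    rw [Metric.cauchySeq_iff] at hy' ⊢
    intro ε hε
    obtain ⟨M, hM⟩ := hy' (ε / (|K| + 1)) (by positivity)
    refine ⟨M, fun i hi j hj => ?_⟩
    have h3 := hM i hi j hj
    rw [dist_eq_norm] at h3 ⊢
    have h4 := hdiff i j
    have h5 : K * ‖y i - y j‖ ≤ (|K| + 1) * ‖y i - y j‖ :=
      mul_le_mul_of_nonneg_right (by linarith [le_abs_self K]) (norm_nonneg _)
    have h6 : (|K| + 1) * ‖y i - y j‖ < ε := by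
      rw [lt_div_iff₀ (by positivity)] at h3
      linarith
    linarith
  obtain ⟨W', hW'⟩ := cauchySeq_tendsto_of_complete hcau
  have hW'S : W' ∈ S.topologicalClosure :=
    (Submodule.isClosed_topologicalClosure S).mem_of_tendsto hW'
      (Eventually.of_forall fun j => hSc _ (hhN j))
  have hWW : ∀ ξ ∈ A, ⟪W', J ξ⟫_ℝ = ⟪W, J ξ⟫_ℝ := by
    intro ξ hξ
    obtain ⟨k, hkN, hk⟩ := hiso ξ hξ
    have h1 : Tendsto (fun j => ⟪J (h j), J ξ⟫_ℝ) atTop (𝓝 ⟪W', J ξ⟫_ℝ) :=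
      hW'.inner tendsto_const_nhds
    have h2 : Tendsto (fun j => ⟪y j, J k⟫_ℝ) atTop (𝓝 ⟪W, J k⟫_ℝ) :=
      hylim.inner tendsto_const_nhds
    have h3 : ∀ j, ⟪J (h j), J ξ⟫_ℝ = ⟪y j, J k⟫_ℝ := by
      intro j
      rw [← hk, map_add, inner_add_right, ← hsymm, ← inner_add_left, ← map_add, hh, hχ]
    simp only [h3] at h1
    have h4 := tendsto_nhds_unique h1 h2
    rw [h4]
    have h5 := hW1 k hkN
    rw [← hk, map_add, inner_add_right, h5, zero_add]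
  have hWeq : W' = W := by
    have h1 : W' - W ∈ S.topologicalClosure := Submodule.sub_mem _ hW'S hWS
    have h2 : ∀ v ∈ S.topologicalClosure, ⟪v, W' - W⟫_ℝ = 0 := by
      intro v hv
      have hcl : IsClosed {v : H | ⟪v, W' - W⟫_ℝ = 0} :=
        isClosed_eq (continuous_id.inner continuous_const) continuous_const
      rw [← SetLike.mem_coe, Submodule.topologicalClosure_coe] at hv
      refine closure_minimal ?_ hcl hv
      rintro _ ⟨ξ, hξ, rfl⟩
      have := hWW ξ hξ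
      rw [real_inner_comm (J ξ) W', real_inner_comm (J ξ) W] at this
      change ⟪J ξ, W' - W⟫_ℝ = 0
      rw [inner_sub_right, this, sub_self]
    have h3 := h2 _ h1
    rw [inner_self_eq_zero, sub_eq_zero] at h3
    exact h3
  subst hWeq
  -- Poincaré
  have h1 : Tendsto (fun j => ‖J (h j)‖ ^ 2 * ‖J one‖ ^ 2 - ⟪J (h j), J one⟫_ℝ ^ 2) atTop
      (𝓝 (‖W'‖ ^ 2 * ‖J one‖ ^ 2 - ⟪W', J one⟫_ℝ ^ 2)) :=
    ((hW'.norm.pow 2).mul_const _).sub ((hW'.inner tendsto_const_nhds).pow 2)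
  have h2 : Tendsto (fun j => C * (- ⟪y j - J (h j), J (h j)⟫_ℝ)) atTop
      (𝓝 (C * (- ⟪W' - W', W'⟫_ℝ))) :=
    (((hylim.sub hW').inner hW').neg).const_mul C
  have h3 : C * (- ⟪W' - W', W'⟫_ℝ) = 0 := by simp
  rw [h3] at h2
  refine le_of_tendsto_of_tendsto' h1 h2 fun j => ?_
  have h4 := hC (h j) (hhN j)
  have h5 : J (L (h j)) = y j - J (h j) := by
    rw [← hχ, ← hh j, map_add]; abel
  rwa [h5] at h4

/-- Abstract density: every `F` in the closure of the test functions with mean zero is in the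
closure of `L(L+1)` (test functions). -/
theorem abs_density (J : T →ₗ[ℝ] H) (L : T →ₗ[ℝ] T) (A : Submodule ℝ T) (N : Submodule ℝ T)
    (one : T) (hone : L one = 0) (hone0 : J one ≠ 0)
    (hsymm : ∀ a b : T, ⟪J (L a), J b⟫_ℝ = ⟪J a, J (L b)⟫_ℝ)
    (hLA : ∀ φ ∈ A, L (L φ + φ) ∈ A)
    (hext2 : ∀ W : H, (∀ φ ∈ A, ⟪W, J (L (L φ + φ))⟫_ℝ = 0) → ∀ f ∈ N, ⟪W, J (L (L f + f))⟫_ℝ = 0)
    (hext1 : ∀ W : H, (∀ φ ∈ A, ⟪W, J (L φ)⟫_ℝ = 0) → ∀ f ∈ N, ⟪W, J (L f)⟫_ℝ = 0)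
    (hdense : ∀ f ∈ N, J f ∈ closure (J '' (A : Set T)))
    (hgap : ∃ K : ℝ, ∀ h ∈ N, ‖J h‖ ≤ K * ‖J (L h + h)‖)
    (hiso : ∀ χ ∈ A, ∃ h ∈ N, L h + h = χ)
    (hpoi : ∃ C : ℝ, ∀ h ∈ N, ‖J h‖ ^ 2 * ‖J one‖ ^ 2 - ⟪J h, J one⟫_ℝ ^ 2
      ≤ C * (- ⟪J (L h), J h⟫_ℝ))
    (F : H) (hF : F ∈ closure (J '' (A : Set T))) (hF0 : ⟪F, J one⟫_ℝ = 0) :
    F ∈ closure ((fun φ => J (L (L φ + φ))) '' (A : Set T)) := by
  classical
  set S : Submodule ℝ H := A.map J with hS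
  set G : T →ₗ[ℝ] T := L ∘ₗ (L + LinearMap.id) with hG
  have hGa : ∀ φ, G φ = L (L φ + φ) := fun φ => by simp [hG]
  set V : Submodule ℝ H := A.map (J ∘ₗ G) with hV
  have hVcoe : (V : Set H) = (fun φ => J (L (L φ + φ))) '' (A : Set T) := by
    ext z
    constructor
    · rintro ⟨φ, hφ, rfl⟩
      exact ⟨φ, hφ, by simp [hGa]⟩
    · rintro ⟨φ, hφ, rfl⟩
      exact ⟨φ, hφ, by simp [hGa]⟩
  have hVS : V.topologicalClosure ≤ S.topologicalClosure := by
    refine Submodule.topologicalClosure_minimal _ ?_ (Submodule.isClosed_topologicalClosure _)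
    rintro _ ⟨φ, hφ, rfl⟩
    refine S.le_topologicalClosure ⟨_, hLA φ hφ, by simp [hGa]⟩
  have : CompleteSpace V.topologicalClosure :=
    (Submodule.isClosed_topologicalClosure V).completeSpace_coe
  obtain ⟨p, hp, W, hW, hpW⟩ := V.topologicalClosure.exists_add_mem_mem_orthogonal F
  have hFS : F ∈ S.topologicalClosure := by
    rw [← SetLike.mem_coe, Submodule.topologicalClosure_coe]
    simpa [hS] using hF
  have hWS : W ∈ S.topologicalClosure := by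
    have : W = F - p := by rw [hpW]; abel
    rw [this]
    exact Submodule.sub_mem _ hFS (hVS hp)
  have hWc : W ∈ closure (J '' (A : Set T)) := by
    rw [← SetLike.mem_coe, Submodule.topologicalClosure_coe] at hWS
    simpa [hS] using hWS
  have hW0 : ∀ φ ∈ A, ⟪W, J (L (L φ + φ))⟫_ℝ = 0 := by
    intro φ hφ
    have h1 : J (L (L φ + φ)) ∈ V.topologicalClosure := by
      refine V.le_topologicalClosure ⟨φ, hφ, by simp [hGa]⟩
    rw [real_inner_comm]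
    exact (Submodule.mem_orthogonal _ _).1 hW _ h1
  have hWk := abs_const J L A N one hsymm hext2 hext1 hdense hgap hiso hpoi W hWc hW0
  have hp1 : ⟪p, J one⟫_ℝ = 0 := by
    have hcl : IsClosed {v : H | ⟪v, J one⟫_ℝ = 0} :=
      isClosed_eq (continuous_id.inner continuous_const) continuous_const
    rw [← SetLike.mem_coe, Submodule.topologicalClosure_coe] at hp
    refine closure_minimal ?_ hcl hp
    rintro _ ⟨φ, -, rfl⟩
    change ⟪J (G φ), J one⟫_ℝ = 0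
    rw [hGa, hsymm, hone]; simp
  have hW1 : ⟪W, J one⟫_ℝ = 0 := by
    have : W = F - p := by rw [hpW]; abel
    rw [this, inner_sub_left, hF0, hp1, sub_self]
  rw [hW1] at hWk
  have hepos : 0 < ‖J one‖ ^ 2 := by
    have := norm_pos_iff.2 hone0
    positivity
  have hWz : W = 0 := by
    have h2 : ‖W‖ ^ 2 ≤ 0 := by
      by_contra hcon
      push Not at hcon
      have := mul_pos hcon hepos
      linarith
    have h3 : ‖W‖ = 0 := pow_eq_zero_iff (two_ne_zero) |>.1 (le_antisymm h2 (sq_nonneg _))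
    exact norm_eq_zero.1 h3
  rw [hWz, add_zero] at hpW
  rw [hpW, ← hVcoe]
  rw [← SetLike.mem_coe, Submodule.topologicalClosure_coe] at hp
  exact hp

end Crest.Agent.R238.Den
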