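import Crest.Agent.R238.TopAux

/-! Row 238, H10 (density): even test functions are dense in `L²(wt P)`, for even continuous
functions of quadratic growth (helper34). -/

set_option autoImplicit false
open scoped ContDiff Topology
open Set Filter MeasureTheory Function

noncomputable section

namespace Crest.Agent.R238.Den

variable {n : ℕ}

theorem wt_nonneg' (P : E n → ℝ) (x : E n) : 0 ≤ wt P x := (Real.exp_pos _).le

theorem wt_cont {P : E n → ℝ} (hP : PDat P) : Continuous (wt P) := by
  have := hP.cont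
  unfold wt
  fun_prop

theorem wt_even {P : E n → ℝ} (hP : PDat P) (x : E n) : wt P (-x) = wt P x := by
  unfold wt
  rw [norm_neg, hP.even]

/-- the measure `wt P dx` -/
def muP (P : E n → ℝ) : Measure (E n) := volume.withDensity fun x => ENNReal.ofReal (wt P x)

theorem integrable_muP {P : E n → ℝ} (hP : PDat P) {f : E n → ℝ} :
    Integrable f (muP P) ↔ Integrable (fun x => f x * wt P x) := by
  unfold muP
  rw [integrable_withDensity_iff_integrable_smul']
  · refine integrable_congr (Eventually.of_forall fun x => ?_)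
    simp only [smul_eq_mul]
    rw [ENNReal.toReal_ofReal (wt_nonneg' P x), mul_comm]
  · exact (wt_cont hP).measurable.ennreal_ofReal
  · exact Eventually.of_forall fun x => ENNReal.ofReal_lt_top

theorem integral_muP {P : E n → ℝ} (hP : PDat P) (f : E n → ℝ) :
    ∫ x, f x ∂(muP P) = ∫ x, f x * wt P x := by
  unfold muP
  rw [integral_withDensity_eq_integral_toReal_smul]
  · refine integral_congr_ae (Eventually.of_forall fun x => ?_)
    simp only [smul_eq_mul]
    rw [ENNReal.toReal_ofReal (wt_nonneg' P x), mul_comm]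
  · exact (wt_cont hP).measurable.ennreal_ofReal
  · exact Eventually.of_forall fun x => ENNReal.ofReal_lt_top

theorem finite_muP {P : E n → ℝ} (hP : PDat P) : IsFiniteMeasure (muP P) :=
  isFiniteMeasure_withDensity_ofReal hP.integrable_wt.2

theorem dense_even {P : E n → ℝ} (hP : PDat P) {f : E n → ℝ} (hf : Continuous f)
    (he : ∀ x, f (-x) = f x) {C : ℝ} (hC : ∀ x, |f x| ≤ C * (1 + ‖x‖ ^ 2)) {ε : ℝ}
    (hε : 0 < ε) : ∃ χ : E n → ℝ, Tst χ ∧ (∀ x, χ (-x) = χ x) ∧
      ∫ x, (f x - χ x) ^ 2 * wt P x ≤ ε := by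
  have := finite_muP hP
  have hC0 : 0 ≤ C := by
    have := (abs_nonneg _).trans (hC 0)
    simpa using this
  have hpg : Gap.PG f := Gap.PG.of_le (K := C) (k := 2) fun x => (hC x).trans
    (mul_le_mul_of_nonneg_left (by nlinarith [norm_nonneg x]) hC0)
  have hm : MemLp f 2 (muP P) := by
    rw [memLp_two_iff_integrable_sq hf.aestronglyMeasurable, integrable_muP hP]
    exact hP.integrable (hf.pow 2) (hpg.pow 2)
  obtain ⟨g, hg1, hg2, hg3⟩ := hm.exist_eLpNorm_sub_le (by norm_num) (by norm_num)
    (Real.sqrt_pos.2 hε)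
  have hgm : MemLp g 2 (muP P) := hg2.continuous.memLp_of_hasCompactSupport hg1
  have hgpg : Gap.PG g := Tst.pg ⟨hg2, hg1⟩
  have hI : ∫ x, (f x - g x) ^ 2 * wt P x ≤ ε := by
    rw [← integral_muP hP]
    have h1 := (hm.sub hgm).eLpNorm_eq_integral_rpow_norm (by norm_num) (by norm_num)
    rw [h1] at hg3
    have h2 := (ENNReal.ofReal_le_ofReal_iff (Real.sqrt_nonneg _)).1 hg3
    have h4 : (∫ x, ‖(f - g) x‖ ^ (2 : ENNReal).toReal ∂(muP P))
        = ∫ x, (f x - g x) ^ 2 ∂(muP P) := by
      refine integral_congr_ae (Eventually.of_forall fun x => ?_)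
      simp
    rw [h4] at h2
    have h3 : 0 ≤ ∫ x, (f x - g x) ^ 2 ∂(muP P) := integral_nonneg fun _ => sq_nonneg _
    have h5 : Real.sqrt (∫ x, (f x - g x) ^ 2 ∂(muP P)) ≤ Real.sqrt ε := by
      rw [Real.sqrt_eq_rpow]
      refine le_trans (le_of_eq ?_) h2
      norm_num
    exact (Real.sqrt_le_sqrt_iff hε.le).1 h5
  refine ⟨fun x => (g x + g (-x)) / 2, ⟨?_, ?_⟩, fun x => ?_, ?_⟩
  · exact (hg2.add (hg2.comp contDiff_neg)).div_const 2
  · have h1 : HasCompactSupport (fun x => g (-x)) :=
      hg1.comp_homeomorph (Homeomorph.neg (E n))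
    have h2 := (hg1.add h1)
    refine h2.mono fun x hx => ?_
    simp only [mem_support, ne_eq] at hx ⊢
    intro h0
    apply hx
    have : g x + g (-x) = 0 := h0
    simp [this]
  · simp only [neg_neg]; ring
  · have hint : Integrable fun x => (f x - g x) ^ 2 * wt P x :=
      hP.integrable ((hf.sub hg2.continuous).pow 2) ((hpg.sub hgpg).pow 2)
    have hint' : Integrable fun x => (f (-x) - g (-x)) ^ 2 * wt P (-x) := hint.comp_neg
    have e1 : ∫ x, (f (-x) - g (-x)) ^ 2 * wt P (-x) = ∫ x, (f x - g x) ^ 2 * wt P x :=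
      integral_neg_eq_self (fun x => (f x - g x) ^ 2 * wt P x) volume
    have h6 : ∫ x, (f x - (g x + g (-x)) / 2) ^ 2 * wt P x
        ≤ ∫ x, (1 / 2 * ((f x - g x) ^ 2 * wt P x)
          + 1 / 2 * ((f (-x) - g (-x)) ^ 2 * wt P (-x))) := by
      refine integral_mono_of_nonneg (Eventually.of_forall fun x => ?_)
        ((hint.const_mul _).add (hint'.const_mul _)) (Eventually.of_forall fun x => ?_)
      · exact mul_nonneg (sq_nonneg _) (wt_nonneg' P x)
      · have h7 := wt_nonneg' P x
        simp only [wt_even hP, he]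
        nlinarith [mul_nonneg (sq_nonneg ((f x - g x) - (f x - g (-x)))) h7]
    rw [integral_add (hint.const_mul _) (hint'.const_mul _), integral_const_mul,
      integral_const_mul, e1] at h6
    linarith

end Crest.Agent.R238.Den
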