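import Crest.Agent.R238.DenSol
import Crest.Agent.R238.GapPoinc

/-! Row 238, H10 (density): assembly. (helper892) -/

set_option autoImplicit false
open scoped ContDiff Topology InnerProductSpace
open Set Filter MeasureTheory Function

noncomputable section

namespace Crest.Agent.R238.Den

variable {n : ℕ}

theorem pd_add' {f g : E n → ℝ} (hf : Differentiable ℝ f) (hg : Differentiable ℝ g) (i : Fin n)
    (x : E n) : pd i (fun y => f y + g y) x = pd i f x + pd i g x := by
  unfold pd
  rw [fderiv_fun_add (hf x) (hg x)]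
  rfl

theorem pd_smul' {f : E n → ℝ} (hf : Differentiable ℝ f) (c : ℝ) (i : Fin n)
    (x : E n) : pd i (fun y => c * f y) x = c * pd i f x := by
  unfold pd
  rw [fderiv_const_mul (hf x)]
  rfl

theorem pd_comp_neg {f : E n → ℝ} (hf : Differentiable ℝ f) (i : Fin n) (x : E n) :
    pd i (fun y => f (-y)) x = - pd i f (-x) := by
  unfold pd
  have h1 : HasFDerivAt (fun y : E n => -y) (-ContinuousLinearMap.id ℝ (E n)) x :=
    (hasFDerivAt_id x).neg
  have h2 : HasFDerivAt (fun y => f (-y)) ((fderiv ℝ f (-x)).comp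
      (-ContinuousLinearMap.id ℝ (E n))) x := (hf (-x)).hasFDerivAt.comp x h1
  rw [h2.fderiv]
  simp

theorem pd_even {f : E n → ℝ} (hf : Differentiable ℝ f) (h : ∀ x, f (-x) = f x) (i : Fin n)
    (x : E n) : pd i f (-x) = - pd i f x := by
  have h1 : (fun y => f (-y)) = f := by ext y; exact h y
  have h2 := pd_comp_neg hf i x
  rw [h1] at h2
  linarith

theorem pd_odd {f : E n → ℝ} (hf : Differentiable ℝ f) (h : ∀ x, f (-x) = - f x) (i : Fin n)
    (x : E n) : pd i f (-x) = pd i f x := by
  have h1 : (fun y => f (-y)) = fun y => (-1) * f y := by ext y; rw [h y]; ring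
  have h2 := pd_comp_neg hf i x
  rw [h1, pd_smul' hf] at h2
  linarith

theorem LL_even {τ : Fin n → Fin n → E n → ℝ} (hτ : ∀ i j x, τ i j (-x) = τ i j x)
    {f : E n → ℝ} (hf : f.HasTemperateGrowth) (h : ∀ x, f (-x) = f x) (x : E n) :
    LL τ f (-x) = LL τ f x := by
  unfold LL
  congr 1
  · refine Finset.sum_congr rfl fun i _ => Finset.sum_congr rfl fun j _ => ?_
    rw [hτ, pd_odd (tg_diff (tg_pd hf j)) (fun y => pd_even (tg_diff hf) h j y) i x]
  · refine Finset.sum_congr rfl fun i _ => ?_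
    rw [pd_even (tg_diff hf) h i x]
    simp

theorem LL_add {τ : Fin n → Fin n → E n → ℝ} {f g : E n → ℝ} (hf : f.HasTemperateGrowth)
    (hg : g.HasTemperateGrowth) (x : E n) :
    LL τ (fun y => f y + g y) x = LL τ f x + LL τ g x := by
  unfold LL
  have h1 : ∀ j, pd j (fun y => f y + g y) = fun y => pd j f y + pd j g y := fun j => by
    ext y; exact pd_add' (tg_diff hf) (tg_diff hg) j y
  have h2 : ∀ i j, pd i (pd j fun y => f y + g y) x = pd i (pd j f) x + pd i (pd j g) x := by
    intro i j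
    rw [h1]
    exact pd_add' (tg_diff (tg_pd hf j)) (tg_diff (tg_pd hg j)) i x
  simp only [h2]
  simp only [h1, mul_add, Finset.sum_add_distrib]
  ring

theorem LL_smul {τ : Fin n → Fin n → E n → ℝ} {f : E n → ℝ} (hf : f.HasTemperateGrowth)
    (c : ℝ) (x : E n) :
    LL τ (fun y => c * f y) x = c * LL τ f x := by
  unfold LL
  have h1 : ∀ j, pd j (fun y => c * f y) = fun y => c * pd j f y := fun j => by
    ext y; exact pd_smul' (tg_diff hf) c j y
  have h2 : ∀ i j, pd i (pd j fun y => c * f y) x = c * pd i (pd j f) x := by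
    intro i j
    rw [h1]
    exact pd_smul' (tg_diff (tg_pd hf j)) c i x
  simp only [h2]
  simp only [h1, mul_sub, Finset.mul_sum]
  congr 1
  · exact Finset.sum_congr rfl fun i _ => Finset.sum_congr rfl fun j _ => by ring
  · exact Finset.sum_congr rfl fun i _ => by ring

/-- the operator on even temperate functions -/
def Lev (τ : Fin n → Fin n → E n → ℝ) (h1 : ∀ i j, (τ i j).HasTemperateGrowth)
    (h2 : ∀ i j x, τ i j (-x) = τ i j x) : Ev n →ₗ[ℝ] Ev n where
  toFun f := ⟨LL τ f.1, tg_LL h1 f.2.1, LL_even h2 f.2.1 f.2.2⟩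
  map_add' f g := by
    apply Subtype.ext
    funext x
    exact LL_add f.2.1 g.2.1 x
  map_smul' c f := by
    apply Subtype.ext
    funext x
    exact LL_smul f.2.1 c x

theorem Lev_val (τ : Fin n → Fin n → E n → ℝ) (h1 : ∀ i j, (τ i j).HasTemperateGrowth)
    (h2 : ∀ i j x, τ i j (-x) = τ i j x) (f : Ev n) : (Lev τ h1 h2 f).1 = LL τ f.1 := rfl

/-- even test functions -/
def Ae (n : ℕ) : Submodule ℝ (Ev n) where
  carrier := {f | Tst f.1}
  add_mem' := fun hf hg => ⟨hf.smooth.add hg.smooth, hf.supp.add hg.supp⟩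
  zero_mem' := ⟨contDiff_const, HasCompactSupport.zero⟩
  smul_mem' := fun c f hf => ⟨hf.smooth.const_smul c, hf.supp.mono (by
    intro x hx
    simp only [Function.mem_support] at hx ⊢
    intro h0
    apply hx
    change c * f.1 x = 0
    rw [h0, mul_zero])⟩

/-- even nice functions -/
def Ne (n : ℕ) : Submodule ℝ (Ev n) where
  carrier := {f | Nice f.1}
  add_mem' := by
    intro f g hf hg
    refine ⟨hf.smooth.add hg.smooth, fun k hk => ?_⟩
    obtain ⟨C, hC⟩ := hf.bdd k hk
    obtain ⟨C', hC'⟩ := hg.bdd k hk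
    refine ⟨C + C', fun x => ?_⟩
    change ‖iteratedFDeriv ℝ k (f.1 + g.1) x‖ ≤ _
    rw [iteratedFDeriv_add_apply (hf.smooth.of_le (by exact_mod_cast le_top)).contDiffAt
      (hg.smooth.of_le (by exact_mod_cast le_top)).contDiffAt]
    exact (norm_add_le _ _).trans (add_le_add (hC x) (hC' x))
  zero_mem' := by
    refine ⟨contDiff_const, fun k hk => ⟨0, fun x => ?_⟩⟩
    change ‖iteratedFDeriv ℝ k (fun _ => (0 : ℝ)) x‖ ≤ 0
    simp
  smul_mem' := by
    intro c f hf
    refine ⟨hf.smooth.const_smul c, fun k hk => ?_⟩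
    obtain ⟨C, hC⟩ := hf.bdd k hk
    refine ⟨|c| * C, fun x => ?_⟩
    change ‖iteratedFDeriv ℝ k (c • f.1) x‖ ≤ _
    rw [iteratedFDeriv_const_smul_apply
      (hf.smooth.of_le (by exact_mod_cast le_top)).contDiffAt, norm_smul, Real.norm_eq_abs]
    exact mul_le_mul_of_nonneg_left (hC x) (abs_nonneg _)

theorem pd_supp {f : E n → ℝ} (hf : HasCompactSupport f) (i : Fin n) :
    HasCompactSupport (pd i f) := by
  have h1 := hf.fderiv (𝕜 := ℝ)
  exact h1.comp_left (g := fun (L : E n →L[ℝ] ℝ) => L (bv i)) (by simp)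

theorem supp_sum {ι : Type*} (s : Finset ι) {f : ι → E n → ℝ}
    (hf : ∀ i ∈ s, HasCompactSupport (f i)) : HasCompactSupport (fun x => ∑ i ∈ s, f i x) := by
  classical
  induction s using Finset.induction_on with
  | empty =>
    simp only [Finset.sum_empty]
    exact HasCompactSupport.zero
  | insert a s ha ih =>
    simp only [Finset.sum_insert ha]
    exact (hf a (Finset.mem_insert_self _ _)).add
      (ih fun i hi => hf i (Finset.mem_insert_of_mem hi))

theorem LL_supp {τ : Fin n → Fin n → E n → ℝ} {f : E n → ℝ} (hf : HasCompactSupport f) :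
    HasCompactSupport (LL τ f) := by
  unfold LL
  refine HasCompactSupport.sub (supp_sum _ fun i _ => supp_sum _ fun j _ => ?_)
    (supp_sum _ fun i _ => ?_)
  · exact (pd_supp (pd_supp hf j) i).mul_left
  · exact (pd_supp hf i).mul_left

end Crest.Agent.R238.Den
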