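import Crest.Agent.R238.DenMain

/-! Row 238, H10 (density): glue to `TopDefs.Dens`. (helper892) -/

set_option autoImplicit false
open scoped ContDiff Topology InnerProductSpace
open Set Filter MeasureTheory Function

noncomputable section

namespace Crest.Agent.R238.Den

variable {n : ℕ}

theorem Hs_even {v : E n → ℝ} (hv : v.HasTemperateGrowth) (he : ∀ x, v (-x) = v x) (x : E n)
    (i j : Fin n) : Hs v (-x) i j = Hs v x i j := by
  rw [Hs_eq hv, Hs_eq hv]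
  exact pd_odd (tg_diff (tg_pd hv j)) (fun y => pd_even (tg_diff hv) he j y) i x

theorem tau_even {v : E n → ℝ} (hv : v.HasTemperateGrowth) (he : ∀ x, v (-x) = v x) (x : E n) :
    tauM v (-x) = tauM v x := by
  unfold tauM
  congr 1
  unfold gM
  congr 1
  ext i j
  simp only [Matrix.of_apply]
  exact Hs_even hv he x i j

/-- coefficients of a solution -/
theorem coef_sol {P v : E n → ℝ} (hP : PDat P) (hv : Sol P v) :
    Coef (fun i j x => tauM v x i j) (Pot P) := by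
  obtain ⟨lo, hi, M0, hlo, D⟩ := GapD.dat_of_sol hP hv
  refine ⟨fun i j => tg_tau hv i j, fun i j x => D.symm x i j, fun b x => ?_⟩
  have h := D.div x b
  rw [← h, ← Finset.sum_sub_distrib]
  refine Finset.sum_congr rfl fun a _ => ?_
  rw [pd_Pot hP.tst]
  rfl

theorem Lop_fun {v h : E n → ℝ} (hh : h.HasTemperateGrowth) :
    Lop v h = LL (fun i j x => tauM v x i j) h := by
  funext x; exact Lop_eq hh x

theorem dens_of (n : ℕ)
    (hgap : ∀ P v : E n → ℝ, PDat P → Sol P v → ∃ K : ℝ, ∀ h : E n → ℝ, Nice h →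
      (∀ x, h (-x) = h x) → ∫ x, h x ^ 2 * wt P x ≤ K * ∫ x, (Lop v h x + h x) ^ 2 * wt P x)
    (hpoi : ∀ P v : E n → ℝ, PDat P → Sol P v → ∃ C : ℝ, ∀ h : E n → ℝ, h.HasTemperateGrowth →
      (∫ x, h x ^ 2 * wt P x) * (∫ x, wt P x) - (∫ x, h x * wt P x) ^ 2
        ≤ C * ∫ x, Gam (fun i j x => tauM v x i j) h h x * wt P x)
    (hden : ∀ P : E n → ℝ, PDat P → ∀ f : E n → ℝ, Continuous f → (∀ x, f (-x) = f x) →
      (∃ C : ℝ, ∀ x, |f x| ≤ C * (1 + ‖x‖ ^ 2)) → ∀ ε : ℝ, 0 < ε →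
      ∃ χ : E n → ℝ, Tst χ ∧ (∀ x, χ (-x) = χ x) ∧ ∫ x, (f x - χ x) ^ 2 * wt P x ≤ ε) :
    Dens n := by
  intro P v hP hv hiso f hf hfe hfb hf0 ε hε
  have hvt := tg_nice hv.nice
  have hΨ := weight_tst hP.tst
  have hτ := coef_sol hP hv
  have g1 : ∃ K : ℝ, ∀ h ∈ Ne n, ∫ x, h.1 x ^ 2 * Real.exp (-Pot P x)
      ≤ K * ∫ x, (LL (fun i j x => tauM v x i j) h.1 x + h.1 x) ^ 2 * Real.exp (-Pot P x) := by
    obtain ⟨K, hK⟩ := hgap P v hP hv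
    refine ⟨K, fun h hh => ?_⟩
    have := hK h.1 hh h.2.2
    rw [Lop_fun h.2.1] at this
    exact this
  have g2 : ∀ χ ∈ Ae n, ∃ h ∈ Ne n, ∀ x,
      LL (fun i j x => tauM v x i j) h.1 x + h.1 x = χ.1 x := by
    intro χ hχ
    obtain ⟨h, hh, he, hs⟩ := hiso χ.1 hχ χ.2.2
    refine ⟨⟨h, tg_nice hh, he⟩, hh, fun x => ?_⟩
    have := hs x
    rwa [Lop_eq (tg_nice hh)] at this
  have g4 : ∀ f : E n → ℝ, Continuous f → (∀ x, f (-x) = f x) →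
      (∃ C : ℝ, ∀ x, |f x| ≤ C * (1 + ‖x‖ ^ 2)) → ∀ ε : ℝ, 0 < ε →
      ∃ χ ∈ Ae n, ∫ x, (f x - χ.1 x) ^ 2 * Real.exp (-Pot P x) ≤ ε := by
    intro g hg hge hgb δ hδ
    obtain ⟨χ, hχ, hχe, hχδ⟩ := hden P hP g hg hge hgb δ hδ
    exact ⟨⟨χ, tg_tst hχ, hχe⟩, hχ, hχδ⟩
  obtain ⟨φ, hφ, hφε⟩ := density hΨ hτ
    (fun i j x => by
      rw [tau_even hvt hv.even]) g1 g2 (hpoi P v hP hv) g4 hf hfe hfb hf0 hε
  refine ⟨φ.1, hφ, ?_⟩
  have h1 : R238.LL v φ.1 = LL (fun i j x => tauM v x i j)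
      (fun y => LL (fun i j x => tauM v x i j) φ.1 y + φ.1 y) := by
    unfold R238.LL
    rw [Lop_fun φ.2.1, Lop_fun ((tg_LL hτ.tg φ.2.1).fun_add φ.2.1)]
  rw [h1]
  exact hφε

end Crest.Agent.R238.Den
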