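import Crest.Agent.R238.DenW
import Crest.Agent.R238.DenAbs

/-! Row 238, H10 (density): the map to `L²(μ)`, cut-offs. (helper892) -/

set_option autoImplicit false
open scoped ContDiff Topology InnerProductSpace ENNReal
open Set Filter MeasureTheory Function

noncomputable section

namespace Crest.Agent.R238.Den

variable {n : ℕ}

/-- the measure `exp(-Ψ) dx` -/
def mu (Ψ : E n → ℝ) : Measure (E n) :=
  volume.withDensity (fun x => ENNReal.ofReal (Real.exp (-Ψ x)))

theorem integral_mu {Ψ : E n → ℝ} (hΨ : Weight Ψ) (f : E n → ℝ) :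
    ∫ x, f x ∂(mu Ψ) = ∫ x, f x * Real.exp (-Ψ x) := by
  have hc : Measurable (fun x => Real.exp (-Ψ x)) :=
    (Real.continuous_exp.comp (tg_cont hΨ.tg).neg).measurable
  unfold mu
  have h := integral_withDensity_eq_integral_smul (μ := (volume : Measure (E n)))
    (f := fun x => Real.toNNReal (Real.exp (-Ψ x))) hc.real_toNNReal f
  simp only [NNReal.smul_def, Real.coe_toNNReal _ (Real.exp_pos _).le, smul_eq_mul] at h
  rw [show (fun x => ENNReal.ofReal (Real.exp (-Ψ x)))
    = fun x => ((Real.toNNReal (Real.exp (-Ψ x)) : NNReal) : ℝ≥0∞) from rfl, h]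
  congr 1; ext x; ring

theorem integrable_mu {Ψ : E n → ℝ} (hΨ : Weight Ψ) (f : E n → ℝ) :
    Integrable f (mu Ψ) ↔ Integrable (fun x => f x * Real.exp (-Ψ x)) := by
  have hc : Measurable (fun x => Real.exp (-Ψ x)) :=
    (Real.continuous_exp.comp (tg_cont hΨ.tg).neg).measurable
  unfold mu
  have h := integrable_withDensity_iff_integrable_smul (μ := (volume : Measure (E n)))
    (f := fun x => Real.toNNReal (Real.exp (-Ψ x))) hc.real_toNNReal (g := f)
  simp only [NNReal.smul_def, Real.coe_toNNReal _ (Real.exp_pos _).le, smul_eq_mul] at h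
  rw [show (fun x => ENNReal.ofReal (Real.exp (-Ψ x)))
    = fun x => ((Real.toNNReal (Real.exp (-Ψ x)) : NNReal) : ℝ≥0∞) from rfl, h]
  simp only [mul_comm]

theorem memLp_mu {Ψ : E n → ℝ} (hΨ : Weight Ψ) {f : E n → ℝ} (hf : f.HasTemperateGrowth) :
    MemLp f 2 (mu Ψ) := by
  rw [memLp_two_iff_integrable_sq (tg_cont hf).aestronglyMeasurable, integrable_mu hΨ]
  exact int_tg hΨ (by simpa [sq] using hf.fun_mul hf)

/-- temperate functions -/
def TG (n : ℕ) : Submodule ℝ (E n → ℝ) where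
  carrier := {f | f.HasTemperateGrowth}
  add_mem' := fun hf hg => hf.add hg
  zero_mem' := HasTemperateGrowth.zero
  smul_mem' := fun c f hf => by
    have : (fun x => c * f x).HasTemperateGrowth := (HasTemperateGrowth.const c).fun_mul hf
    exact this

/-- even temperate functions -/
def Ev (n : ℕ) : Submodule ℝ (E n → ℝ) where
  carrier := {f | f.HasTemperateGrowth ∧ ∀ x, f (-x) = f x}
  add_mem' := fun hf hg => ⟨hf.1.add hg.1, fun x => by simp [hf.2, hg.2]⟩
  zero_mem' := ⟨HasTemperateGrowth.zero, fun x => rfl⟩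
  smul_mem' := fun c f hf => by
    have : (fun x => c * f x).HasTemperateGrowth := (HasTemperateGrowth.const c).fun_mul hf.1
    exact ⟨this, fun x => by simp [hf.2]⟩

/-- the map to `L²` -/
def Jmu {Ψ : E n → ℝ} (hΨ : Weight Ψ) : Ev n →ₗ[ℝ] Lp ℝ 2 (mu Ψ) where
  toFun f := (memLp_mu hΨ f.2.1).toLp f.1
  map_add' f g := by exact MemLp.toLp_add _ _
  map_smul' c f := by exact MemLp.toLp_const_smul _ _

theorem inner_J {Ψ : E n → ℝ} (hΨ : Weight Ψ) (f g : Ev n) :
    ⟪Jmu hΨ f, Jmu hΨ g⟫_ℝ = ∫ x, (f.1 x * g.1 x) * Real.exp (-Ψ x) := by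
  rw [← integral_mu hΨ, L2.inner_def]
  have h1 := (memLp_mu hΨ f.2.1).coeFn_toLp
  have h2 := (memLp_mu hΨ g.2.1).coeFn_toLp
  refine integral_congr_ae ?_
  filter_upwards [h1, h2] with x hx hy
  change ⟪(memLp_mu hΨ f.2.1).toLp f.1 x, (memLp_mu hΨ g.2.1).toLp g.1 x⟫_ℝ = _
  rw [hx, hy]
  simp [mul_comm]

theorem norm_J {Ψ : E n → ℝ} (hΨ : Weight Ψ) (f : Ev n) :
    ‖Jmu hΨ f‖ ^ 2 = ∫ x, (f.1 x) ^ 2 * Real.exp (-Ψ x) := by
  rw [← real_inner_self_eq_norm_sq, inner_J]
  simp [sq]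

/-- slices of a temperate function are temperate -/
theorem tg_slice {F : ℝ × E n → ℝ} (hF : F.HasTemperateGrowth) (t : ℝ) :
    (fun x => F (t, x)).HasTemperateGrowth := by
  have h : (fun x : E n => ((t, x) : ℝ × E n)).HasTemperateGrowth := by
    have h1 := ((ContinuousLinearMap.inr ℝ ℝ (E n)).hasTemperateGrowth).add
      (HasTemperateGrowth.const (E := E n) ((t, 0) : ℝ × E n))
    convert h1 using 1
    ext x <;> simp
  exact hF.comp h

theorem J_tendsto {Ψ : E n → ℝ} (hΨ : Weight Ψ) {F : ℝ × E n → ℝ} (hF : F.HasTemperateGrowth)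
    (G : ℝ → Ev n) (hG : ∀ t, (G t).1 = fun x => F (t, x)) :
    Tendsto (fun t => Jmu hΨ (G t)) (𝓝 0) (𝓝 (Jmu hΨ (G 0))) := by
  rw [tendsto_iff_norm_sub_tendsto_zero]
  have h1 : ∀ t, ‖Jmu hΨ (G t) - Jmu hΨ (G 0)‖ ^ 2
      = ∫ x, (F (t, x) - F (0, x)) ^ 2 * Real.exp (-Ψ x) := by
    intro t
    rw [← map_sub, norm_J]
    simp [hG]
  have h2 : Tendsto (fun t => ∫ x, (F (t, x) - F (0, x)) ^ 2 * Real.exp (-Ψ x)) (𝓝 0)
      (𝓝 (∫ x : E n, (0 : ℝ))) := by
    obtain ⟨k, C, hC, hb⟩ := tg_bound hF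
    have hb' : ∀ t : ℝ, |t| ≤ 1 → ∀ x : E n, |F (t, x)| ≤ (C * 2 ^ k) * (1 + ‖x‖) ^ k := by
      intro t ht x
      refine (hb (t, x)).trans ?_
      rw [mul_assoc, ← mul_pow]
      refine mul_le_mul_of_nonneg_left (pow_le_pow_left₀ (by positivity) ?_ _) hC
      have : ‖((t, x) : ℝ × E n)‖ ≤ 1 + ‖x‖ := by
        rw [Prod.norm_def]
        exact max_le (by simpa using ht.trans (by linarith [norm_nonneg x]))
          (by simp)
      linarith [norm_nonneg x]
    have hcF : ∀ t, Continuous (fun x => F (t, x)) := fun t => tg_cont (tg_slice hF t)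
    have hcΨ : Continuous (fun x => Real.exp (-Ψ x)) :=
      Real.continuous_exp.comp (tg_cont hΨ.tg).neg
    refine tendsto_integral_filter_of_dominated_convergence
      (fun x => (2 * ((C * 2 ^ k) * (1 + ‖x‖) ^ k)) ^ 2 * Real.exp (-Ψ x)) ?_ ?_ ?_ ?_
    · refine Eventually.of_forall fun t => ?_
      exact ((((hcF t).sub (hcF 0)).pow 2).mul hcΨ).aestronglyMeasurable
    · have : ∀ᶠ t : ℝ in 𝓝 0, |t| ≤ 1 := by
        have := Metric.closedBall_mem_nhds (0 : ℝ) one_pos
        filter_upwards [this] with t ht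
        simpa using ht
      filter_upwards [this] with t ht
      refine Eventually.of_forall fun x => ?_
      rw [norm_mul, Real.norm_eq_abs (Real.exp _), abs_of_pos (Real.exp_pos _), norm_pow]
      refine mul_le_mul_of_nonneg_right (pow_le_pow_left₀ (norm_nonneg _) ?_ _)
        (Real.exp_pos _).le
      have h3 := hb' t ht x
      have h4 := hb' 0 (by simp) x
      calc ‖F (t, x) - F (0, x)‖ ≤ |F (t, x)| + |F (0, x)| := by
            rw [Real.norm_eq_abs]; exact abs_sub _ _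
        _ ≤ _ := by linarith
    · refine integrable_of_bound hΨ (k := 2 * k) (C := (2 * (C * 2 ^ k)) ^ 2) ?_ ?_
      · exact Continuous.aestronglyMeasurable (by fun_prop)
      · intro x
        rw [Real.norm_eq_abs, abs_of_nonneg (by positivity)]
        refine le_of_eq ?_
        rw [show 2 * (C * 2 ^ k * (1 + ‖x‖) ^ k) = (2 * (C * 2 ^ k)) * (1 + ‖x‖) ^ k by ring,
          mul_pow, ← pow_mul, mul_comm k 2]
    · refine Eventually.of_forall fun x => ?_
      have hcx : Continuous (fun t : ℝ => (F (t, x) - F (0, x)) ^ 2 * Real.exp (-Ψ x)) := by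
        have : Continuous (fun t : ℝ => F (t, x)) :=
          (tg_cont hF).comp (by fun_prop)
        exact ((this.sub continuous_const).pow 2).mul continuous_const
      have := hcx.tendsto 0
      simpa using this
  have h3 : Tendsto (fun t => ‖Jmu hΨ (G t) - Jmu hΨ (G 0)‖ ^ 2) (𝓝 0) (𝓝 0) := by
    simp only [h1]
    simpa using h2
  have h4 := h3.sqrt
  simpa [Real.sqrt_sq (norm_nonneg _)] using h4

end Crest.Agent.R238.Den
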