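import Crest.Agent.R238.DenFin

/-! Row 238, H10 (density): cut-offs and the density theorem. (helper892) -/

set_option autoImplicit false
open scoped ContDiff Topology InnerProductSpace
open Set Filter MeasureTheory Function

noncomputable section

namespace Crest.Agent.R238.Den

variable {n : ℕ}

/-- a bump function -/
def eta (n : ℕ) : ContDiffBump (0 : E n) := ⟨1, 2, by norm_num, by norm_num⟩

theorem tg_eta : (eta n : E n → ℝ).HasTemperateGrowth :=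
  (eta n).hasCompactSupport.hasTemperateGrowth (eta n).contDiff

theorem eta_zero : (eta n : E n → ℝ) 0 = 1 := (eta n).one_of_mem_closedBall (by simp [eta])

theorem eta_neg (x : E n) : (eta n : E n → ℝ) (-x) = (eta n : E n → ℝ) x := (eta n).neg x

/-- cut-off of an even temperate function -/
def cutE (f : Ev n) (t : ℝ) : Ev n :=
  ⟨fun x => cut (eta n) f.1 (t, x), tg_slice (tg_cut tg_eta f.2.1) t, fun x => by
    simp only [cut, smul_neg, eta_neg, f.2.2 x]⟩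

theorem cutE_zero (f : Ev n) : cutE f 0 = f := by
  apply Subtype.ext
  funext x
  simp [cutE, cut, eta_zero]

theorem cutE_tst (f : Ev n) {t : ℝ} (ht : t ≠ 0) : cutE f t ∈ Ae n := by
  refine ⟨(cutE f t).2.1.1, ?_⟩
  have h1 : HasCompactSupport (fun x : E n => (eta n : E n → ℝ) (t • x)) :=
    (eta n).hasCompactSupport.comp_smul ht
  exact h1.mul_right

section

variable {τ : Fin n → Fin n → E n → ℝ} {Ψ : E n → ℝ}

theorem J_cut (hΨ : Weight Ψ) (f : Ev n) :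
    Tendsto (fun t => Jmu hΨ (cutE f t)) (𝓝 0) (𝓝 (Jmu hΨ f)) := by
  have := J_tendsto hΨ (tg_cut tg_eta f.2.1) (cutE f) (fun t => rfl)
  rwa [cutE_zero] at this

theorem J_cut1 (hΨ : Weight Ψ) (h1 : ∀ i j, (τ i j).HasTemperateGrowth)
    (h2 : ∀ i j x, τ i j (-x) = τ i j x) (f : Ev n) :
    Tendsto (fun t => Jmu hΨ (Lev τ h1 h2 (cutE f t))) (𝓝 0) (𝓝 (Jmu hΨ (Lev τ h1 h2 f))) := by
  have := J_tendsto hΨ (F := LT τ (cut (eta n) f.1)) (tg_LT h1 (tg_cut tg_eta f.2.1))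
    (fun t => Lev τ h1 h2 (cutE f t)) (fun t => by
      funext x
      exact LL_slice (tg_cut tg_eta f.2.1) t x)
  rwa [cutE_zero] at this

theorem J_cut2 (hΨ : Weight Ψ) (h1 : ∀ i j, (τ i j).HasTemperateGrowth)
    (h2 : ∀ i j x, τ i j (-x) = τ i j x) (f : Ev n) :
    Tendsto (fun t => Jmu hΨ (Lev τ h1 h2 (Lev τ h1 h2 (cutE f t) + cutE f t))) (𝓝 0)
      (𝓝 (Jmu hΨ (Lev τ h1 h2 (Lev τ h1 h2 f + f)))) := by
  have hc := tg_cut (n := n) tg_eta f.2.1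
  have := J_tendsto hΨ (F := LT τ (fun p => LT τ (cut (eta n) f.1) p + cut (eta n) f.1 p))
    (tg_LT h1 ((tg_LT h1 hc).fun_add hc))
    (fun t => Lev τ h1 h2 (Lev τ h1 h2 (cutE f t) + cutE f t)) (fun t => by
      funext x
      rw [Lev_val]
      rw [← LL_slice ((tg_LT h1 hc).fun_add hc) t x]
      congr 1
      funext y
      change LL τ (cutE f t).1 y + (cutE f t).1 y = _
      congr 1
      exact LL_slice hc t y)
  rwa [cutE_zero] at this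

theorem eq_zero_of_cut {H : Type*} [NormedAddCommGroup H] [InnerProductSpace ℝ H] {W : H}
    {G : ℝ → H} {g : H} (hG : Tendsto G (𝓝 0) (𝓝 g)) (h0 : ∀ t, t ≠ 0 → ⟪W, G t⟫_ℝ = 0) :
    ⟪W, g⟫_ℝ = 0 := by
  have h1 : Tendsto (fun t => ⟪W, G t⟫_ℝ) (𝓝[≠] 0) (𝓝 ⟪W, g⟫_ℝ) :=
    (tendsto_const_nhds.inner hG).mono_left nhdsWithin_le_nhds
  have h2 : Tendsto (fun t => ⟪W, G t⟫_ℝ) (𝓝[≠] 0) (𝓝 0) := by
    refine (tendsto_congr' ?_).2 tendsto_const_nhds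
    filter_upwards [self_mem_nhdsWithin] with t ht
    exact h0 t ht
  exact tendsto_nhds_unique h1 h2

theorem J_mem_closure (hΨ : Weight Ψ) (f : Ev n) :
    Jmu hΨ f ∈ closure (Jmu hΨ '' (Ae n : Set (Ev n))) := by
  have h1 : Tendsto (fun t => Jmu hΨ (cutE f t)) (𝓝[≠] 0) (𝓝 (Jmu hΨ f)) :=
    (J_cut hΨ f).mono_left nhdsWithin_le_nhds
  refine mem_closure_of_tendsto h1 ?_
  filter_upwards [self_mem_nhdsWithin] with t ht
  exact ⟨_, cutE_tst f ht, rfl⟩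

theorem norm_toLp (hΨ : Weight Ψ) {f : E n → ℝ} (hf : MemLp f 2 (mu Ψ)) :
    ‖hf.toLp f‖ ^ 2 = ∫ x, (f x) ^ 2 * Real.exp (-Ψ x) := by
  rw [← real_inner_self_eq_norm_sq, L2.inner_def, ← integral_mu hΨ]
  refine integral_congr_ae ?_
  filter_upwards [hf.coeFn_toLp] with x hx
  rw [hx]
  simp [sq]

/-- constant function -/
def oneE (n : ℕ) : Ev n := ⟨fun _ => 1, HasTemperateGrowth.const 1, fun _ => rfl⟩

theorem inner_toLp_J (hΨ : Weight Ψ) {f : E n → ℝ} (hf : MemLp f 2 (mu Ψ)) (g : Ev n) :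
    ⟪hf.toLp f, Jmu hΨ g⟫_ℝ = ∫ x, (f x * g.1 x) * Real.exp (-Ψ x) := by
  rw [L2.inner_def, ← integral_mu hΨ]
  refine integral_congr_ae ?_
  filter_upwards [hf.coeFn_toLp, (memLp_mu hΨ g.2.1).coeFn_toLp] with x hx hy
  change ⟪hf.toLp f x, (memLp_mu hΨ g.2.1).toLp g.1 x⟫_ℝ = _
  rw [hx, hy]
  simp [mul_comm]

theorem memLp_of_bound (hΨ : Weight Ψ) {f : E n → ℝ} (hf : Continuous f) {C : ℝ}
    (hC : ∀ x, |f x| ≤ C * (1 + ‖x‖ ^ 2)) : MemLp f 2 (mu Ψ) := by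
  rw [memLp_two_iff_integrable_sq hf.aestronglyMeasurable, integrable_mu hΨ]
  refine integrable_of_bound hΨ (k := 4) (C := C ^ 2) (hf.pow 2).aestronglyMeasurable fun x => ?_
  have h0 : 0 ≤ C * (1 + ‖x‖ ^ 2) := (abs_nonneg _).trans (hC x)
  have h1 : |f x| ^ 2 ≤ (C * (1 + ‖x‖ ^ 2)) ^ 2 := pow_le_pow_left₀ (abs_nonneg _) (hC x) 2
  have h2 : 1 + ‖x‖ ^ 2 ≤ (1 + ‖x‖) ^ 2 := by nlinarith [norm_nonneg x]
  rw [norm_pow, Real.norm_eq_abs]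
  refine h1.trans ?_
  rw [mul_pow]
  refine mul_le_mul_of_nonneg_left ?_ (sq_nonneg _)
  calc (1 + ‖x‖ ^ 2) ^ 2 ≤ ((1 + ‖x‖) ^ 2) ^ 2 := pow_le_pow_left₀ (by positivity) h2 2
    _ = (1 + ‖x‖) ^ 4 := by ring

theorem J_one_ne (hΨ : Weight Ψ) : Jmu hΨ (oneE n) ≠ 0 := by
  intro h
  have h1 := norm_J hΨ (oneE n)
  rw [h] at h1
  simp only [norm_zero, oneE] at h1
  have h2 : 0 < ∫ x : E n, Real.exp (-Ψ x) := by
    have hi : Integrable (fun x : E n => Real.exp (-Ψ x)) := by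
      have := int_tg hΨ (HasTemperateGrowth.const (E := E n) (1 : ℝ))
      simpa using this
    exact integral_exp_pos hi
  simp at h1
  linarith

/-- **Abstract form of DEN** for a weight `Ψ` and coefficients `τ`. -/
theorem density (hΨ : Weight Ψ) (hτ : Coef τ Ψ) (h2 : ∀ i j x, τ i j (-x) = τ i j x)
    (hgap : ∃ K : ℝ, ∀ h ∈ Ne n, ∫ x, h.1 x ^ 2 * Real.exp (-Ψ x)
      ≤ K * ∫ x, (LL τ h.1 x + h.1 x) ^ 2 * Real.exp (-Ψ x))
    (hiso : ∀ χ ∈ Ae n, ∃ h ∈ Ne n, ∀ x, LL τ h.1 x + h.1 x = χ.1 x)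
    (hpoi : ∃ C : ℝ, ∀ h : E n → ℝ, h.HasTemperateGrowth →
      (∫ x, h x ^ 2 * Real.exp (-Ψ x)) * (∫ x, Real.exp (-Ψ x))
        - (∫ x, h x * Real.exp (-Ψ x)) ^ 2 ≤ C * ∫ x, Gam τ h h x * Real.exp (-Ψ x))
    (hden : ∀ f : E n → ℝ, Continuous f → (∀ x, f (-x) = f x) →
      (∃ C : ℝ, ∀ x, |f x| ≤ C * (1 + ‖x‖ ^ 2)) → ∀ ε : ℝ, 0 < ε →
      ∃ χ ∈ Ae n, ∫ x, (f x - χ.1 x) ^ 2 * Real.exp (-Ψ x) ≤ ε)
    {f : E n → ℝ} (hf : Continuous f) (hfe : ∀ x, f (-x) = f x)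
    (hfb : ∃ C : ℝ, ∀ x, |f x| ≤ C * (1 + ‖x‖ ^ 2)) (hf0 : ∫ x, f x * Real.exp (-Ψ x) = 0)
    {ε : ℝ} (hε : 0 < ε) :
    ∃ φ ∈ Ae n, ∫ x, (f x - LL τ (fun y => LL τ φ.1 y + φ.1 y) x) ^ 2 * Real.exp (-Ψ x) ≤ ε := by
  obtain ⟨C, hC⟩ := id hfb
  have hfm : MemLp f 2 (mu Ψ) := memLp_of_bound hΨ hf hC
  set L := Lev τ hτ.tg h2 with hL
  set J := Jmu hΨ with hJ
  have hsub : ∀ g : Ev n, ‖hfm.toLp f - J g‖ ^ 2 = ∫ x, (f x - g.1 x) ^ 2 * Real.exp (-Ψ x) := by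
    intro g
    have h3 : hfm.toLp f - J g = (hfm.sub (memLp_mu hΨ g.2.1)).toLp (f - g.1) :=
      (MemLp.toLp_sub hfm (memLp_mu hΨ g.2.1)).symm
    rw [h3, norm_toLp hΨ]
    rfl
  have hF : hfm.toLp f ∈ closure (J '' (Ae n : Set (Ev n))) := by
    rw [Metric.mem_closure_iff]
    intro δ hδ
    obtain ⟨χ, hχ, hχε⟩ := hden f hf hfe hfb ((δ / 2) ^ 2) (by positivity)
    refine ⟨J χ, ⟨χ, hχ, rfl⟩, ?_⟩
    rw [dist_eq_norm]
    rw [← hsub] at hχε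
    have := abs_le_of_sq_le_sq hχε (by positivity)
    have h4 := (abs_le.1 this).2
    linarith
  have hF0 : ⟪hfm.toLp f, J (oneE n)⟫_ℝ = 0 := by
    rw [hJ, inner_toLp_J]
    simpa [oneE] using hf0
  have hdens := abs_density J L (Ae n) (Ne n) (oneE n) ?_ (J_one_ne hΨ) ?_ ?_ ?_ ?_ ?_ ?_ ?_ ?_
    (hfm.toLp f) hF hF0
  · rw [Metric.mem_closure_iff] at hdens
    obtain ⟨_, ⟨φ, hφ, rfl⟩, hd⟩ := hdens (Real.sqrt ε) (Real.sqrt_pos.2 hε)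
    refine ⟨φ, hφ, ?_⟩
    rw [dist_eq_norm] at hd
    have h5 := hsub (L (L φ + φ))
    have h6 : (L (L φ + φ)).1 = LL τ (fun y => LL τ φ.1 y + φ.1 y) := rfl
    rw [h6] at h5
    rw [← h5]
    calc ‖hfm.toLp f - J (L (L φ + φ))‖ ^ 2 ≤ (Real.sqrt ε) ^ 2 :=
          pow_le_pow_left₀ (norm_nonneg _) hd.le 2
      _ = ε := Real.sq_sqrt hε.le
  · -- L one = 0
    apply Subtype.ext
    funext x
    change LL τ (fun _ => (1 : ℝ)) x = 0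
    unfold LL
    have e1 : ∀ j, pd j (fun _ : E n => (1 : ℝ)) = fun _ => 0 := fun j => by
      funext y; simp [pd]
    have e2 : ∀ i x, pd i (fun _ : E n => (0 : ℝ)) x = 0 := fun i x => by simp [pd]
    simp [e1, e2]
  · -- symmetry
    intro a b
    rw [hJ, inner_J, inner_J]
    exact LL_symm hΨ hτ a.2.1 b.2.1
  · -- L(L+1) preserves test functions
    intro φ hφ
    have h3 : HasCompactSupport (fun y => LL τ φ.1 y + φ.1 y) := (LL_supp hφ.supp).add hφ.supp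
    exact ⟨(L (L φ + φ)).2.1.1, LL_supp h3⟩
  · -- hext2
    intro W hW g _
    exact eq_zero_of_cut (J_cut2 hΨ hτ.tg h2 g) fun t ht => hW _ (cutE_tst g ht)
  · intro W hW g _
    exact eq_zero_of_cut (J_cut1 hΨ hτ.tg h2 g) fun t ht => hW _ (cutE_tst g ht)
  · intro g _
    exact J_mem_closure hΨ g
  · -- gap
    obtain ⟨K, hK⟩ := hgap
    refine ⟨Real.sqrt (max K 0), fun h hh => ?_⟩
    have h3 := hK h hh
    have h4 : ‖J h‖ ^ 2 = ∫ x, h.1 x ^ 2 * Real.exp (-Ψ x) := norm_J hΨ h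
    have h5 : ‖J (L h + h)‖ ^ 2 = ∫ x, (LL τ h.1 x + h.1 x) ^ 2 * Real.exp (-Ψ x) :=
      norm_J hΨ (L h + h)
    rw [← h4, ← h5] at h3
    have h6 : ‖J h‖ ^ 2 ≤ (Real.sqrt (max K 0) * ‖J (L h + h)‖) ^ 2 := by
      rw [mul_pow, Real.sq_sqrt (le_max_right _ _)]
      exact h3.trans (mul_le_mul_of_nonneg_right (le_max_left _ _) (sq_nonneg _))
    exact (abs_le_of_sq_le_sq' h6 (by positivity)).2
  · -- iso
    intro χ hχ
    obtain ⟨h, hh, he⟩ := hiso χ hχ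
    exact ⟨h, hh, Subtype.ext (funext he)⟩
  · -- Poincaré
    obtain ⟨K, hK⟩ := hpoi
    refine ⟨K, fun h _ => ?_⟩
    have h3 := hK h.1 h.2.1
    have h4 : ‖J h‖ ^ 2 = ∫ x, h.1 x ^ 2 * Real.exp (-Ψ x) := norm_J hΨ h
    have h5 : ‖J (oneE n)‖ ^ 2 = ∫ x, Real.exp (-Ψ x) := by
      rw [hJ, norm_J]; simp [oneE]
    have h6 : ⟪J h, J (oneE n)⟫_ℝ = ∫ x, h.1 x * Real.exp (-Ψ x) := by
      rw [hJ, inner_J]; simp [oneE]
    have h7 : ⟪J (L h), J h⟫_ℝ = - ∫ x, Gam τ h.1 h.1 x * Real.exp (-Ψ x) := by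
      rw [hJ, inner_J]
      exact LL_ibp hΨ hτ h.2.1 h.2.1
    rw [h4, h5, h6, h7, neg_neg]
    exact h3

end

end Crest.Agent.R238.Den
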