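import Crest.Agent.R238.TopDefs
import Crest.Agent.R238.GapIBP

/-!
Row 238 (S0369): smoothness of `tauM`, `Lop`, compact support of `LL` (helper394).
-/

set_option autoImplicit false

open MeasureTheory Set Filter
open scoped ContDiff Topology

namespace Crest.Agent.R238

variable {n m : ℕ}

theorem contDiff_Hs {f : E n → ℝ} (hf : ContDiff ℝ ∞ f) (i j : Fin n) :
    ContDiff ℝ ∞ (fun x => Hs f x i j) := by
  have h1 : ContDiff ℝ ∞ (fderiv ℝ f) := hf.fderiv_right (by simp)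
  have h2 : ContDiff ℝ ∞ (fderiv ℝ (fderiv ℝ f)) := h1.fderiv_right (by simp)
  exact (h2.clm_apply contDiff_const).clm_apply contDiff_const

theorem contDiff_gM {v : E n → ℝ} (hv : ContDiff ℝ ∞ v) (i j : Fin n) :
    ContDiff ℝ ∞ (fun x => gM v x i j) := by
  have : (fun x => gM v x i j) = fun x => (1 : Matrix (Fin n) (Fin n) ℝ) i j + Hs v x i j := by
    ext x; simp [gM]
  rw [this]
  exact contDiff_const.add (contDiff_Hs hv i j)

theorem contDiff_mdet {F : Type*} [NormedAddCommGroup F] [NormedSpace ℝ F] {k : WithTop ℕ∞}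
    {ι : Type*} [Fintype ι] [DecidableEq ι] {M : F → Matrix ι ι ℝ}
    (h : ∀ i j, ContDiff ℝ k (fun x => M x i j)) : ContDiff ℝ k (fun x => (M x).det) := by
  simp only [Matrix.det_apply]
  refine ContDiff.sum fun σ _ => ?_
  have : ContDiff ℝ k (fun x => ∏ i, M x (σ i) i) := contDiff_prod fun i _ => h _ _
  rcases Int.units_eq_one_or (Equiv.Perm.sign σ) with h1 | h1 <;> rw [h1]
  · simpa using this
  · simpa using this.neg

theorem contDiff_madj {F : Type*} [NormedAddCommGroup F] [NormedSpace ℝ F] {k : WithTop ℕ∞}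
    {ι : Type*} [Fintype ι] [DecidableEq ι] {M : F → Matrix ι ι ℝ}
    (h : ∀ i j, ContDiff ℝ k (fun x => M x i j)) (i j : ι) :
    ContDiff ℝ k (fun x => (M x).adjugate i j) := by
  simp only [Matrix.adjugate_apply]
  refine contDiff_mdet fun a b => ?_
  by_cases hab : a = j
  · subst hab
    simp only [Matrix.updateRow_self]
    exact contDiff_const
  · simp only [Matrix.updateRow_ne hab]
    exact h a b

theorem contDiff_minv {F : Type*} [NormedAddCommGroup F] [NormedSpace ℝ F] {k : WithTop ℕ∞}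
    {ι : Type*} [Fintype ι] [DecidableEq ι] {M : F → Matrix ι ι ℝ}
    (h : ∀ i j, ContDiff ℝ k (fun x => M x i j)) (hd : ∀ x, (M x).det ≠ 0) (i j : ι) :
    ContDiff ℝ k (fun x => (M x)⁻¹ i j) := by
  have : (fun x => (M x)⁻¹ i j) = fun x => ((M x).det)⁻¹ * (M x).adjugate i j := by
    ext x
    rw [Matrix.inv_def, Matrix.smul_apply, Ring.inverse_eq_inv', smul_eq_mul]
  rw [this]
  exact ((contDiff_mdet h).inv hd).mul (contDiff_madj h i j)

theorem Ell.det_ne_zero {lo hi : ℝ} {A : Matrix (Fin n) (Fin n) ℝ} (h : Ell lo hi A)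
    (hlo : 0 < lo) : A.det ≠ 0 := by
  intro h0
  obtain ⟨z, hz, hAz⟩ := Matrix.exists_mulVec_eq_zero_iff.2 h0
  have h1 := (h.2 z).1
  have h2 : ∑ i, ∑ j, A i j * z i * z j = 0 := by
    have : ∀ i, ∑ j, A i j * z i * z j = z i * (A.mulVec z) i := by
      intro i
      rw [Matrix.mulVec, dotProduct, Finset.mul_sum]
      exact Finset.sum_congr rfl fun j _ => by ring
    simp [this, hAz]
  rw [h2] at h1
  have h3 : 0 < ∑ i, z i ^ 2 := by
    obtain ⟨i, hi⟩ := Function.ne_iff.1 hz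
    exact Finset.sum_pos' (fun i _ => sq_nonneg _) ⟨i, Finset.mem_univ i, by
      have : z i ≠ 0 := hi
      positivity⟩
  nlinarith

theorem Sol.det_ne_zero {P v : E n → ℝ} (h : Sol P v) (x : E n) : (gM v x).det ≠ 0 := by
  obtain ⟨lo, hi, hlo, hE⟩ := h.ell
  exact (hE x).det_ne_zero hlo

theorem Sol.contDiff_tau {P v : E n → ℝ} (h : Sol P v) (i j : Fin n) :
    ContDiff ℝ ∞ (fun x => tauM v x i j) :=
  contDiff_minv (fun i j => contDiff_gM h.nice.smooth i j) h.det_ne_zero i j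

theorem Sol.contDiff_Lop {P v : E n → ℝ} (h : Sol P v) {f : E n → ℝ} (hf : ContDiff ℝ ∞ f) :
    ContDiff ℝ ∞ (Lop v f) := by
  have h1 : ContDiff ℝ ∞ (fderiv ℝ f) := hf.fderiv_right (by simp)
  have h2 : ContDiff ℝ ∞ (fun x => fderiv ℝ f x x) := h1.clm_apply contDiff_id
  have h3 : ContDiff ℝ ∞ (fun x => ∑ i, ∑ j, tauM v x i j * Hs f x i j) :=
    ContDiff.sum fun i _ => ContDiff.sum fun j _ => (h.contDiff_tau i j).mul (contDiff_Hs hf i j)
  exact h3.sub h2

theorem Lop_eq_zero {v f : E n → ℝ} {x : E n} (hx : f =ᶠ[𝓝 x] fun _ => 0) : Lop v f x = 0 := by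
  have h1 : fderiv ℝ f =ᶠ[𝓝 x] fun _ => 0 := by
    have := hx.fderiv (𝕜 := ℝ)
    filter_upwards [this] with y hy
    rw [hy]; simp
  have h2 : fderiv ℝ (fderiv ℝ f) x = 0 := by
    rw [h1.fderiv_eq]; simp
  have h3 : fderiv ℝ f x = 0 := h1.self_of_nhds
  simp [Lop, LA, Hs, h2, h3]

theorem Lop_supp {v f : E n → ℝ} (hf : HasCompactSupport f) : HasCompactSupport (Lop v f) :=
  HasCompactSupport.intro hf fun _ hx =>
    Lop_eq_zero (notMem_tsupport_iff_eventuallyEq.1 hx)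

theorem Sol.tst_Lop {P v : E n → ℝ} (h : Sol P v) {f : E n → ℝ} (hf : Tst f) : Tst (Lop v f) :=
  ⟨h.contDiff_Lop hf.smooth, Lop_supp hf.supp⟩

theorem Sol.tst_Lop_add {P v : E n → ℝ} (h : Sol P v) {f : E n → ℝ} (hf : Tst f) :
    Tst (fun y => Lop v f y + f y) :=
  ⟨(h.contDiff_Lop hf.smooth).add hf.smooth, (Lop_supp hf.supp).add hf.supp⟩

theorem Sol.tst_LL {P v : E n → ℝ} (h : Sol P v) {f : E n → ℝ} (hf : Tst f) : Tst (LL v f) :=
  h.tst_Lop (h.tst_Lop_add hf)

theorem Tst.bdd {f : E n → ℝ} (hf : Tst f) : ∃ C, ∀ x, |f x| ≤ C := by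
  obtain ⟨C, hC⟩ := hf.supp.exists_bound_of_continuous hf.smooth.continuous
  exact ⟨C, fun x => by simpa using hC x⟩

theorem Tst.pg {f : E n → ℝ} (hf : Tst f) : Gap.PG f := by
  obtain ⟨C, hC⟩ := hf.bdd
  exact Gap.PG.of_bdd hC

theorem PDat.bdd {P : E n → ℝ} (h : PDat P) : ∃ B, ∀ x, |P x| ≤ B := h.tst.bdd

theorem PDat.cont {P : E n → ℝ} (h : PDat P) : Continuous P := h.tst.smooth.continuous

theorem PDat.integrable {P : E n → ℝ} (h : PDat P) {f : E n → ℝ} (hf : Continuous f)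
    (hp : Gap.PG f) : Integrable (fun x => f x * wt P x) := by
  obtain ⟨B, hB⟩ := h.bdd
  exact Gap.integrable_pg h.cont hB hf hp

theorem PDat.integrable_wt {P : E n → ℝ} (h : PDat P) : Integrable (wt P) := by
  obtain ⟨B, hB⟩ := h.bdd
  exact Gap.integrable_wt h.cont hB

theorem PDat.wt_pos {P : E n → ℝ} (h : PDat P) : 0 < ∫ x, wt P x := by
  obtain ⟨B, hB⟩ := h.bdd
  exact Gap.integral_wt_pos h.cont hB

end Crest.Agent.R238
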