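import Crest.Agent.R238.DenSol
import Crest.Agent.R238.GapPoinc
import Crest.Agent.R238.TopAux

/-! Row 238, H10 (density): the Poincare inequality for `Gam (tauM v)` from `Sol P v`.
(helper280) -/

set_option autoImplicit false
open scoped ContDiff Topology
open Set Filter MeasureTheory Function

noncomputable section

namespace Crest.Agent.R238.Den

variable {n : ℕ}

theorem pg_of_tg {f : E n → ℝ} (hf : f.HasTemperateGrowth) : Gap.PG f := by
  obtain ⟨k, C, -, h⟩ := tg_bound hf
  exact ⟨C, k, fun x => by simpa [Real.norm_eq_abs] using h x⟩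

/-- the gradient is controlled by the carre du champ -/
theorem sum_sq_le_Gam {P v : E n → ℝ} (hv : Sol P v) :
    ∃ hi : ℝ, 0 ≤ hi ∧ ∀ (h : E n → ℝ) (x : E n),
      ∑ i, pd i h x ^ 2 ≤ hi * Gam (fun i j x => tauM v x i j) h h x := by
  obtain ⟨lo, hi, hlo, hell⟩ := hv.ell
  rcases Nat.eq_zero_or_pos n with hn | hn
  · subst hn
    exact ⟨0, le_rfl, fun h x => by simp⟩
  · have hhi : 0 < hi := by
      set i0 : Fin n := ⟨0, hn⟩
      have h1 := (hell 0).2 (Pi.single i0 1)
      have h2 : ∑ i, (Pi.single i0 (1 : ℝ) : Fin n → ℝ) i ^ 2 = 1 := by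
        rw [Finset.sum_eq_single i0]
        · simp
        · intro b _ hb
          simp [Pi.single_eq_of_ne hb]
        · simp
      have h3 := h1.1.trans h1.2
      rw [h2] at h3
      linarith
    refine ⟨hi, hhi.le, fun h x => ?_⟩
    have h1 := ((GapD.ell_inv hlo (hell x)).2 fun i => pd i h x).1
    have h2 : 1 / hi * ∑ i, pd i h x ^ 2 ≤ Gam (fun i j x => tauM v x i j) h h x := h1
    calc ∑ i, pd i h x ^ 2 = hi * (1 / hi * ∑ i, pd i h x ^ 2) := by field_simp
      _ ≤ _ := mul_le_mul_of_nonneg_left h2 hhi.le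

/-- **Poincaré** for `Γ` -/
theorem poi_sol {P v : E n → ℝ} (hP : PDat P) (hv : Sol P v) :
    ∃ C : ℝ, ∀ h : E n → ℝ, h.HasTemperateGrowth →
      (∫ x, h x ^ 2 * wt P x) * (∫ x, wt P x) - (∫ x, h x * wt P x) ^ 2
        ≤ C * ∫ x, Gam (fun i j x => tauM v x i j) h h x * wt P x := by
  obtain ⟨M0, hM0⟩ := hP.bdd
  obtain ⟨hi, hhi, hGam⟩ := sum_sq_le_Gam hv
  have hW := hP.wt_pos
  have hWt := weight_tst hP.tst
  set W := ∫ x, wt P x with hWdef
  set KP : ℝ := (Real.pi ^ 2 / 8) * Real.exp (2 * M0) with hKP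
  have hKP0 : 0 ≤ KP := by positivity
  refine ⟨W * (KP * hi), fun h hh => ?_⟩
  have hpoi := GapPc.poincare (f := h) hP.cont hM0 (hh.1.of_le (by simp)) (pg_of_tg hh)
    (fun i => pg_of_tg (tg_pd hh i))
  have i1 : Integrable (fun x => h x ^ 2 * wt P x) := by
    have : (fun x => h x ^ 2).HasTemperateGrowth := by
      simpa only [sq] using hh.fun_mul hh
    exact int_tg hWt this
  have i2 : Integrable (fun x => h x * wt P x) := int_tg hWt hh
  have i3 : Integrable (fun x => wt P x) := hP.integrable_wt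
  have i4 : Integrable (fun x => Gam (fun i j x => tauM v x i j) h h x * wt P x) :=
    int_tg hWt (tg_Gam (fun i j => tg_tau hv i j) hh hh)
  have i5 : Integrable (fun x => (∑ i, pd i h x ^ 2) * wt P x) := by
    have : (fun x => ∑ i, pd i h x ^ 2).HasTemperateGrowth := by
      refine HasTemperateGrowth.sum fun i _ => ?_
      simpa only [sq] using (tg_pd hh i).fun_mul (tg_pd hh i)
    exact int_tg hWt this
  set m : ℝ := ∫ y, h y ∂(ProbabilityTheory.stdGaussian (E n)) with hm
  have e1 : ∫ x, (h x - m) ^ 2 * wt P x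
      = (∫ x, h x ^ 2 * wt P x) - 2 * m * (∫ x, h x * wt P x) + m ^ 2 * W := by
    have : (fun x => (h x - m) ^ 2 * wt P x)
        = fun x => (h x ^ 2 * wt P x - 2 * m * (h x * wt P x)) + m ^ 2 * wt P x := by
      ext x; ring
    have i12 : Integrable (fun x => h x ^ 2 * wt P x - 2 * m * (h x * wt P x)) :=
      i1.sub (i2.const_mul _)
    rw [this, integral_add i12 (i3.const_mul _),
      integral_sub i1 (i2.const_mul _), integral_const_mul, integral_const_mul]
  have e2 : (∫ x, h x ^ 2 * wt P x) * W - (∫ x, h x * wt P x) ^ 2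
      ≤ W * ∫ x, (h x - m) ^ 2 * wt P x := by
    rw [e1]
    nlinarith [sq_nonneg ((∫ x, h x * wt P x) - m * W)]
  have e3 : ∫ x, (∑ i, pd i h x ^ 2) * wt P x
      ≤ hi * ∫ x, Gam (fun i j x => tauM v x i j) h h x * wt P x := by
    rw [← integral_const_mul]
    refine integral_mono i5 (i4.const_mul _) fun x => ?_
    simp only
    rw [← mul_assoc]
    exact mul_le_mul_of_nonneg_right (hGam h x) (Real.exp_pos _).le
  refine e2.trans ?_
  calc W * ∫ x, (h x - m) ^ 2 * wt P x
      ≤ W * (KP * ∫ x, (∑ i, pd i h x ^ 2) * wt P x) :=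
        mul_le_mul_of_nonneg_left hpoi hW.le
    _ ≤ W * (KP * (hi * ∫ x, Gam (fun i j x => tauM v x i j) h h x * wt P x)) :=
        mul_le_mul_of_nonneg_left (mul_le_mul_of_nonneg_left e3 hKP0) hW.le
    _ = _ := by ring

end Crest.Agent.R238.Den
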