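import Crest.Agent.R238.DenTG
import Crest.Agent.R238.TopDefs

/-! Row 238, H10 (density): `Nice` functions are temperate; the entries of `tauM v` are temperate.
(helper892) -/

set_option autoImplicit false
open scoped ContDiff Topology
open Set Filter MeasureTheory Function

noncomputable section

namespace Crest.Agent.R238.Den

variable {n : ℕ}

section PB

variable {D : Type*} [NormedAddCommGroup D]

/-- polynomially bounded -/
def PB (g : D → ℝ) : Prop := ∃ (k : ℕ) (C : ℝ), 0 ≤ C ∧ ∀ x, |g x| ≤ C * (1 + ‖x‖) ^ k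

theorem PB.mono {f g : D → ℝ} (hg : PB g) (h : ∀ x, |f x| ≤ |g x|) : PB f := by
  obtain ⟨k, C, hC, hb⟩ := hg
  exact ⟨k, C, hC, fun x => (h x).trans (hb x)⟩

theorem PB.add {f g : D → ℝ} (hf : PB f) (hg : PB g) : PB (fun x => f x + g x) := by
  obtain ⟨k, C, hC, hb⟩ := hf
  obtain ⟨l, C', hC', hb'⟩ := hg
  refine ⟨k + l, C + C', by positivity, fun x => ?_⟩
  have h1 : (1 : ℝ) ≤ 1 + ‖x‖ := by linarith [norm_nonneg x]
  have h2 : (1 + ‖x‖) ^ k ≤ (1 + ‖x‖) ^ (k + l) := pow_le_pow_right₀ h1 (by omega)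
  have h3 : (1 + ‖x‖) ^ l ≤ (1 + ‖x‖) ^ (k + l) := pow_le_pow_right₀ h1 (by omega)
  calc |f x + g x| ≤ |f x| + |g x| := abs_add_le _ _
    _ ≤ C * (1 + ‖x‖) ^ k + C' * (1 + ‖x‖) ^ l := add_le_add (hb x) (hb' x)
    _ ≤ C * (1 + ‖x‖) ^ (k + l) + C' * (1 + ‖x‖) ^ (k + l) :=
        add_le_add (mul_le_mul_of_nonneg_left h2 hC) (mul_le_mul_of_nonneg_left h3 hC')
    _ = _ := by ring

theorem PB.mul {f g : D → ℝ} (hf : PB f) (hg : PB g) : PB (fun x => f x * g x) := by
  obtain ⟨k, C, hC, hb⟩ := hf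
  obtain ⟨l, C', hC', hb'⟩ := hg
  refine ⟨k + l, C * C', by positivity, fun x => ?_⟩
  rw [abs_mul]
  calc |f x| * |g x| ≤ (C * (1 + ‖x‖) ^ k) * (C' * (1 + ‖x‖) ^ l) :=
        mul_le_mul (hb x) (hb' x) (abs_nonneg _) (by positivity)
    _ = _ := by ring

theorem PB.const (c : ℝ) : PB (fun _ : D => c) := ⟨0, |c|, abs_nonneg _, fun x => by simp⟩

theorem PB.sum {ι : Type*} (s : Finset ι) {f : ι → D → ℝ} (hf : ∀ i ∈ s, PB (f i)) :
    PB (fun x => ∑ i ∈ s, f i x) := by
  classical
  induction s using Finset.induction_on with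
  | empty => simpa using PB.const (D := D) 0
  | insert a s ha ih =>
    simp only [Finset.sum_insert ha]
    exact (hf a (Finset.mem_insert_self _ _)).add
      (ih fun i hi => hf i (Finset.mem_insert_of_mem hi))

end PB

section inv

variable {D : Type*} [NormedAddCommGroup D] [NormedSpace ℝ D]

theorem PB.of_tg {F : Type*} [NormedAddCommGroup F] [NormedSpace ℝ F] {f : D → F}
    (hf : f.HasTemperateGrowth) (j : ℕ) : PB (fun x => ‖iteratedFDeriv ℝ j f x‖) := by
  obtain ⟨k, C, hC, h⟩ := hf.norm_iteratedFDeriv_le_uniform j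
  exact ⟨k, C, hC, fun x => by rw [abs_norm]; exact h j le_rfl x⟩

/-- the inverse of a temperate function, if bounded, is temperate -/
theorem tg_inv {d : D → ℝ} (hd : d.HasTemperateGrowth) (h0 : ∀ x, d x ≠ 0)
    (hb : ∃ B : ℝ, ∀ x, |(d x)⁻¹| ≤ B) : (fun x => (d x)⁻¹).HasTemperateGrowth := by
  set h : D → ℝ := fun x => (d x)⁻¹ with hh
  have hsm : ContDiff ℝ ∞ h := hd.1.inv h0
  have hfd : fderiv ℝ h = fun x => (-(h x * h x)) • fderiv ℝ d x := by
    ext1 x
    have h1 : HasFDerivAt d (fderiv ℝ d x) x := (tg_diff hd x).hasFDerivAt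
    have h2 := (hasDerivAt_inv (h0 x)).comp_hasFDerivAt x h1
    have h3 : fderiv ℝ h x = (-(d x ^ 2)⁻¹) • fderiv ℝ d x := h2.fderiv
    rw [h3]
    congr 1
    simp only [hh]
    rw [sq, mul_inv]
  have key : ∀ m : ℕ, ∀ j ≤ m, PB (fun x => ‖iteratedFDeriv ℝ j h x‖) := by
    intro m
    induction m with
    | zero =>
      intro j hj
      obtain rfl : j = 0 := by omega
      obtain ⟨B, hB⟩ := hb
      refine ⟨0, |B|, abs_nonneg _, fun x => ?_⟩
      rw [abs_norm, norm_iteratedFDeriv_zero]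
      have := (hB x).trans (le_abs_self B)
      simpa [hh] using this
    | succ m ih =>
      intro j hj
      rcases Nat.lt_or_ge j (m + 1) with hlt | hge
      · exact ih j (by omega)
      obtain rfl : j = m + 1 := by omega
      have e1 : ∀ x, ‖iteratedFDeriv ℝ (m + 1) h x‖
          = ‖iteratedFDeriv ℝ m (fun x => (-(h x * h x)) • fderiv ℝ d x) x‖ := by
        intro x
        rw [← hfd, norm_iteratedFDeriv_fderiv]
      have hhm : ContDiff ℝ ∞ (fun x => -(h x * h x)) := (hsm.mul hsm).neg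
      have hdm : ContDiff ℝ ∞ (fderiv ℝ d) := hd.1.fderiv_right (by simp)
      have b1 : ∀ i ≤ m, PB (fun x => ‖iteratedFDeriv ℝ i (fun x => -(h x * h x)) x‖) := by
        intro i hi
        have e2 : ∀ x, ‖iteratedFDeriv ℝ i (fun x => -(h x * h x)) x‖
            ≤ ∑ a ∈ Finset.range (i + 1), (i.choose a : ℝ) * ‖iteratedFDeriv ℝ a h x‖
              * ‖iteratedFDeriv ℝ (i - a) h x‖ := by
          intro x
          have e3 := norm_iteratedFDeriv_mul_le (N := ∞) hsm hsm x (n := i) (by exact_mod_cast le_top)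
          have e4 : ‖iteratedFDeriv ℝ i (fun x => -(h x * h x)) x‖
              = ‖iteratedFDeriv ℝ i (fun x => h x * h x) x‖ := by
            rw [show (fun x => -(h x * h x)) = -(fun x => h x * h x) from rfl,
              iteratedFDeriv_neg_apply, norm_neg]
          rw [e4]; exact e3
        refine PB.mono (PB.sum (Finset.range (i + 1)) fun a ha =>
          ((PB.const (i.choose a : ℝ)).mul (ih a ?_)).mul (ih (i - a) (by omega))) fun x => ?_
        · have := Finset.mem_range.1 ha; omega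
        · rw [abs_norm]
          exact (e2 x).trans (le_abs_self _)
      refine PB.mono (PB.sum (Finset.range (m + 1)) fun a ha =>
          ((PB.const (m.choose a : ℝ)).mul (b1 a ?_)).mul
            (PB.of_tg (tg_fderiv hd) (m - a))) fun x => ?_
      · have := Finset.mem_range.1 ha; omega
      · rw [e1, abs_norm]
        have e5 := norm_iteratedFDeriv_smul_le (N := ∞) hhm hdm x (n := m)
          (by exact_mod_cast le_top)
        exact e5.trans (le_abs_self _)
  refine ⟨hsm, fun m => ?_⟩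
  obtain ⟨k, C, -, hb⟩ := key m m le_rfl
  exact ⟨k, C, fun x => by simpa using hb x⟩

theorem tg_prod {ι : Type*} (s : Finset ι) {f : ι → D → ℝ}
    (hf : ∀ i ∈ s, (f i).HasTemperateGrowth) :
    (fun x => ∏ i ∈ s, f i x).HasTemperateGrowth := by
  classical
  induction s using Finset.induction_on with
  | empty => simp
  | insert a s ha ih =>
    simp only [Finset.prod_insert ha]
    exact (hf a (Finset.mem_insert_self _ _)).fun_mul
      (ih fun i hi => hf i (Finset.mem_insert_of_mem hi))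

theorem tg_det {m : Type*} [Fintype m] [DecidableEq m] {A : D → Matrix m m ℝ}
    (hA : ∀ i j, (fun x => A x i j).HasTemperateGrowth) :
    (fun x => (A x).det).HasTemperateGrowth := by
  simp only [Matrix.det_apply']
  exact HasTemperateGrowth.sum fun σ _ => (HasTemperateGrowth.const _).fun_mul
    (tg_prod _ fun i _ => hA _ _)

theorem tg_adj {m : Type*} [Fintype m] [DecidableEq m] {A : D → Matrix m m ℝ}
    (hA : ∀ i j, (fun x => A x i j).HasTemperateGrowth) (i j : m) :
    (fun x => (A x).adjugate i j).HasTemperateGrowth := by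
  simp only [Matrix.adjugate_apply]
  refine tg_det fun a b => ?_
  by_cases h : a = j
  · subst h
    simp only [Matrix.updateRow_self]
    exact HasTemperateGrowth.const _
  · simp only [Matrix.updateRow_ne h]
    exact hA a b

end inv

/-- `Nice` functions are temperate -/
theorem tg_nice {f : E n → ℝ} (hf : Nice f) : f.HasTemperateGrowth := by
  have hf1 : ContDiff ℝ ∞ (fderiv ℝ f) := hf.smooth.fderiv_right (by simp)
  have hf2 : ContDiff ℝ ∞ (fderiv ℝ (fderiv ℝ f)) := hf1.fderiv_right (by simp)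
  have h2 : (fderiv ℝ (fderiv ℝ f)).HasTemperateGrowth := by
    refine ⟨hf2, fun m => ?_⟩
    obtain ⟨C, hC⟩ := hf.bdd (m + 1 + 1) (by omega)
    refine ⟨0, C, fun x => ?_⟩
    rw [norm_iteratedFDeriv_fderiv, norm_iteratedFDeriv_fderiv]
    simpa using hC x
  obtain ⟨C2, hC2⟩ := hf.bdd 2 le_rfl
  have hb2 : ∀ x, ‖fderiv ℝ (fderiv ℝ f) x‖ ≤ C2 := by
    intro x
    have h := hC2 x
    rw [show (2 : ℕ) = 0 + 1 + 1 from rfl, ← norm_iteratedFDeriv_fderiv,
      ← norm_iteratedFDeriv_fderiv, norm_iteratedFDeriv_zero] at h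
    exact h
  have hC20 : 0 ≤ C2 := le_trans (by positivity) (hb2 0)
  have hb1 : ∀ x, ‖fderiv ℝ f x‖ ≤ (‖fderiv ℝ f 0‖ + C2) * (1 + ‖x‖) ^ 1 := by
    intro x
    have h := Convex.norm_image_sub_le_of_norm_fderiv_le (𝕜 := ℝ) (f := fderiv ℝ f)
      (s := univ) (C := C2) (fun y _ => hf1.differentiable (by simp) y) (fun y _ => hb2 y)
      convex_univ (mem_univ 0) (mem_univ x)
    rw [sub_zero] at h
    have h3 : ‖fderiv ℝ f x‖ ≤ ‖fderiv ℝ f 0‖ + ‖fderiv ℝ f x - fderiv ℝ f 0‖ := by
      have := norm_add_le (fderiv ℝ f 0) (fderiv ℝ f x - fderiv ℝ f 0)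
      simpa using this
    have h4 := norm_nonneg x
    have h5 := norm_nonneg (fderiv ℝ f 0)
    rw [pow_one]
    nlinarith [mul_nonneg h5 h4]
  have h1 : (fderiv ℝ f).HasTemperateGrowth :=
    HasTemperateGrowth.of_fderiv h2 (hf1.differentiable (by simp)) hb1
  set A := ‖fderiv ℝ f 0‖ + C2 with hA
  have hA0 : 0 ≤ A := by positivity
  have hb0 : ∀ x, ‖f x‖ ≤ (‖f 0‖ + A) * (1 + ‖x‖) ^ 2 := by
    intro x
    have h := Convex.norm_image_sub_le_of_norm_fderiv_le (𝕜 := ℝ) (f := f)
      (s := Metric.closedBall 0 ‖x‖) (C := A * (1 + ‖x‖))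
      (fun y _ => hf.smooth.differentiable (by simp) y) (fun y hy => by
        refine (hb1 y).trans ?_
        rw [pow_one]
        have : ‖y‖ ≤ ‖x‖ := by simpa using hy
        exact mul_le_mul_of_nonneg_left (by linarith) hA0)
      (convex_closedBall _ _) (x := 0) (by simp) (y := x) (by simp)
    rw [sub_zero] at h
    have h3 : ‖f x‖ ≤ ‖f 0‖ + ‖f x - f 0‖ := by
      have := norm_add_le (f 0) (f x - f 0)
      simpa using this
    have h4 := norm_nonneg x
    have h5 := norm_nonneg (f 0)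
    nlinarith [mul_nonneg h5 h4, mul_nonneg h5 (mul_nonneg h4 h4), mul_nonneg hA0 h4,
      mul_nonneg hA0 (mul_nonneg h4 h4)]
  exact HasTemperateGrowth.of_fderiv h1 (hf.smooth.differentiable (by simp)) hb0

/-- test functions are temperate -/
theorem tg_tst {f : E n → ℝ} (hf : Tst f) : f.HasTemperateGrowth :=
  hf.supp.hasTemperateGrowth hf.smooth

theorem Hs_eq {f : E n → ℝ} (hf : f.HasTemperateGrowth) (x : E n) (i j : Fin n) :
    Hs f x i j = pd i (pd j f) x := by
  unfold Hs pd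
  have h1 : DifferentiableAt ℝ (fderiv ℝ f) x := tg_diff (tg_fderiv hf) x
  have h2 : HasFDerivAt (fun y => fderiv ℝ f y (bv j))
      ((ContinuousLinearMap.apply ℝ ℝ (bv j)).comp (fderiv ℝ (fderiv ℝ f) x)) x :=
    (ContinuousLinearMap.apply ℝ ℝ (bv j)).hasFDerivAt.comp x h1.hasFDerivAt
  rw [h2.fderiv]
  rfl

theorem tg_Hs {f : E n → ℝ} (hf : f.HasTemperateGrowth) (i j : Fin n) :
    (fun x => Hs f x i j).HasTemperateGrowth := by
  have : (fun x => Hs f x i j) = pd i (pd j f) := by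
    ext x; exact Hs_eq hf x i j
  rw [this]
  exact tg_pd (tg_pd hf j) i

theorem tg_gM {v : E n → ℝ} (hv : v.HasTemperateGrowth) (i j : Fin n) :
    (fun x => gM v x i j).HasTemperateGrowth := by
  simp only [gM, Matrix.add_apply, Matrix.of_apply]
  exact (HasTemperateGrowth.const _).fun_add (tg_Hs hv i j)

end Crest.Agent.R238.Den
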