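import Crest.Agent.R238.DenL2
import Crest.Agent.R238.DenTau
import Crest.Agent.R238.GapDat

/-! Row 238, H10 (density): consequences of `Sol P v`. (helper892) -/

set_option autoImplicit false
open scoped ContDiff Topology
open Set Filter MeasureTheory Function

noncomputable section

namespace Crest.Agent.R238.Den

variable {n : ℕ}

/-- entries of a bounded-entry matrix: the determinant is bounded -/
theorem det_bdd {A : E n → Matrix (Fin n) (Fin n) ℝ} {B : ℝ} (hB : ∀ x i j, |A x i j| ≤ B) :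
    ∃ C : ℝ, ∀ x, |(A x).det| ≤ C := by
  refine ⟨∑ σ : Equiv.Perm (Fin n), ∏ i : Fin n, B, fun x => ?_⟩
  rw [Matrix.det_apply']
  refine (Finset.abs_sum_le_sum_abs _ _).trans (Finset.sum_le_sum fun σ _ => ?_)
  rw [abs_mul, Finset.abs_prod]
  have h1 : |((Equiv.Perm.sign σ : ℤ) : ℝ)| = 1 := by
    rcases Int.units_eq_one_or (Equiv.Perm.sign σ) with h | h <;> simp [h]
  rw [h1, one_mul]
  exact Finset.prod_le_prod (fun i _ => abs_nonneg _) fun i _ => hB _ _ _

theorem tg_tau {P v : E n → ℝ} (hv : Sol P v) (i j : Fin n) :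
    (fun x => tauM v x i j).HasTemperateGrowth := by
  obtain ⟨lo, hi, hlo, hell⟩ := hv.ell
  have hg := tg_gM (tg_nice hv.nice)
  have hdet : ∀ x, (gM v x).det ≠ 0 := fun x => GapD.ell_det_ne hlo (hell x)
  have hent : ∀ x i j, |tauM v x i j| ≤ |1 / hi| + |1 / lo| := fun x i j =>
    GapD.ell_entry_le (GapD.ell_inv hlo (hell x)) i j
  obtain ⟨C, hC⟩ := det_bdd hent
  have hdinv : (fun x => ((gM v x).det)⁻¹).HasTemperateGrowth := by
    refine tg_inv (tg_det hg) hdet ⟨C, fun x => ?_⟩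
    have h1 : ((gM v x).det)⁻¹ = (tauM v x).det := by
      unfold tauM
      rw [Matrix.det_nonsing_inv, Ring.inverse_eq_inv']
    rw [h1]; exact hC x
  have h2 : (fun x => tauM v x i j) = fun x => ((gM v x).det)⁻¹ * (gM v x).adjugate i j := by
    ext x
    exact GapD.inv_entry _ i j
  rw [h2]
  exact hdinv.fun_mul (tg_adj hg i j)

/-- the potential -/
def Pot (P : E n → ℝ) (x : E n) : ℝ := ‖x‖ ^ 2 / 2 + P x

theorem wt_eq (P : E n → ℝ) (x : E n) : wt P x = Real.exp (-Pot P x) := rfl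

theorem bdd_of_tst {P : E n → ℝ} (hP : Tst P) : ∃ M : ℝ, ∀ x, |P x| ≤ M := by
  obtain ⟨C, hC⟩ := hP.supp.exists_bound_of_continuous hP.smooth.continuous
  exact ⟨C, fun x => by simpa using hC x⟩

theorem weight_tst {P : E n → ℝ} (hP : Tst P) : Weight (Pot P) := by
  refine ⟨?_, 1 / 2, by norm_num, ?_⟩
  · have h1 := (hasTemperateGrowth_norm_sq (E n)).fun_mul
      (HasTemperateGrowth.const (E := E n) (1 / 2 : ℝ))
    have h2 := h1.fun_add (tg_tst hP)
    have h3 : Pot P = fun x => ‖x‖ ^ 2 * (1 / 2) + P x := by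
      ext x; unfold Pot; ring
    rw [h3]
    exact h2
  · obtain ⟨M, hM⟩ := bdd_of_tst hP
    refine ⟨M, fun x => ?_⟩
    have := (abs_le.1 (hM x)).1
    unfold Pot
    linarith

theorem pd_Pot {P : E n → ℝ} (hP : Tst P) (i : Fin n) (x : E n) :
    pd i (Pot P) x = x i + pd i P x := by
  have h1 : Differentiable ℝ P := hP.smooth.differentiable (by simp)
  have h2 : Differentiable ℝ (fun x : E n => ‖x‖ ^ 2) := fun x => by
    have := (hasTemperateGrowth_norm_sq (E n)).1.differentiable (by simp)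
    exact this x
  have h3 : HasFDerivAt (Pot P) ((1 / 2 : ℝ) • (2 • innerSL ℝ x) + fderiv ℝ P x) x := by
    have h4 : HasFDerivAt (fun x : E n => ‖x‖ ^ 2) (2 • innerSL ℝ x) x := by
      have := (h2 x).hasFDerivAt
      rwa [fderiv_norm_sq_apply] at this
    have h5 := (h4.const_mul (1 / 2 : ℝ)).add (h1 x).hasFDerivAt
    have h6 : Pot P = fun x => (1 / 2 : ℝ) * ‖x‖ ^ 2 + P x := by
      ext x; unfold Pot; ring
    rw [h6]
    exact h5
  unfold pd
  rw [h3.fderiv]
  simp [bv, EuclideanSpace.inner_single_right]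

theorem Lop_eq {v h : E n → ℝ} (hh : h.HasTemperateGrowth) (x : E n) :
    Lop v h x = LL (fun i j x => tauM v x i j) h x := by
  unfold Lop LA LL
  congr 1
  · refine Finset.sum_congr rfl fun i _ => Finset.sum_congr rfl fun j _ => ?_
    rw [Hs_eq hh]
  · exact Gap.fderiv_apply_eq_sum h x x

end Crest.Agent.R238.Den
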