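import Mathlib

/-! Row 238, H10 (density): temperate functions, partial derivatives, weight `exp(-Ψ)`.
(helper892) -/

set_option autoImplicit false
open scoped ContDiff Topology
open Set Filter MeasureTheory Function

noncomputable section

namespace Crest.Agent.R238.Den

/-- Euclidean space -/
abbrev E (n : ℕ) := EuclideanSpace ℝ (Fin n)

variable {n : ℕ}

/-- basis vector -/
def bv (i : Fin n) : E n := EuclideanSpace.single i 1

/-- partial derivative -/
def pd (i : Fin n) (f : E n → ℝ) (x : E n) : ℝ := fderiv ℝ f x (bv i)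

/-- partial derivative in the `E n` directions, with a parameter -/
def pdt (i : Fin n) (F : ℝ × E n → ℝ) (p : ℝ × E n) : ℝ := fderiv ℝ F p (0, bv i)

section TG

variable {D F : Type*} [NormedAddCommGroup D] [NormedSpace ℝ D]
  [NormedAddCommGroup F] [NormedSpace ℝ F]

theorem tg_fderiv {f : D → F} (hf : f.HasTemperateGrowth) :
    (fderiv ℝ f).HasTemperateGrowth := by
  refine ⟨hf.1.fderiv_right (by simp), fun m => ?_⟩
  obtain ⟨k, C, h⟩ := hf.2 (m + 1)
  exact ⟨k, C, fun x => by rw [norm_iteratedFDeriv_fderiv]; exact h x⟩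

theorem tg_fderiv_apply {f : D → F} (hf : f.HasTemperateGrowth) (v : D) :
    (fun x => fderiv ℝ f x v).HasTemperateGrowth :=
  (ContinuousLinearMap.apply ℝ F v).hasTemperateGrowth.comp (tg_fderiv hf)

theorem tg_pd {f : E n → ℝ} (hf : f.HasTemperateGrowth) (i : Fin n) :
    (pd i f).HasTemperateGrowth := tg_fderiv_apply hf _

theorem tg_pdt {f : ℝ × E n → ℝ} (hf : f.HasTemperateGrowth) (i : Fin n) :
    (pdt i f).HasTemperateGrowth := tg_fderiv_apply hf _

theorem tg_bound {f : D → F} (hf : f.HasTemperateGrowth) :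
    ∃ (k : ℕ) (C : ℝ), 0 ≤ C ∧ ∀ x, ‖f x‖ ≤ C * (1 + ‖x‖) ^ k := by
  obtain ⟨k, C, hC, h⟩ := hf.norm_iteratedFDeriv_le_uniform 0
  exact ⟨k, C, hC, fun x => by simpa using h 0 le_rfl x⟩

theorem tg_cont {f : D → F} (hf : f.HasTemperateGrowth) : Continuous f := hf.1.continuous

theorem tg_diff {f : D → F} (hf : f.HasTemperateGrowth) : Differentiable ℝ f :=
  hf.1.differentiable (by simp)

end TG

theorem tg_coord (i : Fin n) : (fun x : E n => x i).HasTemperateGrowth :=
  (EuclideanSpace.proj (𝕜 := ℝ) i : E n →L[ℝ] ℝ).hasTemperateGrowth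

/-- `L f = ∑ τ_ij ∂_i ∂_j f - ∑ x_i ∂_i f` -/
def LL (τ : Fin n → Fin n → E n → ℝ) (f : E n → ℝ) (x : E n) : ℝ :=
  ∑ i, ∑ j, τ i j x * pd i (pd j f) x - ∑ i, x i * pd i f x

/-- `L` with a parameter -/
def LT (τ : Fin n → Fin n → E n → ℝ) (f : ℝ × E n → ℝ) (p : ℝ × E n) : ℝ :=
  ∑ i, ∑ j, τ i j p.2 * pdt i (pdt j f) p - ∑ i, p.2 i * pdt i f p

theorem tg_LL {τ : Fin n → Fin n → E n → ℝ} (hτ : ∀ i j, (τ i j).HasTemperateGrowth)
    {f : E n → ℝ} (hf : f.HasTemperateGrowth) : (LL τ f).HasTemperateGrowth := by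
  unfold LL
  refine HasTemperateGrowth.fun_sub (HasTemperateGrowth.sum fun i _ =>
    HasTemperateGrowth.sum fun j _ => (hτ i j).fun_mul (tg_pd (tg_pd hf j) i))
    (HasTemperateGrowth.sum fun i _ => (tg_coord i).fun_mul (tg_pd hf i))

theorem tg_LT {τ : Fin n → Fin n → E n → ℝ} (hτ : ∀ i j, (τ i j).HasTemperateGrowth)
    {f : ℝ × E n → ℝ} (hf : f.HasTemperateGrowth) : (LT τ f).HasTemperateGrowth := by
  unfold LT
  have h2 : (fun p : ℝ × E n => p.2).HasTemperateGrowth :=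
    (ContinuousLinearMap.snd ℝ ℝ (E n)).hasTemperateGrowth
  refine HasTemperateGrowth.fun_sub (HasTemperateGrowth.sum fun i _ =>
    HasTemperateGrowth.sum fun j _ => ((hτ i j).comp h2).fun_mul (tg_pdt (tg_pdt hf j) i))
    (HasTemperateGrowth.sum fun i _ => ((tg_coord i).comp h2).fun_mul (tg_pdt hf i))

theorem pd_slice {F : ℝ × E n → ℝ} (hF : Differentiable ℝ F) (i : Fin n) (t : ℝ) (x : E n) :
    pd i (fun y => F (t, y)) x = pdt i F (t, x) := by
  have h1 : HasFDerivAt (fun y : E n => ((t, y) : ℝ × E n))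
      (ContinuousLinearMap.inr ℝ ℝ (E n)) x := hasFDerivAt_prodMk_right t x
  have h2 := ((hF (t, x)).hasFDerivAt.comp x h1).fderiv
  unfold pd pdt
  change (fderiv ℝ (F ∘ fun y : E n => ((t, y) : ℝ × E n)) x) _ = _
  rw [h2]
  simp

theorem LL_slice {τ : Fin n → Fin n → E n → ℝ} {F : ℝ × E n → ℝ} (hF : F.HasTemperateGrowth)
    (t : ℝ) (x : E n) : LL τ (fun y => F (t, y)) x = LT τ F (t, x) := by
  unfold LL LT
  have h1 : ∀ j, pd j (fun y => F (t, y)) = fun y => pdt j F (t, y) := fun j => by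
    ext y; exact pd_slice (tg_diff hF) j t y
  simp only [h1]
  congr 1
  refine Finset.sum_congr rfl fun i _ => Finset.sum_congr rfl fun j _ => ?_
  rw [pd_slice (tg_diff (tg_pdt hF j)) i t x]

/-- the cut-off family -/
def cut (η : E n → ℝ) (f : E n → ℝ) (p : ℝ × E n) : ℝ := η (p.1 • p.2) * f p.2

theorem tg_cut {η f : E n → ℝ} (hη : η.HasTemperateGrowth) (hf : f.HasTemperateGrowth) :
    (cut η f).HasTemperateGrowth := by
  unfold cut
  have h2 : (fun p : ℝ × E n => p.2).HasTemperateGrowth :=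
    (ContinuousLinearMap.snd ℝ ℝ (E n)).hasTemperateGrowth
  have h1 : (fun p : ℝ × E n => p.1).HasTemperateGrowth :=
    (ContinuousLinearMap.fst ℝ ℝ (E n)).hasTemperateGrowth
  exact (hη.comp (h1.fun_smul h2)).fun_mul (hf.comp h2)

end Crest.Agent.R238.Den
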