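import Crest.Agent.R238.DenTG

/-! Row 238, H10 (density): integrability and integration by parts for the weight `exp(-Ψ)`.
(helper892) -/

set_option autoImplicit false
open scoped ContDiff Topology
open Set Filter MeasureTheory Function

noncomputable section

namespace Crest.Agent.R238.Den

variable {n : ℕ}

/-- the weight: temperate and with a quadratic lower bound -/
structure Weight (Ψ : E n → ℝ) : Prop where
  tg : Ψ.HasTemperateGrowth
  low : ∃ c > 0, ∃ C : ℝ, ∀ x, c * ‖x‖ ^ 2 - C ≤ Ψ x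

theorem integrable_gauss0 {c : ℝ} (hc : 0 < c) :
    Integrable (fun x : E n => Real.exp (-c * ‖x‖ ^ 2)) := by
  have h := GaussianFourier.integrable_cexp_neg_mul_sq_norm_add (V := E n) (b := (c : ℂ))
    (by simpa using hc) 0 0
  have h2 := h.norm
  refine h2.congr (Filter.Eventually.of_forall fun x => ?_)
  simp only [Complex.norm_exp]
  congr 1
  simp
  left
  norm_cast

theorem poly_le_exp (k : ℕ) {c : ℝ} (hc : 0 < c) :
    ∃ C : ℝ, 0 ≤ C ∧ ∀ r : ℝ, 0 ≤ r → (1 + r) ^ k ≤ C * Real.exp (c * r ^ 2) := by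
  refine ⟨(Nat.factorial k : ℝ) * Real.exp (1 + 1 / (4 * c)), by positivity, fun r hr => ?_⟩
  have h1 := Real.pow_div_factorial_le_exp (x := 1 + r) (by positivity) k
  have h2 : (1 + r) ^ k ≤ (Nat.factorial k : ℝ) * Real.exp (1 + r) := by
    rw [div_le_iff₀ (by positivity)] at h1
    linarith
  refine h2.trans ?_
  rw [mul_assoc, ← Real.exp_add]
  refine mul_le_mul_of_nonneg_left (Real.exp_le_exp.2 ?_) (by positivity)
  have : 0 ≤ (2 * c * r - 1) ^ 2 / (4 * c) := by positivity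
  have h3 : (2 * c * r - 1) ^ 2 / (4 * c) = c * r ^ 2 - r + 1 / (4 * c) := by
    field_simp; ring
  linarith

theorem integrable_of_bound {Ψ : E n → ℝ} (hΨ : Weight Ψ) {f : E n → ℝ}
    (hf : AEStronglyMeasurable f volume) {k : ℕ} {C : ℝ} (hC : ∀ x, ‖f x‖ ≤ C * (1 + ‖x‖) ^ k) :
    Integrable (fun x => f x * Real.exp (-Ψ x)) := by
  obtain ⟨c, hc, B, hB⟩ := hΨ.low
  obtain ⟨C', hC', h'⟩ := poly_le_exp k (c := c / 2) (by positivity)
  have hC0 : 0 ≤ C := by
    have := (norm_nonneg _).trans (hC 0)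
    simpa using this
  refine ((integrable_gauss0 (n := n) (c := c / 2) (by positivity)).const_mul
    (C * C' * Real.exp B)).mono' (hf.mul ?_) (Filter.Eventually.of_forall fun x => ?_)
  · exact (Real.continuous_exp.comp (tg_cont hΨ.tg).neg).aestronglyMeasurable
  · rw [norm_mul, Real.norm_eq_abs (Real.exp _), abs_of_pos (Real.exp_pos _)]
    have h1 : Real.exp (-Ψ x) ≤ Real.exp B * (Real.exp (-(c / 2) * ‖x‖ ^ 2)
        * Real.exp (-(c / 2) * ‖x‖ ^ 2)) := by
      rw [← Real.exp_add, ← Real.exp_add]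
      exact Real.exp_le_exp.2 (by have := hB x; linarith)
    have h2 := h' ‖x‖ (norm_nonneg _)
    have h3 : Real.exp (c / 2 * ‖x‖ ^ 2) * Real.exp (-(c / 2) * ‖x‖ ^ 2) = 1 := by
      rw [← Real.exp_add]; simp
    calc ‖f x‖ * Real.exp (-Ψ x)
        ≤ (C * (C' * Real.exp (c / 2 * ‖x‖ ^ 2))) * (Real.exp B * (Real.exp (-(c / 2) * ‖x‖ ^ 2)
        * Real.exp (-(c / 2) * ‖x‖ ^ 2))) := by
          refine mul_le_mul ((hC x).trans (mul_le_mul_of_nonneg_left h2 hC0)) h1
            (Real.exp_pos _).le (by positivity)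
      _ = (C * C' * Real.exp B) * Real.exp (-(c / 2) * ‖x‖ ^ 2)
          * (Real.exp (c / 2 * ‖x‖ ^ 2) * Real.exp (-(c / 2) * ‖x‖ ^ 2)) := by ring
      _ = _ := by rw [h3]; ring

theorem int_tg {Ψ : E n → ℝ} (hΨ : Weight Ψ) {f : E n → ℝ} (hf : f.HasTemperateGrowth) :
    Integrable (fun x => f x * Real.exp (-Ψ x)) := by
  obtain ⟨k, C, -, h⟩ := tg_bound hf
  exact integrable_of_bound hΨ (tg_cont hf).aestronglyMeasurable h

theorem ibp {Ψ : E n → ℝ} (hΨ : Weight Ψ) {f : E n → ℝ} (hf : f.HasTemperateGrowth) (i : Fin n) :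
    ∫ x, pd i f x * Real.exp (-Ψ x) = ∫ x, (f x * pd i Ψ x) * Real.exp (-Ψ x) := by
  have hw : ∀ x, fderiv ℝ (fun x => Real.exp (-Ψ x)) x (bv i)
      = - (pd i Ψ x * Real.exp (-Ψ x)) := by
    intro x
    have h1 : HasFDerivAt Ψ (fderiv ℝ Ψ x) x := (tg_diff hΨ.tg x).hasFDerivAt
    have h2 : HasFDerivAt (fun x => Real.exp (-Ψ x)) (Real.exp (-Ψ x) • -(fderiv ℝ Ψ x)) x :=
      h1.neg.exp
    rw [h2.fderiv]
    simp [pd]
    ring
  have hd : Differentiable ℝ (fun x => Real.exp (-Ψ x)) := (tg_diff hΨ.tg).neg.exp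
  have key := integral_mul_fderiv_eq_neg_fderiv_mul_of_integrable (μ := (volume : Measure (E n)))
    (f := f) (g := fun x => Real.exp (-Ψ x)) (v := bv i)
    (by exact int_tg hΨ (tg_pd hf i))
    (by
      simp only [hw]
      refine (int_tg hΨ (hf.fun_mul (tg_pd hΨ.tg i))).neg.congr
        (Filter.Eventually.of_forall fun x => ?_)
      simp [mul_assoc])
    (int_tg hΨ hf) (fun x _ => tg_diff hf x) (fun x _ => hd x)
  simp only [hw] at key
  have e1 : ∫ x, (f x * pd i Ψ x) * Real.exp (-Ψ x)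
      = - ∫ x, f x * -(pd i Ψ x * Real.exp (-Ψ x)) := by
    rw [← integral_neg]
    congr 1; ext x; ring
  rw [e1, key, neg_neg]
  rfl

theorem pd_mul {f g : E n → ℝ} (hf : Differentiable ℝ f) (hg : Differentiable ℝ g) (i : Fin n)
    (x : E n) : pd i (fun y => f y * g y) x = pd i f x * g x + f x * pd i g x := by
  unfold pd
  rw [fderiv_fun_mul (hf x) (hg x)]
  simp
  ring

theorem pd_sum {ι : Type*} (s : Finset ι) {f : ι → E n → ℝ} (hf : ∀ a ∈ s, Differentiable ℝ (f a))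
    (i : Fin n) (x : E n) : pd i (fun y => ∑ a ∈ s, f a y) x = ∑ a ∈ s, pd i (f a) x := by
  unfold pd
  rw [fderiv_fun_sum (fun a ha => hf a ha x)]
  simp

/-- carré du champ -/
def Gam (τ : Fin n → Fin n → E n → ℝ) (h k : E n → ℝ) (x : E n) : ℝ :=
  ∑ i, ∑ j, τ i j x * pd i h x * pd j k x

theorem tg_Gam {τ : Fin n → Fin n → E n → ℝ} (hτ : ∀ i j, (τ i j).HasTemperateGrowth)
    {f g : E n → ℝ} (hf : f.HasTemperateGrowth) (hg : g.HasTemperateGrowth) :
    (Gam τ f g).HasTemperateGrowth := by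
  unfold Gam
  exact HasTemperateGrowth.sum fun i _ =>
    HasTemperateGrowth.sum fun j _ => ((hτ i j).fun_mul (tg_pd hf i)).fun_mul (tg_pd hg j)

/-- coefficients -/
structure Coef (τ : Fin n → Fin n → E n → ℝ) (Ψ : E n → ℝ) : Prop where
  tg : ∀ i j, (τ i j).HasTemperateGrowth
  symm : ∀ i j x, τ i j x = τ j i x
  div : ∀ b x, ∑ a, pd a (τ a b) x - ∑ a, τ a b x * pd a Ψ x = - x b

theorem LL_ibp {τ : Fin n → Fin n → E n → ℝ} {Ψ : E n → ℝ} (hΨ : Weight Ψ) (hτ : Coef τ Ψ)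
    {h k : E n → ℝ} (hh : h.HasTemperateGrowth) (hk : k.HasTemperateGrowth) :
    ∫ x, (LL τ h x * k x) * Real.exp (-Ψ x) = - ∫ x, Gam τ h k x * Real.exp (-Ψ x) := by
  set F : Fin n → E n → ℝ := fun j x => ∑ i, τ i j x * pd i h x with hF
  have hFtg : ∀ j, (F j).HasTemperateGrowth := fun j =>
    HasTemperateGrowth.sum fun i _ => (hτ.tg i j).fun_mul (tg_pd hh i)
  have hpF : ∀ j x, pd j (F j) x
      = ∑ i, (pd j (τ i j) x * pd i h x + τ i j x * pd j (pd i h) x) := by
    intro j x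
    rw [hF]
    simp only
    rw [pd_sum _ (fun a _ => tg_diff ((hτ.tg a j).fun_mul (tg_pd hh a)))]
    refine Finset.sum_congr rfl fun i _ => ?_
    rw [pd_mul (tg_diff (hτ.tg i j)) (tg_diff (tg_pd hh i))]
  have hpt : ∀ x, LL τ h x * k x + Gam τ h k x
      = ∑ j, (pd j (fun y => F j y * k y) x - F j x * k x * pd j Ψ x) := by
    intro x
    have e1 : ∀ j, pd j (fun y => F j y * k y) x - F j x * k x * pd j Ψ x
        = (∑ i, (pd j (τ i j) x * pd i h x + τ i j x * pd j (pd i h) x)) * k x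
          + F j x * pd j k x - F j x * k x * pd j Ψ x := by
      intro j
      rw [pd_mul (tg_diff (hFtg j)) (tg_diff hk), hpF]
    simp only [e1]
    have e2 : ∑ j, ∑ i, pd j (τ i j) x * pd i h x
        = ∑ i, (∑ j, τ j i x * pd j Ψ x - x i) * pd i h x := by
      rw [Finset.sum_comm]
      refine Finset.sum_congr rfl fun i _ => ?_
      rw [← Finset.sum_mul]
      congr 1
      have := hτ.div i x
      have e3 : ∑ j, pd j (τ i j) x = ∑ j, pd j (τ j i) x := by
        refine Finset.sum_congr rfl fun j _ => ?_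
        have : τ i j = τ j i := by ext y; exact hτ.symm i j y
        rw [this]
      rw [e3]; linarith
    have e4 : ∑ j, ∑ i, τ i j x * pd j (pd i h) x = ∑ i, ∑ j, τ i j x * pd i (pd j h) x := by
      refine Finset.sum_congr rfl fun j _ => Finset.sum_congr rfl fun i _ => ?_
      rw [hτ.symm i j x]
    have e5 : Gam τ h k x = ∑ j, F j x * pd j k x := by
      unfold Gam
      rw [Finset.sum_comm]
      refine Finset.sum_congr rfl fun j _ => ?_
      rw [hF]; simp only; rw [Finset.sum_mul]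
    have e6 : ∑ j, F j x * k x * pd j Ψ x = (∑ i, (∑ j, τ j i x * pd j Ψ x) * pd i h x) * k x := by
      simp only [hF, Finset.sum_mul]
      rw [Finset.sum_comm]
      refine Finset.sum_congr rfl fun i _ => Finset.sum_congr rfl fun j _ => ?_
      rw [hτ.symm i j x]; ring
    have e7 : LL τ h x = ∑ i, ∑ j, τ i j x * pd i (pd j h) x - ∑ i, x i * pd i h x := rfl
    rw [Finset.sum_sub_distrib, Finset.sum_add_distrib, ← Finset.sum_mul, e6, ← e5]
    simp only [Finset.sum_add_distrib]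
    rw [e2, e4, e7]
    simp only [sub_mul, Finset.sum_sub_distrib]
    ring
  have hint1 : Integrable (fun x => (LL τ h x * k x) * Real.exp (-Ψ x)) :=
    int_tg hΨ ((tg_LL hτ.tg hh).fun_mul hk)
  have hint2 : Integrable (fun x => Gam τ h k x * Real.exp (-Ψ x)) :=
    int_tg hΨ (tg_Gam hτ.tg hh hk)
  have hsum : ∫ x, (LL τ h x * k x + Gam τ h k x) * Real.exp (-Ψ x) = 0 := by
    simp only [hpt, Finset.sum_mul, sub_mul]
    rw [integral_finsetSum]
    · refine Finset.sum_eq_zero fun j _ => ?_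
      rw [integral_sub (int_tg hΨ (tg_pd ((hFtg j).fun_mul hk) j))
        (int_tg hΨ (((hFtg j).fun_mul hk).fun_mul (tg_pd hΨ.tg j)))]
      rw [ibp hΨ ((hFtg j).fun_mul hk) j, sub_self]
    · intro j _
      exact (int_tg hΨ (tg_pd ((hFtg j).fun_mul hk) j)).sub
        (int_tg hΨ (((hFtg j).fun_mul hk).fun_mul (tg_pd hΨ.tg j)))
  simp only [add_mul] at hsum
  rw [integral_add hint1 hint2] at hsum
  linarith

theorem LL_symm {τ : Fin n → Fin n → E n → ℝ} {Ψ : E n → ℝ} (hΨ : Weight Ψ) (hτ : Coef τ Ψ)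
    {h k : E n → ℝ} (hh : h.HasTemperateGrowth) (hk : k.HasTemperateGrowth) :
    ∫ x, (LL τ h x * k x) * Real.exp (-Ψ x) = ∫ x, (h x * LL τ k x) * Real.exp (-Ψ x) := by
  have h1 := LL_ibp hΨ hτ hh hk
  have h2 := LL_ibp hΨ hτ hk hh
  have e1 : ∀ x, Gam τ h k x = Gam τ k h x := by
    intro x
    unfold Gam
    rw [Finset.sum_comm]
    refine Finset.sum_congr rfl fun i _ => Finset.sum_congr rfl fun j _ => ?_
    rw [hτ.symm]; ring
  simp only [e1] at h1
  rw [h1, ← h2]
  congr 1; ext x; ring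

end Crest.Agent.R238.Den
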