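import Crest.Agent.R238.DenGlue
import Crest.Agent.R238.DenPoi
import Crest.Agent.R238.DenDense
import Crest.Agent.R238.GapFinal

/-! Row 238, H10: `theorem dens n : Dens n`. (helper892; poi_sol helper280, dense_even helper34,
gap helper469, dat_of_sol helper146) -/

set_option autoImplicit false
open scoped ContDiff Topology
open Set Filter MeasureTheory

namespace Crest.Agent.R238

variable {n : ℕ}

theorem Den.gap_sol {P v : E n → ℝ} (hP : PDat P) (hv : Sol P v) : ∃ K : ℝ, ∀ h : E n → ℝ,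
    Nice h → (∀ x, h (-x) = h x) →
      ∫ x, h x ^ 2 * wt P x ≤ K * ∫ x, (Lop v h x + h x) ^ 2 * wt P x := by
  obtain ⟨lo, hi, M0, hlo, D⟩ := GapD.dat_of_sol hP hv
  refine ⟨Gap.Kg n lo hi M0, fun h hh he => ?_⟩
  obtain ⟨C, hC⟩ := hh.bdd 2 le_rfl
  have hB : ∀ x i j, |Gap.H h x i j| ≤ C := by
    intro x i j
    have h1 := hC x
    rw [show (2 : ℕ) = 0 + 1 + 1 from rfl, ← norm_iteratedFDeriv_fderiv,
      ← norm_iteratedFDeriv_fderiv, norm_iteratedFDeriv_zero] at h1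
    have h2 : ‖(fderiv ℝ (fderiv ℝ h) x) (Gap.e i) (Gap.e j)‖ ≤
        ‖fderiv ℝ (fderiv ℝ h) x‖ * ‖(Gap.e i : E n)‖ * ‖(Gap.e j : E n)‖ :=
      ContinuousLinearMap.le_opNorm₂ _ _ _
    have e1 : ∀ i : Fin n, ‖(Gap.e i : E n)‖ = 1 := fun i => by
      simp [Gap.e]
    rw [e1, e1, mul_one, mul_one] at h2
    exact h2.trans h1
  exact Gap.gap hlo D he (by exact_mod_cast contDiff_infty.1 hh.smooth 2) hB

/-- **H10 (DENS)** -/
theorem dens (n : ℕ) : Dens n :=
  Den.dens_of n (fun _ _ hP hv => Den.gap_sol hP hv) (fun _ _ hP hv => Den.poi_sol hP hv)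
    (fun _ hP _ hf he ⟨_, hC⟩ _ hε => Den.dense_even hP hf he hC hε)

end Crest.Agent.R238
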