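import Crest.Agent.R238.ECal2

/-!
Row 238, module H8 (Calabi algebra), pure tensor algebra: helper254.
-/

set_option autoImplicit false

namespace Crest.Agent.R238.ECal

open Finset

section tensor

variable {n : ℕ}

lemma sum6 (f : Fin n → Fin n → Fin n → Fin n → Fin n → Fin n → ℝ) :
    ∑ a, ∑ b, ∑ c, ∑ d, ∑ p, ∑ q, f a b c d p q =
      ∑ x : Fin n × Fin n × Fin n × Fin n × Fin n × Fin n,
        f x.1 x.2.1 x.2.2.1 x.2.2.2.1 x.2.2.2.2.1 x.2.2.2.2.2 := by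
  simp only [Fintype.sum_prod_type]

lemma sum5 (f : Fin n → Fin n → Fin n → Fin n → Fin n → ℝ) :
    ∑ a, ∑ b, ∑ c, ∑ d, ∑ p, f a b c d p =
      ∑ x : Fin n × Fin n × Fin n × Fin n × Fin n,
        f x.1 x.2.1 x.2.2.1 x.2.2.2.1 x.2.2.2.2 := by
  simp only [Fintype.sum_prod_type]

/-- the K4 contraction -/
def c4 (T : Fin n → Fin n → Fin n → ℝ) : ℝ :=
  ∑ a, ∑ b, ∑ c, ∑ p, ∑ q, ∑ r, T a b c * (T a p q * T b q r * T c r p)

def X1 (T : Fin n → Fin n → Fin n → ℝ) (F : Fin n → Fin n → Fin n → Fin n → ℝ) : ℝ :=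
  ∑ a, ∑ b, ∑ c, ∑ d, ∑ e, T a b c * (T a d e * F b c d e)

def Mt (T : Fin n → Fin n → Fin n → ℝ) (a b : Fin n) : ℝ := ∑ i, ∑ j, T a i j * T b i j

def St (T : Fin n → Fin n → Fin n → ℝ) : ℝ := ∑ a, ∑ b, ∑ c, T a b c ^ 2

def dt (T : Fin n → Fin n → Fin n → ℝ) : ℝ := ∑ a, ∑ b, Mt T a b ^ 2

/-- symmetric three-tensors -/
structure Sym3 (T : Fin n → Fin n → Fin n → ℝ) : Prop where
  h12 : ∀ a b c, T a b c = T b a c
  h23 : ∀ a b c, T a b c = T a c b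

structure Sym4 (F : Fin n → Fin n → Fin n → Fin n → ℝ) : Prop where
  h12 : ∀ a b c d, F a b c d = F b a c d
  h23 : ∀ a b c d, F a b c d = F a c b d
  h34 : ∀ a b c d, F a b c d = F a b d c

variable {T : Fin n → Fin n → Fin n → ℝ} {F : Fin n → Fin n → Fin n → Fin n → ℝ}

lemma Sym3.h13 (hT : Sym3 T) (a b c : Fin n) : T a b c = T c b a := by
  rw [hT.h12, hT.h23, hT.h12]

lemma St_eq_trM (T : Fin n → Fin n → Fin n → ℝ) : St T = ∑ a, Mt T a a := by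
  unfold St Mt
  refine Finset.sum_congr rfl fun a _ => Finset.sum_congr rfl fun b _ =>
    Finset.sum_congr rfl fun c _ => by ring

/-- `St^2 ≤ n dt` -/
lemma St_sq_le (T : Fin n → Fin n → Fin n → ℝ) : St T ^ 2 ≤ n * dt T := by
  rw [St_eq_trM]
  have h1 : (∑ a, Mt T a a) ^ 2 ≤ (Finset.univ : Finset (Fin n)).card * ∑ a, Mt T a a ^ 2 :=
    sq_sum_le_card_mul_sum_sq
  have h2 : ∑ a, Mt T a a ^ 2 ≤ dt T := by
    unfold dt
    refine Finset.sum_le_sum fun a _ => ?_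
    exact Finset.single_le_sum (f := fun b => Mt T a b ^ 2) (fun b _ => sq_nonneg _)
      (Finset.mem_univ a)
  have h3 : ((Finset.univ : Finset (Fin n)).card : ℝ) = n := by simp
  rw [h3] at h1
  exact h1.trans (mul_le_mul_of_nonneg_left h2 (Nat.cast_nonneg n))

def A1 (T : Fin n → Fin n → Fin n → ℝ) (a b c d : Fin n) : ℝ := ∑ p, T a p d * T p b c
def A2 (T : Fin n → Fin n → Fin n → ℝ) (a b c d : Fin n) : ℝ := ∑ p, T b p d * T a p c
def A3 (T : Fin n → Fin n → Fin n → ℝ) (a b c d : Fin n) : ℝ := ∑ p, T c p d * T a b p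

lemma A1A2 (hT : Sym3 T) : ∑ a, ∑ b, ∑ c, ∑ d, A1 T a b c d * A2 T a b c d = c4 T := by
  unfold A1 A2 c4
  simp only [Finset.sum_mul_sum]
  rw [sum6 (fun a b c d p q => T a p d * T p b c * (T b q d * T a q c)),
    sum6 (fun a b c p q r => T a b c * (T a p q * T b q r * T c r p))]
  refine Fintype.sum_equiv ⟨fun x => (x.1, x.2.2.2.2.1, x.2.2.2.1, x.2.2.2.2.2, x.2.2.1, x.2.1),
    fun y => (y.1, y.2.2.2.2.2, y.2.2.2.2.1, y.2.2.1, y.2.1, y.2.2.2.1),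
    fun x => rfl, fun y => rfl⟩ _ _ ?_
  rintro ⟨a, b, c, d, p, q⟩
  simp only [Equiv.coe_fn_mk]
  rw [hT.h23 p b c, hT.h13 b q d, hT.h23 d q b]
  ring

lemma A2_A3 (hT : Sym3 T) (a b c d : Fin n) : A3 T a b c d = A2 T a c b d := by
  unfold A2 A3
  refine Finset.sum_congr rfl fun p _ => ?_
  rw [hT.h23 a b p]

lemma A1_swap (hT : Sym3 T) (a b c d : Fin n) : A1 T a b c d = A1 T a c b d := by
  unfold A1
  refine Finset.sum_congr rfl fun p _ => ?_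
  rw [hT.h23 p b c]

lemma A2_A1 (hT : Sym3 T) (a b c d : Fin n) : A2 T a b c d = A1 T b a c d := by
  unfold A2 A1
  refine Finset.sum_congr rfl fun p _ => ?_
  rw [hT.h12 a p c]

lemma A3_swap (hT : Sym3 T) (a b c d : Fin n) : A3 T a b c d = A3 T b a c d := by
  unfold A3
  refine Finset.sum_congr rfl fun p _ => ?_
  rw [hT.h12 a b p]

lemma A1A3 (hT : Sym3 T) : ∑ a, ∑ b, ∑ c, ∑ d, A1 T a b c d * A3 T a b c d = c4 T := by
  rw [← A1A2 hT]
  refine Finset.sum_congr rfl fun a _ => ?_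
  rw [Finset.sum_comm]
  refine Finset.sum_congr rfl fun b _ => Finset.sum_congr rfl fun c _ =>
    Finset.sum_congr rfl fun d _ => ?_
  rw [A2_A3 hT, A1_swap hT]

lemma A2A3 (hT : Sym3 T) : ∑ a, ∑ b, ∑ c, ∑ d, A2 T a b c d * A3 T a b c d = c4 T := by
  rw [← A1A3 hT, Finset.sum_comm]
  refine Finset.sum_congr rfl fun a _ => Finset.sum_congr rfl fun b _ =>
    Finset.sum_congr rfl fun c _ => Finset.sum_congr rfl fun d _ => ?_
  rw [A2_A1 hT, A3_swap hT]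

lemma A1A1 (hT : Sym3 T) : ∑ a, ∑ b, ∑ c, ∑ d, A1 T a b c d * A1 T a b c d = dt T := by
  unfold A1 dt Mt
  simp only [pow_two, Finset.sum_mul_sum]
  rw [sum6 (fun a b c d p q => T a p d * T p b c * (T a q d * T q b c))]
  have : ∀ a b : Fin n, ∑ i, ∑ j, ∑ k, ∑ l, T a i k * T b i k * (T a j l * T b j l) =
      ∑ i, ∑ j, ∑ k, ∑ l, T a i k * T b i k * (T a j l * T b j l) := fun _ _ => rfl
  rw [sum6 (fun a b i j k l => T a i k * T b i k * (T a j l * T b j l))]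
  refine Fintype.sum_equiv ⟨fun x => (x.2.2.2.2.1, x.2.2.2.2.2, x.1, x.2.1, x.2.2.2.1, x.2.2.1),
    fun y => (y.2.2.1, y.2.2.2.1, y.2.2.2.2.2, y.2.2.2.2.1, y.1, y.2.1),
    fun x => rfl, fun y => rfl⟩ _ _ ?_
  rintro ⟨a, b, c, d, p, q⟩
  simp only [Equiv.coe_fn_mk]
  rw [hT.h12 a p d, hT.h12 a q d]
  ring

lemma A2A2 (hT : Sym3 T) : ∑ a, ∑ b, ∑ c, ∑ d, A2 T a b c d * A2 T a b c d = dt T := by
  rw [← A1A1 hT, Finset.sum_comm]
  refine Finset.sum_congr rfl fun a _ => Finset.sum_congr rfl fun b _ =>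
    Finset.sum_congr rfl fun c _ => Finset.sum_congr rfl fun d _ => ?_
  rw [A2_A1 hT]

lemma A3A3 (hT : Sym3 T) : ∑ a, ∑ b, ∑ c, ∑ d, A3 T a b c d * A3 T a b c d = dt T := by
  rw [← A2A2 hT]
  refine Finset.sum_congr rfl fun a _ => ?_
  rw [Finset.sum_comm]
  refine Finset.sum_congr rfl fun b _ => Finset.sum_congr rfl fun c _ =>
    Finset.sum_congr rfl fun d _ => ?_
  rw [A2_A3 hT]

lemma FA1 (hT : Sym3 T) (hF : Sym4 F) : ∑ a, ∑ b, ∑ c, ∑ d, F a b c d * A1 T a b c d = X1 T F := by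
  unfold A1 X1
  simp only [Finset.mul_sum]
  rw [sum5 (fun a b c d p => F a b c d * (T a p d * T p b c)),
    sum5 (fun a b c d e => T a b c * (T a d e * F b c d e))]
  refine Fintype.sum_equiv ⟨fun x => (x.2.2.2.2, x.2.1, x.2.2.1, x.1, x.2.2.2.1),
    fun y => (y.2.2.2.1, y.2.1, y.2.2.1, y.2.2.2.2, y.1),
    fun x => rfl, fun y => rfl⟩ _ _ ?_
  rintro ⟨a, b, c, d, p⟩
  simp only [Equiv.coe_fn_mk]
  rw [hT.h12 a p d, hF.h12 a b c d, hF.h23 b a c d]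
  ring

lemma FA2 (hT : Sym3 T) (hF : Sym4 F) : ∑ a, ∑ b, ∑ c, ∑ d, F a b c d * A2 T a b c d = X1 T F := by
  rw [← FA1 hT hF, Finset.sum_comm]
  refine Finset.sum_congr rfl fun a _ => Finset.sum_congr rfl fun b _ =>
    Finset.sum_congr rfl fun c _ => Finset.sum_congr rfl fun d _ => ?_
  rw [A2_A1 hT, hF.h12]

lemma FA3 (hT : Sym3 T) (hF : Sym4 F) : ∑ a, ∑ b, ∑ c, ∑ d, F a b c d * A3 T a b c d = X1 T F := by
  rw [← FA2 hT hF]
  refine Finset.sum_congr rfl fun a _ => ?_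
  rw [Finset.sum_comm]
  refine Finset.sum_congr rfl fun b _ => Finset.sum_congr rfl fun c _ =>
    Finset.sum_congr rfl fun d _ => ?_
  rw [A2_A3 hT, hF.h23]

lemma c4_le_dt (hT : Sym3 T) : c4 T ≤ dt T := by
  have h : 0 ≤ ∑ a, ∑ b, ∑ c, ∑ d, (A1 T a b c d - A2 T a b c d) ^ 2 := by positivity
  have h2 : ∑ a, ∑ b, ∑ c, ∑ d, (A1 T a b c d - A2 T a b c d) ^ 2 =
      dt T + dt T - 2 * c4 T := by
    have e : ∀ a b c d, (A1 T a b c d - A2 T a b c d) ^ 2 =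
        A1 T a b c d * A1 T a b c d + A2 T a b c d * A2 T a b c d
          - 2 * (A1 T a b c d * A2 T a b c d) := fun a b c d => by ring
    simp only [e, Finset.sum_sub_distrib, Finset.sum_add_distrib, ← Finset.mul_sum]
    rw [A1A1 hT, A2A2 hT, A1A2 hT]
  rw [h2] at h
  linarith

def Q (T : Fin n → Fin n → Fin n → ℝ) (a b c d : Fin n) : ℝ :=
  A1 T a b c d + A2 T a b c d + A3 T a b c d

lemma F_sq_ge (hT : Sym3 T) (hF : Sym4 F) :
    - (3 / 2 * dt T + 3 * c4 T) ≤ ∑ a, ∑ b, ∑ c, ∑ d, 2 * (F a b c d * F a b c d) - 6 * X1 T F := by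
  have h : 0 ≤ ∑ a, ∑ b, ∑ c, ∑ d, 2 * (F a b c d - Q T a b c d / 2) ^ 2 := by positivity
  have h2 : ∑ a, ∑ b, ∑ c, ∑ d, 2 * (F a b c d - Q T a b c d / 2) ^ 2 =
      ∑ a, ∑ b, ∑ c, ∑ d, 2 * (F a b c d * F a b c d) - 6 * X1 T F
        + (3 / 2 * dt T + 3 * c4 T) := by
    have e : ∀ a b c d, 2 * (F a b c d - Q T a b c d / 2) ^ 2 =
        2 * (F a b c d * F a b c d) - 2 * (F a b c d * A1 T a b c d)
         - 2 * (F a b c d * A2 T a b c d) - 2 * (F a b c d * A3 T a b c d)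
         + 1 / 2 * (A1 T a b c d * A1 T a b c d) + 1 / 2 * (A2 T a b c d * A2 T a b c d)
         + 1 / 2 * (A3 T a b c d * A3 T a b c d) + (A1 T a b c d * A2 T a b c d)
         + (A1 T a b c d * A3 T a b c d) + (A2 T a b c d * A3 T a b c d) := fun a b c d => by
      unfold Q; ring
    simp only [e, Finset.sum_sub_distrib, Finset.sum_add_distrib, ← Finset.mul_sum]
    rw [A1A1 hT, A2A2 hT, A3A3 hT, A1A2 hT, A1A3 hT, A2A3 hT, FA1 hT hF, FA2 hT hF, FA3 hT hF]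
    ring
  rw [h2] at h
  linarith

end tensor

end Crest.Agent.R238.ECal
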