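import Crest.Agent.R238.ECal3

/-!
Row 238, module H8 (Calabi algebra), `L S` at a point where `g = 1`: helper254.
-/

set_option autoImplicit false

namespace Crest.Agent.R238.ECal

open Finset

namespace Sys

variable {n : ℕ} {A : Type*} [CommRing A] [Algebra ℝ A] (s : Sys n A)

def T1 (a b c : Fin n) : A := ∑ i, s.t a i * s.D c (s.g i b)
def T2 (a b c : Fin n) : A := ∑ i, s.t b i * s.T1 a i c
def T3 (a b c : Fin n) : A := ∑ i, s.t c i * s.T2 a b i
/-- the Calabi scalar `S = |D³u|²_g` -/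
def S : A := ∑ a, ∑ b, ∑ c, s.T3 a b c * s.D c (s.g a b)

variable {s} {ev : A →+* ℝ}

lemma sym3 : Sym3 (s.T ev) := ⟨s.T_12 ev, s.T_23 ev⟩
lemma sym4 : Sym4 (s.F ev) := ⟨s.F_12 ev, s.F_23 ev, s.F_34 ev⟩

variable (hev : ∀ a b, ev (s.g a b) = if a = b then 1 else 0)
include hev

lemma ev_tV (a : Fin n) (V : Fin n → A) : ev (∑ i, s.t a i * V i) = ev (V a) := by
  simp only [map_sum, map_mul, s.ev_t hev]
  simp

lemma ev_DtV (a d : Fin n) (V : Fin n → A) : ev (s.D d (∑ i, s.t a i * V i)) =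
    ev (s.D d (V a)) - ∑ i, s.T ev a i d * ev (V i) := by
  simp only [s.D_sum, s.D_mul, map_sum, map_add, map_mul, s.ev_t hev, s.ev_Dt hev,
    Finset.sum_add_distrib]
  have : ∑ i, ev (V i) * -s.T ev a i d = - ∑ i, s.T ev a i d * ev (V i) := by
    rw [← Finset.sum_neg_distrib]; exact Finset.sum_congr rfl fun i _ => by ring
  rw [this]
  simp only [ite_mul, one_mul, zero_mul, Finset.sum_ite_eq, Finset.mem_univ, if_true]
  ring

lemma ev_LtV (a : Fin n) (V : Fin n → A) : ev (s.L (∑ i, s.t a i * V i)) =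
    ev (s.L (V a)) + ∑ i, (s.M ev a i - (if a = i then 1 else 0) + s.P2 ev a i) * ev (V i)
      - 2 * ∑ i, ∑ d, s.T ev a i d * ev (s.D d (V i)) := by
  simp only [s.L_sum, s.L_mul, map_sum, map_add, map_mul, s.ev_t hev, s.ev_Lt hev,
    s.ev_Gam hev, s.ev_Dt hev, Finset.sum_add_distrib]
  have e1 : ∑ i, (if a = i then (1:ℝ) else 0) * ev (s.L (V i)) = ev (s.L (V a)) := by simp
  have e2 : ∑ i, ev (V i) * (s.M ev a i - (if a = i then 1 else 0) + s.P2 ev a i) =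
      ∑ i, (s.M ev a i - (if a = i then 1 else 0) + s.P2 ev a i) * ev (V i) :=
    Finset.sum_congr rfl fun i _ => by ring
  have e3 : ∑ i, ev (2:A) * ∑ d, -s.T ev a i d * ev (s.D d (V i)) =
      - (2 * ∑ i, ∑ d, s.T ev a i d * ev (s.D d (V i))) := by
    rw [← Finset.mul_sum, map_ofNat]
    simp only [neg_mul, Finset.sum_neg_distrib]
    ring
  rw [e1, e2, e3]
  ring

lemma ev_T1 (a b c : Fin n) : ev (s.T1 a b c) = s.T ev a b c := by
  unfold T1; rw [ev_tV hev]; rfl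

lemma ev_T2 (a b c : Fin n) : ev (s.T2 a b c) = s.T ev a b c := by
  unfold T2; rw [ev_tV hev, ev_T1 hev]

lemma ev_T3 (a b c : Fin n) : ev (s.T3 a b c) = s.T ev a b c := by
  unfold T3; rw [ev_tV hev, ev_T2 hev]

lemma ev_S : ev s.S = St (s.T ev) := by
  unfold S St
  simp only [map_sum, map_mul, ev_T3 hev]
  refine Finset.sum_congr rfl fun a _ => Finset.sum_congr rfl fun b _ =>
    Finset.sum_congr rfl fun c _ => ?_
  rw [pow_two]; rfl

lemma ev_DT1 (a b c d : Fin n) : ev (s.D d (s.T1 a b c)) =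
    s.F ev a b c d - A1 (s.T ev) a b c d := by
  unfold T1 A1; rw [ev_DtV hev]; rfl

lemma ev_DT2 (a b c d : Fin n) : ev (s.D d (s.T2 a b c)) =
    s.F ev a b c d - A1 (s.T ev) a b c d - A2 (s.T ev) a b c d := by
  unfold T2; rw [ev_DtV hev, ev_DT1 hev]; unfold A2
  simp only [ev_T1 hev]

lemma ev_DT3 (a b c d : Fin n) : ev (s.D d (s.T3 a b c)) =
    s.F ev a b c d - Q (s.T ev) a b c d := by
  unfold T3; rw [ev_DtV hev, ev_DT2 hev]; unfold Q A3
  simp only [ev_T2 hev]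
  ring

lemma ev_LT1 (a b c : Fin n) : ev (s.L (s.T1 a b c)) =
    ev (s.L (s.D c (s.g a b)))
      + ∑ i, (s.M ev a i - (if a = i then 1 else 0) + s.P2 ev a i) * s.T ev i b c
      - 2 * ∑ i, ∑ d, s.T ev a i d * s.F ev i b c d := by
  unfold T1; rw [ev_LtV hev]; rfl

lemma ev_LT2 (a b c : Fin n) : ev (s.L (s.T2 a b c)) =
    ev (s.L (s.T1 a b c))
      + ∑ i, (s.M ev b i - (if b = i then 1 else 0) + s.P2 ev b i) * s.T ev a i c
      - 2 * ∑ i, ∑ d, s.T ev b i d * (s.F ev a i c d - A1 (s.T ev) a i c d) := by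
  unfold T2; rw [ev_LtV hev]
  simp only [ev_T1 hev, ev_DT1 hev]

lemma ev_LT3 (a b c : Fin n) : ev (s.L (s.T3 a b c)) =
    ev (s.L (s.T2 a b c))
      + ∑ i, (s.M ev c i - (if c = i then 1 else 0) + s.P2 ev c i) * s.T ev a b i
      - 2 * ∑ i, ∑ d, s.T ev c i d *
        (s.F ev a b i d - A1 (s.T ev) a b i d - A2 (s.T ev) a b i d) := by
  unfold T3; rw [ev_LtV hev]
  simp only [ev_T2 hev, ev_DT2 hev]

lemma ev_LS : ev (s.L s.S) =
    ∑ a, ∑ b, ∑ c, (s.T ev a b c * ev (s.L (s.D c (s.g a b)))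
      + s.T ev a b c * ev (s.L (s.T3 a b c))
      + 2 * ∑ d, (s.F ev a b c d - Q (s.T ev) a b c d) * s.F ev a b c d) := by
  unfold S
  simp only [s.L_sum, s.L_mul, map_sum, map_add, map_mul, ev_T3 hev, s.ev_Gam hev, ev_DT3 hev,
    map_ofNat]
  rfl

end Sys

end Crest.Agent.R238.ECal
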