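import Crest.Agent.R238.ECal4

/-!
Row 238, module H8 (Calabi algebra), the inequality (E4) at a point where `g = 1`: helper254.
-/

set_option autoImplicit false

namespace Crest.Agent.R238.ECal

open Finset

section tensor

variable {n : ℕ} {T : Fin n → Fin n → Fin n → ℝ} {F : Fin n → Fin n → Fin n → Fin n → ℝ}

lemma sum4 (f : Fin n → Fin n → Fin n → Fin n → ℝ) :
    ∑ a, ∑ b, ∑ c, ∑ d, f a b c d =
      ∑ x : Fin n × Fin n × Fin n × Fin n, f x.1 x.2.1 x.2.2.1 x.2.2.2 := by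
  simp only [Fintype.sum_prod_type]

lemma TW1 (T : Fin n → Fin n → Fin n → ℝ) (W : Fin n → Fin n → ℝ) :
    ∑ a, ∑ b, ∑ c, T a b c * ∑ i, W a i * T i b c = ∑ a, ∑ b, W a b * Mt T a b := by
  unfold Mt
  simp only [Finset.mul_sum]
  rw [sum4 (fun a b c i => T a b c * (W a i * T i b c)),
    sum4 (fun a b i j => W a b * (T a i j * T b i j))]
  refine Fintype.sum_equiv ⟨fun x => (x.1, x.2.2.2, x.2.1, x.2.2.1),
    fun y => (y.1, y.2.2.1, y.2.2.2, y.2.1),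
    fun x => rfl, fun y => rfl⟩ _ _ ?_
  rintro ⟨a, b, c, i⟩
  simp only [Equiv.coe_fn_mk]
  ring

lemma TW2 (hT : Sym3 T) (W : Fin n → Fin n → ℝ) :
    ∑ a, ∑ b, ∑ c, T a b c * ∑ i, W b i * T a i c = ∑ a, ∑ b, W a b * Mt T a b := by
  rw [← TW1, Finset.sum_comm]
  refine Finset.sum_congr rfl fun a _ => Finset.sum_congr rfl fun b _ =>
    Finset.sum_congr rfl fun c _ => ?_
  rw [hT.h12 b a c]
  congr 1
  refine Finset.sum_congr rfl fun i _ => ?_
  rw [hT.h12 b i c]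

lemma TW3 (hT : Sym3 T) (W : Fin n → Fin n → ℝ) :
    ∑ a, ∑ b, ∑ c, T a b c * ∑ i, W c i * T a b i = ∑ a, ∑ b, W a b * Mt T a b := by
  rw [← TW2 hT]
  refine Finset.sum_congr rfl fun a _ => ?_
  rw [Finset.sum_comm]
  refine Finset.sum_congr rfl fun b _ =>
    Finset.sum_congr rfl fun c _ => ?_
  rw [hT.h23 a c b]
  congr 1
  refine Finset.sum_congr rfl fun i _ => ?_
  rw [hT.h23 a c i]

lemma TX1 (hF : Sym4 F) : ∑ a, ∑ b, ∑ c, T a b c * ∑ i, ∑ d, T a i d * F i b c d = X1 T F := by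
  unfold X1
  simp only [Finset.mul_sum]
  refine Finset.sum_congr rfl fun a _ => Finset.sum_congr rfl fun b _ =>
    Finset.sum_congr rfl fun c _ => Finset.sum_congr rfl fun d _ =>
    Finset.sum_congr rfl fun e _ => ?_
  rw [hF.h12 d b c e, hF.h23 b d c e]

lemma TX2 (hT : Sym3 T) (hF : Sym4 F) :
    ∑ a, ∑ b, ∑ c, T a b c * ∑ i, ∑ d, T b i d * F a i c d = X1 T F := by
  rw [← TX1 hF, Finset.sum_comm]
  refine Finset.sum_congr rfl fun a _ => Finset.sum_congr rfl fun b _ =>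
    Finset.sum_congr rfl fun c _ => ?_
  rw [hT.h12 b a c]
  congr 1
  refine Finset.sum_congr rfl fun i _ => Finset.sum_congr rfl fun d _ => ?_
  rw [hF.h12 b i c d]

lemma TX3 (hT : Sym3 T) (hF : Sym4 F) :
    ∑ a, ∑ b, ∑ c, T a b c * ∑ i, ∑ d, T c i d * F a b i d = X1 T F := by
  rw [← TX2 hT hF]
  refine Finset.sum_congr rfl fun a _ => ?_
  rw [Finset.sum_comm]
  refine Finset.sum_congr rfl fun b _ =>
    Finset.sum_congr rfl fun c _ => ?_
  rw [hT.h23 a c b]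
  congr 1
  refine Finset.sum_congr rfl fun i _ => Finset.sum_congr rfl fun d _ => ?_
  rw [hF.h23 a c i d]

lemma TA2 (hT : Sym3 T) :
    ∑ a, ∑ b, ∑ c, T a b c * ∑ i, ∑ d, T b i d * A1 T a i c d = c4 T := by
  unfold A1 c4
  simp only [Finset.mul_sum]
  rw [sum6 (fun a b c i d p => T a b c * (T b i d * (T a p d * T p i c))),
    sum6 (fun a b c p q r => T a b c * (T a p q * T b q r * T c r p))]
  refine Fintype.sum_equiv ⟨fun x => (x.1, x.2.1, x.2.2.1, x.2.2.2.2.2, x.2.2.2.2.1, x.2.2.2.1),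
    fun y => (y.1, y.2.1, y.2.2.1, y.2.2.2.2.2, y.2.2.2.2.1, y.2.2.2.1),
    fun x => rfl, fun y => rfl⟩ _ _ ?_
  rintro ⟨a, b, c, i, d, p⟩
  simp only [Equiv.coe_fn_mk]
  rw [hT.h23 b i d, hT.h13 p i c]
  ring

lemma TA3 (hT : Sym3 T) :
    ∑ a, ∑ b, ∑ c, T a b c * ∑ i, ∑ d, T c i d * A1 T a b i d = c4 T := by
  unfold A1 c4
  simp only [Finset.mul_sum]
  rw [sum6 (fun a b c i d p => T a b c * (T c i d * (T a p d * T p b i))),
    sum6 (fun a b c p q r => T a b c * (T a p q * T b q r * T c r p))]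
  refine Fintype.sum_equiv ⟨fun x => (x.1, x.2.1, x.2.2.1, x.2.2.2.2.1, x.2.2.2.2.2, x.2.2.2.1),
    fun y => (y.1, y.2.1, y.2.2.1, y.2.2.2.2.2, y.2.2.2.1, y.2.2.2.2.1),
    fun x => rfl, fun y => rfl⟩ _ _ ?_
  rintro ⟨a, b, c, i, d, p⟩
  simp only [Equiv.coe_fn_mk]
  rw [hT.h23 a p d, hT.h12 p b i]
  ring

lemma TA3' (hT : Sym3 T) :
    ∑ a, ∑ b, ∑ c, T a b c * ∑ i, ∑ d, T c i d * A2 T a b i d = c4 T := by
  unfold A2 c4
  simp only [Finset.mul_sum]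
  rw [sum6 (fun a b c i d p => T a b c * (T c i d * (T b p d * T a p i))),
    sum6 (fun a b c p q r => T a b c * (T a p q * T b q r * T c r p))]
  refine Fintype.sum_equiv ⟨fun x => (x.1, x.2.1, x.2.2.1, x.2.2.2.1, x.2.2.2.2.2, x.2.2.2.2.1),
    fun y => (y.1, y.2.1, y.2.2.1, y.2.2.2.1, y.2.2.2.2.2, y.2.2.2.2.1),
    fun x => rfl, fun y => rfl⟩ _ _ ?_
  rintro ⟨a, b, c, i, d, p⟩
  simp only [Equiv.coe_fn_mk]
  rw [hT.h23 a p i, hT.h23 c i d]
  ring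

end tensor

namespace Sys

variable {n : ℕ} {A : Type*} [CommRing A] [Algebra ℝ A] {s : Sys n A} {ev : A →+* ℝ}
variable (hev : ∀ a b, ev (s.g a b) = if a = b then 1 else 0)
include hev

lemma TLT : ∑ a, ∑ b, ∑ c, s.T ev a b c * ev (s.L (s.D c (s.g a b))) =
    2 * St (s.T ev) + 3 * X1 (s.T ev) (s.F ev) - 2 * c4 (s.T ev)
      - ∑ a, ∑ b, ∑ c, s.T ev a b c * s.P3 ev a b c := by
  have hT : Sym3 (s.T ev) := sym3
  have hF : Sym4 (s.F ev) := sym4
  simp only [s.ev_LT hev]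
  have e : ∀ a b c, s.T ev a b c * (2 * s.T ev a b c
      + ∑ p, ∑ q, (s.T ev c p q * s.F ev p q a b + s.T ev b p q * s.F ev p q a c
          + s.T ev a p q * s.F ev p q b c)
      - 2 * ∑ p, ∑ q, ∑ r, s.T ev a p q * s.T ev b q r * s.T ev c r p
      - s.P3 ev a b c) = 2 * s.T ev a b c ^ 2
      + s.T ev a b c * ∑ p, ∑ q, s.T ev c p q * s.F ev a b p q
      + s.T ev a b c * ∑ p, ∑ q, s.T ev b p q * s.F ev a p c q
      + s.T ev a b c * ∑ p, ∑ q, s.T ev a p q * s.F ev p b c q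
      - 2 * ∑ p, ∑ q, ∑ r, s.T ev a b c * (s.T ev a p q * s.T ev b q r * s.T ev c r p)
      - s.T ev a b c * s.P3 ev a b c := by
    intro a b c
    have f1 : ∀ p q, s.F ev p q a b = s.F ev a b p q := fun p q => by
      rw [hF.h23 p q a b, hF.h12 p a q b, hF.h34 a p q b, hF.h23 a p b q]
    have f2 : ∀ p q, s.F ev p q a c = s.F ev a p c q := fun p q => by
      rw [hF.h23 p q a c, hF.h12 p a q c, hF.h34 a p q c]
    have f3 : ∀ p q, s.F ev p q b c = s.F ev p b c q := fun p q => by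
      rw [hF.h23 p q b c, hF.h34 p b q c]
    simp only [f1, f2, f3, Finset.sum_add_distrib, ← Finset.mul_sum]
    ring
  simp only [e]
  simp only [Finset.sum_sub_distrib, Finset.sum_add_distrib]
  rw [TX3 hT hF, TX2 hT hF, TX1 hF]
  unfold St c4
  simp only [← Finset.mul_sum]
  ring

lemma ev_LS_eq : ev (s.L s.S) =
    (∑ a, ∑ b, ∑ c, ∑ d, 2 * (s.F ev a b c d * s.F ev a b c d) - 6 * X1 (s.T ev) (s.F ev))
      + 2 * c4 (s.T ev) + 3 * dt (s.T ev) + St (s.T ev)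
      + 3 * ∑ a, ∑ b, s.P2 ev a b * Mt (s.T ev) a b
      - 2 * ∑ a, ∑ b, ∑ c, s.T ev a b c * s.P3 ev a b c := by
  have hT : Sym3 (s.T ev) := sym3
  have hF : Sym4 (s.F ev) := sym4
  rw [ev_LS hev]
  have eW : ∑ a, ∑ b, (s.M ev a b - (if a = b then 1 else 0) + s.P2 ev a b) * Mt (s.T ev) a b =
      dt (s.T ev) - St (s.T ev) + ∑ a, ∑ b, s.P2 ev a b * Mt (s.T ev) a b := by
    have e1 : ∀ a b, (s.M ev a b - (if a = b then (1:ℝ) else 0) + s.P2 ev a b) *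
        Mt (s.T ev) a b = Mt (s.T ev) a b ^ 2 - (if a = b then Mt (s.T ev) a b else 0)
          + s.P2 ev a b * Mt (s.T ev) a b := by
      intro a b
      have : s.M ev a b = Mt (s.T ev) a b := rfl
      rw [this]; split_ifs <;> ring
    simp only [e1, Finset.sum_add_distrib, Finset.sum_sub_distrib]
    rw [St_eq_trM]
    unfold dt
    simp
  have h1 : ∑ a, ∑ b, ∑ c, s.T ev a b c * ev (s.L (s.T1 a b c)) =
      ∑ a, ∑ b, ∑ c, s.T ev a b c * ev (s.L (s.D c (s.g a b)))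
        + (dt (s.T ev) - St (s.T ev) + ∑ a, ∑ b, s.P2 ev a b * Mt (s.T ev) a b)
        - 2 * X1 (s.T ev) (s.F ev) := by
    rw [← eW, ← TX1 (T := s.T ev) hF, ← TW1 (s.T ev)]
    simp only [ev_LT1 hev, mul_sub, mul_add, Finset.sum_sub_distrib, Finset.sum_add_distrib]
    congr 1
    simp only [Finset.mul_sum]
    refine Finset.sum_congr rfl fun a _ => Finset.sum_congr rfl fun b _ =>
      Finset.sum_congr rfl fun c _ => Finset.sum_congr rfl fun p _ =>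
      Finset.sum_congr rfl fun q _ => by ring
  have h2 : ∑ a, ∑ b, ∑ c, s.T ev a b c * ev (s.L (s.T2 a b c)) =
      ∑ a, ∑ b, ∑ c, s.T ev a b c * ev (s.L (s.T1 a b c))
        + (dt (s.T ev) - St (s.T ev) + ∑ a, ∑ b, s.P2 ev a b * Mt (s.T ev) a b)
        - 2 * (X1 (s.T ev) (s.F ev) - c4 (s.T ev)) := by
    rw [← eW, ← TX2 hT hF, ← TA2 hT, ← TW2 hT]
    simp only [ev_LT2 hev, mul_sub, mul_add, Finset.sum_sub_distrib, Finset.sum_add_distrib]
    have : ∀ a b c, s.T ev a b c * (2 * ∑ x, ∑ x_1, s.T ev b x x_1 * s.F ev a x c x_1) =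
      2 * (s.T ev a b c * ∑ x, ∑ x_1, s.T ev b x x_1 * s.F ev a x c x_1) := by
      intro a b c; ring
    simp only [this]
    have : ∀ a b c, s.T ev a b c * (2 * ∑ x, ∑ x_1, s.T ev b x x_1 * A1 (s.T ev) a x c x_1) =
      2 * (s.T ev a b c * ∑ x, ∑ x_1, s.T ev b x x_1 * A1 (s.T ev) a x c x_1) := by
      intro a b c; ring
    simp only [this, ← Finset.mul_sum]
  have h3 : ∑ a, ∑ b, ∑ c, s.T ev a b c * ev (s.L (s.T3 a b c)) =
      ∑ a, ∑ b, ∑ c, s.T ev a b c * ev (s.L (s.T2 a b c))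
        + (dt (s.T ev) - St (s.T ev) + ∑ a, ∑ b, s.P2 ev a b * Mt (s.T ev) a b)
        - 2 * (X1 (s.T ev) (s.F ev) - c4 (s.T ev) - c4 (s.T ev)) := by
    rw [← eW, ← TW3 hT]
    nth_rewrite 1 [← TA3 hT]
    rw [← TA3' hT, ← TX3 hT hF]
    simp only [ev_LT3 hev, mul_sub, mul_add, Finset.sum_sub_distrib, Finset.sum_add_distrib]
    have : ∀ a b c, s.T ev a b c * (2 * ∑ x, ∑ x_1, s.T ev c x x_1 * s.F ev a b x x_1) =
      2 * (s.T ev a b c * ∑ x, ∑ x_1, s.T ev c x x_1 * s.F ev a b x x_1) := by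
      intro a b c; ring
    simp only [this]
    have : ∀ a b c, s.T ev a b c * (2 * ∑ x, ∑ x_1, s.T ev c x x_1 * A1 (s.T ev) a b x x_1) =
      2 * (s.T ev a b c * ∑ x, ∑ x_1, s.T ev c x x_1 * A1 (s.T ev) a b x x_1) := by
      intro a b c; ring
    simp only [this]
    have : ∀ a b c, s.T ev a b c * (2 * ∑ x, ∑ x_1, s.T ev c x x_1 * A2 (s.T ev) a b x x_1) =
      2 * (s.T ev a b c * ∑ x, ∑ x_1, s.T ev c x x_1 * A2 (s.T ev) a b x x_1) := by
      intro a b c; ring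
    simp only [this, ← Finset.mul_sum]
  have h4 : ∑ a, ∑ b, ∑ c, 2 * ∑ d, (s.F ev a b c d - Q (s.T ev) a b c d) * s.F ev a b c d =
      ∑ a, ∑ b, ∑ c, ∑ d, 2 * (s.F ev a b c d * s.F ev a b c d) - 6 * X1 (s.T ev) (s.F ev) := by
    have e : ∀ a b c, 2 * ∑ d, (s.F ev a b c d - Q (s.T ev) a b c d) * s.F ev a b c d =
        ∑ d, (2 * (s.F ev a b c d * s.F ev a b c d) - 2 * (s.F ev a b c d * A1 (s.T ev) a b c d)
          - 2 * (s.F ev a b c d * A2 (s.T ev) a b c d)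
          - 2 * (s.F ev a b c d * A3 (s.T ev) a b c d)) := by
      intro a b c
      rw [Finset.mul_sum]
      refine Finset.sum_congr rfl fun d _ => ?_
      unfold Q; ring
    simp only [e, Finset.sum_sub_distrib, ← Finset.mul_sum]
    rw [FA1 hT hF, FA2 hT hF, FA3 hT hF]
    ring
  simp only [Finset.sum_add_distrib]
  rw [h4, h3, h2, h1, TLT hev]
  ring

/-- (E4) at a point where `g = 1`. -/
theorem ev_LS_ge (hn : 0 < n) (hP : ∀ v : Fin n → ℝ, 0 ≤ ∑ a, ∑ b, s.P2 ev a b * (v a * v b)) :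
    ev s.S ^ 2 / (2 * n) + ev s.S
      - 2 * ∑ a, ∑ b, ∑ c, s.T ev a b c * s.P3 ev a b c ≤ ev (s.L s.S) := by
  have hT : Sym3 (s.T ev) := sym3
  have hF : Sym4 (s.F ev) := sym4
  rw [ev_LS_eq hev, ev_S hev]
  have h1 := F_sq_ge hT hF
  have h2 := c4_le_dt hT
  have h3 := St_sq_le (s.T ev)
  have h4 : 0 ≤ ∑ a, ∑ b, s.P2 ev a b * Mt (s.T ev) a b := by
    have : ∑ a, ∑ b, s.P2 ev a b * Mt (s.T ev) a b =
        ∑ i, ∑ j, ∑ a, ∑ b, s.P2 ev a b * (s.T ev a i j * s.T ev b i j) := by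
      unfold Mt
      simp only [Finset.mul_sum]
      rw [sum4 (fun a b i j => s.P2 ev a b * (s.T ev a i j * s.T ev b i j)),
        sum4 (fun i j a b => s.P2 ev a b * (s.T ev a i j * s.T ev b i j))]
      refine Fintype.sum_equiv ⟨fun x => (x.2.2.1, x.2.2.2, x.1, x.2.1),
        fun y => (y.2.2.1, y.2.2.2, y.1, y.2.1),
        fun x => rfl, fun y => rfl⟩ _ _ ?_
      rintro ⟨a, b, i, j⟩
      rfl
    rw [this]
    exact Finset.sum_nonneg fun i _ => Finset.sum_nonneg fun j _ => hP fun a => s.T ev a i j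
  have hn' : (0:ℝ) < n := by exact_mod_cast hn
  have h5 : St (s.T ev) ^ 2 / (2 * n) ≤ dt (s.T ev) / 2 := by
    rw [div_le_iff₀ (by positivity)]
    nlinarith
  linarith

end Sys

end Crest.Agent.R238.ECal
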