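import Crest.Agent.R238.ECal5

/-!
Row 238, module H8 (Calabi algebra), change of frame: helper254.
-/

set_option autoImplicit false

namespace Crest.Agent.R238.ECal

open Finset

section contr

variable {n : ℕ} {A : Type*} [CommRing A]

lemma sum4A (f : Fin n → Fin n → Fin n → Fin n → A) :
    ∑ a, ∑ b, ∑ c, ∑ d, f a b c d =
      ∑ x : Fin n × Fin n × Fin n × Fin n, f x.1 x.2.1 x.2.2.1 x.2.2.2 := by
  simp only [Fintype.sum_prod_type]

lemma contr {β γ : Fin n → Fin n → A} (h : ∀ k l, ∑ a, β k a * γ a l = if k = l then 1 else 0)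
    (V W : Fin n → A) : ∑ a, (∑ k, γ a k * V k) * (∑ l, β l a * W l) = ∑ k, V k * W k := by
  have e : ∀ a, (∑ k, γ a k * V k) * (∑ l, β l a * W l) =
      ∑ k, ∑ l, (β l a * γ a k) * (V k * W l) := by
    intro a; rw [Finset.sum_mul_sum]
    refine Finset.sum_congr rfl fun k _ => Finset.sum_congr rfl fun l _ => by ring
  simp only [e]
  rw [Finset.sum_comm]
  refine Finset.sum_congr rfl fun k _ => ?_
  rw [Finset.sum_comm]
  simp only [← Finset.sum_mul, h]
  simp

lemma swap2 (u v : Fin n → A) (V : Fin n → Fin n → A) :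
    ∑ k, u k * ∑ l, v l * V k l = ∑ l, v l * ∑ k, u k * V k l := by
  simp only [Finset.mul_sum]
  rw [Finset.sum_comm]
  refine Finset.sum_congr rfl fun k _ => Finset.sum_congr rfl fun l _ => by ring

lemma contr2 {β γ : Fin n → Fin n → A} (h : ∀ k l, ∑ a, β k a * γ a l = if k = l then 1 else 0)
    (V W : Fin n → Fin n → A) :
    ∑ a, ∑ b, (∑ k, γ a k * ∑ l, γ b l * V k l) * (∑ k, β k a * ∑ l, β l b * W k l) =
      ∑ k, ∑ l, V k l * W k l := by
  have e : ∀ a, ∑ b, (∑ k, γ a k * ∑ l, γ b l * V k l) * (∑ k, β k a * ∑ l, β l b * W k l) =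
      ∑ l, (∑ k, γ a k * V k l) * (∑ k, β k a * W k l) := by
    intro a
    have h0 := contr h (fun l => ∑ k, γ a k * V k l) (fun l => ∑ k, β k a * W k l)
    rw [← h0]
    refine Finset.sum_congr rfl fun b _ => ?_
    congr 1
    · exact swap2 _ _ _
    · exact swap2 _ _ _
  simp only [e]
  rw [Finset.sum_comm]
  simp only [contr h]
  rw [Finset.sum_comm]

end contr

/-- a constant change of frame. -/
structure Frame (n : ℕ) where
  B : Fin n → Fin n → ℝ
  C : Fin n → Fin n → ℝ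
  BC : ∀ k l, ∑ a, B k a * C a l = if k = l then 1 else 0
  CB : ∀ a b, ∑ k, C a k * B k b = if a = b then 1 else 0

namespace Sys

variable {n : ℕ} {A : Type*} [CommRing A] [Algebra ℝ A] (s : Sys n A) (fr : Frame n)

variable (A) in
/-- constants -/
def bt (k a : Fin n) : A := algebraMap ℝ A (fr.B k a)
variable (A) in
def gt' (a k : Fin n) : A := algebraMap ℝ A (fr.C a k)

lemma bt_gt (k l : Fin n) : ∑ a, bt A fr k a * gt' A fr a l = if k = l then 1 else 0 := by
  have h := congrArg (algebraMap ℝ A) (fr.BC k l)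
  simpa [bt, gt', apply_ite (algebraMap ℝ A)] using h

lemma gt_bt (k l : Fin n) : ∑ a, gt' A fr k a * bt A fr a l = if k = l then 1 else 0 := by
  have h := congrArg (algebraMap ℝ A) (fr.CB k l)
  simpa [bt, gt', apply_ite (algebraMap ℝ A)] using h

lemma D_bt (a k l : Fin n) (f : A) : s.D a (bt A fr k l * f) = bt A fr k l * s.D a f := by
  rw [s.D_mul]; simp [bt]

lemma D_gt (a k l : Fin n) (f : A) : s.D a (gt' A fr k l * f) = gt' A fr k l * s.D a f := by
  rw [s.D_mul]; simp [gt']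

/-- new derivations -/
def Dn (a : Fin n) : Derivation ℝ A A := ∑ k, bt A fr k a • s.D k

lemma Dn_apply (a : Fin n) (f : A) : s.Dn fr a f = ∑ k, bt A fr k a * s.D k f := by
  have h := congrFun (map_sum (Derivation.coeFnAddMonoidHom (R := ℝ) (A := A) (M := A))
    (fun k => bt A fr k a • s.D k) univ) f
  rw [Finset.sum_apply] at h
  exact h

lemma Dn_Dn (a b : Fin n) (f : A) : s.Dn fr a (s.Dn fr b f) =
    ∑ k, bt A fr k a * ∑ l, bt A fr l b * s.D k (s.D l f) := by
  rw [Dn_apply, Dn_apply]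
  simp only [s.D_sum, s.D_bt]

/-- lower index object -/
def gn (a b : Fin n) : A := ∑ k, bt A fr k a * ∑ l, bt A fr l b * s.g k l
def tn (a b : Fin n) : A := ∑ k, gt' A fr a k * ∑ l, gt' A fr b l * s.t k l
def xn (a : Fin n) : A := ∑ k, gt' A fr a k * s.x k
def pn (a : Fin n) : A := ∑ k, bt A fr k a * s.p k

lemma Dn_gn (a b c : Fin n) : s.Dn fr c (s.gn fr a b) =
    ∑ m, bt A fr m c * ∑ k, bt A fr k a * ∑ l, bt A fr l b * s.D m (s.g k l) := by
  rw [Dn_apply]; unfold gn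
  simp only [s.D_sum, s.D_bt]

lemma Dn_gn' (a b c : Fin n) : s.Dn fr c (s.gn fr a b) =
    ∑ k, bt A fr k a * ∑ l, bt A fr l b * ∑ m, bt A fr m c * s.D m (s.g k l) := by
  rw [Dn_gn]
  rw [swap2]
  refine Finset.sum_congr rfl fun k _ => ?_
  congr 1
  rw [swap2]

lemma gn_symm (a b : Fin n) : s.gn fr a b = s.gn fr b a := by
  unfold gn
  rw [swap2]
  refine Finset.sum_congr rfl fun k _ => ?_
  congr 1
  refine Finset.sum_congr rfl fun l _ => ?_
  rw [s.gsymm]

lemma tn_symm (a b : Fin n) : s.tn fr a b = s.tn fr b a := by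
  unfold tn
  rw [swap2]
  refine Finset.sum_congr rfl fun k _ => ?_
  congr 1
  refine Finset.sum_congr rfl fun l _ => ?_
  rw [s.tsymm]

/-- raising one index -/
lemma raise (a : Fin n) (V : Fin n → A) : ∑ i, s.tn fr a i * (∑ k, bt A fr k i * V k) =
    ∑ k, gt' A fr a k * ∑ j, s.t k j * V j := by
  have e : ∀ i, s.tn fr a i = ∑ l, gt' A fr i l * ∑ k, gt' A fr a k * s.t k l := by
    intro i; unfold tn; rw [swap2]
  simp only [e]
  rw [contr (bt_gt fr)]
  simp only [Finset.mul_sum, Finset.sum_mul]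
  rw [Finset.sum_comm]
  refine Finset.sum_congr rfl fun k _ => Finset.sum_congr rfl fun l _ => by ring

/-- the system in the new frame -/
def chg : Sys n A where
  D := s.Dn fr
  comm a b f := by
    rw [Dn_Dn, Dn_Dn, swap2]
    refine Finset.sum_congr rfl fun k _ => ?_
    congr 1
    refine Finset.sum_congr rfl fun l _ => ?_
    rw [s.comm]
  x := s.xn fr
  Dx a b := by
    rw [Dn_apply]; unfold xn
    simp only [s.D_sum, s.D_gt, s.Dx]
    have h := gt_bt (A := A) fr b a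
    have : ∑ k, bt A fr k a * ∑ l, gt' A fr b l * (if k = l then 1 else 0) =
        ∑ k, gt' A fr b k * bt A fr k a := by
      refine Finset.sum_congr rfl fun k _ => ?_
      simp [mul_comm]
    rw [this, h]
    by_cases hab : a = b
    · subst hab; simp
    · rw [if_neg hab, if_neg (Ne.symm hab)]
  g := s.gn fr
  gsymm := s.gn_symm fr
  gcod a b c := by
    rw [Dn_gn, Dn_gn, swap2]
    refine Finset.sum_congr rfl fun k _ => ?_
    congr 1
    refine Finset.sum_congr rfl fun l _ => ?_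
    congr 1
    refine Finset.sum_congr rfl fun m _ => ?_
    rw [s.gcod]
  t := s.tn fr
  tsymm := s.tn_symm fr
  tg a b := by
    have h := s.raise fr a (fun k => ∑ l, bt A fr l b * s.g k l)
    have e : ∑ c, s.tn fr a c * s.gn fr c b =
        ∑ i, s.tn fr a i * ∑ k, bt A fr k i * ∑ l, bt A fr l b * s.g k l := rfl
    rw [e, h]
    have e2 : ∀ k, ∑ j, s.t k j * ∑ l, bt A fr l b * s.g j l = bt A fr k b := by
      intro k
      rw [swap2 (fun j => s.t k j)]
      simp only [s.tg]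
      simp
    simp only [e2]
    exact gt_bt fr a b
  p := s.pn fr
  pcod a b := by
    rw [Dn_apply, Dn_apply]; unfold pn
    simp only [s.D_sum, s.D_bt]
    rw [swap2]
    refine Finset.sum_congr rfl fun k _ => ?_
    congr 1
    refine Finset.sum_congr rfl fun l _ => ?_
    rw [s.pcod]
  eq e := by
    have e1 : ∑ a, ∑ b, s.tn fr a b * s.Dn fr e (s.gn fr a b) =
        ∑ k, ∑ l, s.t k l * ∑ m, bt A fr m e * s.D m (s.g k l) := by
      simp only [Dn_gn']
      exact contr2 (bt_gt fr) _ _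
    have e2 : ∑ k, ∑ l, s.t k l * ∑ m, bt A fr m e * s.D m (s.g k l) =
        ∑ m, bt A fr m e * ∑ k, ∑ l, s.t k l * s.D m (s.g k l) := by
      simp only [Finset.mul_sum]
      have e3 : ∀ k, ∑ l, ∑ m, s.t k l * (bt A fr m e * s.D m (s.g k l)) =
          ∑ m, ∑ l, bt A fr m e * (s.t k l * s.D m (s.g k l)) := by
        intro k
        rw [Finset.sum_comm]
        refine Finset.sum_congr rfl fun m _ => Finset.sum_congr rfl fun l _ => by ring
      simp only [e3]
      rw [Finset.sum_comm]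
    have e4 : ∑ a, s.xn fr a * s.gn fr a e = ∑ k, s.x k * ∑ l, bt A fr l e * s.g k l :=
      contr (bt_gt fr) _ _
    rw [e1, e2, e4]
    simp only [s.eq, mul_sub, Finset.sum_sub_distrib]
    unfold pn
    congr 1
    rw [swap2 (fun k => s.x k)]

lemma chg_L (f : A) : (s.chg fr).L f = s.L f := by
  unfold L
  have e1 : ∑ a, ∑ b, (s.chg fr).t a b * (s.chg fr).D a ((s.chg fr).D b f) =
      ∑ a, ∑ b, s.t a b * s.D a (s.D b f) := by
    show ∑ a, ∑ b, s.tn fr a b * s.Dn fr a (s.Dn fr b f) = _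
    simp only [Dn_Dn]
    exact contr2 (bt_gt fr) _ _
  have e2 : ∑ a, (s.chg fr).x a * (s.chg fr).D a f = ∑ a, s.x a * s.D a f := by
    show ∑ a, s.xn fr a * s.Dn fr a f = _
    simp only [Dn_apply]
    exact contr (bt_gt fr) _ _
  rw [e1, e2]

lemma chg_T1 (a b c : Fin n) : (s.chg fr).T1 a b c =
    ∑ l, bt A fr l b * ∑ k, gt' A fr a k * ∑ m, bt A fr m c * s.T1 k l m := by
  have h := s.raise fr a (fun k => ∑ l, bt A fr l b * ∑ m, bt A fr m c * s.D m (s.g k l))
  have e : (s.chg fr).T1 a b c = ∑ i, s.tn fr a i * s.Dn fr c (s.gn fr i b) := rfl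
  rw [e]
  simp only [Dn_gn']
  rw [h]
  unfold T1
  simp only [Finset.mul_sum]
  rw [sum4A, sum4A]
  refine Fintype.sum_equiv ⟨fun x => (x.2.2.1, x.1, x.2.2.2, x.2.1),
    fun y => (y.2.1, y.2.2.2, y.1, y.2.2.1), fun x => rfl, fun y => rfl⟩ _ _ ?_
  rintro ⟨k, j, l, m⟩
  simp only [Equiv.coe_fn_mk]
  ring

lemma chg_T2 (a b c : Fin n) : (s.chg fr).T2 a b c =
    ∑ m, bt A fr m c * ∑ k, gt' A fr a k * ∑ l, gt' A fr b l * s.T2 k l m := by
  have h := s.raise fr b (fun l => ∑ k, gt' A fr a k * ∑ m, bt A fr m c * s.T1 k l m)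
  have e : (s.chg fr).T2 a b c = ∑ i, s.tn fr b i * (s.chg fr).T1 a i c := rfl
  rw [e]
  simp only [chg_T1]
  rw [h]
  unfold T2
  simp only [Finset.mul_sum]
  rw [sum4A, sum4A]
  refine Fintype.sum_equiv ⟨fun x => (x.2.2.2, x.2.2.1, x.1, x.2.1),
    fun y => (y.2.2.1, y.2.2.2, y.2.1, y.1), fun x => rfl, fun y => rfl⟩ _ _ ?_
  rintro ⟨k, j, l, m⟩
  simp only [Equiv.coe_fn_mk]
  ring

lemma chg_T3 (a b c : Fin n) : (s.chg fr).T3 a b c =
    ∑ k, gt' A fr a k * ∑ l, gt' A fr b l * ∑ m, gt' A fr c m * s.T3 k l m := by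
  have h := s.raise fr c (fun m => ∑ k, gt' A fr a k * ∑ l, gt' A fr b l * s.T2 k l m)
  have e : (s.chg fr).T3 a b c = ∑ i, s.tn fr c i * (s.chg fr).T2 a b i := rfl
  rw [e]
  simp only [chg_T2]
  rw [h]
  unfold T3
  simp only [Finset.mul_sum]
  rw [sum4A, sum4A]
  refine Fintype.sum_equiv ⟨fun x => (x.2.2.1, x.2.2.2, x.1, x.2.1),
    fun y => (y.2.2.1, y.2.2.2, y.1, y.2.1), fun x => rfl, fun y => rfl⟩ _ _ ?_
  rintro ⟨k, j, l, m⟩
  simp only [Equiv.coe_fn_mk]
  ring

omit [Algebra ℝ A] in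
lemma contr3 {β γ : Fin n → Fin n → A} (h : ∀ k l, ∑ a, β k a * γ a l = if k = l then 1 else 0)
    (V W : Fin n → Fin n → Fin n → A) :
    ∑ a, ∑ b, ∑ c, (∑ k, γ a k * ∑ l, γ b l * ∑ m, γ c m * V k l m) *
      (∑ k, β k a * ∑ l, β l b * ∑ m, β m c * W k l m) =
      ∑ k, ∑ l, ∑ m, V k l m * W k l m := by
  have e : ∀ a, ∑ b, ∑ c, (∑ k, γ a k * ∑ l, γ b l * ∑ m, γ c m * V k l m) *
      (∑ k, β k a * ∑ l, β l b * ∑ m, β m c * W k l m) =
      ∑ l, ∑ m, (∑ k, γ a k * V k l m) * (∑ k, β k a * W k l m) := by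
    intro a
    have h0 := contr2 h (fun l m => ∑ k, γ a k * V k l m) (fun l m => ∑ k, β k a * W k l m)
    rw [← h0]
    refine Finset.sum_congr rfl fun b _ => Finset.sum_congr rfl fun c _ => ?_
    have e1 : ∀ (u v w : Fin n → A) (V : Fin n → Fin n → Fin n → A),
        ∑ k, u k * ∑ l, v l * ∑ m, w m * V k l m = ∑ l, v l * ∑ m, w m * ∑ k, u k * V k l m := by
      intro u v w V
      rw [swap2]
      refine Finset.sum_congr rfl fun l _ => ?_
      congr 1
      rw [swap2]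
    congr 1
    · exact e1 _ _ _ _
    · exact e1 _ _ _ _
  simp only [e]
  have e2 : ∀ f : Fin n → Fin n → Fin n → A, ∑ a, ∑ l, ∑ m, f a l m = ∑ l, ∑ m, ∑ a, f a l m := by
    intro f
    rw [Finset.sum_comm]
    refine Finset.sum_congr rfl fun l _ => ?_
    rw [Finset.sum_comm]
  rw [e2]
  simp only [contr h]
  rw [e2 (fun k l m => V k l m * W k l m)]

lemma chg_S : (s.chg fr).S = s.S := by
  unfold S
  have : ∀ a b c, (s.chg fr).D c ((s.chg fr).g a b) = s.Dn fr c (s.gn fr a b) := fun _ _ _ => rfl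
  simp only [this, chg_T3, Dn_gn']
  exact contr3 (bt_gt fr) _ _

end Sys

open scoped MatrixOrder in
/-- a `G`-orthonormal frame. -/
lemma exists_frame {n : ℕ} (G : Matrix (Fin n) (Fin n) ℝ) (hG : G.PosDef) :
    ∃ fr : Frame n, ∀ a b, ∑ k, fr.B k a * ∑ l, fr.B l b * G k l = if a = b then 1 else 0 := by
  have h0 : 0 ≤ G := Matrix.nonneg_iff_posSemidef.2 hG.posSemidef
  have hPP : CFC.sqrt G * CFC.sqrt G = G := CFC.sqrt_mul_sqrt_self G h0
  have hPs : (CFC.sqrt G).IsHermitian := (Matrix.nonneg_iff_posSemidef.1 (CFC.sqrt_nonneg G)).1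
  obtain ⟨P, hP⟩ : ∃ P : Matrix (Fin n) (Fin n) ℝ, P = CFC.sqrt G := ⟨_, rfl⟩
  rw [← hP] at hPP hPs
  have hdet : IsUnit P.det := by
    have h1 : (P * P).det ≠ 0 := by rw [hPP]; exact hG.det_pos.ne'
    rw [Matrix.det_mul] at h1
    exact isUnit_iff_ne_zero.2 (left_ne_zero_of_mul h1)
  have h1 : P⁻¹ * P = 1 := Matrix.nonsing_inv_mul P hdet
  have h2 : P * P⁻¹ = 1 := Matrix.mul_nonsing_inv P hdet
  have hsym : ∀ a b, P⁻¹ a b = P⁻¹ b a := by
    have : P⁻¹.IsHermitian := hPs.inv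
    intro a b
    have h3 := congrFun (congrFun this a) b
    rw [Matrix.conjTranspose_apply] at h3
    simpa using h3.symm
  refine ⟨⟨fun k a => P⁻¹ k a, fun a k => P a k, fun k l => ?_, fun a b => ?_⟩, fun a b => ?_⟩
  · have := congrFun (congrFun h1 k) l
    rwa [Matrix.mul_apply, Matrix.one_apply] at this
  · have := congrFun (congrFun h2 a) b
    rwa [Matrix.mul_apply, Matrix.one_apply] at this
  · have h3 : P⁻¹ * G * P⁻¹ = 1 := by
      rw [← hPP]
      calc P⁻¹ * (P * P) * P⁻¹ = (P⁻¹ * P) * (P * P⁻¹) := by simp only [Matrix.mul_assoc]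
        _ = 1 := by rw [h1, h2, Matrix.one_mul]
    have h4 := congrFun (congrFun h3 a) b
    rw [Matrix.one_apply] at h4
    rw [← h4, Matrix.mul_apply]
    simp only [Matrix.mul_apply, Finset.mul_sum, Finset.sum_mul]
    rw [Finset.sum_comm]
    refine Finset.sum_congr rfl fun k _ => Finset.sum_congr rfl fun l _ => ?_
    rw [hsym a l]; ring

end Crest.Agent.R238.ECal
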