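import Crest.Agent.R238.ECal6

/-!
Row 238, module H8 (Calabi algebra), the inequality (E4) at an arbitrary point: helper254.
-/

set_option autoImplicit false

namespace Crest.Agent.R238.ECal

open Finset

section real

variable {n : ℕ}

/-- operator norm bound of a frame matrix, from the form -/
lemma frame_bound (B G : Fin n → Fin n → ℝ) {lo : ℝ} (hlo : 0 < lo)
    (hG : ∀ z : Fin n → ℝ, lo * ∑ i, z i ^ 2 ≤ ∑ i, ∑ j, G i j * z i * z j)
    (hB : ∀ a b, ∑ k, B k a * ∑ l, B l b * G k l = if a = b then 1 else 0)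
    (V : Fin n → ℝ) : ∑ a, (∑ k, B k a * V k) ^ 2 ≤ lo⁻¹ * ∑ k, V k ^ 2 := by
  -- w = Bᵀ V, y = B w
  set w : Fin n → ℝ := fun a => ∑ k, B k a * V k with hw
  set y : Fin n → ℝ := fun k => ∑ a, B k a * w a with hy
  have h1 : ∑ i, ∑ j, G i j * y i * y j = ∑ a, w a ^ 2 := by
    have e1 : ∑ i, ∑ j, G i j * y i * y j =
        ∑ a, ∑ b, (∑ k, B k a * ∑ l, B l b * G k l) * (w a * w b) := by
      simp only [hy, Finset.mul_sum, Finset.sum_mul]
      rw [sum4 (fun i j a b => G i j * (B i b * w b) * (B j a * w a)),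
        sum4 (fun a b k l => B k a * (B l b * G k l) * (w a * w b))]
      refine Fintype.sum_equiv ⟨fun x => (x.2.2.2, x.2.2.1, x.1, x.2.1),
        fun y => (y.2.2.1, y.2.2.2, y.2.1, y.1), fun x => rfl, fun y => rfl⟩ _ _ ?_
      rintro ⟨a, b, i, j⟩
      simp only [Equiv.coe_fn_mk]
      ring
    rw [e1]
    simp only [hB]
    refine Finset.sum_congr rfl fun a _ => ?_
    simp [pow_two]
  have h2 : lo * ∑ i, y i ^ 2 ≤ ∑ a, w a ^ 2 := h1 ▸ hG y
  have h3 : ∑ a, w a ^ 2 = ∑ k, V k * y k := by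
    have : ∀ a, w a ^ 2 = ∑ k, V k * (B k a * w a) := by
      intro a
      rw [pow_two]
      nth_rewrite 1 [hw]
      simp only [Finset.sum_mul]
      exact Finset.sum_congr rfl fun k _ => by ring
    simp only [this]
    rw [Finset.sum_comm]
    refine Finset.sum_congr rfl fun k _ => ?_
    rw [← Finset.mul_sum]
  have h4 : (∑ k, V k * y k) ^ 2 ≤ (∑ k, V k ^ 2) * ∑ k, y k ^ 2 :=
    Finset.sum_mul_sq_le_sq_mul_sq _ _ _
  have hW : 0 ≤ ∑ a, w a ^ 2 := Finset.sum_nonneg fun a _ => sq_nonneg _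
  have hV : 0 ≤ ∑ a, V a ^ 2 := Finset.sum_nonneg fun a _ => sq_nonneg _
  rw [← h3] at h4
  have h5 : (∑ a, w a ^ 2) ^ 2 ≤ (∑ k, V k ^ 2) * (lo⁻¹ * ∑ a, w a ^ 2) := by
    refine h4.trans (mul_le_mul_of_nonneg_left ?_ hV)
    rw [← div_eq_inv_mul, le_div_iff₀ hlo]
    linarith
  change ∑ a, w a ^ 2 ≤ _
  rcases hW.eq_or_lt with h0 | h0
  · rw [← h0]; positivity
  · have h6 : (∑ a, w a ^ 2) * (∑ a, w a ^ 2) ≤ (lo⁻¹ * ∑ k, V k ^ 2) * ∑ a, w a ^ 2 := by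
      calc (∑ a, w a ^ 2) * (∑ a, w a ^ 2) = (∑ a, w a ^ 2) ^ 2 := by ring
        _ ≤ _ := h5
        _ = _ := by ring
    exact le_of_mul_le_mul_right h6 h0

/-- operator norm bound of the inverse frame matrix, from the form -/
lemma frame_bound' (B C G : Fin n → Fin n → ℝ) {hi : ℝ}
    (hG : ∀ z : Fin n → ℝ, ∑ i, ∑ j, G i j * z i * z j ≤ hi * ∑ i, z i ^ 2)
    (hB : ∀ a b, ∑ k, B k a * ∑ l, B l b * G k l = if a = b then 1 else 0)
    (hBC : ∀ k l, ∑ a, B k a * C a l = if k = l then 1 else 0)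
    (V : Fin n → ℝ) : ∑ k, (∑ a, C a k * V a) ^ 2 ≤ hi * ∑ a, V a ^ 2 := by
  set w : Fin n → ℝ := fun k => ∑ a, C a k * V a with hw
  set y : Fin n → ℝ := fun a => ∑ k, C a k * w k with hy
  have h0 : ∀ k, w k = ∑ a, B k a * y a := by
    intro k
    simp only [hy, Finset.mul_sum]
    rw [Finset.sum_comm]
    have : ∀ l, ∑ a, B k a * (C a l * w l) = (if k = l then 1 else 0) * w l := by
      intro l
      rw [← hBC, Finset.sum_mul]
      exact Finset.sum_congr rfl fun a _ => by ring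
    simp only [this]
    simp
  have h1 : ∑ i, ∑ j, G i j * w i * w j = ∑ a, y a ^ 2 := by
    have e1 : ∑ i, ∑ j, G i j * w i * w j =
        ∑ a, ∑ b, (∑ k, B k a * ∑ l, B l b * G k l) * (y a * y b) := by
      simp only [h0, Finset.mul_sum, Finset.sum_mul]
      rw [sum4 (fun i j a b => G i j * (B i b * y b) * (B j a * y a)),
        sum4 (fun a b k l => B k a * (B l b * G k l) * (y a * y b))]
      refine Fintype.sum_equiv ⟨fun x => (x.2.2.2, x.2.2.1, x.1, x.2.1),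
        fun y => (y.2.2.1, y.2.2.2, y.2.1, y.1), fun x => rfl, fun y => rfl⟩ _ _ ?_
      rintro ⟨a, b, i, j⟩
      simp only [Equiv.coe_fn_mk]
      ring
    rw [e1]
    simp only [hB]
    refine Finset.sum_congr rfl fun a _ => ?_
    simp [pow_two]
  have h2 : ∑ a, y a ^ 2 ≤ hi * ∑ i, w i ^ 2 := h1 ▸ hG w
  have h3 : ∑ k, w k ^ 2 = ∑ a, V a * y a := by
    have : ∀ k, w k ^ 2 = ∑ a, V a * (C a k * w k) := by
      intro k
      rw [pow_two]
      nth_rewrite 1 [hw]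
      simp only [Finset.sum_mul]
      exact Finset.sum_congr rfl fun k _ => by ring
    simp only [this]
    rw [Finset.sum_comm]
    refine Finset.sum_congr rfl fun k _ => ?_
    rw [← Finset.mul_sum]
  have h4 : (∑ k, V k * y k) ^ 2 ≤ (∑ k, V k ^ 2) * ∑ k, y k ^ 2 :=
    Finset.sum_mul_sq_le_sq_mul_sq _ _ _
  have hW : 0 ≤ ∑ a, w a ^ 2 := Finset.sum_nonneg fun a _ => sq_nonneg _
  have hV : 0 ≤ ∑ a, V a ^ 2 := Finset.sum_nonneg fun a _ => sq_nonneg _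
  rw [← h3] at h4
  have h5 : (∑ a, w a ^ 2) ^ 2 ≤ (∑ k, V k ^ 2) * (hi * ∑ a, w a ^ 2) :=
    h4.trans (mul_le_mul_of_nonneg_left h2 hV)
  change ∑ a, w a ^ 2 ≤ _
  rcases hW.eq_or_lt with h6 | h6
  · rw [← h6]
    have h7 := hG V
    by_contra hcon
    push Not at hcon
    -- `hi * |V|² < 0` contradicts the form bound applied to `B`
    have h8 : 0 ≤ hi * ∑ a, V a ^ 2 := by
      rcases hV.eq_or_lt with h9 | h9
      · rw [← h9]; simp
      · -- `y' = B V`, form = |V|²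
        have h10 : 0 ≤ hi := by
          by_contra h11
          push Not at h11
          set q : Fin n → ℝ := fun k => ∑ a, B k a * V a with hq
          have h12 : ∑ i, ∑ j, G i j * q i * q j = ∑ a, V a ^ 2 := by
            have e1 : ∑ i, ∑ j, G i j * q i * q j =
                ∑ a, ∑ b, (∑ k, B k a * ∑ l, B l b * G k l) * (V a * V b) := by
              simp only [hq, Finset.mul_sum, Finset.sum_mul]
              rw [sum4 (fun i j a b => G i j * (B i b * V b) * (B j a * V a)),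
                sum4 (fun a b k l => B k a * (B l b * G k l) * (V a * V b))]
              refine Fintype.sum_equiv ⟨fun x => (x.2.2.2, x.2.2.1, x.1, x.2.1),
                fun y => (y.2.2.1, y.2.2.2, y.2.1, y.1), fun x => rfl, fun y => rfl⟩ _ _ ?_
              rintro ⟨a, b, i, j⟩
              simp only [Equiv.coe_fn_mk]
              ring
            rw [e1]
            simp only [hB]
            refine Finset.sum_congr rfl fun a _ => ?_
            simp [pow_two]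
          have h13 := hG q
          rw [h12] at h13
          have h14 : hi * ∑ i, q i ^ 2 ≤ 0 :=
            mul_nonpos_of_nonpos_of_nonneg h11.le (Finset.sum_nonneg fun i _ => sq_nonneg _)
          linarith
        positivity
    linarith
  · have h7 : (∑ a, w a ^ 2) * (∑ a, w a ^ 2) ≤ (hi * ∑ k, V k ^ 2) * ∑ a, w a ^ 2 := by
      calc (∑ a, w a ^ 2) * (∑ a, w a ^ 2) = (∑ a, w a ^ 2) ^ 2 := by ring
        _ ≤ _ := h5
        _ = _ := by ring
    exact le_of_mul_le_mul_right h7 h6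

/-- bound for a transformed three-tensor -/
lemma tensor_bound (B : Fin n → Fin n → ℝ) {c : ℝ} (hc : 0 ≤ c)
    (hB : ∀ V : Fin n → ℝ, ∑ a, (∑ k, B k a * V k) ^ 2 ≤ c * ∑ k, V k ^ 2)
    (X : Fin n → Fin n → Fin n → ℝ) :
    ∑ a, ∑ b, ∑ d, (∑ k, B k a * ∑ l, B l b * ∑ m, B m d * X k l m) ^ 2 ≤
      c ^ 3 * ∑ k, ∑ l, ∑ m, X k l m ^ 2 := by
  have s1 : ∑ a, ∑ b, ∑ d, (∑ k, B k a * ∑ l, B l b * ∑ m, B m d * X k l m) ^ 2 ≤
      c * ∑ b, ∑ d, ∑ k, (∑ l, B l b * ∑ m, B m d * X k l m) ^ 2 := by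
    rw [show ∑ a, ∑ b, ∑ d, (∑ k, B k a * ∑ l, B l b * ∑ m, B m d * X k l m) ^ 2 =
      ∑ b, ∑ d, ∑ a, (∑ k, B k a * ∑ l, B l b * ∑ m, B m d * X k l m) ^ 2 by
        rw [Finset.sum_comm]
        exact Finset.sum_congr rfl fun b _ => Finset.sum_comm]
    rw [Finset.mul_sum]
    refine Finset.sum_le_sum fun b _ => ?_
    rw [Finset.mul_sum]
    refine Finset.sum_le_sum fun d _ => ?_
    exact hB _
  have s2 : ∑ b, ∑ d, ∑ k, (∑ l, B l b * ∑ m, B m d * X k l m) ^ 2 ≤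
      c * ∑ d, ∑ k, ∑ l, (∑ m, B m d * X k l m) ^ 2 := by
    rw [show ∑ b, ∑ d, ∑ k, (∑ l, B l b * ∑ m, B m d * X k l m) ^ 2 =
      ∑ d, ∑ k, ∑ b, (∑ l, B l b * ∑ m, B m d * X k l m) ^ 2 by
        rw [Finset.sum_comm]
        exact Finset.sum_congr rfl fun b _ => Finset.sum_comm]
    rw [Finset.mul_sum]
    refine Finset.sum_le_sum fun b _ => ?_
    rw [Finset.mul_sum]
    refine Finset.sum_le_sum fun d _ => ?_
    exact hB _
  have s3 : ∑ d, ∑ k, ∑ l, (∑ m, B m d * X k l m) ^ 2 ≤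
      c * ∑ k, ∑ l, ∑ m, X k l m ^ 2 := by
    rw [show ∑ d, ∑ k, ∑ l, (∑ m, B m d * X k l m) ^ 2 =
      ∑ k, ∑ l, ∑ d, (∑ m, B m d * X k l m) ^ 2 by
        rw [Finset.sum_comm]
        exact Finset.sum_congr rfl fun b _ => Finset.sum_comm]
    rw [Finset.mul_sum]
    refine Finset.sum_le_sum fun b _ => ?_
    rw [Finset.mul_sum]
    refine Finset.sum_le_sum fun d _ => ?_
    exact hB _
  calc _ ≤ _ := s1
    _ ≤ c * (c * ∑ d, ∑ k, ∑ l, (∑ m, B m d * X k l m) ^ 2) := mul_le_mul_of_nonneg_left s2 hc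
    _ ≤ c * (c * (c * ∑ k, ∑ l, ∑ m, X k l m ^ 2)) :=
        mul_le_mul_of_nonneg_left (mul_le_mul_of_nonneg_left s3 hc) hc
    _ = _ := by ring

lemma cs3 (X Y : Fin n → Fin n → Fin n → ℝ) :
    (∑ a, ∑ b, ∑ c, X a b c * Y a b c) ^ 2 ≤
      (∑ a, ∑ b, ∑ c, X a b c ^ 2) * ∑ a, ∑ b, ∑ c, Y a b c ^ 2 := by
  have e : ∀ Z : Fin n → Fin n → Fin n → ℝ, ∑ a, ∑ b, ∑ c, Z a b c =
      ∑ x : Fin n × Fin n × Fin n, Z x.1 x.2.1 x.2.2 := by
    intro Z; simp only [Fintype.sum_prod_type]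
  rw [e, e (fun a b c => X a b c ^ 2), e (fun a b c => Y a b c ^ 2)]
  exact Finset.sum_mul_sq_le_sq_mul_sq _ _ _

end real

namespace Sys

variable {n : ℕ} {A : Type*} [CommRing A] [Algebra ℝ A] (s : Sys n A) (fr : Frame n)
  (ev : A →+* ℝ)

omit [Algebra ℝ A] in
lemma ev_alg [Algebra ℝ A] (r : ℝ) : ev (algebraMap ℝ A r) = r := by
  have h : ev.comp (algebraMap ℝ A) = RingHom.id ℝ := Subsingleton.elim _ _
  exact DFunLike.congr_fun h r

lemma ev_bt (k a : Fin n) : ev (bt A fr k a) = fr.B k a := ev_alg ev _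
lemma ev_gt' (k a : Fin n) : ev (gt' A fr k a) = fr.C k a := ev_alg ev _

/-- `<T, D³Ψ>` -/
def TP : A := ∑ a, ∑ b, ∑ c, s.T3 a b c * s.D c (s.D b (s.p a))

lemma Dn_pn2 (a b c : Fin n) : s.Dn fr c (s.Dn fr b (s.pn fr a)) =
    ∑ k, bt A fr k a * ∑ l, bt A fr l b * ∑ m, bt A fr m c * s.D m (s.D l (s.p k)) := by
  rw [Dn_Dn]
  unfold pn
  simp only [s.D_sum, s.D_bt]
  have e1 : ∀ (u v w : Fin n → A) (V : Fin n → Fin n → Fin n → A),
      ∑ k, u k * ∑ l, v l * ∑ m, w m * V k l m = ∑ m, w m * ∑ l, v l * ∑ k, u k * V k l m := by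
    intro u v w V
    rw [swap2]
    have : ∀ l, ∑ k, u k * ∑ m, w m * V k l m = ∑ m, w m * ∑ k, u k * V k l m :=
      fun l => swap2 _ _ _
    simp only [this]
    rw [swap2]
  exact e1 _ _ _ _

lemma chg_TP : (s.chg fr).TP = s.TP := by
  unfold TP
  have : ∀ a b c, (s.chg fr).D c ((s.chg fr).D b ((s.chg fr).p a)) =
    s.Dn fr c (s.Dn fr b (s.pn fr a)) := fun _ _ _ => rfl
  simp only [this, chg_T3, Dn_pn2]
  exact contr3 (bt_gt fr) _ _

variable {s ev}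

/-- everything about a point: a frame with `g = 1` there -/
lemma exists_good_frame {lo : ℝ} (hlo : 0 < lo)
    (hG : ∀ z : Fin n → ℝ, lo * ∑ i, z i ^ 2 ≤ ∑ i, ∑ j, ev (s.g i j) * z i * z j) :
    ∃ fr : Frame n, (∀ a b, ev ((s.chg fr).g a b) = if a = b then 1 else 0) ∧
      (∀ V : Fin n → ℝ, ∑ a, (∑ k, fr.B k a * V k) ^ 2 ≤ lo⁻¹ * ∑ k, V k ^ 2) ∧
      ∀ hi : ℝ, (∀ z : Fin n → ℝ, ∑ i, ∑ j, ev (s.g i j) * z i * z j ≤ hi * ∑ i, z i ^ 2) →
        ∀ V : Fin n → ℝ, ∑ k, (∑ a, fr.C a k * V a) ^ 2 ≤ hi * ∑ a, V a ^ 2 := by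
  have hPD : (Matrix.of fun i j => ev (s.g i j)).PosDef := by
    refine Matrix.PosDef.of_dotProduct_mulVec_pos ?_ ?_
    · ext i j
      simp [Matrix.conjTranspose_apply, s.gsymm i j]
    · intro z hz
      have h1 := hG z
      have h2 : 0 < ∑ i, z i ^ 2 := by
        obtain ⟨i, hi⟩ := Function.ne_iff.1 hz
        exact Finset.sum_pos' (fun i _ => sq_nonneg _) ⟨i, Finset.mem_univ i, by
          have : z i ≠ 0 := hi
          positivity⟩
      have h3 : star z ⬝ᵥ (Matrix.of fun i j => ev (s.g i j)).mulVec z =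
          ∑ i, ∑ j, ev (s.g i j) * z i * z j := by
        simp only [dotProduct, Matrix.mulVec, Matrix.of_apply, Finset.mul_sum, Pi.star_apply,
          star_trivial]
        refine Finset.sum_congr rfl fun i _ => Finset.sum_congr rfl fun j _ => by ring
      rw [h3]
      exact lt_of_lt_of_le (mul_pos hlo h2) h1
  obtain ⟨fr, hfr⟩ := exists_frame _ hPD
  refine ⟨fr, fun a b => ?_, frame_bound fr.B (fun i j => ev (s.g i j)) hlo hG ?_,
    fun hi hG' => frame_bound' fr.B fr.C (fun i j => ev (s.g i j)) hG' ?_ fr.BC⟩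
  · rw [show (s.chg fr).g a b = s.gn fr a b from rfl]
    unfold gn
    simp only [map_sum, map_mul, ev_bt]
    exact hfr a b
  · exact hfr
  · exact hfr

lemma ev_chgT (a b c : Fin n) : (s.chg fr).T ev a b c =
    ∑ k, fr.B k a * ∑ l, fr.B l b * ∑ m, fr.B m c * s.T ev k l m := by
  unfold T
  rw [show (s.chg fr).D c ((s.chg fr).g a b) = s.Dn fr c (s.gn fr a b) from rfl, Dn_gn']
  simp only [map_sum, map_mul, ev_bt]

lemma ev_chgP3 (a b c : Fin n) : (s.chg fr).P3 ev a b c =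
    ∑ k, fr.B k a * ∑ l, fr.B l b * ∑ m, fr.B m c * s.P3 ev k l m := by
  unfold P3
  rw [show (s.chg fr).D c ((s.chg fr).D b ((s.chg fr).p a)) =
    s.Dn fr c (s.Dn fr b (s.pn fr a)) from rfl, Dn_pn2]
  simp only [map_sum, map_mul, ev_bt]

lemma ev_chgP2 (a b : Fin n) : (s.chg fr).P2 ev a b =
    ∑ k, fr.B k a * ∑ l, fr.B l b * s.P2 ev k l := by
  unfold P2
  rw [show (s.chg fr).D b ((s.chg fr).p a) = s.Dn fr b (s.pn fr a) from rfl, Dn_apply]
  unfold pn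
  simp only [s.D_sum, s.D_bt, map_sum, map_mul, ev_bt]
  rw [swap2]

/-- upper bound of `S` by the euclidean norm of `D³u` -/
lemma S_le {lo : ℝ} (hlo : 0 < lo)
    (hG : ∀ z : Fin n → ℝ, lo * ∑ i, z i ^ 2 ≤ ∑ i, ∑ j, ev (s.g i j) * z i * z j) :
    0 ≤ ev s.S ∧ ev s.S ≤ lo⁻¹ ^ 3 * ∑ a, ∑ b, ∑ c, s.T ev a b c ^ 2 := by
  obtain ⟨fr, hfr, hb, -⟩ := exists_good_frame hlo hG
  have h1 := ev_S hfr
  rw [chg_S] at h1
  rw [h1]
  unfold St
  refine ⟨by positivity, ?_⟩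
  simp only [ev_chgT]
  exact tensor_bound fr.B (inv_nonneg.2 hlo.le) hb _

/-- the euclidean norm of `D³u` is bounded by `S` -/
lemma S_ge {lo hi : ℝ} (hlo : 0 < lo) (hhi : 0 ≤ hi)
    (hG : ∀ z : Fin n → ℝ, lo * ∑ i, z i ^ 2 ≤ ∑ i, ∑ j, ev (s.g i j) * z i * z j)
    (hG' : ∀ z : Fin n → ℝ, ∑ i, ∑ j, ev (s.g i j) * z i * z j ≤ hi * ∑ i, z i ^ 2) :
    ∑ a, ∑ b, ∑ c, s.T ev a b c ^ 2 ≤ hi ^ 3 * ev s.S := by
  obtain ⟨fr, hfr, -, hb⟩ := exists_good_frame hlo hG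
  have h1 := ev_S hfr
  rw [chg_S] at h1
  rw [h1]
  have h2 := tensor_bound (fun k a => fr.C k a) hhi (fun V => hb hi hG' V) ((s.chg fr).T ev)
  have h3 : ∀ a b c, (∑ k, fr.C k a * ∑ l, fr.C l b * ∑ m, fr.C m c * (s.chg fr).T ev k l m) =
      s.T ev a b c := by
    intro a b c
    have key : ∀ (a : Fin n) (V : Fin n → ℝ), ∑ k, fr.C k a * ∑ i, fr.B i k * V i = V a := by
      intro a V
      simp only [Finset.mul_sum]
      rw [Finset.sum_comm]
      have : ∀ i, ∑ k, fr.C k a * (fr.B i k * V i) = (if i = a then 1 else 0) * V i := by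
        intro i
        rw [← fr.BC, Finset.sum_mul]
        exact Finset.sum_congr rfl fun a _ => by ring
      simp only [this]
      simp
    simp only [ev_chgT]
    have k1 : ∀ l m, ∑ k, fr.C k a * ∑ i, fr.B i k * ∑ j, fr.B j l * ∑ p, fr.B p m * s.T ev i j p =
        ∑ j, fr.B j l * ∑ p, fr.B p m * s.T ev a j p := fun l m => key a _
    have k2 : ∑ k, fr.C k a * ∑ l, fr.C l b * ∑ m, fr.C m c *
        ∑ i, fr.B i k * ∑ j, fr.B j l * ∑ p, fr.B p m * s.T ev i j p =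
        ∑ l, fr.C l b * ∑ m, fr.C m c * ∑ k, fr.C k a *
          ∑ i, fr.B i k * ∑ j, fr.B j l * ∑ p, fr.B p m * s.T ev i j p := by
      rw [swap2]
      refine Finset.sum_congr rfl fun l _ => ?_
      congr 1
      exact swap2 _ _ _
    rw [k2]
    simp only [k1]
    have k3 : ∀ m, ∑ l, fr.C l b * ∑ j, fr.B j l * ∑ p, fr.B p m * s.T ev a j p =
        ∑ p, fr.B p m * s.T ev a b p := fun m => key b _
    rw [swap2]
    simp only [k3]
    exact key c _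
  simp only [h3] at h2
  exact h2

/-- (E4) at an arbitrary point -/
theorem E4_pt (hn : 0 < n) {lo : ℝ} (hlo : 0 < lo)
    (hG : ∀ z : Fin n → ℝ, lo * ∑ i, z i ^ 2 ≤ ∑ i, ∑ j, ev (s.g i j) * z i * z j)
    (hP : ∀ z : Fin n → ℝ, 0 ≤ ∑ i, ∑ j, ev (s.D j (s.p i)) * z i * z j) :
    ev s.S ^ 2 / (2 * n) + ev s.S - 2 * ev s.TP ≤ ev (s.L s.S) := by
  obtain ⟨fr, hfr, hb, -⟩ := exists_good_frame hlo hG
  have h1 := ev_LS_ge hfr hn (by
    intro v
    have h2 := hP (fun k => ∑ a, fr.B k a * v a)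
    have e : ∑ a, ∑ b, (s.chg fr).P2 ev a b * (v a * v b) =
        ∑ i, ∑ j, ev (s.D j (s.p i)) * (∑ a, fr.B i a * v a) * ∑ a, fr.B j a * v a := by
      simp only [ev_chgP2]
      simp only [Finset.mul_sum, Finset.sum_mul]
      rw [sum4 (fun a b k l => fr.B k a * (fr.B l b * s.P2 ev k l) * (v a * v b)),
        sum4 (fun i j a b => ev (s.D j (s.p i)) * (fr.B i b * v b) * (fr.B j a * v a))]
      refine Fintype.sum_equiv ⟨fun x => (x.2.2.1, x.2.2.2, x.2.1, x.1),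
        fun y => (y.2.2.2, y.2.2.1, y.1, y.2.1), fun x => rfl, fun y => rfl⟩ _ _ ?_
      rintro ⟨a, b, i, j⟩
      simp only [Equiv.coe_fn_mk]
      unfold P2
      ring
    rw [e]; exact h2)
  rw [chg_S, chg_L] at h1
  have h3 : ev s.TP = ∑ a, ∑ b, ∑ c, (s.chg fr).T ev a b c * (s.chg fr).P3 ev a b c := by
    rw [← chg_TP s fr]
    unfold TP
    simp only [map_sum, map_mul, ev_T3 hfr]
    rfl
  rw [h3]
  exact h1

/-- Cauchy-Schwarz for the cubic term -/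
theorem TP_le {lo : ℝ} (hlo : 0 < lo)
    (hG : ∀ z : Fin n → ℝ, lo * ∑ i, z i ^ 2 ≤ ∑ i, ∑ j, ev (s.g i j) * z i * z j) :
    ev s.TP ^ 2 ≤ ev s.S * (lo⁻¹ ^ 3 * ∑ a, ∑ b, ∑ c, s.P3 ev a b c ^ 2) := by
  obtain ⟨fr, hfr, hb, -⟩ := exists_good_frame hlo hG
  have h3 : ev s.TP = ∑ a, ∑ b, ∑ c, (s.chg fr).T ev a b c * (s.chg fr).P3 ev a b c := by
    rw [← chg_TP s fr]
    unfold TP
    simp only [map_sum, map_mul, ev_T3 hfr]
    rfl
  have h1 := ev_S hfr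
  rw [chg_S] at h1
  have h4 := cs3 ((s.chg fr).T ev) ((s.chg fr).P3 ev)
  rw [← h3] at h4
  have h5 : ∑ a, ∑ b, ∑ c, (s.chg fr).P3 ev a b c ^ 2 ≤
      lo⁻¹ ^ 3 * ∑ a, ∑ b, ∑ c, s.P3 ev a b c ^ 2 := by
    simp only [ev_chgP3]
    exact tensor_bound fr.B (inv_nonneg.2 hlo.le) hb _
  have h6 : 0 ≤ ev s.S := (S_le hlo hG).1
  calc ev s.TP ^ 2 ≤ _ := h4
    _ = ev s.S * ∑ a, ∑ b, ∑ c, (s.chg fr).P3 ev a b c ^ 2 := by rw [h1]; rfl
    _ ≤ _ := mul_le_mul_of_nonneg_left h5 h6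

end Sys

end Crest.Agent.R238.ECal
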