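import Crest.Agent.R238.ECal7
import Crest.Agent.R238.ECalInst
import Crest.Agent.R238.MaxPE

/-!
Row 238, module H8: the Calabi inequality for the concrete equation and the uniform bound of
the third derivatives: helper254.
-/

set_option autoImplicit false

open scoped ContDiff Topology
open Set Filter Finset

noncomputable section

namespace Crest.Agent.R238.ECal

open Crest.Agent.R238 Crest.Agent.R238.XInst

variable {n : ℕ}

/-- third derivatives -/
def D3 (f : E n → ℝ) (x : E n) (a b c : Fin n) : ℝ := fderiv ℝ (fun y => Hs f y a b) x (ee c)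

/-- evaluation as a ring hom -/
def evr (x : E n) : SA n →+* ℝ := (ev x : SA n →ₐ[ℝ] ℝ).toRingHom

lemma evr_apply (x : E n) (f : SA n) : evr x f = f.1 x := rfl

section sys

variable {Z : Sys n (SA n)}
  (hD : ∀ (a : Fin n) (f : SA n) (x : E n), (Z.D a f).1 x = fderiv ℝ f.1 x (ee a))
include hD

lemma evr_DD (a b : Fin n) (f : SA n) (x : E n) : evr x (Z.D a (Z.D b f)) = Hs f.1 x a b := by
  rw [evr_apply, hD]
  have h1 : (Z.D b f).1 = fun y => fderiv ℝ f.1 y (ee b) := by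
    funext y; exact hD b f y
  rw [h1]
  have h2 : DifferentiableAt ℝ (fderiv ℝ f.1) x :=
    (((sm f).fderiv_right (m := ∞) (by simp)).differentiable (by simp)) x
  rw [fderiv_clm_apply h2 (differentiableAt_const _)]
  simp [Hs]

lemma evr_L {v : E n → ℝ} (hx : ∀ a x, (Z.x a).1 x = x a)
    (ht : ∀ a b x, (Z.t a b).1 x = tauf v x a b) (f : SA n) (x : E n) :
    evr x (Z.L f) = LA (tauf v) f.1 x := by
  unfold Sys.L LA
  rw [map_sub, map_sum, map_sum]
  congr 1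
  · refine Finset.sum_congr rfl fun a _ => ?_
    rw [map_sum]
    refine Finset.sum_congr rfl fun b _ => ?_
    rw [map_mul, evr_DD hD, evr_apply, ht]
  · rw [clm_eq_sum (fderiv ℝ f.1 x) x]
    refine Finset.sum_congr rfl fun a _ => ?_
    rw [map_mul, evr_apply, evr_apply, hx, hD]

lemma evr_T {v : E n → ℝ} (hg : ∀ a b x, (Z.g a b).1 x = gm v x a b) (a b c : Fin n) (x : E n) :
    Z.T (evr x) a b c = D3 v x a b c := by
  unfold Sys.T D3
  rw [evr_apply, hD]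
  have h1 : (Z.g a b).1 = fun y => (1 : Matrix (Fin n) (Fin n) ℝ) a b + Hs v y a b := by
    funext y; rw [hg]; simp [gm]
  rw [h1, fderiv_const_add]

lemma evr_Dp {P : E n → ℝ} (hP : ContDiff ℝ ∞ P) {s : ℝ}
    (hp : ∀ a x, (Z.p a).1 x = x a + s * fderiv ℝ P x (ee a)) (a b : Fin n) (x : E n) :
    (Z.D b (Z.p a)).1 x = (if a = b then 1 else 0) + s * Hs P x b a := by
  rw [hD]
  have h1 : (Z.p a).1 = fun y : E n => y a + s * fderiv ℝ P y (ee a) := by
    funext y; exact hp a y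
  rw [h1]
  have h2 : HasFDerivAt (fderiv ℝ P) (fderiv ℝ (fderiv ℝ P) x) x :=
    (((hP.fderiv_right (m := ∞) (by simp)).differentiable (by simp)) x).hasFDerivAt
  have h3 : HasFDerivAt (fun y : E n => fderiv ℝ P y (ee a))
      ((fderiv ℝ (fderiv ℝ P) x).flip (ee a)) x := by
    have := h2.clm_apply (hasFDerivAt_const (ee a) x)
    simpa using this
  have h4 : HasFDerivAt (fun y : E n => y a) (EuclideanSpace.proj a : E n →L[ℝ] ℝ) x :=
    (EuclideanSpace.proj a : E n →L[ℝ] ℝ).hasFDerivAt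
  have h5 := h4.add (h3.const_mul s)
  have h6 : fderiv ℝ (fun y : E n => y a + s * fderiv ℝ P y (ee a)) x = _ := h5.fderiv
  rw [h6]
  simp [Hs]

lemma evr_P3 {P : E n → ℝ} (hP : ContDiff ℝ ∞ P) {s : ℝ}
    (hp : ∀ a x, (Z.p a).1 x = x a + s * fderiv ℝ P x (ee a)) (a b c : Fin n) (x : E n) :
    Z.P3 (evr x) a b c = s * D3 P x b a c := by
  unfold Sys.P3 D3
  rw [evr_apply, hD]
  have h1 : (Z.D b (Z.p a)).1 = fun y : E n => (if a = b then (1:ℝ) else 0) + s * Hs P y b a := by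
    funext y; exact evr_Dp hD hP hp a b y
  rw [h1, fderiv_const_add]
  have h2 : DifferentiableAt ℝ (fun y => Hs P y b a) x :=
    ((smooth_Hs hP b a).differentiable (by simp)) x
  rw [fderiv_const_mul h2]
  simp

end sys

/-- **(E4)**: Calabi's inequality. `S` is smooth, comparable to `|D³v|²`, and
`S²/(2n) + S - 2 √(lo⁻³) K √S ≤ L S`. -/
theorem calabi_ineq (hn : 0 < n) {v P : E n → ℝ} (hv : ContDiff ℝ ∞ v) (hP : ContDiff ℝ ∞ P)
    {s lo hi : ℝ} (hlo : 0 < lo) (hell : ∀ x, Ell lo hi (gm v x)) (hma : MAeq P s v)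
    (hconv : ∀ x (z : Fin n → ℝ),
      0 ≤ ∑ i, ∑ j, ((if i = j then 1 else 0) + s * Hs P x i j) * z i * z j)
    {K : ℝ} (hK : ∀ x, ∑ a, ∑ b, ∑ c, (s * D3 P x a b c) ^ 2 ≤ K) :
    ∃ S : E n → ℝ, ContDiff ℝ ∞ S ∧ (∀ x, 0 ≤ S x) ∧
      (∀ x, S x ≤ lo⁻¹ ^ 3 * ∑ a, ∑ b, ∑ c, D3 v x a b c ^ 2) ∧
      (∀ x, ∑ a, ∑ b, ∑ c, D3 v x a b c ^ 2 ≤ hi ^ 3 * S x) ∧
      ∀ x, S x ^ 2 / (2 * n) + S x - 2 * Real.sqrt (lo⁻¹ ^ 3 * K) * Real.sqrt (S x) ≤
        LA (tauf v) S x := by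
  obtain ⟨Z, hD, hx, hg, ht, hp⟩ := exists_sys hv hP hlo hell hma
  have hG : ∀ x (z : Fin n → ℝ),
      lo * ∑ i, z i ^ 2 ≤ ∑ i, ∑ j, evr x (Z.g i j) * z i * z j := by
    intro x z
    simp only [evr_apply, hg]
    exact ((hell x).2 z).1
  have hG' : ∀ x (z : Fin n → ℝ),
      ∑ i, ∑ j, evr x (Z.g i j) * z i * z j ≤ hi * ∑ i, z i ^ 2 := by
    intro x z
    simp only [evr_apply, hg]
    exact ((hell x).2 z).2
  have hhi : 0 ≤ hi := by
    have h1 := ((hell 0).2 (fun _ => 1)).1.trans ((hell 0).2 (fun _ => 1)).2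
    have h2 : (0:ℝ) < ∑ i : Fin n, (1:ℝ) ^ 2 := by
      simp only [one_pow, Finset.sum_const, Finset.card_univ, Fintype.card_fin, nsmul_eq_mul,
        mul_one]
      exact_mod_cast hn
    have h3 := le_of_mul_le_mul_right h1 h2
    exact hlo.le.trans h3
  refine ⟨Z.S.1, Z.S.2, fun x => ?_, fun x => ?_, fun x => ?_, fun x => ?_⟩
  · exact (Sys.S_le hlo (hG x)).1
  · have h := (Sys.S_le hlo (hG x)).2
    simp only [evr_T hD hg] at h
    exact h
  · have h := Sys.S_ge hlo hhi (hG x) (hG' x)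
    simp only [evr_T hD hg] at h
    exact h
  · have h1 := Sys.E4_pt hn hlo (hG x) (by
      intro z
      have h2 := hconv x z
      have e : ∑ i, ∑ j, evr x (Z.D j (Z.p i)) * z i * z j =
          ∑ i, ∑ j, ((if i = j then 1 else 0) + s * Hs P x i j) * z i * z j := by
        refine Finset.sum_congr rfl fun i _ => Finset.sum_congr rfl fun j _ => ?_
        rw [evr_apply, evr_Dp hD hP hp, Hs_symm (f := P) (hP.of_le (by norm_cast)) x j i]
      rw [e]; exact h2)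
    have h3 := Sys.TP_le (s := Z) (ev := evr x) hlo (hG x)
    have h4 : ∑ a, ∑ b, ∑ c, Z.P3 (evr x) a b c ^ 2 = ∑ a, ∑ b, ∑ c, (s * D3 P x a b c) ^ 2 := by
      rw [Finset.sum_comm]
      refine Finset.sum_congr rfl fun a _ => Finset.sum_congr rfl fun b _ =>
        Finset.sum_congr rfl fun c _ => ?_
      rw [evr_P3 hD hP hp]
    rw [h4] at h3
    rw [evr_L hD hx ht] at h1
    have hS0 : 0 ≤ evr x Z.S := (Sys.S_le hlo (hG x)).1
    have hlo3 : 0 ≤ lo⁻¹ ^ 3 := by positivity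
    have hK0 : 0 ≤ K := le_trans (by positivity) (hK x)
    have h5 : evr x Z.TP ≤ Real.sqrt (lo⁻¹ ^ 3 * K) * Real.sqrt (evr x Z.S) := by
      rw [← Real.sqrt_mul (by positivity)]
      apply Real.le_sqrt_of_sq_le
      calc evr x Z.TP ^ 2 ≤ _ := h3
        _ ≤ evr x Z.S * (lo⁻¹ ^ 3 * K) :=
          mul_le_mul_of_nonneg_left (mul_le_mul_of_nonneg_left (hK x) hlo3) hS0
        _ = _ := by ring
    have h6 : evr x Z.S = Z.S.1 x := rfl
    rw [h6] at h1 h5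
    have h7 : 2 * Real.sqrt (lo⁻¹ ^ 3 * K) * Real.sqrt (Z.S.1 x) =
      2 * (Real.sqrt (lo⁻¹ ^ 3 * K) * Real.sqrt (Z.S.1 x)) := by ring
    rw [h7]
    linarith

/-- **H8**: uniform bound of the third derivatives of a solution. -/
theorem d3_bound (hn : 0 < n) {v P : E n → ℝ} (hv : ContDiff ℝ ∞ v) (hP : ContDiff ℝ ∞ P)
    {s lo hi : ℝ} (hlo : 0 < lo) (hell : ∀ x, Ell lo hi (gm v x)) (hma : MAeq P s v)
    (hconv : ∀ x (z : Fin n → ℝ),
      0 ≤ ∑ i, ∑ j, ((if i = j then 1 else 0) + s * Hs P x i j) * z i * z j)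
    {K : ℝ} (hK : ∀ x, ∑ a, ∑ b, ∑ c, (s * D3 P x a b c) ^ 2 ≤ K)
    {B : ℝ} (hB : ∀ x, ∑ a, ∑ b, ∑ c, D3 v x a b c ^ 2 ≤ B) :
    ∀ x, ∑ a, ∑ b, ∑ c, D3 v x a b c ^ 2 ≤ hi ^ 3 * (4 * (lo⁻¹ ^ 3 * K)) := by
  obtain ⟨S, hS, hS0, hS1, hS2, hS3⟩ := calabi_ineq hn hv hP hlo hell hma hconv hK
  have hK0 : 0 ≤ K := le_trans (by positivity) (hK 0)
  have hlo3 : 0 ≤ lo⁻¹ ^ 3 := by positivity
  have hhi : 0 ≤ hi := by
    have h1 := ((hell 0).2 (fun _ => 1)).1.trans ((hell 0).2 (fun _ => 1)).2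
    have h2 : (0:ℝ) < ∑ i : Fin n, (1:ℝ) ^ 2 := by
      simp only [one_pow, Finset.sum_const, Finset.card_univ, Fintype.card_fin, nsmul_eq_mul,
        mul_one]
      exact_mod_cast hn
    have h3 := le_of_mul_le_mul_right h1 h2
    exact hlo.le.trans h3
  have key : ∀ x, S x ≤ 4 * Real.sqrt (lo⁻¹ ^ 3 * K) ^ 2 := by
    refine MaxP.S_le (τ := tauf v) (T := n / lo) (fun x => ?_) (fun x => ?_)
      (hS.of_le (by norm_cast)) (M := lo⁻¹ ^ 3 * B) (fun x => ?_) (fun x _ => ?_)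
    · exact (MaxP.Ell.posDef hlo (hell x)).inv.posSemidef
    · exact MaxP.Ell.trace_inv_le hlo (hell x)
    · exact (hS1 x).trans (mul_le_mul_of_nonneg_left (hB x) hlo3)
    · have h1 := hS3 x
      have h2 : 0 ≤ S x ^ 2 / (2 * n) := by positivity
      linarith
  intro x
  refine (hS2 x).trans (mul_le_mul_of_nonneg_left ?_ (by positivity))
  have h := key x
  rwa [Real.sq_sqrt (by positivity)] at h

end Crest.Agent.R238.ECal
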