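import Crest.Agent.R238.HolDefs

set_option autoImplicit false
set_option linter.unusedSectionVars false

open MeasureTheory Set Filter Topology Real

namespace Crest.Agent.R238.EHeat

/-- The standard Gaussian density. -/
noncomputable def gau {n : ℕ} (z : E n) : ℝ :=
  (2 * π) ^ (-(n : ℝ) / 2) * Real.exp (-‖z‖ ^ 2 / 2)

variable {n : ℕ} {F : Type*} [NormedAddCommGroup F] [NormedSpace ℝ F]

lemma gau_pos (z : E n) : 0 < gau z := by unfold gau; positivity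

lemma gau_nonneg (z : E n) : 0 ≤ gau z := (gau_pos z).le

lemma gau_neg (z : E n) : gau (-z) = gau z := by simp [gau]

lemma integrable_exp_neg {b : ℝ} (hb : 0 < b) (c : E n) :
    Integrable (fun z : E n => Real.exp (-b * ‖z - c‖ ^ 2)) := by
  have h := (GaussianFourier.integrable_cexp_neg_mul_sq_norm_add (V := E n) (b := (b : ℂ))
    (by simpa using hb) 0 0).norm
  have h2 : Integrable (fun z : E n => Real.exp (-b * ‖z‖ ^ 2)) := by
    refine h.congr (ae_of_all _ fun z => ?_)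
    simp only [Complex.norm_exp]
    congr 1
    simp [← Complex.ofReal_pow]
  simpa using h2.comp_sub_right c

lemma integral_gau : ∫ z : E n, gau z = 1 := by
  have h := GaussianFourier.integral_rexp_neg_mul_sq_norm (V := E n) (b := 1/2) (by norm_num)
  have : ∀ z : E n, gau z = (2 * π) ^ (-(n : ℝ) / 2) * Real.exp (-(1/2) * ‖z‖ ^ 2) := by
    intro z; unfold gau; congr 2; ring
  simp_rw [this]
  rw [integral_const_mul, h]
  simp only [finrank_euclideanSpace, Fintype.card_fin]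
  rw [show (π / (1/2) : ℝ) = 2 * π by ring, ← Real.rpow_add (by positivity)]
  rw [show (-(n:ℝ)/2 + (n:ℝ)/2) = 0 by ring, Real.rpow_zero]

lemma continuous_gau : Continuous (gau : E n → ℝ) := by unfold gau; fun_prop

/-- polynomial times half-Gaussian decay -/
lemma poly_exp_bound (k : ℕ) : ∃ C : ℝ, 0 ≤ C ∧ ∀ t : ℝ, 0 ≤ t →
    (1 + t) ^ k * Real.exp (-t ^ 2 / 4) ≤ C := by
  -- (1+t)^k ≤ k! exp(1+t) , exp(1+t - t^2/4) ≤ exp 2
  refine ⟨k.factorial * Real.exp 2, by positivity, fun t ht => ?_⟩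
  have h1 : (1 + t) ^ k ≤ k.factorial * Real.exp (1 + t) := by
    have := Real.pow_div_factorial_le_exp (1 + t) (by positivity) k
    rw [div_le_iff₀ (by positivity)] at this
    linarith
  calc (1 + t) ^ k * Real.exp (-t ^ 2 / 4)
      ≤ (k.factorial * Real.exp (1 + t)) * Real.exp (-t ^ 2 / 4) := by gcongr
    _ = k.factorial * Real.exp (1 + t + -t ^ 2 / 4) := by rw [mul_assoc, ← Real.exp_add]
    _ ≤ k.factorial * Real.exp 2 := by
        gcongr
        nlinarith [sq_nonneg (t/2 - 1)]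

/-- The class of continuous functions bounded by polynomial × Gaussian. -/
def GP (h : E n → F) : Prop :=
  Continuous h ∧ ∃ k : ℕ, ∃ C : ℝ, 0 ≤ C ∧ ∀ z, ‖h z‖ ≤ C * (1 + ‖z‖) ^ k * gau z

lemma GP.decay {h : E n → F} (hh : GP h) (m : ℕ) :
    ∃ C : ℝ, 0 ≤ C ∧ ∀ z, (1 + ‖z‖) ^ m * ‖h z‖ ≤ C * Real.exp (-‖z‖ ^ 2 / 4) := by
  obtain ⟨hc, k, C, hC, hb⟩ := hh
  obtain ⟨D, hD, hDb⟩ := poly_exp_bound (m + k)
  refine ⟨C * D * (2 * π) ^ (-(n : ℝ) / 2), by positivity, fun z => ?_⟩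
  have h1 := hb z
  have h2 := hDb ‖z‖ (norm_nonneg _)
  calc (1 + ‖z‖) ^ m * ‖h z‖ ≤ (1 + ‖z‖) ^ m * (C * (1 + ‖z‖) ^ k * gau z) := by gcongr
    _ = C * (2 * π) ^ (-(n : ℝ) / 2) * ((1 + ‖z‖) ^ (m + k) * Real.exp (-‖z‖ ^ 2 / 4)) *
          Real.exp (-‖z‖ ^ 2 / 4) := by
        unfold gau
        rw [show (-‖z‖ ^ 2 / 2) = (-‖z‖ ^ 2 / 4) + (-‖z‖ ^ 2 / 4) by ring, Real.exp_add, pow_add]
        ring
    _ ≤ C * (2 * π) ^ (-(n : ℝ) / 2) * D * Real.exp (-‖z‖ ^ 2 / 4) := by gcongr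
    _ = _ := by ring

lemma integrable_quarter : Integrable (fun z : E n => Real.exp (-‖z‖ ^ 2 / 4)) := by
  have := integrable_exp_neg (n := n) (b := 1/4) (by norm_num) 0
  refine this.congr (ae_of_all _ fun z => ?_)
  simp only [sub_zero]
  congr 1; ring

lemma GP.integrable_pow {h : E n → F} (hh : GP h) (m : ℕ) :
    Integrable (fun z => (1 + ‖z‖) ^ m * ‖h z‖) := by
  obtain ⟨C, hC, hb⟩ := hh.decay m
  refine Integrable.mono' (integrable_quarter.const_mul C)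
    ((by have := hh.1; fun_prop : Continuous fun z : E n => (1 + ‖z‖) ^ m * ‖h z‖).aestronglyMeasurable)
    (ae_of_all _ fun z => ?_)
  rw [Real.norm_of_nonneg (by positivity)]
  exact hb z

lemma GP.integrable {h : E n → F} (hh : GP h) : Integrable h := by
  have := hh.integrable_pow 0
  simp only [pow_zero, one_mul] at this
  exact (integrable_norm_iff hh.1.aestronglyMeasurable).1 this

/-- change of variables -/
lemma change_var (f : E n → F) {s : ℝ} (hs : 0 < s) (x : E n) :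
    ∫ z, f (x + s • z) = (s ^ n)⁻¹ • ∫ y, f y := by
  have h1 := Measure.integral_comp_smul (volume : Measure (E n)) (fun y => f (x + y)) s
  rw [h1, integral_add_left_eq_self (fun y => f y) x]
  simp only [finrank_euclideanSpace, Fintype.card_fin]
  rw [abs_of_pos (by positivity)]


/-- the derivative kernel -/
noncomputable def T (h : E n → F) (h' : E n → (E n →L[ℝ] F)) (z : E n) : (ℝ × E n) →L[ℝ] F :=
  (h' z).comp ((ContinuousLinearMap.fst ℝ ℝ (E n)).smulRight z + ContinuousLinearMap.snd ℝ ℝ (E n))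
    + (ContinuousLinearMap.fst ℝ ℝ (E n)).smulRight ((n : ℝ) • h z)

lemma T_apply (h : E n → F) (h' : E n → (E n →L[ℝ] F)) (z : E n) (p : ℝ × E n) :
    T h h' z p = h' z (p.1 • z + p.2) + p.1 • ((n : ℝ) • h z) := by
  simp [T]

lemma norm_T_le (h : E n → F) (h' : E n → (E n →L[ℝ] F)) (z : E n) :
    ‖T h h' z‖ ≤ ‖h' z‖ * (1 + ‖z‖) + n * ‖h z‖ := by
  refine ContinuousLinearMap.opNorm_le_bound _ (by positivity) fun p => ?_
  rw [T_apply]
  have h1 : |p.1| ≤ ‖p‖ := by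
    have := norm_fst_le p; simpa using this
  have h2 : ‖p.2‖ ≤ ‖p‖ := norm_snd_le p
  calc ‖h' z (p.1 • z + p.2) + p.1 • ((n : ℝ) • h z)‖
      ≤ ‖h' z (p.1 • z + p.2)‖ + ‖p.1 • ((n : ℝ) • h z)‖ := norm_add_le _ _
    _ ≤ ‖h' z‖ * (|p.1| * ‖z‖ + ‖p.2‖) + |p.1| * (n * ‖h z‖) := by
        gcongr
        · refine ((h' z).le_opNorm _).trans ?_
          gcongr
          refine (norm_add_le _ _).trans ?_
          rw [norm_smul, Real.norm_eq_abs]
        · rw [norm_smul, norm_smul, Real.norm_eq_abs, Real.norm_of_nonneg (Nat.cast_nonneg n)]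
    _ ≤ ‖h' z‖ * (‖p‖ * ‖z‖ + ‖p‖) + ‖p‖ * (n * ‖h z‖) := by gcongr
    _ = _ := by ring

lemma continuous_T {h : E n → F} {h' : E n → (E n →L[ℝ] F)} (hc : Continuous h)
    (hc' : Continuous h') : Continuous (T h h') := by
  unfold T
  have h1 : Continuous fun z : E n => (ContinuousLinearMap.fst ℝ ℝ (E n)).smulRight z := by
    exact (ContinuousLinearMap.smulRightL ℝ (ℝ × E n) (E n)
      (ContinuousLinearMap.fst ℝ ℝ (E n))).continuous
  have h2 : Continuous fun z : E n => (ContinuousLinearMap.fst ℝ ℝ (E n)).smulRight ((n : ℝ) • h z) := by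
    exact (ContinuousLinearMap.smulRightL ℝ (ℝ × E n) F
      (ContinuousLinearMap.fst ℝ ℝ (E n))).continuous.comp (hc.const_smul _)
  exact (hc'.clm_comp (h1.add continuous_const)).add h2

lemma GP.T {h : E n → F} {h' : E n → (E n →L[ℝ] F)} (hh : GP h) (hh' : GP h') :
    ∃ C : ℝ, 0 ≤ C ∧ ∀ z, ‖T h h' z‖ ≤ C * Real.exp (-‖z‖ ^ 2 / 4) := by
  obtain ⟨C, hC, hb⟩ := hh.decay 0
  obtain ⟨C', hC', hb'⟩ := hh'.decay 1
  refine ⟨C' + n * C, by positivity, fun z => (norm_T_le h h' z).trans ?_⟩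
  have h1 := hb z
  have h2 := hb' z
  rw [pow_zero, one_mul] at h1
  rw [pow_one] at h2
  calc ‖h' z‖ * (1 + ‖z‖) + n * ‖h z‖ ≤ C' * Real.exp (-‖z‖ ^ 2 / 4) + n * (C * Real.exp (-‖z‖ ^ 2 / 4)) := by
        rw [mul_comm ‖h' z‖]
        gcongr
    _ = _ := by ring

lemma exp_quad_bound {s0 : ℝ} (hs : 0 < s0) (x0 : E n) {p : ℝ × E n}
    (hp : p ∈ Metric.ball (s0, x0) (s0 / 2)) (y : E n) :
    Real.exp (-‖p.1⁻¹ • (y - p.2)‖ ^ 2 / 4) ≤
      Real.exp 1 * Real.exp (-(1 / (18 * s0 ^ 2)) * ‖y - x0‖ ^ 2) := by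
  rw [Metric.mem_ball, Prod.dist_eq, max_lt_iff] at hp
  obtain ⟨hp1, hp2⟩ := hp
  rw [Real.dist_eq, abs_lt] at hp1
  simp only at hp1 hp2
  have hs1 : 0 < p.1 := by linarith
  have hs2 : p.1 < 3 / 2 * s0 := by linarith
  rw [← Real.exp_add]
  apply Real.exp_le_exp.2
  rw [norm_smul, Real.norm_of_nonneg (by positivity)]
  -- ‖y - x0‖ ≤ ‖y - p.2‖ + ‖p.2 - x0‖
  have h3 : ‖y - x0‖ ≤ ‖y - p.2‖ + s0 / 2 := by
    have : ‖y - x0‖ ≤ ‖y - p.2‖ + ‖p.2 - x0‖ := norm_sub_le_norm_sub_add_norm_sub _ _ _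
    rw [dist_eq_norm] at hp2
    linarith
  have h4 : ‖y - x0‖ ^ 2 ≤ 2 * ‖y - p.2‖ ^ 2 + s0 ^ 2 / 2 := by
    have h5 : ‖y - x0‖ ^ 2 ≤ (‖y - p.2‖ + s0 / 2) ^ 2 := by gcongr
    nlinarith [sq_nonneg (‖y - p.2‖ - s0 / 2)]
  have h6 : (2/3 * s0⁻¹) ^ 2 * ‖y - p.2‖ ^ 2 ≤ (p.1⁻¹ * ‖y - p.2‖) ^ 2 := by
    rw [mul_pow p.1⁻¹]
    gcongr
    rw [show (2/3 * s0⁻¹ : ℝ) = (3/2 * s0)⁻¹ by rw [mul_inv]; norm_num]
    exact inv_anti₀ hs1 hs2.le
  have h7 : -(1 / (18 * s0 ^ 2)) * ‖y - x0‖ ^ 2 ≥ -(1 / (18 * s0 ^ 2)) * (2 * ‖y - p.2‖ ^ 2 + s0 ^ 2 / 2) := by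
    have : 0 < 1 / (18 * s0 ^ 2) := by positivity
    nlinarith
  have h8 : -(1 / (18 * s0 ^ 2)) * (2 * ‖y - p.2‖ ^ 2 + s0 ^ 2 / 2)
      = - (s0⁻¹ ^ 2 * ‖y - p.2‖ ^ 2 / 9) - 1 / 36 := by
    field_simp
    ring
  have h9 : -(p.1⁻¹ * ‖y - p.2‖) ^ 2 / 4 ≤ - (s0⁻¹ ^ 2 * ‖y - p.2‖ ^ 2 / 9) := by
    rw [mul_pow] at h6
    nlinarith
  linarith

/-- the kernel function -/
noncomputable def ker (r : E n → ℝ) (h : E n → F) (p : ℝ × E n) (y : E n) : F :=
  r y • ((p.1 ^ n)⁻¹ • h (p.1⁻¹ • (y - p.2)))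

noncomputable def ker' (r : E n → ℝ) (h : E n → F) (h' : E n → (E n →L[ℝ] F)) (p : ℝ × E n)
    (y : E n) : (ℝ × E n) →L[ℝ] F :=
  r y • ((-(p.1⁻¹ * (p.1 ^ n)⁻¹)) • T h h' (p.1⁻¹ • (y - p.2)))

lemma hasFDerivAt_ker (r : E n → ℝ) {h : E n → F} {h' : E n → (E n →L[ℝ] F)}
    (hd : ∀ z, HasFDerivAt h (h' z) z) (p : ℝ × E n) (hp : 0 < p.1) (y : E n) :
    HasFDerivAt (fun p => ker r h p y) (ker' r h h' p y) p := by
  unfold ker ker'
  refine HasFDerivAt.const_smul ?_ (r y)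
  -- inner map w(p) = p.1⁻¹ • (y - p.2)
  have hinv : HasFDerivAt (fun p : ℝ × E n => p.1⁻¹)
      ((-(p.1 ^ 2)⁻¹) • ContinuousLinearMap.fst ℝ ℝ (E n)) p := by
    have := (hasDerivAt_inv hp.ne').hasFDerivAt.comp p (hasFDerivAt_fst (𝕜 := ℝ) (E := ℝ) (F := E n))
    refine this.congr_fderiv ?_
    ext q <;> simp
  have hw : HasFDerivAt (fun p : ℝ × E n => p.1⁻¹ • (y - p.2))
      (-p.1⁻¹ • ((ContinuousLinearMap.fst ℝ ℝ (E n)).smulRight (p.1⁻¹ • (y - p.2))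
        + ContinuousLinearMap.snd ℝ ℝ (E n))) p := by
    have h2 : HasFDerivAt (fun p : ℝ × E n => y - p.2) (-ContinuousLinearMap.snd ℝ ℝ (E n)) p :=
      (hasFDerivAt_snd (𝕜 := ℝ) (E := ℝ) (F := E n)).const_sub y
    refine (hinv.smul h2).congr_fderiv ?_
    ext q
    · simp [sq]; ring
    · simp
  have hpow : HasFDerivAt (fun p : ℝ × E n => (p.1 ^ n)⁻¹)
      ((-(n : ℝ) * (p.1⁻¹ * (p.1 ^ n)⁻¹)) • ContinuousLinearMap.fst ℝ ℝ (E n)) p := by
    have h3 : HasDerivAt (fun s : ℝ => (s ^ n)⁻¹) (-(n : ℝ) * (p.1⁻¹ * (p.1 ^ n)⁻¹)) p.1 := by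
      have := (hasDerivAt_pow n p.1).inv (pow_ne_zero n hp.ne')
      refine this.congr_deriv ?_
      rcases Nat.eq_zero_or_pos n with hn | hn
      · subst hn; simp
      · have : p.1 ^ n = p.1 ^ (n-1) * p.1 := by rw [← pow_succ]; congr 1; omega
        rw [this]
        field_simp
    have := h3.hasFDerivAt.comp p (hasFDerivAt_fst (𝕜 := ℝ) (E := ℝ) (F := E n))
    refine this.congr_fderiv ?_
    ext q <;> simp
  have hcomp := (hd (p.1⁻¹ • (y - p.2))).comp p hw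
  refine (hpow.smul hcomp).congr_fderiv ?_
  ext q
  · simp [T_apply]
    module
  · simp [T_apply]
    module

theorem main_deriv {h : E n → F} {h' : E n → (E n →L[ℝ] F)}
    (hd : ∀ z, HasFDerivAt h (h' z) z) (hh : GP h) (hh' : GP h') {r : E n → ℝ}
    (hrc : Continuous r) {M : ℝ} (hrM : ∀ x, |r x| ≤ M) {s0 : ℝ} (hs : 0 < s0) (x0 : E n) :
    HasFDerivAt (fun p : ℝ × E n => ∫ z, r (p.2 + p.1 • z) • h z)
      (-s0⁻¹ • ∫ z, r (x0 + s0 • z) • T h h' z) (s0, x0) := by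
  have hM : 0 ≤ M := (abs_nonneg _).trans (hrM 0)
  have hcv : ∀ {G : Type _} [NormedAddCommGroup G] [NormedSpace ℝ G] (k : E n → G) (s : ℝ) (x : E n),
      0 < s → ∫ z, r (x + s • z) • k z = (s ^ n)⁻¹ • ∫ y, r y • k (s⁻¹ • (y - x)) := by
    intro G _ _ k s x hs
    rw [← change_var (fun y => r y • k (s⁻¹ • (y - x))) hs x]
    congr 1
    ext z
    rw [add_sub_cancel_left, smul_smul, inv_mul_cancel₀ hs.ne', one_smul]
  have hev : (fun p : ℝ × E n => ∫ z, r (p.2 + p.1 • z) • h z) =ᶠ[𝓝 (s0, x0)]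
      fun p => ∫ y, ker r h p y := by
    have : ∀ᶠ p : ℝ × E n in 𝓝 (s0, x0), 0 < p.1 :=
      (continuous_fst.tendsto (s0, x0)).eventually (lt_mem_nhds hs)
    filter_upwards [this] with p hp
    rw [hcv h p.1 p.2 hp]
    unfold ker
    rw [← integral_smul]
    congr 1
    ext y
    rw [smul_comm]
  have hval : (-s0⁻¹ • ∫ z, r (x0 + s0 • z) • T h h' z) = ∫ y, ker' r h h' (s0, x0) y := by
    rw [hcv (T h h') s0 x0 hs]
    unfold ker'
    rw [← integral_smul, ← integral_smul]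
    congr 1
    ext1 y
    rw [smul_comm (r y)]
    rw [smul_smul, neg_mul]
  rw [hval]
  refine HasFDerivAt.congr_of_eventuallyEq ?_ hev
  obtain ⟨C, hC, hCb⟩ := GP.T hh hh'
  obtain ⟨C0, hC0, hC0b⟩ := hh.decay 0
  have hpos : ∀ p ∈ Metric.ball (s0, x0) (s0 / 2), s0 / 2 < p.1 := by
    intro p hp
    rw [Metric.mem_ball, Prod.dist_eq, max_lt_iff] at hp
    obtain ⟨hp1, -⟩ := hp
    rw [Real.dist_eq, abs_lt] at hp1
    simp only at hp1
    linarith
  have hker_cont : ∀ p : ℝ × E n, Continuous (ker r h p) := by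
    intro p
    have := hh.1
    unfold ker
    fun_prop
  have hinte : Integrable (fun y : E n => Real.exp 1 * Real.exp (-(1 / (18 * s0 ^ 2)) * ‖y - x0‖ ^ 2)) :=
    (integrable_exp_neg (by positivity) x0).const_mul _
  refine hasFDerivAt_integral_of_dominated_of_fderiv_le
    (s := Metric.ball (s0, x0) (s0 / 2))
    (bound := fun y => M * ((s0/2)⁻¹ * ((s0/2) ^ n)⁻¹ * (C *
      (Real.exp 1 * Real.exp (-(1 / (18 * s0 ^ 2)) * ‖y - x0‖ ^ 2)))))
    (F' := fun p y => ker' r h h' p y)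
    (Metric.ball_mem_nhds _ (by positivity))
    (Eventually.of_forall fun p => (hker_cont p).aestronglyMeasurable) ?_ ?_ ?_ ?_ ?_
  · -- integrability of ker at base point
    refine Integrable.mono' ((hinte.const_mul (M * ((s0 ^ n)⁻¹ * C0))))
      (hker_cont _).aestronglyMeasurable (ae_of_all _ fun y => ?_)
    unfold ker
    rw [norm_smul, norm_smul, Real.norm_eq_abs, Real.norm_of_nonneg (by positivity)]
    have h1 := hC0b (s0⁻¹ • (y - x0))
    rw [pow_zero, one_mul] at h1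
    have h2 := exp_quad_bound hs x0 (p := (s0, x0)) (Metric.mem_ball_self (by positivity)) y
    simp only at h2
    calc |r y| * ((s0 ^ n)⁻¹ * ‖h (s0⁻¹ • (y - x0))‖)
        ≤ M * ((s0 ^ n)⁻¹ * (C0 * (Real.exp 1 * Real.exp (-(1 / (18 * s0 ^ 2)) * ‖y - x0‖ ^ 2)))) := by
          gcongr
          · exact hrM y
          · exact h1.trans (by gcongr)
      _ = _ := by ring
  · -- measurability of ker'
    have : SecondCountableTopologyEither (E n) (ℝ × E n →L[ℝ] F) := ⟨Or.inl inferInstance⟩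
    refine Continuous.aestronglyMeasurable ?_
    have := continuous_T hh.1 hh'.1
    unfold ker'
    fun_prop
  · refine ae_of_all _ fun y p hp => ?_
    have hp1 := hpos p hp
    have hp0 : 0 < p.1 := by linarith
    unfold ker'
    rw [norm_smul, norm_smul, Real.norm_eq_abs, norm_neg, Real.norm_of_nonneg (by positivity)]
    have h1 := hCb (p.1⁻¹ • (y - p.2))
    have h2 := exp_quad_bound hs x0 hp y
    gcongr
    · exact hrM y
    · exact h1.trans (by gcongr)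
  · have := ((hinte.const_mul C).const_mul ((s0/2)⁻¹ * ((s0/2) ^ n)⁻¹)).const_mul M
    exact this
  · refine ae_of_all _ fun y p hp => ?_
    have hp1 := hpos p hp
    exact hasFDerivAt_ker r hd p (by linarith) y

end Crest.Agent.R238.EHeat
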