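import Crest.Agent.R238.EHeat0

set_option autoImplicit false
set_option linter.unusedSectionVars false
set_option maxSynthPendingDepth 3

open MeasureTheory Set Filter Topology Real
open scoped ContDiff

namespace Crest.Agent.R238.EHeat

variable {n : ℕ} {F : Type*} [NormedAddCommGroup F] [NormedSpace ℝ F]

/-! ### The class of Gaussian times temperate functions -/

def SC (h : E n → F) : Prop := ∃ p : E n → F, p.HasTemperateGrowth ∧ ∀ z, h z = gau z • p z

lemma hasTemperateGrowth_fderiv {p : E n → F} (hp : p.HasTemperateGrowth) :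
    (fderiv ℝ p).HasTemperateGrowth := by
  refine ⟨hp.1.fderiv_right (m := ∞) (by norm_num), fun m => ?_⟩
  obtain ⟨k, C, h⟩ := hp.2 (m + 1)
  refine ⟨k, C, fun x => ?_⟩
  rw [norm_iteratedFDeriv_fderiv]
  exact h x

lemma hasFDerivAt_gau (z : E n) : HasFDerivAt (gau : E n → ℝ) (-(gau z • innerSL ℝ z)) z := by
  have h1 : HasFDerivAt (fun z : E n => ‖z‖ ^ 2) (2 • innerSL ℝ z) z :=
    (hasStrictFDerivAt_norm_sq z).hasFDerivAt
  have h2 : HasFDerivAt (fun z : E n => -‖z‖ ^ 2 / 2) (-(innerSL ℝ z)) z := by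
    have := (h1.neg).mul_const ((2:ℝ)⁻¹)
    refine (this.congr_fderiv ?_).congr_of_eventuallyEq (Eventually.of_forall fun w => ?_)
    · ext w; simp
    · simp [div_eq_mul_inv]
  have h3 := (h2.exp).const_mul ((2 * π) ^ (-(n : ℝ) / 2))
  refine h3.congr_fderiv ?_
  unfold gau
  ext w
  simp
  ring

lemma fderiv_gau (z : E n) : fderiv ℝ (gau : E n → ℝ) z = -(gau z • innerSL ℝ z) :=
  (hasFDerivAt_gau z).fderiv

lemma differentiable_gau : Differentiable ℝ (gau : E n → ℝ) :=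
  fun z => (hasFDerivAt_gau z).differentiableAt

lemma SC.gau : SC (gau : E n → ℝ) :=
  ⟨fun _ => 1, Function.HasTemperateGrowth.const 1, fun z => by simp⟩

lemma SC.hasFDerivAt {h : E n → F} (hh : SC h) (z : E n) : HasFDerivAt h (fderiv ℝ h z) z := by
  obtain ⟨p, hp, hhp⟩ := hh
  have hpd : Differentiable ℝ p := hp.1.differentiable (by norm_num)
  have : h = fun z => EHeat.gau z • p z := funext hhp
  rw [this]
  exact ((differentiable_gau z).smul (hpd z)).hasFDerivAt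

lemma SC.fderiv {h : E n → F} (hh : SC h) : SC (fderiv ℝ h) := by
  obtain ⟨p, hp, hhp⟩ := hh
  have hpd : Differentiable ℝ p := hp.1.differentiable (by norm_num)
  refine ⟨fun z => _root_.fderiv ℝ p z -
    ContinuousLinearMap.smulRightL ℝ (E n) F (innerSL ℝ z) (p z), ?_, fun z => ?_⟩
  · have h1 := hasTemperateGrowth_fderiv hp
    have h2 : (fun z : E n => innerSL ℝ z).HasTemperateGrowth :=
      (innerSL ℝ : E n →L[ℝ] E n →L[ℝ] ℝ).hasTemperateGrowth
    exact h1.sub ((ContinuousLinearMap.smulRightL ℝ (E n) F).bilinear_hasTemperateGrowth h2 hp)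
  · have h3 : h = fun z => EHeat.gau z • p z := funext hhp
    have h4 : _root_.fderiv ℝ (fun z => EHeat.gau z • p z) z = _ :=
      ((hasFDerivAt_gau z).smul (hpd z).hasFDerivAt).fderiv
    rw [h3, h4]
    ext w
    simp [sub_eq_add_neg, smul_smul]

lemma SC.gp {h : E n → F} (hh : SC h) : GP h := by
  obtain ⟨p, hp, hhp⟩ := hh
  refine ⟨?_, ?_⟩
  · have : h = fun z => EHeat.gau z • p z := funext hhp
    rw [this]
    exact continuous_gau.smul hp.1.continuous
  · obtain ⟨k, C, hC, hb⟩ := hp.norm_iteratedFDeriv_le_uniform 0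
    refine ⟨k, C, hC, fun z => ?_⟩
    have h1 := hb 0 le_rfl z
    rw [norm_iteratedFDeriv_zero] at h1
    rw [hhp z, norm_smul, Real.norm_of_nonneg (gau_nonneg z)]
    calc EHeat.gau z * ‖p z‖ ≤ EHeat.gau z * (C * (1 + ‖z‖) ^ k) := by
          have := gau_nonneg z
          gcongr
      _ = _ := by ring

lemma SC.integrable {h : E n → F} (hh : SC h) : Integrable h := hh.gp.integrable

/-- `A s r h x = ∫ r(x + s z) h(z) dz`. -/
noncomputable def A (s : ℝ) (r : E n → ℝ) (h : E n → F) (x : E n) : F :=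
  ∫ z, r (x + s • z) • h z

lemma integrable_A {h : E n → F} (hh : GP h) {r : E n → ℝ} (hrc : Continuous r) {M : ℝ}
    (hrM : ∀ x, |r x| ≤ M) (s : ℝ) (x : E n) : Integrable (fun z => r (x + s • z) • h z) := by
  have hM : 0 ≤ M := (abs_nonneg _).trans (hrM 0)
  refine Integrable.mono' (hh.integrable.norm.const_mul M) ?_ (ae_of_all _ fun z => ?_)
  · have : SecondCountableTopologyEither (E n) F := ⟨Or.inl inferInstance⟩
    refine Continuous.aestronglyMeasurable ?_
    have := hh.1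
    fun_prop
  · rw [norm_smul, Real.norm_eq_abs]
    gcongr
    exact hrM _

lemma integrable_AT {h : E n → F} {h' : E n → (E n →L[ℝ] F)} (hh : GP h) (hh' : GP h')
    {r : E n → ℝ} (hrc : Continuous r) {M : ℝ}
    (hrM : ∀ x, |r x| ≤ M) (s : ℝ) (x : E n) : Integrable (fun z => r (x + s • z) • T h h' z) := by
  have hM : 0 ≤ M := (abs_nonneg _).trans (hrM 0)
  obtain ⟨C, hC, hb⟩ := GP.T hh hh'
  refine Integrable.mono' ((integrable_quarter.const_mul C).const_mul M) ?_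
    (ae_of_all _ fun z => ?_)
  · have : SecondCountableTopologyEither (E n) (ℝ × E n →L[ℝ] F) := ⟨Or.inl inferInstance⟩
    refine Continuous.aestronglyMeasurable ?_
    have := continuous_T hh.1 hh'.1
    fun_prop
  · rw [norm_smul, Real.norm_eq_abs]
    gcongr
    · exact hrM _
    · exact hb z

lemma continuous_A {h : E n → F} (hh : GP h) {r : E n → ℝ} (hrc : Continuous r) {M : ℝ}
    (hrM : ∀ x, |r x| ≤ M) : Continuous (fun p : ℝ × E n => A p.1 r h p.2) := by
  have hM : 0 ≤ M := (abs_nonneg _).trans (hrM 0)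
  unfold A
  refine continuous_of_dominated (bound := fun z => M * ‖h z‖) (fun p => ?_) (fun p => ?_)
    (hh.integrable.norm.const_mul M) (ae_of_all _ fun z => ?_)
  · exact (integrable_A hh hrc hrM p.1 p.2).1
  · refine ae_of_all _ fun z => ?_
    rw [norm_smul, Real.norm_eq_abs]
    gcongr
    exact hrM _
  · fun_prop

lemma hasFDerivAt_A [CompleteSpace F] {h : E n → F} (hh : SC h) {r : E n → ℝ}
    (hrc : Continuous r) {M : ℝ}
    (hrM : ∀ x, |r x| ≤ M) {s : ℝ} (hs : 0 < s) (x : E n) :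
    HasFDerivAt (A s r h) (-s⁻¹ • A s r (fderiv ℝ h) x) x := by
  have h1 := main_deriv (fun z => hh.hasFDerivAt z) hh.gp hh.fderiv.gp hrc hrM hs x
  have h2 : HasFDerivAt (fun x : E n => (s, x)) (ContinuousLinearMap.inr ℝ ℝ (E n)) x :=
    hasFDerivAt_prodMk_right s x
  have h3 := HasFDerivAt.comp x h1 h2
  refine h3.congr_fderiv ?_
  rw [ContinuousLinearMap.smul_comp]
  congr 1
  have h4 := ContinuousLinearMap.integral_comp_comm
    ((ContinuousLinearMap.compL ℝ (E n) (ℝ × E n) F).flip (ContinuousLinearMap.inr ℝ ℝ (E n)))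
    (integrable_AT hh.gp hh.fderiv.gp hrc hrM s x)
  simp only [ContinuousLinearMap.flip_apply, ContinuousLinearMap.compL_apply] at h4
  rw [← h4]
  unfold A
  congr 1
  ext z v
  simp [T_apply]

lemma integral_fderiv_eq_zero [CompleteSpace F] {h : E n → F} (hh : SC h) :
    ∫ z, fderiv ℝ h z = 0 := by
  have h1 := hasFDerivAt_A hh (r := fun _ => 1) continuous_const (M := 1) (by simp)
    (s := 1) one_pos (0 : E n)
  have h2 : A 1 (fun _ => 1) h = fun _ : E n => ∫ z, h z := by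
    ext x; simp [A]
  rw [h2] at h1
  have h3 := h1.unique (hasFDerivAt_const (∫ z, h z) (0 : E n))
  simpa [A] using h3

lemma norm_A_le [CompleteSpace F] {a M : ℝ} (ha : 0 < a) (ha1 : a ≤ 1) {h : E n → F} (hh : SC h)
    (h0 : ∫ z, h z = 0) {r : E n → ℝ} (hr : HB a M r) {s : ℝ} (hs : 0 ≤ s) (x : E n) :
    ‖A s r h x‖ ≤ (∫ z, ‖z‖ ^ a * ‖h z‖) * s ^ a * M := by
  have hM : 0 ≤ M := (abs_nonneg _).trans (hr.1 0)
  have hrc := HB.continuous ha hr
  have h1 : A s r h x = ∫ z, (r (x + s • z) - r x) • h z := by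
    simp_rw [sub_smul]
    have hi : Integrable (fun z => r x • h z) := hh.integrable.smul (r x)
    rw [integral_sub (integrable_A hh.gp hrc hr.1 s x) hi,
      integral_smul, h0, smul_zero, sub_zero]
    rfl
  rw [h1]
  have hint : Integrable (fun z : E n => ‖z‖ ^ a * ‖h z‖) := by
    refine Integrable.mono' (hh.gp.integrable_pow 1) ?_ (ae_of_all _ fun z => ?_)
    · have hc := hh.gp.1
      have : Continuous fun z : E n => ‖z‖ ^ a :=
        continuous_norm.rpow_const fun _ => Or.inr ha.le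
      exact (this.mul hc.norm).aestronglyMeasurable
    · rw [Real.norm_of_nonneg (by positivity)]
      gcongr
      calc ‖z‖ ^ a ≤ (1 + ‖z‖) ^ a := by gcongr; linarith
        _ ≤ (1 + ‖z‖) ^ (1:ℝ) := Real.rpow_le_rpow_of_exponent_le (by linarith [norm_nonneg z]) ha1
        _ = (1 + ‖z‖) ^ 1 := by norm_num
  calc ‖∫ z, (r (x + s • z) - r x) • h z‖ ≤ ∫ z, M * s ^ a * (‖z‖ ^ a * ‖h z‖) := by
        refine norm_integral_le_of_norm_le (hint.const_mul _) (ae_of_all _ fun z => ?_)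
        rw [norm_smul, Real.norm_eq_abs]
        have h2 := hr.2 (x + s • z) x
        rw [add_sub_cancel_left, norm_smul, Real.norm_of_nonneg hs,
          Real.mul_rpow hs (norm_nonneg _)] at h2
        calc |r (x + s • z) - r x| * ‖h z‖ ≤ (M * (s ^ a * ‖z‖ ^ a)) * ‖h z‖ := by gcongr
          _ = _ := by ring
    _ = _ := by rw [integral_const_mul]; ring

/-! ### Gaussian smoothing -/

/-- Gaussian smoothing `G_s * r`. -/
noncomputable def U (s : ℝ) (r : E n → ℝ) (x : E n) : ℝ := ∫ z, gau z * r (x + s • z)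
noncomputable def U1 (s : ℝ) (r : E n → ℝ) (x : E n) : E n →L[ℝ] ℝ := fderiv ℝ (U s r) x
noncomputable def U2 (s : ℝ) (r : E n → ℝ) (x : E n) : E n →L[ℝ] E n →L[ℝ] ℝ :=
  fderiv ℝ (U1 s r) x
noncomputable def U3 (s : ℝ) (r : E n → ℝ) (x : E n) : E n →L[ℝ] E n →L[ℝ] E n →L[ℝ] ℝ :=
  fderiv ℝ (U2 s r) x

/-- trace of a bilinear form -/
noncomputable def tr (B : E n →L[ℝ] E n →L[ℝ] ℝ) : ℝ :=
  ∑ i, B (EuclideanSpace.single i 1) (EuclideanSpace.single i 1)

noncomputable def g1 (z : E n) : E n →L[ℝ] ℝ := fderiv ℝ (gau : E n → ℝ) z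
noncomputable def g2 (z : E n) : E n →L[ℝ] E n →L[ℝ] ℝ := fderiv ℝ (g1 : E n → _) z
noncomputable def g3 (z : E n) : E n →L[ℝ] E n →L[ℝ] E n →L[ℝ] ℝ := fderiv ℝ (g2 : E n → _) z
noncomputable def g4 (z : E n) : E n →L[ℝ] E n →L[ℝ] E n →L[ℝ] E n →L[ℝ] ℝ :=
  fderiv ℝ (g3 : E n → _) z

lemma SC.g1 : SC (g1 : E n → _) := SC.gau.fderiv
lemma SC.g2 : SC (g2 : E n → _) := SC.g1.fderiv
lemma SC.g3 : SC (g3 : E n → _) := SC.g2.fderiv
lemma SC.g4 : SC (g4 : E n → _) := SC.g3.fderiv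

lemma U_eq (s : ℝ) (r : E n → ℝ) (x : E n) : U s r x = A s r gau x := by
  unfold U A
  simp_rw [smul_eq_mul, mul_comm]

section
variable {r : E n → ℝ} {M : ℝ} {s : ℝ}

lemma hasFDerivAt_U' (hrc : Continuous r) (hrM : ∀ x, |r x| ≤ M) (hs : 0 < s) (x : E n) :
    HasFDerivAt (U s r) (-s⁻¹ • A s r g1 x) x := by
  have h := hasFDerivAt_A SC.gau hrc hrM hs x
  have : U s r = A s r gau := funext (U_eq s r)
  rw [this]
  exact h

lemma U1_eq (hrc : Continuous r) (hrM : ∀ x, |r x| ≤ M) (hs : 0 < s) (x : E n) :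
    U1 s r x = -s⁻¹ • A s r g1 x := (hasFDerivAt_U' hrc hrM hs x).fderiv

theorem hasFDerivAt_U (hrc : Continuous r) (hrM : ∀ x, |r x| ≤ M) (hs : 0 < s) (x : E n) :
    HasFDerivAt (U s r) (U1 s r x) x := by
  rw [U1_eq hrc hrM hs]; exact hasFDerivAt_U' hrc hrM hs x

lemma hasFDerivAt_U1' (hrc : Continuous r) (hrM : ∀ x, |r x| ≤ M) (hs : 0 < s) (x : E n) :
    HasFDerivAt (U1 s r) ((s ^ 2)⁻¹ • A s r g2 x) x := by
  have h := (hasFDerivAt_A SC.g1 hrc hrM hs x).const_smul (-s⁻¹)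
  have : U1 s r = fun x => -s⁻¹ • A s r g1 x := funext (U1_eq hrc hrM hs)
  rw [this]
  refine h.congr_fderiv ?_
  rw [smul_smul]
  congr 1
  field_simp

lemma U2_eq (hrc : Continuous r) (hrM : ∀ x, |r x| ≤ M) (hs : 0 < s) (x : E n) :
    U2 s r x = (s ^ 2)⁻¹ • A s r g2 x := (hasFDerivAt_U1' hrc hrM hs x).fderiv

theorem hasFDerivAt_U1 (hrc : Continuous r) (hrM : ∀ x, |r x| ≤ M) (hs : 0 < s) (x : E n) :
    HasFDerivAt (U1 s r) (U2 s r x) x := by
  rw [U2_eq hrc hrM hs]; exact hasFDerivAt_U1' hrc hrM hs x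

lemma hasFDerivAt_U2' (hrc : Continuous r) (hrM : ∀ x, |r x| ≤ M) (hs : 0 < s) (x : E n) :
    HasFDerivAt (U2 s r) (-(s ^ 3)⁻¹ • A s r g3 x) x := by
  have h := (hasFDerivAt_A SC.g2 hrc hrM hs x).const_smul ((s ^ 2)⁻¹)
  have : U2 s r = fun x => (s ^ 2)⁻¹ • A s r g2 x := funext (U2_eq hrc hrM hs)
  rw [this]
  refine h.congr_fderiv ?_
  rw [smul_smul]
  congr 1
  field_simp

lemma U3_eq (hrc : Continuous r) (hrM : ∀ x, |r x| ≤ M) (hs : 0 < s) (x : E n) :
    U3 s r x = -(s ^ 3)⁻¹ • A s r g3 x := (hasFDerivAt_U2' hrc hrM hs x).fderiv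

theorem hasFDerivAt_U2 (hrc : Continuous r) (hrM : ∀ x, |r x| ≤ M) (hs : 0 < s) (x : E n) :
    HasFDerivAt (U2 s r) (U3 s r x) x := by
  rw [U3_eq hrc hrM hs]; exact hasFDerivAt_U2' hrc hrM hs x

theorem continuous_U (hrc : Continuous r) (hrM : ∀ x, |r x| ≤ M) :
    Continuous (fun p : ℝ × E n => U p.1 r p.2) := by
  have := continuous_A SC.gau.gp hrc hrM
  simpa only [U_eq] using this

lemma continuousOn_smul_A {h : E n → F} (hh : GP h) (hrc : Continuous r) (hrM : ∀ x, |r x| ≤ M)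
    {c : ℝ → ℝ} (hc : ContinuousOn c (Ioi 0)) :
    ContinuousOn (fun p : ℝ × E n => c p.1 • A p.1 r h p.2) (Ioi 0 ×ˢ univ) := by
  have h1 : ContinuousOn (fun p : ℝ × E n => c p.1) (Ioi 0 ×ˢ univ) :=
    hc.comp continuousOn_fst fun p hp => hp.1
  exact h1.smul (continuous_A hh hrc hrM).continuousOn

theorem continuousOn_U1 (hrc : Continuous r) (hrM : ∀ x, |r x| ≤ M) :
    ContinuousOn (fun p : ℝ × E n => U1 p.1 r p.2) (Ioi 0 ×ˢ univ) := by
  have hc : ContinuousOn (fun s : ℝ => -s⁻¹) (Ioi 0) :=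
    (continuousOn_id.inv₀ fun s (hs : 0 < s) => hs.ne').neg
  exact (continuousOn_smul_A SC.g1.gp hrc hrM hc).congr fun p hp => U1_eq hrc hrM hp.1 _

theorem continuousOn_U2 (hrc : Continuous r) (hrM : ∀ x, |r x| ≤ M) :
    ContinuousOn (fun p : ℝ × E n => U2 p.1 r p.2) (Ioi 0 ×ˢ univ) := by
  have hc : ContinuousOn (fun s : ℝ => (s ^ 2)⁻¹) (Ioi 0) :=
    ((continuousOn_id.pow 2).inv₀ fun s (hs : 0 < s) => (pow_pos hs 2).ne')
  exact (continuousOn_smul_A SC.g2.gp hrc hrM hc).congr fun p hp => U2_eq hrc hrM hp.1 _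

theorem continuousOn_U3 (hrc : Continuous r) (hrM : ∀ x, |r x| ≤ M) :
    ContinuousOn (fun p : ℝ × E n => U3 p.1 r p.2) (Ioi 0 ×ˢ univ) := by
  have hc : ContinuousOn (fun s : ℝ => -(s ^ 3)⁻¹) (Ioi 0) :=
    ((continuousOn_id.pow 3).inv₀ fun s (hs : 0 < s) => (pow_pos hs 3).ne').neg
  exact (continuousOn_smul_A SC.g3.gp hrc hrM hc).congr fun p hp => U3_eq hrc hrM hp.1 _

theorem contDiff_U (hrc : Continuous r) (hrM : ∀ x, |r x| ≤ M) (hs : 0 < s) :
    ContDiff ℝ 3 (U s r) := by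
  have c3 : Continuous (U3 s r) := by
    have h := continuousOn_U3 hrc hrM
    have h2 : ContinuousOn (fun x : E n => U3 s r x) univ :=
      h.comp (f := fun x : E n => (s, x)) (by fun_prop) (fun x _ => ⟨hs, mem_univ _⟩)
    exact continuousOn_univ.1 h2
  have d0 : ∀ x, HasFDerivAt (U s r) (U1 s r x) x := hasFDerivAt_U hrc hrM hs
  have d1 : ∀ x, HasFDerivAt (U1 s r) (U2 s r x) x := hasFDerivAt_U1 hrc hrM hs
  have d2 : ∀ x, HasFDerivAt (U2 s r) (U3 s r x) x := hasFDerivAt_U2 hrc hrM hs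
  have k2 : ContDiff ℝ 1 (U2 s r) := by
    rw [contDiff_one_iff_fderiv]
    exact ⟨fun x => (d2 x).differentiableAt, c3⟩
  have k1 : ContDiff ℝ 2 (U1 s r) := by
    rw [show (2 : WithTop ℕ∞) = 1 + 1 by norm_num, contDiff_succ_iff_fderiv]
    exact ⟨fun x => (d1 x).differentiableAt, by simp, k2⟩
  rw [show (3 : WithTop ℕ∞) = 2 + 1 by norm_num, contDiff_succ_iff_fderiv]
  exact ⟨fun x => (d0 x).differentiableAt, by simp, k1⟩

end

/-! ### bounds -/

/-- the kernel constant -/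
noncomputable def cst (a : ℝ) (h : E n → F) : ℝ := ∫ z, ‖z‖ ^ a * ‖h z‖

lemma cst_nonneg (a : ℝ) (h : E n → F) : 0 ≤ cst a h :=
  integral_nonneg fun z => by positivity

/-- one constant for everything -/
noncomputable def CH (n : ℕ) (a : ℝ) : ℝ :=
  cst a (gau : E n → ℝ) + cst a (g1 : E n → _) + cst a (g2 : E n → _) + cst a (g3 : E n → _)

lemma CH_nonneg (n : ℕ) (a : ℝ) : 0 ≤ CH n a := by
  unfold CH
  have h0 := cst_nonneg a (gau : E n → ℝ)
  have h1 := cst_nonneg a (g1 : E n → _)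
  have h2 := cst_nonneg a (g2 : E n → _)
  have h3 := cst_nonneg a (g3 : E n → _)
  positivity

lemma integral_g1 : ∫ z : E n, g1 z = 0 := integral_fderiv_eq_zero SC.gau
lemma integral_g2 : ∫ z : E n, g2 z = 0 := integral_fderiv_eq_zero SC.g1
lemma integral_g3 : ∫ z : E n, g3 z = 0 := integral_fderiv_eq_zero SC.g2

section
variable {r : E n → ℝ} {a M : ℝ} {s : ℝ}

lemma HB_nonneg (hr : HB a M r) : 0 ≤ M := (abs_nonneg _).trans (hr.1 0)

theorem abs_U_le (hrM : ∀ x, |r x| ≤ M) (s : ℝ) (x : E n) : |U s r x| ≤ M := by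
  have hM : 0 ≤ M := (abs_nonneg _).trans (hrM 0)
  unfold U
  calc |∫ z, gau z * r (x + s • z)| ≤ ∫ z : E n, M * gau z := by
        rw [← Real.norm_eq_abs]
        refine norm_integral_le_of_norm_le (SC.gau.integrable.const_mul M) (ae_of_all _ fun z => ?_)
        rw [norm_mul, Real.norm_of_nonneg (gau_nonneg z), Real.norm_eq_abs, mul_comm]
        have := gau_nonneg z
        gcongr
        exact hrM _
    _ = M := by rw [integral_const_mul, integral_gau, mul_one]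

theorem norm_U1_le (ha : 0 < a) (ha1 : a ≤ 1) (hr : HB a M r) (hs : 0 < s) (x : E n) :
    ‖U1 s r x‖ ≤ CH n a * s ^ (a - 1) * M := by
  have hM := HB_nonneg hr
  rw [U1_eq (HB.continuous ha hr) hr.1 hs, norm_smul, norm_neg, Real.norm_of_nonneg (by positivity)]
  have h1 := norm_A_le ha ha1 SC.g1 integral_g1 hr hs.le x
  have h2 : s ^ (a - 1) = s ^ a * s⁻¹ := by rw [Real.rpow_sub_one hs.ne']; rfl
  have h3 : cst a (g1 : E n → _) ≤ CH n a := by
    unfold CH
    linarith [cst_nonneg a (gau : E n → ℝ), cst_nonneg a (g2 : E n → _),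
      cst_nonneg a (g3 : E n → _)]
  calc s⁻¹ * ‖A s r g1 x‖ ≤ s⁻¹ * (cst a (g1 : E n → _) * s ^ a * M) := by gcongr; exact h1
    _ ≤ s⁻¹ * (CH n a * s ^ a * M) := by gcongr
    _ = _ := by rw [h2]; ring

theorem norm_U2_le (ha : 0 < a) (ha1 : a ≤ 1) (hr : HB a M r) (hs : 0 < s) (x : E n) :
    ‖U2 s r x‖ ≤ CH n a * s ^ (a - 2) * M := by
  have hM := HB_nonneg hr
  rw [U2_eq (HB.continuous ha hr) hr.1 hs, norm_smul, Real.norm_of_nonneg (by positivity)]
  have h1 := norm_A_le ha ha1 SC.g2 integral_g2 hr hs.le x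
  have h2 : s ^ (a - 2) = s ^ a * (s ^ 2)⁻¹ := by
    rw [Real.rpow_sub hs, Real.rpow_two]; rfl
  have h3 : cst a (g2 : E n → _) ≤ CH n a := by
    unfold CH
    linarith [cst_nonneg a (gau : E n → ℝ), cst_nonneg a (g1 : E n → _),
      cst_nonneg a (g3 : E n → _)]
  calc (s ^ 2)⁻¹ * ‖A s r g2 x‖ ≤ (s ^ 2)⁻¹ * (cst a (g2 : E n → _) * s ^ a * M) := by
        gcongr; exact h1
    _ ≤ (s ^ 2)⁻¹ * (CH n a * s ^ a * M) := by gcongr
    _ = _ := by rw [h2]; ring

theorem norm_U3_le (ha : 0 < a) (ha1 : a ≤ 1) (hr : HB a M r) (hs : 0 < s) (x : E n) :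
    ‖U3 s r x‖ ≤ CH n a * s ^ (a - 3) * M := by
  have hM := HB_nonneg hr
  rw [U3_eq (HB.continuous ha hr) hr.1 hs, norm_smul, norm_neg, Real.norm_of_nonneg (by positivity)]
  have h1 := norm_A_le ha ha1 SC.g3 integral_g3 hr hs.le x
  have h2 : s ^ (a - 3) = s ^ a * (s ^ 3)⁻¹ := by
    rw [Real.rpow_sub hs]
    norm_cast
  have h3 : cst a (g3 : E n → _) ≤ CH n a := by
    unfold CH
    linarith [cst_nonneg a (gau : E n → ℝ), cst_nonneg a (g1 : E n → _),
      cst_nonneg a (g2 : E n → _)]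
  calc (s ^ 3)⁻¹ * ‖A s r g3 x‖ ≤ (s ^ 3)⁻¹ * (cst a (g3 : E n → _) * s ^ a * M) := by
        gcongr; exact h1
    _ ≤ (s ^ 3)⁻¹ * (CH n a * s ^ a * M) := by gcongr
    _ = _ := by rw [h2]; ring

/-- `U2` is Lipschitz in `x`. -/
theorem norm_U2_sub_le (ha : 0 < a) (ha1 : a ≤ 1) (hr : HB a M r) (hs : 0 < s) (x y : E n) :
    ‖U2 s r x - U2 s r y‖ ≤ CH n a * s ^ (a - 3) * M * ‖x - y‖ := by
  have hrc := HB.continuous ha hr
  exact convex_univ.norm_image_sub_le_of_norm_hasFDerivWithin_le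
    (fun z _ => (hasFDerivAt_U2 hrc hr.1 hs z).hasFDerivWithinAt)
    (fun z _ => norm_U3_le ha ha1 hr hs z) (mem_univ y) (mem_univ x)

theorem norm_U1_sub_le (ha : 0 < a) (ha1 : a ≤ 1) (hr : HB a M r) (hs : 0 < s) (x y : E n) :
    ‖U1 s r x - U1 s r y‖ ≤ CH n a * s ^ (a - 2) * M * ‖x - y‖ := by
  have hrc := HB.continuous ha hr
  exact convex_univ.norm_image_sub_le_of_norm_hasFDerivWithin_le
    (fun z _ => (hasFDerivAt_U1 hrc hr.1 hs z).hasFDerivWithinAt)
    (fun z _ => norm_U2_le ha ha1 hr hs z) (mem_univ y) (mem_univ x)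

theorem U_const (s c : ℝ) (x : E n) : U s (fun _ => c) x = c := by
  unfold U
  rw [integral_mul_const, integral_gau, one_mul]

lemma integrable_U (hrc : Continuous r) (hrM : ∀ x, |r x| ≤ M) (s : ℝ) (x : E n) :
    Integrable (fun z => gau z * r (x + s • z)) := by
  have := integrable_A SC.gau.gp hrc hrM s x
  simpa only [smul_eq_mul, mul_comm] using this

theorem U_add {r' : E n → ℝ} {M' : ℝ} (hrc : Continuous r) (hrM : ∀ x, |r x| ≤ M)
    (hrc' : Continuous r') (hrM' : ∀ x, |r' x| ≤ M') (s : ℝ) (x : E n) :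
    U s (fun y => r y + r' y) x = U s r x + U s r' x := by
  unfold U
  simp_rw [mul_add]
  exact integral_add (integrable_U hrc hrM s x) (integrable_U hrc' hrM' s x)

theorem U_smul (c s : ℝ) (x : E n) : U s (fun y => c * r y) x = c * U s r x := by
  unfold U
  rw [← integral_const_mul]
  congr 1
  ext z; ring

theorem U_even (he : ∀ x, r (-x) = r x) (s : ℝ) (x : E n) : U s r (-x) = U s r x := by
  unfold U
  rw [← integral_neg_eq_self]
  congr 1
  ext z
  rw [gau_neg, smul_neg, ← neg_add, he]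

/-- `U s r x → r x`. -/
theorem abs_U_sub_le (ha : 0 < a) (ha1 : a ≤ 1) (hr : HB a M r) (hs : 0 ≤ s) (x : E n) :
    |U s r x - r x| ≤ CH n a * s ^ a * M := by
  have hM := HB_nonneg hr
  have hrc := HB.continuous ha hr
  have h1 : U s r x - r x = ∫ z, gau z * (r (x + s • z) - r x) := by
    simp_rw [mul_sub]
    have hi : Integrable (fun z : E n => gau z * r x) := SC.gau.integrable.mul_const _
    rw [integral_sub (integrable_U hrc hr.1 s x) hi, integral_mul_const, integral_gau, one_mul]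
    rfl
  rw [h1]
  have hint : Integrable (fun z : E n => ‖z‖ ^ a * ‖gau z‖) := by
    refine Integrable.mono' (SC.gau.gp.integrable_pow 1) ?_ (ae_of_all _ fun z => ?_)
    · have : Continuous fun z : E n => ‖z‖ ^ a :=
        continuous_norm.rpow_const fun _ => Or.inr ha.le
      exact (this.mul continuous_gau.norm).aestronglyMeasurable
    · rw [Real.norm_of_nonneg (by positivity)]
      gcongr
      calc ‖z‖ ^ a ≤ (1 + ‖z‖) ^ a := by gcongr; linarith
        _ ≤ (1 + ‖z‖) ^ (1:ℝ) := Real.rpow_le_rpow_of_exponent_le (by linarith [norm_nonneg z]) ha1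
        _ = (1 + ‖z‖) ^ 1 := by norm_num
  calc |∫ z, gau z * (r (x + s • z) - r x)| ≤ ∫ z : E n, M * s ^ a * (‖z‖ ^ a * ‖gau z‖) := by
        rw [← Real.norm_eq_abs]
        refine norm_integral_le_of_norm_le (hint.const_mul _) (ae_of_all _ fun z => ?_)
        rw [norm_mul, mul_comm, Real.norm_eq_abs (r (x + s • z) - r x)]
        have h2 := hr.2 (x + s • z) x
        rw [add_sub_cancel_left, norm_smul, Real.norm_of_nonneg hs,
          Real.mul_rpow hs (norm_nonneg _)] at h2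
        calc |r (x + s • z) - r x| * ‖gau z‖ ≤ (M * (s ^ a * ‖z‖ ^ a)) * ‖gau z‖ := by gcongr
          _ = _ := by ring
    _ = cst a (gau : E n → ℝ) * s ^ a * M := by rw [integral_const_mul]; unfold cst; ring
    _ ≤ CH n a * s ^ a * M := by
        have h3 : cst a (gau : E n → ℝ) ≤ CH n a := by
          unfold CH
          linarith [cst_nonneg a (g1 : E n → _), cst_nonneg a (g2 : E n → _),
            cst_nonneg a (g3 : E n → _)]
        gcongr

end

end Crest.Agent.R238.EHeat
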