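import Crest.Agent.R238.HolDefs

/-!
Row 238, H1 (helper718), file 1: the solution operator of `L₀ + 1`, ABSTRACT part.

`HF a C r F F1 F2` collects the facts about `F s x = (G_s * r)(x)` and its first two derivatives
`F1`, `F2` which are used; from it we get `v` with `D²v = -∫ sin φ F2(sin φ, cos φ x) dφ`
bounded and Hölder, and `tr D²v - x·∇v + v = r` (parametrisation `e^{-t} = cos φ` of helper8).
-/

set_option autoImplicit false
set_option maxSynthPendingDepth 3

open MeasureTheory Set Filter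
open scoped ContDiff Topology

namespace Crest.Agent.R238

variable {n : ℕ}

/-- trace of a bilinear form -/
noncomputable def trB (B : E n →L[ℝ] E n →L[ℝ] ℝ) : ℝ := ∑ i, B (ee i) (ee i)

/-- the integration domain -/
def JJ : Set ℝ := Ioo 0 (Real.pi / 2)

theorem measurableSet_JJ : MeasurableSet JJ := measurableSet_Ioo

theorem JJ.sin_pos {p : ℝ} (h : p ∈ JJ) : 0 < Real.sin p :=
  Real.sin_pos_of_pos_of_lt_pi h.1 (by linarith [h.2, Real.pi_pos])

theorem JJ.cos_pos {p : ℝ} (h : p ∈ JJ) : 0 < Real.cos p :=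
  Real.cos_pos_of_mem_Ioo ⟨by linarith [h.1, Real.pi_pos], h.2⟩

theorem JJ.mul_le {p : ℝ} (h : p ∈ JJ) : 2 / Real.pi * p ≤ Real.sin p :=
  Real.mul_le_sin h.1.le h.2.le

/-- negative powers of `sin` are bounded by powers of the angle -/
theorem JJ.sin_rpow_le {p b : ℝ} (h : p ∈ JJ) (hb : b ≤ 0) :
    Real.sin p ^ b ≤ (2 / Real.pi) ^ b * p ^ b := by
  have h1 : 0 < 2 / Real.pi := by positivity
  rw [← Real.mul_rpow h1.le h.1.le]
  exact Real.rpow_le_rpow_of_nonpos (mul_pos h1 h.1) (JJ.mul_le h) hb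

theorem integrableOn_rpow_JJ {b : ℝ} (hb : -1 < b) : IntegrableOn (fun p : ℝ => p ^ b) JJ := by
  have h := @intervalIntegral.intervalIntegrable_rpow' 0 (Real.pi / 2) b hb
  rw [intervalIntegrable_iff_integrableOn_Ioo_of_le (by positivity)] at h
  exact h

theorem continuousOn_sin_rpow (b : ℝ) : ContinuousOn (fun p : ℝ => Real.sin p ^ b) JJ := by
  intro p hp
  exact ((Real.continuous_sin.continuousAt).rpow_const
    (Or.inl (JJ.sin_pos hp).ne')).continuousWithinAt

theorem integrableOn_sin_rpow {a : ℝ} (ha : 0 < a) (ha1 : a < 1) :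
    IntegrableOn (fun p : ℝ => Real.sin p ^ (a - 1)) JJ := by
  refine Integrable.mono' ((integrableOn_rpow_JJ (b := a - 1) (by linarith)).const_mul
    ((2 / Real.pi) ^ (a - 1))) ((continuousOn_sin_rpow _).aestronglyMeasurable measurableSet_JJ) ?_
  filter_upwards [ae_restrict_mem measurableSet_JJ] with p hp
  rw [Real.norm_of_nonneg (Real.rpow_nonneg (JJ.sin_pos hp).le _)]
  exact JJ.sin_rpow_le hp (by linarith)

/-- the comparison function -/
noncomputable def gg (a δ : ℝ) (p : ℝ) : ℝ :=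
  if p ≤ δ then 2 * (2 / Real.pi) ^ (a - 1) * p ^ (a - 1)
  else (2 / Real.pi) ^ (a - 2) * δ * p ^ (a - 2)

theorem gg_nonneg {a δ p : ℝ} (hδ : 0 < δ) (hp : 0 < p) : 0 ≤ gg a δ p := by
  unfold gg
  have h1 : 0 < 2 / Real.pi := by positivity
  split_ifs <;> positivity

/-- the constant -/
noncomputable def cg (a : ℝ) : ℝ :=
  2 * (2 / Real.pi) ^ (a - 1) / a + (2 / Real.pi) ^ (a - 2) / (1 - a)

theorem cg_pos {a : ℝ} (ha : 0 < a) (ha1 : a < 1) : 0 < cg a := by
  unfold cg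
  have h1 : 0 < 2 / Real.pi := by positivity
  have h2 : 0 < 1 - a := by linarith
  positivity

theorem integrableOn_gg {a δ : ℝ} (ha : 0 < a) (ha1 : a < 1) (hδ : 0 < δ) :
    IntegrableOn (gg a δ) (Ioi 0) ∧ ∫ p in Ioi 0, gg a δ p = cg a * δ ^ a := by
  have hsplit : Ioi (0 : ℝ) = Ioc 0 δ ∪ Ioi δ := (Ioc_union_Ioi_eq_Ioi hδ.le).symm
  have e1 : EqOn (gg a δ) (fun p => 2 * (2 / Real.pi) ^ (a - 1) * p ^ (a - 1)) (Ioc 0 δ) := by
    intro p hp
    simp only [gg, if_pos hp.2]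
  have e2 : EqOn (gg a δ) (fun p => (2 / Real.pi) ^ (a - 2) * δ * p ^ (a - 2)) (Ioi δ) := by
    intro p hp
    simp only [gg, if_neg (not_le.2 (mem_Ioi.1 hp))]
  have i1' : IntervalIntegrable (fun p : ℝ => p ^ (a - 1)) volume 0 δ :=
    intervalIntegral.intervalIntegrable_rpow' (by linarith)
  have i1 : IntegrableOn (gg a δ) (Ioc 0 δ) := by
    rw [integrableOn_congr_fun e1 measurableSet_Ioc]
    exact ((intervalIntegrable_iff_integrableOn_Ioc_of_le hδ.le).1 i1').const_mul _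
  have i2 : IntegrableOn (gg a δ) (Ioi δ) := by
    rw [integrableOn_congr_fun e2 measurableSet_Ioi]
    exact (integrableOn_Ioi_rpow_of_lt (by linarith) hδ).const_mul _
  refine ⟨by rw [hsplit]; exact i1.union i2, ?_⟩
  rw [hsplit, setIntegral_union (Ioc_disjoint_Ioi le_rfl) measurableSet_Ioi i1 i2,
    setIntegral_congr_fun measurableSet_Ioc e1, setIntegral_congr_fun measurableSet_Ioi e2,
    integral_const_mul, integral_const_mul, integral_Ioi_rpow_of_lt (by linarith) hδ,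
    ← intervalIntegral.integral_of_le hδ.le, integral_rpow (Or.inl (by linarith))]
  have h3 : a - 1 + 1 = a := by ring
  have h4 : a - 2 + 1 = a - 1 := by ring
  rw [h3, h4, Real.zero_rpow ha.ne', sub_zero]
  have h5 : δ ^ a = δ * δ ^ (a - 1) := by
    rw [← Real.rpow_one_add' hδ.le (by linarith)]; congr 1; ring
  have h6 : a - 1 ≠ 0 := by linarith
  have h7 : 1 - a ≠ 0 := by linarith
  rw [cg, h5]
  field_simp
  ring

/-- the splitting estimate -/
theorem split_bound {V : Type*} [NormedAddCommGroup V] [NormedSpace ℝ V] {a C δ : ℝ}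
    (ha : 0 < a) (ha1 : a < 1) (hC : 0 ≤ C) (hδ : 0 < δ) {f : ℝ → V}
    (h1 : ∀ p ∈ JJ, ‖f p‖ ≤ C * (2 * Real.sin p ^ (a - 1)))
    (h2 : ∀ p ∈ JJ, ‖f p‖ ≤ C * (Real.sin p ^ (a - 2) * δ)) :
    ‖∫ p in JJ, f p‖ ≤ C * cg a * δ ^ a := by
  obtain ⟨ig, hg⟩ := integrableOn_gg ha ha1 hδ
  have hsub : JJ ⊆ Ioi 0 := fun p hp => hp.1
  have h3 : ‖∫ p in JJ, f p‖ ≤ ∫ p in JJ, C * gg a δ p := by
    refine norm_integral_le_of_norm_le ((ig.mono_set hsub).const_mul C) ?_
    filter_upwards [ae_restrict_mem measurableSet_JJ] with p hp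
    unfold gg
    split_ifs with hpd
    · refine (h1 p hp).trans (mul_le_mul_of_nonneg_left ?_ hC)
      have := JJ.sin_rpow_le hp (b := a - 1) (by linarith)
      linarith
    · refine (h2 p hp).trans (mul_le_mul_of_nonneg_left ?_ hC)
      have := JJ.sin_rpow_le hp (b := a - 2) (by linarith)
      calc Real.sin p ^ (a - 2) * δ ≤ ((2 / Real.pi) ^ (a - 2) * p ^ (a - 2)) * δ :=
            mul_le_mul_of_nonneg_right this hδ.le
        _ = _ := by ring
  refine h3.trans ?_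
  have h4 : ∫ p in JJ, C * gg a δ p ≤ ∫ p in Ioi 0, C * gg a δ p := by
    refine setIntegral_mono_set (ig.const_mul C) ?_ (Eventually.of_forall hsub)
    filter_upwards [ae_restrict_mem measurableSet_Ioi] with p hp
    exact mul_nonneg hC (gg_nonneg hδ hp)
  refine h4.trans (le_of_eq ?_)
  rw [integral_const_mul, hg]; ring


/-- facts about the heat family `F s = G_s * r` which are used -/
structure HF (a C : ℝ) (r : E n → ℝ) (F : ℝ → E n → ℝ)
    (F1 : ℝ → E n → (E n →L[ℝ] ℝ)) (F2 : ℝ → E n → (E n →L[ℝ] E n →L[ℝ] ℝ)) : Prop where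
  nn : 0 ≤ C
  zero : ∀ x, F 0 x = r x
  even : ∀ s x, F s (-x) = F s x
  d1 : ∀ s, 0 < s → ∀ x, HasFDerivAt (F s) (F1 s x) x
  d2 : ∀ s, 0 < s → ∀ x, HasFDerivAt (F1 s) (F2 s x) x
  b2 : ∀ s, 0 < s → ∀ x, ‖F2 s x‖ ≤ C * s ^ (a - 2)
  b3 : ∀ s, 0 < s → ∀ x y, ‖F2 s x - F2 s y‖ ≤ C * s ^ (a - 3) * ‖x - y‖
  cF : Continuous fun q : ℝ × E n => F q.1 q.2
  c1 : ContinuousOn (fun q : ℝ × E n => F1 q.1 q.2) (Ioi 0 ×ˢ univ)
  c2 : ContinuousOn (fun q : ℝ × E n => F2 q.1 q.2) (Ioi 0 ×ˢ univ)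
  dp : ∀ x, ∀ p ∈ JJ, HasDerivAt (fun p => F (Real.sin p) (Real.cos p • x))
    (Real.cos p * Real.sin p * trB (F2 (Real.sin p) (Real.cos p • x))
      - Real.sin p * F1 (Real.sin p) (Real.cos p • x) x) p

namespace HF

variable {a C : ℝ} {r : E n → ℝ} {F : ℝ → E n → ℝ}
  {F1 : ℝ → E n → (E n →L[ℝ] ℝ)} {F2 : ℝ → E n → (E n →L[ℝ] E n →L[ℝ] ℝ)}

theorem odd1 (h : HF a C r F F1 F2) {s : ℝ} (hs : 0 < s) : F1 s 0 = 0 := by
  have h1 := h.d1 s hs 0
  have h2 : HasFDerivAt (fun x : E n => F s (-x)) ((F1 s 0).comp (-ContinuousLinearMap.id ℝ (E n)))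
      0 := by
    have h3 : HasFDerivAt (F s) (F1 s 0) (-(0 : E n)) := by simpa using h1
    exact h3.comp (0 : E n) (hasFDerivAt_id (0 : E n)).neg
  have h3 : (fun x : E n => F s (-x)) = F s := by ext x; exact h.even s x
  rw [h3] at h2
  have h4 := h1.unique h2
  ext v
  have h5 := congrArg (fun L : E n →L[ℝ] ℝ => L v) h4
  simp at h5
  simp
  linarith

theorem bd1 (h : HF a C r F F1 F2) {s : ℝ} (hs : 0 < s) (x : E n) :
    ‖F1 s x‖ ≤ C * s ^ (a - 2) * ‖x‖ := by
  have h1 := (convex_univ (𝕜 := ℝ) (E := E n)).norm_image_sub_le_of_norm_hasFDerivWithin_le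
    (f := F1 s) (f' := F2 s) (C := C * s ^ (a - 2))
    (fun x _ => (h.d2 s hs x).hasFDerivWithinAt) (fun x _ => h.b2 s hs x) (mem_univ 0) (mem_univ x)
  simpa [h.odd1 hs] using h1

theorem bd0 (h : HF a C r F F1 F2) {s : ℝ} (hs : 0 < s) (x : E n) :
    |F s x - F s 0| ≤ C * s ^ (a - 2) * ‖x‖ ^ 2 := by
  have h1 := (convex_closedBall (0 : E n) ‖x‖).norm_image_sub_le_of_norm_hasFDerivWithin_le
    (f := F s) (f' := F1 s) (C := C * s ^ (a - 2) * ‖x‖)
    (fun y _ => (h.d1 s hs y).hasFDerivWithinAt) (fun y hy => ?_)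
    (mem_closedBall_zero_iff.2 (by simp : ‖(0 : E n)‖ ≤ ‖x‖))
    (mem_closedBall_zero_iff.2 le_rfl)
  · rw [sub_zero, Real.norm_eq_abs] at h1
    refine h1.trans (le_of_eq (by ring))
  · refine (h.bd1 hs y).trans (mul_le_mul_of_nonneg_left (mem_closedBall_zero_iff.1 hy) ?_)
    exact mul_nonneg h.nn (Real.rpow_nonneg hs.le _)

/-- integrands -/
noncomputable def A0 (F : ℝ → E n → ℝ) (x : E n) (p : ℝ) : ℝ :=
  Real.sin p / Real.cos p ^ 2 * (F (Real.sin p) (Real.cos p • x) - F (Real.sin p) 0)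

noncomputable def A1 (F1 : ℝ → E n → (E n →L[ℝ] ℝ)) (x : E n) (p : ℝ) : E n →L[ℝ] ℝ :=
  (Real.sin p / Real.cos p) • F1 (Real.sin p) (Real.cos p • x)

noncomputable def A2 (F2 : ℝ → E n → (E n →L[ℝ] E n →L[ℝ] ℝ)) (x : E n) (p : ℝ) :
    E n →L[ℝ] E n →L[ℝ] ℝ :=
  Real.sin p • F2 (Real.sin p) (Real.cos p • x)

theorem rp1 {s : ℝ} (hs : 0 < s) (b : ℝ) : s * s ^ (b - 1) = s ^ b := by
  have h := Real.rpow_add hs 1 (b - 1)
  rw [Real.rpow_one] at h
  rw [← h]; congr 1; ring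

theorem rp2 {s : ℝ} (hs : 0 < s) (b : ℝ) : s * s ^ (b - 2) = s ^ (b - 1) := by
  have h := rp1 hs (b - 1)
  rwa [show b - 1 - 1 = b - 2 by ring] at h

theorem rp3 {s : ℝ} (hs : 0 < s) (b : ℝ) : s * s ^ (b - 3) = s ^ (b - 2) := by
  have h := rp1 hs (b - 2)
  rwa [show b - 2 - 1 = b - 3 by ring] at h

theorem A0_le (h : HF a C r F F1 F2) (x : E n) {p : ℝ} (hp : p ∈ JJ) :
    |A0 F x p| ≤ C * Real.sin p ^ (a - 1) * ‖x‖ ^ 2 := by
  have hs := JJ.sin_pos hp
  have hc := JJ.cos_pos hp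
  have h1 := h.bd0 hs (Real.cos p • x)
  unfold A0
  rw [abs_mul, abs_of_nonneg (by positivity : 0 ≤ Real.sin p / Real.cos p ^ 2)]
  refine (mul_le_mul_of_nonneg_left h1 (by positivity)).trans (le_of_eq ?_)
  rw [norm_smul, Real.norm_of_nonneg hc.le, ← rp2 hs]
  field_simp

theorem A1_le (h : HF a C r F F1 F2) (x : E n) {p : ℝ} (hp : p ∈ JJ) :
    ‖A1 F1 x p‖ ≤ C * Real.sin p ^ (a - 1) * ‖x‖ := by
  have hs := JJ.sin_pos hp
  have hc := JJ.cos_pos hp
  have h1 := h.bd1 hs (Real.cos p • x)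
  unfold A1
  rw [norm_smul, Real.norm_of_nonneg (by positivity : 0 ≤ Real.sin p / Real.cos p)]
  refine (mul_le_mul_of_nonneg_left h1 (by positivity)).trans (le_of_eq ?_)
  rw [norm_smul, Real.norm_of_nonneg hc.le, ← rp2 hs]
  field_simp

theorem A2_le (h : HF a C r F F1 F2) (x : E n) {p : ℝ} (hp : p ∈ JJ) :
    ‖A2 F2 x p‖ ≤ C * Real.sin p ^ (a - 1) := by
  have hs := JJ.sin_pos hp
  unfold A2
  rw [norm_smul, Real.norm_of_nonneg hs.le, ← rp2 hs]
  refine (mul_le_mul_of_nonneg_left (h.b2 _ hs _) hs.le).trans (le_of_eq (by ring))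

theorem A2_sub_le (h : HF a C r F F1 F2) (x y : E n) {p : ℝ} (hp : p ∈ JJ) :
    ‖A2 F2 x p - A2 F2 y p‖ ≤ C * (Real.sin p ^ (a - 2) * ‖x - y‖) := by
  have hs := JJ.sin_pos hp
  have hc := JJ.cos_pos hp
  unfold A2
  rw [← smul_sub, norm_smul, Real.norm_of_nonneg hs.le, ← rp3 hs]
  refine (mul_le_mul_of_nonneg_left (h.b3 _ hs _ _) hs.le).trans ?_
  rw [← smul_sub, norm_smul, Real.norm_of_nonneg hc.le]
  have h1 : Real.cos p * ‖x - y‖ ≤ 1 * ‖x - y‖ :=
    mul_le_mul_of_nonneg_right (Real.cos_le_one p) (norm_nonneg _)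
  have h2 : 0 ≤ Real.sin p * (C * Real.sin p ^ (a - 3)) :=
    mul_nonneg hs.le (mul_nonneg h.nn (Real.rpow_nonneg hs.le _))
  calc Real.sin p * (C * Real.sin p ^ (a - 3) * (Real.cos p * ‖x - y‖))
      = Real.sin p * (C * Real.sin p ^ (a - 3)) * (Real.cos p * ‖x - y‖) := by ring
    _ ≤ Real.sin p * (C * Real.sin p ^ (a - 3)) * (1 * ‖x - y‖) :=
        mul_le_mul_of_nonneg_left h1 h2
    _ = _ := by ring

theorem cont_curve (x : E n) : Continuous fun p : ℝ => (Real.sin p, Real.cos p • x) :=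
  Real.continuous_sin.prodMk (Real.continuous_cos.smul continuous_const)

theorem A0_cont (h : HF a C r F F1 F2) (x : E n) : ContinuousOn (A0 F x) JJ := by
  unfold A0
  refine ContinuousOn.mul (ContinuousOn.div Real.continuous_sin.continuousOn
    (Real.continuous_cos.pow 2).continuousOn fun p hp => (pow_pos (JJ.cos_pos hp) 2).ne') ?_
  have h1 : Continuous fun p : ℝ => F (Real.sin p) (Real.cos p • x) := h.cF.comp (cont_curve x)
  have h2 : Continuous fun p : ℝ => F (Real.sin p) 0 :=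
    h.cF.comp (Real.continuous_sin.prodMk continuous_const)
  exact (h1.sub h2).continuousOn

theorem A1_cont (h : HF a C r F F1 F2) (x : E n) : ContinuousOn (A1 F1 x) JJ := by
  unfold A1
  refine ContinuousOn.smul (ContinuousOn.div Real.continuous_sin.continuousOn
    Real.continuous_cos.continuousOn fun p hp => (JJ.cos_pos hp).ne') ?_
  exact h.c1.comp (cont_curve x).continuousOn fun p hp => ⟨JJ.sin_pos hp, mem_univ _⟩

theorem A2_cont (h : HF a C r F F1 F2) (x : E n) : ContinuousOn (A2 F2 x) JJ := by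
  unfold A2
  refine ContinuousOn.smul Real.continuous_sin.continuousOn ?_
  exact h.c2.comp (cont_curve x).continuousOn fun p hp => ⟨JJ.sin_pos hp, mem_univ _⟩

theorem A0_int (h : HF a C r F F1 F2) (ha : 0 < a) (ha1 : a < 1) (x : E n) :
    IntegrableOn (A0 F x) JJ := by
  refine Integrable.mono' (((integrableOn_sin_rpow ha ha1).const_mul C).mul_const (‖x‖ ^ 2))
    ((h.A0_cont x).aestronglyMeasurable measurableSet_JJ) ?_
  filter_upwards [ae_restrict_mem measurableSet_JJ] with p hp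
  exact h.A0_le x hp

theorem A1_int (h : HF a C r F F1 F2) (ha : 0 < a) (ha1 : a < 1) (x : E n) :
    IntegrableOn (A1 F1 x) JJ := by
  refine Integrable.mono' (((integrableOn_sin_rpow ha ha1).const_mul C).mul_const (‖x‖))
    ((h.A1_cont x).aestronglyMeasurable measurableSet_JJ) ?_
  filter_upwards [ae_restrict_mem measurableSet_JJ] with p hp
  exact h.A1_le x hp

theorem A2_int (h : HF a C r F F1 F2) (ha : 0 < a) (ha1 : a < 1) (x : E n) :
    IntegrableOn (A2 F2 x) JJ := by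
  refine Integrable.mono' ((integrableOn_sin_rpow ha ha1).const_mul C)
    ((h.A2_cont x).aestronglyMeasurable measurableSet_JJ) ?_
  filter_upwards [ae_restrict_mem measurableSet_JJ] with p hp
  exact h.A2_le x hp

theorem A0_deriv (h : HF a C r F F1 F2) (x : E n) {p : ℝ} (hp : p ∈ JJ) :
    HasFDerivAt (fun x => A0 F x p) (A1 F1 x p) x := by
  have hs := JJ.sin_pos hp
  have hc := JJ.cos_pos hp
  have h1 : HasFDerivAt (fun x : E n => F (Real.sin p) (Real.cos p • x))
      ((F1 (Real.sin p) (Real.cos p • x)).comp (Real.cos p • ContinuousLinearMap.id ℝ (E n))) x :=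
    (h.d1 _ hs _).comp x ((hasFDerivAt_id x).const_smul (Real.cos p))
  have h2 := (h1.sub_const (F (Real.sin p) 0)).const_mul (Real.sin p / Real.cos p ^ 2)
  refine h2.congr_fderiv ?_
  unfold A1
  ext v
  simp only [smul_apply, ContinuousLinearMap.comp_apply,
    ContinuousLinearMap.id_apply, map_smul, smul_eq_mul]
  field_simp

theorem A1_deriv (h : HF a C r F F1 F2) (x : E n) {p : ℝ} (hp : p ∈ JJ) :
    HasFDerivAt (fun x => A1 F1 x p) (A2 F2 x p) x := by
  have hs := JJ.sin_pos hp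
  have hc := JJ.cos_pos hp
  have h1 : HasFDerivAt (fun x : E n => F1 (Real.sin p) (Real.cos p • x))
      ((F2 (Real.sin p) (Real.cos p • x)).comp (Real.cos p • ContinuousLinearMap.id ℝ (E n))) x :=
    (h.d2 _ hs _).comp x ((hasFDerivAt_id x).const_smul (Real.cos p))
  have h2 := h1.const_smul (Real.sin p / Real.cos p)
  refine h2.congr_fderiv ?_
  unfold A2
  ext v w
  simp only [smul_apply, ContinuousLinearMap.comp_apply,
    ContinuousLinearMap.id_apply, map_smul, smul_eq_mul]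
  field_simp

/-- the three integrals -/
noncomputable def V0 (F : ℝ → E n → ℝ) (c : ℝ) (x : E n) : ℝ := c - ∫ p in JJ, A0 F x p

noncomputable def V1 (F1 : ℝ → E n → (E n →L[ℝ] ℝ)) (x : E n) : E n →L[ℝ] ℝ :=
  - ∫ p in JJ, A1 F1 x p

noncomputable def V2 (F2 : ℝ → E n → (E n →L[ℝ] E n →L[ℝ] ℝ)) (x : E n) :
    E n →L[ℝ] E n →L[ℝ] ℝ := - ∫ p in JJ, A2 F2 x p

theorem V0_deriv (h : HF a C r F F1 F2) (ha : 0 < a) (ha1 : a < 1) (c : ℝ) (x : E n) :
    HasFDerivAt (V0 F c) (V1 F1 x) x := by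
  have h1 := hasFDerivAt_integral_of_dominated_of_fderiv_le (𝕜 := ℝ)
    (μ := volume.restrict JJ) (F := fun x p => A0 F x p) (F' := fun x p => A1 F1 x p)
    (x₀ := x) (s := Metric.ball x 1) (bound := fun p => C * Real.sin p ^ (a - 1) * (‖x‖ + 1))
    (Metric.ball_mem_nhds x one_pos)
    (Eventually.of_forall fun y => (h.A0_cont y).aestronglyMeasurable measurableSet_JJ)
    (h.A0_int ha ha1 x) ((h.A1_cont x).aestronglyMeasurable measurableSet_JJ)
    (by
      filter_upwards [ae_restrict_mem measurableSet_JJ] with p hp y hy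
      refine (h.A1_le y hp).trans (mul_le_mul_of_nonneg_left ?_
        (mul_nonneg h.nn (Real.rpow_nonneg (JJ.sin_pos hp).le _)))
      have h2 : ‖y - x‖ < 1 := by simpa [dist_eq_norm] using hy
      have h3 : ‖y‖ ≤ ‖x‖ + ‖y - x‖ := by
        calc ‖y‖ = ‖x + (y - x)‖ := by congr 1; abel
          _ ≤ _ := norm_add_le _ _
      linarith)
    (((integrableOn_sin_rpow ha ha1).const_mul C).mul_const _)
    (by
      filter_upwards [ae_restrict_mem measurableSet_JJ] with p hp y _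
      exact h.A0_deriv y hp)
  exact h1.const_sub c

theorem V1_deriv (h : HF a C r F F1 F2) (ha : 0 < a) (ha1 : a < 1) (x : E n) :
    HasFDerivAt (V1 F1) (V2 F2 x) x := by
  have h1 := hasFDerivAt_integral_of_dominated_of_fderiv_le (𝕜 := ℝ)
    (μ := volume.restrict JJ) (F := fun x p => A1 F1 x p) (F' := fun x p => A2 F2 x p)
    (x₀ := x) (s := Metric.ball x 1) (bound := fun p => C * Real.sin p ^ (a - 1))
    (Metric.ball_mem_nhds x one_pos)
    (Eventually.of_forall fun y => (h.A1_cont y).aestronglyMeasurable measurableSet_JJ)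
    (h.A1_int ha ha1 x) ((h.A2_cont x).aestronglyMeasurable measurableSet_JJ)
    (by
      filter_upwards [ae_restrict_mem measurableSet_JJ] with p hp y hy
      exact h.A2_le y hp)
    ((integrableOn_sin_rpow ha ha1).const_mul C)
    (by
      filter_upwards [ae_restrict_mem measurableSet_JJ] with p hp y _
      exact h.A1_deriv y hp)
  exact h1.neg

theorem V2_hol (h : HF a C r F F1 F2) (ha : 0 < a) (ha1 : a < 1) (x y : E n) :
    ‖V2 F2 x - V2 F2 y‖ ≤ C * cg a * ‖x - y‖ ^ a := by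
  by_cases hxy : x = y
  · subst hxy; simp [Real.zero_rpow ha.ne']
  have hδ : 0 < ‖x - y‖ := norm_pos_iff.2 (sub_ne_zero.2 hxy)
  have e : V2 F2 x - V2 F2 y = - ∫ p in JJ, (A2 F2 x p - A2 F2 y p) := by
    unfold V2
    rw [integral_sub (h.A2_int ha ha1 x) (h.A2_int ha ha1 y)]; abel
  rw [e, norm_neg]
  refine split_bound ha ha1 h.nn hδ (fun p hp => ?_) (fun p hp => h.A2_sub_le x y hp)
  refine (norm_sub_le _ _).trans ?_
  have h1 := h.A2_le x hp
  have h2 := h.A2_le y hp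
  linarith

/-- constant for the sup bound -/
noncomputable def cs (a : ℝ) : ℝ := ∫ p in JJ, Real.sin p ^ (a - 1)

theorem cs_nonneg (a : ℝ) : 0 ≤ cs a := by
  refine setIntegral_nonneg measurableSet_JJ fun p hp => Real.rpow_nonneg (JJ.sin_pos hp).le _

theorem V2_bd (h : HF a C r F F1 F2) (ha : 0 < a) (ha1 : a < 1) (x : E n) :
    ‖V2 F2 x‖ ≤ C * cs a := by
  unfold V2 cs
  rw [norm_neg, ← integral_const_mul]
  refine norm_integral_le_of_norm_le ((integrableOn_sin_rpow ha ha1).const_mul C) ?_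
  filter_upwards [ae_restrict_mem measurableSet_JJ] with p hp
  exact h.A2_le x hp

theorem V0_even (h : HF a C r F F1 F2) (c : ℝ) (x : E n) : V0 F c (-x) = V0 F c x := by
  unfold V0 A0
  simp only [smul_neg, h.even]

/-- the trace as a continuous linear map -/
theorem trB_int {f : ℝ → (E n →L[ℝ] E n →L[ℝ] ℝ)} (hf : IntegrableOn f JJ) :
    IntegrableOn (fun p => trB (f p)) JJ ∧ ∫ p in JJ, trB (f p) = trB (∫ p in JJ, f p) := by
  have h0 : ∀ i : Fin n, IntegrableOn (fun p => f p (ee i)) JJ := fun i =>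
    (ContinuousLinearMap.apply ℝ (E n →L[ℝ] ℝ) (ee i : E n)).integrable_comp hf
  have h1 : ∀ i : Fin n, IntegrableOn (fun p => f p (ee i) (ee i)) JJ := fun i =>
    (ContinuousLinearMap.apply ℝ ℝ (ee i : E n)).integrable_comp (h0 i)
  refine ⟨?_, ?_⟩
  · unfold trB
    exact integrable_finsetSum _ fun i _ => h1 i
  · unfold trB
    rw [integral_finsetSum _ fun i _ => h1 i]
    refine Finset.sum_congr rfl fun i _ => ?_
    rw [ContinuousLinearMap.integral_apply hf, ContinuousLinearMap.integral_apply (h0 i)]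

/-- the primitive -/
noncomputable def PP (F : ℝ → E n → ℝ) (x : E n) (p : ℝ) : ℝ :=
  (F (Real.sin p) (Real.cos p • x) - F (Real.sin p) 0) / Real.cos p

theorem PP_cont (h : HF a C r F F1 F2) (x : E n) : ContinuousOn (PP F x) (Icc 0 (Real.pi / 2)) := by
  have hpi := Real.pi_pos
  have h1 : Continuous fun p : ℝ => F (Real.sin p) (Real.cos p • x) := h.cF.comp (cont_curve x)
  have h2 : Continuous fun p : ℝ => F (Real.sin p) 0 :=
    h.cF.comp (Real.continuous_sin.prodMk continuous_const)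
  intro p hp
  rcases lt_or_eq_of_le hp.2 with hlt | heq
  · have hc : Real.cos p ≠ 0 := (Real.cos_pos_of_mem_Ioo ⟨by linarith [hp.1], hlt⟩).ne'
    exact ((h1.sub h2).continuousAt.div Real.continuous_cos.continuousAt hc).continuousWithinAt
  · subst heq
    have h3 : PP F x (Real.pi / 2) = 0 := by simp [PP]
    rw [ContinuousWithinAt, h3]
    have h4 : Tendsto (fun p : ℝ => C * Real.sin p ^ (a - 2) * Real.cos p * ‖x‖ ^ 2)
        (𝓝[Icc 0 (Real.pi / 2)] (Real.pi / 2)) (𝓝 0) := by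
      have h5 : ContinuousAt (fun p : ℝ => C * Real.sin p ^ (a - 2) * Real.cos p * ‖x‖ ^ 2)
          (Real.pi / 2) := by
        have h6 : ContinuousAt (fun p : ℝ => Real.sin p ^ (a - 2)) (Real.pi / 2) :=
          Real.continuous_sin.continuousAt.rpow_const (Or.inl (by simp))
        exact ((continuousAt_const.mul h6).mul Real.continuous_cos.continuousAt).mul
          continuousAt_const
      have h7 := h5.tendsto
      simp only [Real.cos_pi_div_two, mul_zero, zero_mul] at h7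
      exact h7.mono_left nhdsWithin_le_nhds
    refine squeeze_zero_norm' ?_ h4
    have h8 : ∀ᶠ p in 𝓝[Icc 0 (Real.pi / 2)] (Real.pi / 2), p ∈ Icc 0 (Real.pi / 2) ∧ 0 < p :=
      Filter.Eventually.and self_mem_nhdsWithin
        (nhdsWithin_le_nhds (lt_mem_nhds (by positivity)))
    filter_upwards [h8] with p hp
    rcases lt_or_eq_of_le hp.1.2 with hlt | heq
    · have hJ : p ∈ JJ := ⟨hp.2, hlt⟩
      have hs := JJ.sin_pos hJ
      have hc := JJ.cos_pos hJ
      have h9 := h.bd0 hs (Real.cos p • x)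
      unfold PP
      rw [norm_div, Real.norm_eq_abs, Real.norm_of_nonneg hc.le, div_le_iff₀ hc]
      refine h9.trans (le_of_eq ?_)
      rw [norm_smul, Real.norm_of_nonneg hc.le]; ring
    · subst heq
      simp [PP]

theorem PP_deriv (h : HF a C r F F1 F2) (x : E n) {p : ℝ} (hp : p ∈ JJ) :
    HasDerivAt (PP F x) (trB (A2 F2 x p) - trB (A2 F2 0 p) - A1 F1 x p x + A0 F x p) p := by
  have hs := JJ.sin_pos hp
  have hc := JJ.cos_pos hp
  have h1 := h.dp x p hp
  have h2 := h.dp 0 p hp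
  simp only [smul_zero] at h2
  have h3 := (h1.sub h2).div (Real.hasDerivAt_cos p) hc.ne'
  refine h3.congr_deriv ?_
  have e1 : ∀ y : E n, trB (A2 F2 y p) = Real.sin p * trB (F2 (Real.sin p) (Real.cos p • y)) := by
    intro y
    simp only [trB, A2, smul_apply, smul_eq_mul, Finset.mul_sum]
  rw [e1, e1]
  simp only [A1, A0, smul_apply, smul_eq_mul, smul_zero, map_zero, mul_zero, sub_zero,
    Pi.sub_apply]
  field_simp
  ring

theorem pde (h : HF a C r F F1 F2) (ha : 0 < a) (ha1 : a < 1) (x : E n) :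
    trB (V2 F2 x) - V1 F1 x x + V0 F (r 0 - trB (V2 F2 0)) x = r x := by
  have hpi : (0 : ℝ) ≤ Real.pi / 2 := by positivity
  obtain ⟨i1, e1⟩ := trB_int (h.A2_int ha ha1 x)
  obtain ⟨i2, e2⟩ := trB_int (h.A2_int ha ha1 (0 : E n))
  have i3 := h.A1_int ha ha1 x
  have i3' : IntegrableOn (fun p => A1 F1 x p x) JJ :=
    (ContinuousLinearMap.apply ℝ ℝ x).integrable_comp i3
  have i4 := h.A0_int ha ha1 x
  have i5 : IntegrableOn
      (fun p => trB (A2 F2 x p) - trB (A2 F2 0 p) - A1 F1 x p x + A0 F x p) JJ :=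
    ((i1.sub i2).sub i3').add i4
  have h1 := intervalIntegral.integral_eq_sub_of_hasDerivAt_of_le hpi (h.PP_cont x)
    (fun p hp => h.PP_deriv x (show p ∈ JJ from hp))
    ((intervalIntegrable_iff_integrableOn_Ioo_of_le hpi).2 i5)
  rw [intervalIntegral.integral_of_le hpi, integral_Ioc_eq_integral_Ioo] at h1
  have h2 : ∫ p in JJ, (trB (A2 F2 x p) - trB (A2 F2 0 p) - A1 F1 x p x + A0 F x p)
      = trB (∫ p in JJ, A2 F2 x p) - trB (∫ p in JJ, A2 F2 0 p) - (∫ p in JJ, A1 F1 x p) x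
        + ∫ p in JJ, A0 F x p := by
    have j1 : IntegrableOn (fun p => trB (A2 F2 x p) - trB (A2 F2 0 p)) JJ := i1.sub i2
    have j2 : IntegrableOn (fun p => trB (A2 F2 x p) - trB (A2 F2 0 p) - A1 F1 x p x) JJ :=
      j1.sub i3'
    rw [integral_add j2 i4, integral_sub j1 i3', integral_sub i1 i2,
      e1, e2, ContinuousLinearMap.integral_apply i3]
  have h3 : ∫ p in JJ, (trB (A2 F2 x p) - trB (A2 F2 0 p) - A1 F1 x p x + A0 F x p)
      = PP F x (Real.pi / 2) - PP F x 0 := h1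
  rw [h2] at h3
  have h4 : PP F x (Real.pi / 2) = 0 := by simp [PP]
  have h5 : PP F x 0 = r x - r 0 := by simp [PP, h.zero]
  rw [h4, h5] at h3
  have tn : ∀ B : E n →L[ℝ] E n →L[ℝ] ℝ, trB (-B) = - trB B := by
    intro B; simp [trB]
  simp only [V2, V1, V0, tn, neg_apply]
  linarith

/-- RESULT of the abstract part -/
theorem sol (h : HF a C r F F1 F2) (ha : 0 < a) (ha1 : a < 1) :
    ∃ v : E n → ℝ, ContDiff ℝ 2 v ∧ (∀ x, v (-x) = v x) ∧
      (∀ i j, HB a (C * (cs a + cg a)) (fun x => Hs v x i j)) ∧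
      ∀ x, LA (fun _ => (1 : Matrix (Fin n) (Fin n) ℝ)) v x + v x = r x := by
  set v := V0 F (r 0 - trB (V2 F2 0)) with hv
  have d0 : ∀ x, HasFDerivAt v (V1 F1 x) x := fun x => h.V0_deriv ha ha1 _ x
  have d1 : ∀ x, HasFDerivAt (V1 F1) (V2 F2 x) x := fun x => h.V1_deriv ha ha1 x
  have f0 : fderiv ℝ v = V1 F1 := funext fun x => (d0 x).fderiv
  have f1 : fderiv ℝ (V1 F1) = V2 F2 := funext fun x => (d1 x).fderiv
  have hH : ∀ x i j, Hs v x i j = V2 F2 x (ee i) (ee j) := by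
    intro x i j
    simp only [Hs, f0, f1]
  have c2 : Continuous (V2 F2) := by
    rw [continuous_iff_continuousAt]
    intro x
    have t1 : Tendsto (fun y : E n => C * cg a * ‖y - x‖ ^ a) (𝓝 x) (𝓝 0) := by
      have t2 : Continuous fun y : E n => C * cg a * ‖y - x‖ ^ a :=
        continuous_const.mul ((continuous_norm.comp
          (continuous_id.sub continuous_const)).rpow_const fun _ => Or.inr ha.le)
      have t3 := t2.tendsto x
      simpa [Real.zero_rpow ha.ne'] using t3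
    rw [ContinuousAt, tendsto_iff_norm_sub_tendsto_zero]
    exact squeeze_zero (fun _ => norm_nonneg _) (fun y => h.V2_hol ha ha1 y x) t1
  have hne : ∀ i : Fin n, ‖(ee i : E n)‖ = 1 := fun i => by simp
  have hap : ∀ (B : E n →L[ℝ] E n →L[ℝ] ℝ) (i j : Fin n), |B (ee i) (ee j)| ≤ ‖B‖ := by
    intro B i j
    have := B.le_opNorm₂ (ee i : E n) (ee j)
    rwa [hne, hne, mul_one, mul_one] at this
  refine ⟨v, ?_, fun x => h.V0_even _ x, fun i j => ⟨fun x => ?_, fun x y => ?_⟩, fun x => ?_⟩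
  · have e : (2 : WithTop ℕ∞) = (1 : ℕ) + 1 := by norm_num
    rw [e, contDiff_succ_iff_hasFDerivAt]
    refine ⟨V1 F1, ?_, d0⟩
    exact_mod_cast contDiff_one_iff_hasFDerivAt.2 ⟨V2 F2, c2, d1⟩
  · show |Hs v x i j| ≤ _
    rw [hH]
    refine (hap _ i j).trans ((h.V2_bd ha ha1 x).trans ?_)
    exact mul_le_mul_of_nonneg_left (by linarith [cg_pos ha ha1]) h.nn
  · show |Hs v x i j - Hs v y i j| ≤ _
    rw [hH, hH]
    have e : V2 F2 x (ee i) (ee j) - V2 F2 y (ee i) (ee j)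
        = (V2 F2 x - V2 F2 y) (ee i) (ee j) := by
      simp
    rw [e]
    refine (hap _ i j).trans ((h.V2_hol ha ha1 x y).trans ?_)
    refine mul_le_mul_of_nonneg_right ?_ (Real.rpow_nonneg (norm_nonneg _) _)
    exact mul_le_mul_of_nonneg_left (by linarith [cs_nonneg a]) h.nn
  · have e1 : ∑ i, ∑ j, (1 : Matrix (Fin n) (Fin n) ℝ) i j * Hs v x i j = trB (V2 F2 x) := by
      unfold trB
      refine Finset.sum_congr rfl fun i _ => ?_
      rw [Finset.sum_eq_single i]
      · rw [Matrix.one_apply_eq, one_mul, hH]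
      · intro j _ hj
        rw [Matrix.one_apply_ne (Ne.symm hj), zero_mul]
      · intro hi; exact absurd (Finset.mem_univ i) hi
    unfold LA
    rw [e1, f0]
    exact h.pde ha ha1 x

end HF

end Crest.Agent.R238
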