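import Crest.Agent.R238.EHeat1
import Crest.Agent.R238.Hol1

set_option autoImplicit false
set_option linter.unusedSectionVars false
set_option maxSynthPendingDepth 3

open MeasureTheory Set Filter Topology Real
open scoped ContDiff

namespace Crest.Agent.R238.EHeat

variable {n : ℕ}

lemma g1_apply (z v : E n) : g1 z v = -(gau z * inner ℝ z v) := by
  unfold g1
  rw [fderiv_gau]
  simp

/-- the inner product as a bilinear map -/
noncomputable def ip : E n →L[ℝ] E n →L[ℝ] ℝ := innerSL ℝ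

lemma ip_apply (v w : E n) : ip v w = inner ℝ v w := rfl

lemma g2_apply (z v w : E n) :
    g2 z v w = gau z * (inner ℝ z v * inner ℝ z w - inner ℝ v w) := by
  have h1 : HasFDerivAt (g1 : E n → _)
      (-((gau z) • (ip : E n →L[ℝ] E n →L[ℝ] ℝ) +
        ContinuousLinearMap.smulRight (-(gau z • innerSL ℝ z)) (ip z))) z := by
    have h2 : (g1 : E n → _) = fun z => -(gau z • ip z) := by
      ext1 z; exact fderiv_gau z
    rw [h2]
    exact ((hasFDerivAt_gau z).smul (ip : E n →L[ℝ] E n →L[ℝ] ℝ).hasFDerivAt).neg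
  unfold g2
  rw [h1.fderiv]
  simp [ip_apply]
  ring

lemma sum_single_sq (z : E n) :
    ∑ i, (inner ℝ z (EuclideanSpace.single i (1:ℝ))) * (inner ℝ z (EuclideanSpace.single i (1:ℝ)))
      = ‖z‖ ^ 2 := by
  rw [EuclideanSpace.norm_sq_eq]
  refine Finset.sum_congr rfl fun i _ => ?_
  simp [EuclideanSpace.inner_single_right, sq]

lemma tr_g2 (z : E n) : tr (g2 z) = (‖z‖ ^ 2 - n) * gau z := by
  unfold tr
  simp_rw [g2_apply]
  rw [← Finset.mul_sum, Finset.sum_sub_distrib, sum_single_sq]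
  simp
  ring

section
variable {r : E n → ℝ} {M : ℝ} {s : ℝ}

lemma tr_smul (c : ℝ) (B : E n →L[ℝ] E n →L[ℝ] ℝ) : tr (c • B) = c * tr B := by
  simp [tr, Finset.mul_sum]

lemma A_apply2 {h : E n → (E n →L[ℝ] E n →L[ℝ] ℝ)} (hh : SC h) (hrc : Continuous r)
    (hrM : ∀ x, |r x| ≤ M) (s : ℝ) (x v w : E n) :
    A s r h x v w = ∫ z, r (x + s • z) * h z v w := by
  unfold A
  have hi := integrable_A hh.gp hrc hrM s x
  rw [ContinuousLinearMap.integral_apply hi]
  rw [ContinuousLinearMap.integral_apply]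
  · rfl
  · exact (ContinuousLinearMap.apply ℝ (E n →L[ℝ] ℝ) v).integrable_comp hi

lemma tr_A {h : E n → (E n →L[ℝ] E n →L[ℝ] ℝ)} (hh : SC h) (hrc : Continuous r)
    (hrM : ∀ x, |r x| ≤ M) (s : ℝ) (x : E n) :
    tr (A s r h x) = ∫ z, r (x + s • z) * tr (h z) := by
  unfold tr
  simp_rw [A_apply2 hh hrc hrM]
  rw [← integral_finsetSum]
  · congr 1
    ext z
    rw [Finset.mul_sum]
  · intro i _
    have hi := integrable_A hh.gp hrc hrM s x
    have h1 := (ContinuousLinearMap.apply ℝ (E n →L[ℝ] ℝ) (EuclideanSpace.single i (1:ℝ))).integrable_comp hi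
    have h2 := (ContinuousLinearMap.apply ℝ ℝ (EuclideanSpace.single i (1:ℝ))).integrable_comp h1
    exact h2

/-- HEAT EQUATION, joint form. -/
theorem hasFDerivAt_U_joint (hrc : Continuous r) (hrM : ∀ x, |r x| ≤ M) (hs : 0 < s) (x : E n) :
    HasFDerivAt (fun p : ℝ × E n => U p.1 r p.2)
      ((s * tr (U2 s r x)) • ContinuousLinearMap.fst ℝ ℝ (E n)
        + (U1 s r x).comp (ContinuousLinearMap.snd ℝ ℝ (E n))) (s, x) := by
  have h1 := main_deriv (h := gau) (h' := g1) (fun z => SC.gau.hasFDerivAt z) SC.gau.gp SC.g1.gp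
    hrc hrM hs x
  have h2 : (fun p : ℝ × E n => U p.1 r p.2) = fun p => ∫ z, r (p.2 + p.1 • z) • gau z := by
    ext p
    exact U_eq p.1 r p.2
  rw [h2]
  refine h1.congr_fderiv ?_
  have hiT := integrable_AT SC.gau.gp SC.g1.gp hrc hrM s x
  refine ContinuousLinearMap.ext fun q => ?_
  rw [_root_.smul_apply, ContinuousLinearMap.integral_apply hiT]
  rw [U1_eq hrc hrM hs, U2_eq hrc hrM hs, tr_smul, tr_A SC.g2 hrc hrM]
  simp only [_root_.add_apply, _root_.smul_apply,
    ContinuousLinearMap.comp_apply, ContinuousLinearMap.coe_fst', ContinuousLinearMap.coe_snd',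
    smul_eq_mul]
  have hi1 := integrable_A SC.g1.gp hrc hrM s x
  have h3 : A s r g1 x q.2 = ∫ z, r (x + s • z) * g1 z q.2 := by
    unfold A
    rw [ContinuousLinearMap.integral_apply hi1]
    rfl
  rw [h3]
  have h4 : ∀ z, r (x + s • z) * T gau g1 z q
      = -q.1 * (r (x + s • z) * tr (g2 z)) + r (x + s • z) * g1 z q.2 := by
    intro z
    rw [T_apply, tr_g2, map_add, map_smul, g1_apply z z, real_inner_self_eq_norm_sq]
    simp only [smul_eq_mul]
    ring
  simp_rw [h4]
  have i1 : Integrable fun z => r (x + s • z) * tr (g2 z) := by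
    unfold tr
    simp_rw [Finset.mul_sum]
    refine integrable_finsetSum _ fun i _ => ?_
    have hi := integrable_A SC.g2.gp hrc hrM s x
    have h1 := (ContinuousLinearMap.apply ℝ (E n →L[ℝ] ℝ) (EuclideanSpace.single i (1:ℝ))).integrable_comp hi
    have h2 := (ContinuousLinearMap.apply ℝ ℝ (EuclideanSpace.single i (1:ℝ))).integrable_comp h1
    exact h2
  have i2 : Integrable fun z => r (x + s • z) * g1 z q.2 :=
    (ContinuousLinearMap.apply ℝ ℝ q.2).integrable_comp hi1
  rw [integral_add (i1.const_mul _) i2, integral_const_mul]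
  field_simp
  ring

/-- derivative along the angle -/
theorem hasDerivAt_U_angle (hrc : Continuous r) (hrM : ∀ x, |r x| ≤ M) (x : E n) {p : ℝ}
    (hp : 0 < Real.sin p) :
    HasDerivAt (fun p => U (Real.sin p) r (Real.cos p • x))
    (Real.cos p * Real.sin p * tr (U2 (Real.sin p) r (Real.cos p • x))
      - Real.sin p * U1 (Real.sin p) r (Real.cos p • x) x) p := by
  have h1 := hasFDerivAt_U_joint hrc hrM hp (Real.cos p • x)
  have h2 : HasDerivAt (fun p : ℝ => (Real.sin p, Real.cos p • x))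
      (Real.cos p, (-Real.sin p) • x) p :=
    (Real.hasDerivAt_sin p).prodMk ((Real.hasDerivAt_cos p).smul_const x)
  have h3 := h1.comp_hasDerivAt p h2
  refine h3.congr_deriv ?_
  simp
  ring

/-- derivative along a general curve -/
theorem hasDerivAt_U_curve (hrc : Continuous r) (hrM : ∀ x, |r x| ≤ M) {σ : ℝ → ℝ} {ξ : ℝ → E n}
    {σ' : ℝ} {ξ' : E n} {t : ℝ} (hσ : HasDerivAt σ σ' t) (hξ : HasDerivAt ξ ξ' t)
    (hp : 0 < σ t) :
    HasDerivAt (fun t => U (σ t) r (ξ t))
      (σ t * σ' * tr (U2 (σ t) r (ξ t)) + U1 (σ t) r (ξ t) ξ') t := by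
  have h1 := hasFDerivAt_U_joint hrc hrM hp (ξ t)
  have h3 := h1.comp_hasDerivAt t (hσ.prodMk hξ)
  refine h3.congr_deriv ?_
  simp
  ring

/-- the Ornstein-Uhlenbeck semigroup -/
noncomputable def P (t : ℝ) (r : E n → ℝ) (x : E n) : ℝ :=
  U (Real.sqrt (1 - Real.exp (-2 * t))) r (Real.exp (-t) • x)

theorem hasDerivAt_P (hrc : Continuous r) (hrM : ∀ x, |r x| ≤ M) (x : E n) {t : ℝ} (ht : 0 < t) :
    HasDerivAt (fun t => P t r x)
      (Real.exp (-2 * t) *
          tr (U2 (Real.sqrt (1 - Real.exp (-2 * t))) r (Real.exp (-t) • x))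
        - Real.exp (-t) * U1 (Real.sqrt (1 - Real.exp (-2 * t))) r (Real.exp (-t) • x) x) t := by
  have he : 0 < 1 - Real.exp (-2 * t) := by
    have := Real.exp_lt_exp.2 (show -2 * t < 0 by linarith)
    rw [Real.exp_zero] at this
    linarith
  have h1 : HasDerivAt (fun t : ℝ => Real.exp (-2 * t)) (-2 * Real.exp (-2 * t)) t := by
    have := ((hasDerivAt_id t).const_mul (-2)).exp
    refine this.congr_deriv ?_
    simp; ring
  have h2 : HasDerivAt (fun t : ℝ => Real.sqrt (1 - Real.exp (-2 * t)))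
      (Real.exp (-2 * t) / Real.sqrt (1 - Real.exp (-2 * t))) t := by
    have := (h1.const_sub 1).sqrt he.ne'
    refine this.congr_deriv ?_
    have : 0 < Real.sqrt (1 - Real.exp (-2 * t)) := Real.sqrt_pos.2 he
    field_simp
  have h3 : HasDerivAt (fun t : ℝ => Real.exp (-t) • x) ((-Real.exp (-t)) • x) t := by
    have h4 : HasDerivAt (fun t : ℝ => Real.exp (-t)) (-Real.exp (-t)) t := by
      have := (hasDerivAt_id t).neg.exp
      refine this.congr_deriv ?_
      simp
    exact h4.smul_const x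
  have h5 := hasDerivAt_U_curve hrc hrM h2 h3 (Real.sqrt_pos.2 he)
  refine h5.congr_deriv ?_
  have h6 : 0 < Real.sqrt (1 - Real.exp (-2 * t)) := Real.sqrt_pos.2 he
  rw [mul_div_cancel₀ _ h6.ne', map_smul]
  simp
  ring

end

/-- helper718's structure `HF` for `U`. -/
theorem hf {r : E n → ℝ} {a N : ℝ} (ha : 0 < a) (ha1 : a ≤ 1) (hr : HB a N r)
    (he : ∀ x, r (-x) = r x) :
    HF a (CH n a * N) r (fun s => U s r) (fun s => U1 s r) (fun s => U2 s r) := by
  have hrc := HB.continuous ha hr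
  have hN := HB_nonneg hr
  refine ⟨mul_nonneg (CH_nonneg n a) hN, fun x => ?_, fun s x => U_even he s x,
    fun s hs x => hasFDerivAt_U hrc hr.1 hs x, fun s hs x => hasFDerivAt_U1 hrc hr.1 hs x,
    fun s hs x => ?_, fun s hs x y => ?_, continuous_U hrc hr.1, continuousOn_U1 hrc hr.1,
    continuousOn_U2 hrc hr.1, fun x p hp => ?_⟩
  · simp [U, integral_mul_const, integral_gau]
  · have := norm_U2_le ha ha1 hr hs x
    linarith
  · have := norm_U2_sub_le ha ha1 hr hs x y
    calc _ ≤ _ := this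
      _ = _ := by ring
  · have hsin : 0 < Real.sin p := Real.sin_pos_of_pos_of_lt_pi hp.1 (by linarith [hp.2, Real.pi_pos])
    exact hasDerivAt_U_angle hrc hr.1 x hsin

end Crest.Agent.R238.EHeat
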