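import Crest.Agent.R238.EReg8
import Crest.Agent.R238.BootD
import Crest.Agent.R238.SchAll

/-!
Row 238 (S0369), node H6 (helper978): regularity of the solutions, final statement.
-/

set_option autoImplicit false

namespace Crest.Agent.R238

/-- linear one-step lemma (helper303) -/
theorem EReg.linStep : EReg.LinStep := fun _ _ ha ha1 _ hτ hS => Boot.step0 ha ha1.le hS hτ

/-- **H6** from (B) -/
theorem EReg.reg_of_sch (hB : Apr.SchStmt) : RegStmt := EReg.reg_of hB EReg.nlStep EReg.linStep

/-- **H6**, unconditional -/
theorem reg : RegStmt := EReg.reg_of_sch Apr.schStmt_all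

end Crest.Agent.R238
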