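import Crest.Agent.R238.HolDefs

/-!
Row 238 (S0369), node H6 (helper978), part 1: functions whose difference quotients are uniformly
`a`-Hölder are `C¹` with Hölder derivative.
-/

set_option autoImplicit false
set_option maxHeartbeats 400000

open MeasureTheory Set Filter
open scoped ContDiff Topology

namespace Crest.Agent.R238.EReg

variable {n : ℕ}

/-- difference quotient -/
noncomputable def dq (e : E n) (ε : ℝ) (f : E n → ℝ) (x : E n) : ℝ := (f (x + ε • e) - f x) / ε

theorem hb_mono {a M N : ℝ} {f : E n → ℝ} (h : HB a M f) (hMN : M ≤ N) : HB a N f := by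
  refine ⟨fun x => (h.1 x).trans hMN, fun x y => (h.2 x y).trans ?_⟩
  exact mul_le_mul_of_nonneg_right hMN (Real.rpow_nonneg (norm_nonneg _) _)

theorem hb_nonneg {a M : ℝ} {f : E n → ℝ} (h : HB a M f) : 0 ≤ M := (abs_nonneg _).trans (h.1 0)

theorem hb_add {a M N : ℝ} {f g : E n → ℝ} (hf : HB a M f) (hg : HB a N g) :
    HB a (M + N) (fun x => f x + g x) := by
  refine ⟨fun x => (abs_add_le _ _).trans (add_le_add (hf.1 x) (hg.1 x)), fun x y => ?_⟩
  have h1 : f x + g x - (f y + g y) = (f x - f y) + (g x - g y) := by ring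
  rw [h1, add_mul]
  exact (abs_add_le _ _).trans (add_le_add (hf.2 x y) (hg.2 x y))

theorem hb_neg {a M : ℝ} {f : E n → ℝ} (hf : HB a M f) : HB a M (fun x => - f x) := by
  refine ⟨fun x => by rw [abs_neg]; exact hf.1 x, fun x y => ?_⟩
  have h1 : - f x - - f y = -(f x - f y) := by ring
  rw [h1, abs_neg]; exact hf.2 x y

theorem hb_sub {a M N : ℝ} {f g : E n → ℝ} (hf : HB a M f) (hg : HB a N g) :
    HB a (M + N) (fun x => f x - g x) := by
  have := hb_add hf (hb_neg hg)
  simpa [sub_eq_add_neg] using this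

theorem hb_const (a c : ℝ) : HB a |c| (fun _ : E n => c) := by
  refine ⟨fun x => le_refl _, fun x y => ?_⟩
  simp only [sub_self, abs_zero]
  exact mul_nonneg (abs_nonneg _) (Real.rpow_nonneg (norm_nonneg _) _)

/-- product with separate sup bounds -/
theorem hb_mul {a M N : ℝ} {f g : E n → ℝ} (hf : HB a M f) (hg : HB a N g) :
    HB a (2 * (M * N)) (fun x => f x * g x) := by
  have hM := hb_nonneg hf
  have hN := hb_nonneg hg
  refine ⟨fun x => ?_, fun x y => ?_⟩
  · rw [abs_mul]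
    have h1 : |f x| * |g x| ≤ M * N := mul_le_mul (hf.1 x) (hg.1 x) (abs_nonneg _) hM
    have h2 : 0 ≤ M * N := mul_nonneg hM hN
    linarith
  · have h1 : f x * g x - f y * g y = f x * (g x - g y) + (f x - f y) * g y := by ring
    rw [h1]
    have hp : 0 ≤ ‖x - y‖ ^ a := Real.rpow_nonneg (norm_nonneg _) _
    have h2 : |f x * (g x - g y)| ≤ M * (N * ‖x - y‖ ^ a) := by
      rw [abs_mul]
      exact mul_le_mul (hf.1 x) (hg.2 x y) (abs_nonneg _) hM
    have h3 : |(f x - f y) * g y| ≤ (M * ‖x - y‖ ^ a) * N := by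
      rw [abs_mul]
      exact mul_le_mul (hf.2 x y) (hg.1 y) (abs_nonneg _) (mul_nonneg hM hp)
    calc |f x * (g x - g y) + (f x - f y) * g y|
        ≤ M * (N * ‖x - y‖ ^ a) + (M * ‖x - y‖ ^ a) * N := (abs_add_le _ _).trans (add_le_add h2 h3)
      _ = 2 * (M * N) * ‖x - y‖ ^ a := by ring

theorem hb_sum {a : ℝ} {ι : Type*} (s : Finset ι) {M : ι → ℝ} {f : ι → E n → ℝ}
    (h : ∀ i ∈ s, HB a (M i) (f i)) : HB a (∑ i ∈ s, M i) (fun x => ∑ i ∈ s, f i x) := by
  classical
  refine ⟨fun x => ?_, fun x y => ?_⟩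
  · exact (Finset.abs_sum_le_sum_abs _ _).trans (Finset.sum_le_sum fun i hi => (h i hi).1 x)
  · rw [← Finset.sum_sub_distrib, Finset.sum_mul]
    exact (Finset.abs_sum_le_sum_abs _ _).trans (Finset.sum_le_sum fun i hi => (h i hi).2 x y)

theorem hb_comp_add {a M : ℝ} {f : E n → ℝ} (h : HB a M f) (z : E n) :
    HB a M (fun x => f (x + z)) := by
  refine ⟨fun x => h.1 _, fun x y => ?_⟩
  have := h.2 (x + z) (y + z)
  simpa using this

/-- pointwise limits of `HB` functions -/
theorem hb_of_tendsto {a M : ℝ} {ι : Type*} {l : Filter ι} [l.NeBot] {f : ι → E n → ℝ}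
    {g : E n → ℝ} (h : ∀ᶠ i in l, HB a M (f i)) (hl : ∀ x, Tendsto (fun i => f i x) l (𝓝 (g x))) :
    HB a M g := by
  refine ⟨fun x => ?_, fun x y => ?_⟩
  · refine le_of_tendsto ((hl x).abs) ?_
    filter_upwards [h] with i hi using hi.1 x
  · refine le_of_tendsto (((hl x).sub (hl y)).abs) ?_
    filter_upwards [h] with i hi using hi.2 x y

theorem hb_of_forall_gt {a M : ℝ} {f : E n → ℝ} (h : ∀ N, M < N → HB a N f) : HB a M f := by
  refine ⟨fun x => le_of_forall_gt_imp_ge_of_dense fun N hN => (h N hN).1 x, fun x y => ?_⟩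
  have hlim : Tendsto (fun N : ℝ => N * ‖x - y‖ ^ a) (𝓝[>] M) (𝓝 (M * ‖x - y‖ ^ a)) :=
    ((continuous_id.mul continuous_const).tendsto M).mono_left nhdsWithin_le_nhds
  refine ge_of_tendsto hlim ?_
  filter_upwards [self_mem_nhdsWithin] with N hN using (h N hN).2 x y

/-- one variable: limit of difference quotients -/
theorem exists_tendsto_dq {a C ε₀ : ℝ} (ha : 0 < a) (hε₀ : 0 < ε₀) {f : E n → ℝ} {e : E n}
    (hf : Continuous f) (h : ∀ ε, 0 < ε → ε ≤ ε₀ → HB a C (dq e ε f)) (x : E n) :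
    ∃ d, Tendsto (fun ε => dq e ε f x) (𝓝[>] 0) (𝓝 d) := by
  have hC : 0 ≤ C := hb_nonneg (h ε₀ hε₀ le_rfl)
  -- the function on the line
  set φ : ℝ → ℝ := fun t => f (x + t • e) with hφ
  have hq : ∀ t ε, dq e ε f (x + t • e) = (φ (t + ε) - φ t) / ε := by
    intro t ε
    simp only [dq, hφ, add_smul, add_assoc]
  have hlip1 : ∀ s t, s < t → t - s ≤ ε₀ → |φ t - φ s| ≤ C * |t - s| := by
    intro s t hst hts
    have h1 := (h (t - s) (sub_pos.2 hst) hts).1 (x + s • e)
    rw [hq, abs_div, div_le_iff₀ (abs_pos.2 (sub_pos.2 hst).ne')] at h1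
    simpa using h1
  set I : Set ℝ := Icc 0 ε₀ with hI
  have hlip : LipschitzOnWith C.toNNReal φ I := by
    refine LipschitzOnWith.of_dist_le_mul fun s hs t ht => ?_
    rw [Real.dist_eq, Real.dist_eq, Real.coe_toNNReal _ hC]
    rcases lt_trichotomy s t with h1 | h1 | h1
    · rw [abs_sub_comm, abs_sub_comm s t]
      exact hlip1 s t h1 (by linarith [hs.1, ht.2])
    · simp [h1]
    · exact hlip1 t s h1 (by linarith [hs.2, ht.1])
  have hae := hlip.ae_differentiableWithinAt_real measurableSet_Icc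
  -- good points
  have hgood : ∀ η : ℝ, 0 < η → ∃ t, 0 < t ∧ t < η ∧
      ∃ d, Tendsto (fun ε => dq e ε f (x + t • e)) (𝓝[>] 0) (𝓝 d) := by
    intro η hη
    by_contra hcon
    push Not at hcon
    have h0 : volume (Ioo 0 (min η ε₀)) = 0 := by
      rw [ae_restrict_iff' measurableSet_Icc] at hae
      refine measure_mono_null ?_ (ae_iff.1 hae)
      intro t ht
      simp only [Set.mem_ofPred_eq]
      intro hd
      have hdt := hd ⟨ht.1.le, (ht.2.trans_le (min_le_right _ _)).le⟩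
      have hdt2 : DifferentiableAt ℝ φ t :=
        hdt.differentiableAt (Icc_mem_nhds ht.1 (ht.2.trans_le (min_le_right _ _)))
      refine hcon t ht.1 (ht.2.trans_le (min_le_left _ _)) (deriv φ t) ?_
      have h2 := (hdt2.hasDerivAt).tendsto_slope_zero
      have h3 : Tendsto (fun ε => ε⁻¹ • (φ (t + ε) - φ t)) (𝓝[>] 0) (𝓝 (deriv φ t)) :=
        h2.mono_left (nhdsWithin_mono _ fun y hy => (ne_of_gt hy))
      refine h3.congr fun ε => ?_
      rw [hq, smul_eq_mul]
      ring
    rw [Real.volume_Ioo, ENNReal.ofReal_eq_zero] at h0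
    have : 0 < min η ε₀ := lt_min hη hε₀
    linarith
  -- Cauchy
  have hcauchy : Cauchy (map (fun ε => dq e ε f x) (𝓝[>] 0)) := by
    rw [Metric.cauchy_iff]
    refine ⟨inferInstance, fun δ hδ => ?_⟩
    -- choose t with C (t ‖e‖)^a < δ/4
    have hlim : Tendsto (fun t : ℝ => C * ‖t • e‖ ^ a) (𝓝[>] 0) (𝓝 0) := by
      have hc : Continuous fun t : ℝ => C * ‖t • e‖ ^ a :=
        continuous_const.mul ((continuous_norm.comp (continuous_id.smul continuous_const)).rpow_const
          fun _ => Or.inr ha.le)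
      have := (hc.tendsto 0).mono_left (nhdsWithin_le_nhds (s := Ioi (0 : ℝ)))
      simpa [Real.zero_rpow ha.ne'] using this
    have hev : ∀ᶠ t in 𝓝[>] (0 : ℝ), C * ‖t • e‖ ^ a < δ / 4 :=
      hlim.eventually (gt_mem_nhds (by linarith))
    obtain ⟨η, hη, hηs⟩ := mem_nhdsGT_iff_exists_Ioo_subset.1 hev
    obtain ⟨t, ht0, htη, d, hd⟩ := hgood η hη
    have htδ : C * ‖t • e‖ ^ a < δ / 4 := hηs ⟨ht0, htη⟩
    have hev2 : ∀ᶠ ε in 𝓝[>] (0 : ℝ), |dq e ε f (x + t • e) - d| < δ / 4 := by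
      have := Metric.tendsto_nhds.1 hd (δ / 4) (by linarith)
      simpa [Real.dist_eq] using this
    have hev3 : ∀ᶠ ε in 𝓝[>] (0 : ℝ), 0 < ε ∧ ε ≤ ε₀ := by
      filter_upwards [Ioc_mem_nhdsGT hε₀] with ε hε using hε
    refine ⟨(fun ε => dq e ε f x) '' {ε | |dq e ε f (x + t • e) - d| < δ / 4 ∧ 0 < ε ∧ ε ≤ ε₀},
      image_mem_map (hev2.and hev3), ?_⟩
    have key : ∀ ε, |dq e ε f (x + t • e) - d| < δ / 4 ∧ 0 < ε ∧ ε ≤ ε₀ →
        |dq e ε f x - d| < δ / 2 := by
      rintro ε ⟨h1, h2, h3⟩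
      have h4 := (h ε h2 h3).2 x (x + t • e)
      have h5 : ‖x - (x + t • e)‖ = ‖t • e‖ := by
        rw [sub_add_cancel_left, norm_neg]
      rw [h5] at h4
      have h6 : dq e ε f x - d = (dq e ε f x - dq e ε f (x + t • e)) +
        (dq e ε f (x + t • e) - d) := by ring
      rw [h6]
      calc _ ≤ |dq e ε f x - dq e ε f (x + t • e)| + |dq e ε f (x + t • e) - d| := abs_add_le _ _
        _ < δ / 4 + δ / 4 := by linarith
        _ = δ / 2 := by ring
    rintro _ ⟨ε, hε, rfl⟩ _ ⟨ε', hε', rfl⟩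
    rw [Real.dist_eq]
    have k1 := key ε hε
    have k2 := key ε' hε'
    have h6 : dq e ε f x - dq e ε' f x = (dq e ε f x - d) - (dq e ε' f x - d) := by ring
    rw [h6]
    calc _ ≤ |dq e ε f x - d| + |dq e ε' f x - d| := abs_sub _ _
      _ < δ := by linarith
  obtain ⟨d, hd⟩ := cauchy_map_iff_exists_tendsto.1 hcauchy
  exact ⟨d, hd⟩

/-- directional derivative from Hölder difference quotients -/
theorem exists_hasDerivAt_dq {a C ε₀ : ℝ} (ha : 0 < a) (hε₀ : 0 < ε₀) {f : E n → ℝ} {e : E n}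
    (hf : Continuous f) (h : ∀ ε, 0 < ε → ε ≤ ε₀ → HB a C (dq e ε f)) :
    ∃ D : E n → ℝ, HB a C D ∧ ∀ x, HasDerivAt (fun t : ℝ => f (x + t • e)) (D x) 0 := by
  choose D hD using exists_tendsto_dq ha hε₀ hf h
  have hev3 : ∀ᶠ ε in 𝓝[>] (0 : ℝ), 0 < ε ∧ ε ≤ ε₀ := by
    filter_upwards [Ioc_mem_nhdsGT hε₀] with ε hε using hε
  have hC : 0 ≤ C := hb_nonneg (h ε₀ hε₀ le_rfl)
  refine ⟨D, hb_of_tendsto (l := 𝓝[>] (0 : ℝ)) (f := fun ε => dq e ε f) ?_ hD, fun x => ?_⟩
  · filter_upwards [hev3] with ε hε using h ε hε.1 hε.2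
  · rw [hasDerivAt_iff_tendsto_slope_zero]
    rw [← nhdsLT_sup_nhdsGT]
    refine Tendsto.sup ?_ ?_
    · -- left
      have h1 : Tendsto (fun ε => dq e ε f (x - ε • e)) (𝓝[>] 0) (𝓝 (D x)) := by
        have h2 : Tendsto (fun ε => dq e ε f (x - ε • e) - dq e ε f x) (𝓝[>] 0) (𝓝 0) := by
          have hlim : Tendsto (fun t : ℝ => C * ‖t • e‖ ^ a) (𝓝[>] 0) (𝓝 0) := by
            have hc : Continuous fun t : ℝ => C * ‖t • e‖ ^ a :=
              continuous_const.mul ((continuous_norm.comp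
                (continuous_id.smul continuous_const)).rpow_const fun _ => Or.inr ha.le)
            have := (hc.tendsto 0).mono_left (nhdsWithin_le_nhds (s := Ioi (0 : ℝ)))
            simpa [Real.zero_rpow ha.ne'] using this
          refine squeeze_zero_norm' ?_ hlim
          filter_upwards [hev3] with ε hε
          have := (h ε hε.1 hε.2).2 (x - ε • e) x
          rwa [sub_sub_cancel_left, norm_neg] at this
        have h3 := h2.add (hD x)
        simpa using h3
      have h4 : Tendsto (fun t : ℝ => -t) (𝓝[<] 0) (𝓝[>] 0) := by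
        have := tendsto_neg_nhdsLT (a := (0:ℝ))
        simpa using this
      refine (h1.comp h4).congr fun t => ?_
      simp only [Function.comp, dq]
      rw [zero_add, zero_smul, add_zero, smul_eq_mul, neg_smul, sub_neg_eq_add, add_neg_cancel_right]
      by_cases ht : t = 0
      · simp [ht]
      · field_simp
        ring
    · refine (hD x).congr fun ε => ?_
      simp only [dq]
      rw [zero_add, zero_smul, add_zero, smul_eq_mul]
      ring

end Crest.Agent.R238.EReg
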