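import Crest.Agent.R238.EReg1

/-!
Row 238 (S0369), node H6 (helper978), part 2: from Hölder partial derivatives to `C¹`;
the iterated Hölder classes `BH a k`.
-/

set_option autoImplicit false
set_option maxHeartbeats 400000

open MeasureTheory Set Filter
open scoped ContDiff Topology

namespace Crest.Agent.R238.EReg

variable {n : ℕ}

/-- the linear form with components `c i` -/
noncomputable def lf (c : Fin n → ℝ) : E n →L[ℝ] ℝ :=
  ∑ i, c i • (EuclideanSpace.proj i : E n →L[ℝ] ℝ)

theorem lf_apply (c : Fin n → ℝ) (z : E n) : lf c z = ∑ i, c i * z i := by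
  simp [lf, EuclideanSpace.proj]

theorem lf_ee (c : Fin n → ℝ) (i : Fin n) : lf c (ee i) = c i := by
  rw [lf_apply]
  simp [Pi.single_apply]

theorem eq_lf (L : E n →L[ℝ] ℝ) : L = lf (fun i => L (ee i)) := by
  ext z
  rw [lf_apply]
  have hz : z = ∑ i, z i • (ee i : E n) := by
    ext j
    simp [Pi.single_apply]
  conv_lhs => rw [hz]
  rw [map_sum]
  refine Finset.sum_congr rfl fun i _ => ?_
  rw [map_smul, smul_eq_mul, mul_comm]

theorem abs_coord_le (z : E n) (i : Fin n) : |z i| ≤ ‖z‖ := by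
  have := PiLp.norm_apply_le z i
  simpa using this

theorem norm_ee (i : Fin n) : ‖(ee i : E n)‖ = 1 := by simp

theorem hasDerivAt_line {f : E n → ℝ} {e : E n} {D : E n → ℝ}
    (h : ∀ x, HasDerivAt (fun t : ℝ => f (x + t • e)) (D x) 0) (x : E n) (t : ℝ) :
    HasDerivAt (fun t : ℝ => f (x + t • e)) (D (x + t • e)) t := by
  have h1 := h (x + t • e)
  have h2 : HasDerivAt (fun s : ℝ => s - t) 1 t := by
    simpa using (hasDerivAt_id t).sub_const t
  have h3 : HasDerivAt (fun s : ℝ => f ((x + t • e) + s • e)) (D (x + t • e)) (t - t) := by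
    simpa using h1
  have h4 := HasDerivAt.comp (h := fun s : ℝ => s - t) t h3 h2
  simp only [Function.comp_def, mul_one] at h4
  refine h4.congr_of_eventuallyEq (Eventually.of_forall fun s => ?_)
  show f (x + s • e) = f (x + t • e + (s - t) • e)
  congr 1
  rw [sub_smul]
  abel

/-- `C¹` from Hölder partial derivatives -/
theorem hasFDerivAt_of_partials {a C : ℝ} (ha : 0 < a) {f : E n → ℝ} {D : Fin n → E n → ℝ}
    (hD : ∀ i, HB a C (D i))
    (h : ∀ i x, HasDerivAt (fun t : ℝ => f (x + t • (ee i : E n))) (D i x) 0) (x : E n) :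
    HasFDerivAt f (lf fun i => D i x) x := by
  classical
  -- partial sums
  have hstep : ∀ (i : Fin n) (w : E n) (s : ℝ) (R : ℝ), 0 ≤ R → ‖w‖ ≤ R → |s| ≤ R →
      |f (x + w + s • (ee i : E n)) - f (x + w) - s * D i x| ≤ C * (2 * R) ^ a * R := by
    intro i w s R hR hw hs
    have hC : 0 ≤ C := hb_nonneg (hD i)
    have h1 : ∀ t : ℝ, t ∈ Icc (0:ℝ) 1 → HasDerivWithinAt
        (fun t : ℝ => f (x + w + (t * s) • (ee i : E n)) - (t * s) * D i x)
        (s * (D i (x + w + (t * s) • (ee i : E n)) - D i x)) (Icc 0 1) t := by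
      intro t _
      have h2 := hasDerivAt_line (h i) (x + w) (t * s)
      have h3 : HasDerivAt (fun t : ℝ => t * s) s t := by
        simpa using (hasDerivAt_id t).mul_const s
      have h4 := HasDerivAt.comp t h2 h3
      have h5 : HasDerivAt (fun t : ℝ => (t * s) * D i x) (s * D i x) t := h3.mul_const _
      have h6 := h4.sub h5
      refine HasDerivAt.hasDerivWithinAt (h6.congr_deriv ?_)
      ring
    have h2 : ∀ t : ℝ, t ∈ Ico (0:ℝ) 1 →
        ‖s * (D i (x + w + (t * s) • (ee i : E n)) - D i x)‖ ≤ C * (2 * R) ^ a * R := by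
      intro t ht
      have h3 := (hD i).2 (x + w + (t * s) • (ee i : E n)) x
      have h4 : ‖x + w + (t * s) • (ee i : E n) - x‖ ≤ 2 * R := by
        have h5 : x + w + (t * s) • (ee i : E n) - x = w + (t * s) • (ee i : E n) := by abel
        rw [h5]
        refine (norm_add_le _ _).trans ?_
        rw [norm_smul, norm_ee, mul_one, Real.norm_eq_abs, abs_mul, abs_of_nonneg ht.1]
        have : t * |s| ≤ 1 * R := mul_le_mul ht.2.le hs (abs_nonneg _) zero_le_one
        linarith
      rw [norm_mul, Real.norm_eq_abs, Real.norm_eq_abs, mul_comm]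
      refine mul_le_mul (h3.trans ?_) hs (abs_nonneg _) (by positivity)
      exact mul_le_mul_of_nonneg_left (Real.rpow_le_rpow (norm_nonneg _) h4 ha.le) hC
    have h3 := norm_image_sub_le_of_norm_deriv_le_segment_01' h1 h2
    simp only [one_mul, zero_mul, zero_smul, add_zero, sub_zero] at h3
    rw [Real.norm_eq_abs] at h3
    have h4 : f (x + w + s • (ee i : E n)) - s * D i x - f (x + w)
      = f (x + w + s • (ee i : E n)) - f (x + w) - s * D i x := by ring
    rwa [h4] at h3
  have hsum : ∀ (S : Finset (Fin n)) (z : E n),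
      ‖∑ i ∈ S, z i • (ee i : E n)‖ ≤ S.card * ‖z‖ ∧
      |f (x + ∑ i ∈ S, z i • (ee i : E n)) - f x - ∑ i ∈ S, z i * D i x|
        ≤ S.card * (C * (2 * (n * ‖z‖ + ‖z‖)) ^ a * (n * ‖z‖ + ‖z‖)) := by
    intro S z
    induction S using Finset.induction_on with
    | empty => simp
    | insert i S hi ih =>
      obtain ⟨ih1, ih2⟩ := ih
      rw [Finset.sum_insert hi, Finset.card_insert_of_notMem hi, Finset.sum_insert hi]
      have hn1 : ‖z i • (ee i : E n)‖ ≤ ‖z‖ := by
        rw [norm_smul, norm_ee, mul_one]; exact abs_coord_le z i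
      have hcard : (S.card : ℝ) ≤ n := by
        have := S.card_le_univ
        rw [Fintype.card_fin] at this
        exact_mod_cast this
      refine ⟨?_, ?_⟩
      · refine (norm_add_le _ _).trans ?_
        push_cast
        linarith
      · have h1 := hstep i (∑ i ∈ S, z i • (ee i : E n)) (z i) (n * ‖z‖ + ‖z‖) (by positivity)
          (ih1.trans (by
            have := mul_le_mul_of_nonneg_right hcard (norm_nonneg z)
            linarith [norm_nonneg z]))
          ((abs_coord_le z i).trans (by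
            have : 0 ≤ (n:ℝ) * ‖z‖ := by positivity
            linarith))
        have e1 : x + (z i • (ee i : E n) + ∑ i ∈ S, z i • (ee i : E n))
          = x + ∑ i ∈ S, z i • (ee i : E n) + z i • (ee i : E n) := by abel
        rw [e1]
        have e2 : f (x + ∑ i ∈ S, z i • (ee i : E n) + z i • (ee i : E n)) - f x
            - (z i * D i x + ∑ i ∈ S, z i * D i x)
          = (f (x + ∑ i ∈ S, z i • (ee i : E n) + z i • (ee i : E n))
              - f (x + ∑ i ∈ S, z i • (ee i : E n)) - z i * D i x)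
            + (f (x + ∑ i ∈ S, z i • (ee i : E n)) - f x - ∑ i ∈ S, z i * D i x) := by ring
        rw [e2]
        refine (abs_add_le _ _).trans ?_
        push_cast
        linarith
  have hz : ∀ z : E n, ∑ i, z i • (ee i : E n) = z := by
    intro z
    ext j
    simp [Pi.single_apply]
  have hbound : ∀ z : E n, |f (x + z) - f x - lf (fun i => D i x) z|
      ≤ (n * (C * (2 * (n + 1)) ^ a * (n + 1))) * ‖z‖ ^ a * ‖z‖ := by
    intro z
    have h1 := (hsum Finset.univ z).2
    rw [hz, Finset.card_univ, Fintype.card_fin] at h1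
    have h2 : lf (fun i => D i x) z = ∑ i, z i * D i x := by
      rw [lf_apply]
      exact Finset.sum_congr rfl fun i _ => mul_comm _ _
    rw [h2]
    refine h1.trans (le_of_eq ?_)
    have h3 : (2 * ((n:ℝ) * ‖z‖ + ‖z‖)) = (2 * (n + 1)) * ‖z‖ := by ring
    rw [h3, Real.mul_rpow (by positivity) (norm_nonneg _)]
    ring
  rw [hasFDerivAt_iff_isLittleO_nhds_zero, Asymptotics.isLittleO_iff]
  intro c hc
  set K := (n * (C * (2 * ((n:ℝ) + 1)) ^ a * (n + 1))) with hK
  have hlim : Tendsto (fun z : E n => K * ‖z‖ ^ a) (𝓝 0) (𝓝 0) := by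
    have hcont : Continuous fun z : E n => K * ‖z‖ ^ a :=
      continuous_const.mul (continuous_norm.rpow_const fun _ => Or.inr ha.le)
    have := hcont.tendsto 0
    simpa [Real.zero_rpow ha.ne'] using this
  filter_upwards [hlim.eventually (gt_mem_nhds hc)] with z hz1
  rw [Real.norm_eq_abs]
  exact (hbound z).trans (mul_le_mul_of_nonneg_right hz1.le (norm_nonneg _))

/-- iterated Hölder classes: `f` and its partial derivatives up to order `k` are bounded and
`a`-Hölder -/
def BH (a : ℝ) : ℕ → (E n → ℝ) → Prop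
  | 0, f => ∃ M, HB a M f
  | k + 1, f => (∃ M, HB a M f) ∧ Differentiable ℝ f ∧ ∀ i, BH a k (fun x => fderiv ℝ f x (ee i))

theorem BH.hb {a : ℝ} {k : ℕ} {f : E n → ℝ} (h : BH a k f) : ∃ M, HB a M f := by
  cases k with
  | zero => exact h
  | succ k => exact h.1

theorem BH.succ_le {a : ℝ} {k : ℕ} {f : E n → ℝ} (h : BH a (k + 1) f) : BH a k f := by
  induction k generalizing f with
  | zero => exact h.1
  | succ k ih => exact ⟨h.1, h.2.1, fun i => ih (h.2.2 i)⟩

theorem BH.of_le {a : ℝ} {k l : ℕ} {f : E n → ℝ} (h : BH a l f) (hkl : k ≤ l) : BH a k f := by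
  induction hkl with
  | refl => exact h
  | step _ ih => exact ih h.succ_le

/-- the main criterion: Hölder difference quotients give `BH a 1` -/
theorem BH_one_of_dq {a C ε₀ : ℝ} (ha : 0 < a) (hε₀ : 0 < ε₀) {f : E n → ℝ} {M : ℝ}
    (hf : HB a M f) (h : ∀ i ε, 0 < ε → ε ≤ ε₀ → HB a C (dq (ee i) ε f)) :
    BH a 1 f := by
  have hc := hf.continuous ha
  choose D hD hD2 using fun i => exists_hasDerivAt_dq ha hε₀ hc (h i)
  have h1 := hasFDerivAt_of_partials ha hD hD2
  refine ⟨⟨M, hf⟩, fun x => (h1 x).differentiableAt, fun i => ⟨C, ?_⟩⟩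
  have h2 : (fun x => fderiv ℝ f x (ee i)) = D i := by
    funext x
    rw [(h1 x).fderiv, lf_ee]
  rw [h2]
  exact hD i

theorem BH.add {a : ℝ} {k : ℕ} {f g : E n → ℝ} (hf : BH a k f) (hg : BH a k g) :
    BH a k (fun x => f x + g x) := by
  induction k generalizing f g with
  | zero =>
    obtain ⟨M, hM⟩ := hf
    obtain ⟨N, hN⟩ := hg
    exact ⟨M + N, hb_add hM hN⟩
  | succ k ih =>
    obtain ⟨⟨M, hM⟩, hdf, hf'⟩ := hf
    obtain ⟨⟨N, hN⟩, hdg, hg'⟩ := hg
    refine ⟨⟨M + N, hb_add hM hN⟩, fun x => (hdf x).add (hdg x), fun i => ?_⟩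
    have h1 : (fun x => fderiv ℝ (fun x => f x + g x) x (ee i))
        = fun x => fderiv ℝ f x (ee i) + fderiv ℝ g x (ee i) := by
      funext x
      rw [fderiv_fun_add (hdf x) (hdg x)]
      rfl
    rw [h1]
    exact ih (hf' i) (hg' i)

theorem BH.const (a : ℝ) (k : ℕ) (c : ℝ) : BH a k (fun _ : E n => c) := by
  induction k generalizing c with
  | zero => exact ⟨|c|, hb_const a c⟩
  | succ k ih =>
    refine ⟨⟨|c|, hb_const a c⟩, differentiable_const c, fun i => ?_⟩
    have h1 : (fun x => fderiv ℝ (fun _ : E n => c) x (ee i)) = fun _ => (0:ℝ) := by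
      funext x
      simp
    rw [h1]
    exact ih 0

theorem BH.mul {a : ℝ} {k : ℕ} {f g : E n → ℝ} (hf : BH a k f) (hg : BH a k g) :
    BH a k (fun x => f x * g x) := by
  induction k generalizing f g with
  | zero =>
    obtain ⟨M, hM⟩ := hf
    obtain ⟨N, hN⟩ := hg
    exact ⟨_, hb_mul hM hN⟩
  | succ k ih =>
    have hf0 := hf
    have hg0 := hg
    obtain ⟨⟨M, hM⟩, hdf, hf'⟩ := hf
    obtain ⟨⟨N, hN⟩, hdg, hg'⟩ := hg
    refine ⟨⟨_, hb_mul hM hN⟩, fun x => (hdf x).mul (hdg x), fun i => ?_⟩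
    have h1 : (fun x => fderiv ℝ (fun x => f x * g x) x (ee i))
        = fun x => f x * fderiv ℝ g x (ee i) + g x * fderiv ℝ f x (ee i) := by
      funext x
      rw [fderiv_fun_mul (hdf x) (hdg x)]
      rfl
    rw [h1]
    exact BH.add (ih hf0.succ_le (hg' i)) (ih hg0.succ_le (hf' i))

theorem BH.const_mul {a : ℝ} {k : ℕ} (c : ℝ) {f : E n → ℝ} (hf : BH a k f) :
    BH a k (fun x => c * f x) := BH.mul (BH.const a k c) hf

theorem BH.neg {a : ℝ} {k : ℕ} {f : E n → ℝ} (hf : BH a k f) : BH a k (fun x => - f x) := by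
  simpa using BH.const_mul (-1) hf

theorem BH.sub {a : ℝ} {k : ℕ} {f g : E n → ℝ} (hf : BH a k f) (hg : BH a k g) :
    BH a k (fun x => f x - g x) := by
  simpa [sub_eq_add_neg] using hf.add hg.neg

theorem BH.sum {a : ℝ} {k : ℕ} {ι : Type*} (s : Finset ι) {f : ι → E n → ℝ}
    (h : ∀ i ∈ s, BH a k (f i)) : BH a k (fun x => ∑ i ∈ s, f i x) := by
  classical
  induction s using Finset.induction_on with
  | empty => simpa using BH.const a k 0
  | insert j s hj ih =>
    have h1 : (fun x => ∑ i ∈ insert j s, f i x) = fun x => f j x + ∑ i ∈ s, f i x := by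
      funext x
      rw [Finset.sum_insert hj]
    rw [h1]
    exact BH.add (h j (Finset.mem_insert_self _ _))
      (ih fun i hi => h i (Finset.mem_insert_of_mem hi))

theorem BH.contDiff {a : ℝ} (ha : 0 < a) {k : ℕ} {f : E n → ℝ} (h : BH a k f) :
    ContDiff ℝ k f := by
  induction k generalizing f with
  | zero =>
    obtain ⟨M, hM⟩ := h
    rw [Nat.cast_zero, contDiff_zero]
    exact hM.continuous ha
  | succ k ih =>
    obtain ⟨⟨M, hM⟩, hd, h'⟩ := h
    have h1 : ContDiff ℝ ((k : WithTop ℕ∞) + 1) f := by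
      rw [contDiff_succ_iff_fderiv]
      refine ⟨hd, by simp, ?_⟩
      have h2 : fderiv ℝ f = fun x => lf fun i => fderiv ℝ f x (ee i) := by
        funext x
        exact eq_lf _
      rw [h2]
      unfold lf
      refine ContDiff.sum fun i _ => ?_
      exact (ih (h' i)).smul contDiff_const
    exact_mod_cast h1

end Crest.Agent.R238.EReg
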