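import Crest.Agent.R238.EReg2
import Crest.Agent.R238.StepMat

/-!
Row 238 (S0369), node H6 (helper978), part 3: second order expansion of `log det`.
-/

set_option autoImplicit false
set_option maxHeartbeats 400000

open MeasureTheory Set Filter
open scoped ContDiff Topology

namespace Crest.Agent.R238.EReg

variable {n : ℕ}

/-- remainder of `log det` -/
noncomputable def qL (X : Matrix (Fin n) (Fin n) ℝ) : ℝ := Real.log (1 + X).det - X.trace

theorem contDiff_det1 : ContDiff ℝ ∞ (fun X : Fin n → Fin n → ℝ => (1 + Matrix.of X).det) := by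
  have h1 : (fun X : Fin n → Fin n → ℝ => (1 + Matrix.of X).det)
      = fun X => ∑ σ : Equiv.Perm (Fin n),
          (((Equiv.Perm.sign σ : ℤˣ) : ℤ) : ℝ) *
            ∏ i, ((1 : Matrix (Fin n) (Fin n) ℝ) (σ i) i + X (σ i) i) := by
    funext X
    rw [Matrix.det_apply']
    rfl
  rw [h1]
  refine ContDiff.sum fun σ _ => ?_
  have h2 : ContDiff ℝ ∞ (fun X : Fin n → Fin n → ℝ =>
      ∏ i, ((1 : Matrix (Fin n) (Fin n) ℝ) (σ i) i + X (σ i) i)) :=
    contDiff_prod fun i _ => contDiff_const.add (contDiff_apply_apply ℝ ℝ (σ i) i)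
  exact contDiff_const.mul h2

/-- `det (1 + t X) = 1 + t tr X + O(t²)` -/
theorem hasDerivAt_det_one_add (X : Matrix (Fin n) (Fin n) ℝ) :
    HasDerivAt (fun t : ℝ => (1 + t • X).det) X.trace 0 := by
  set p : Polynomial ℝ :=
    (Matrix.det (1 + (Polynomial.X : Polynomial ℝ) • X.map Polynomial.C)).divX.divX with hp
  have h1 : (fun t : ℝ => (1 + t • X).det) = fun t => 1 + X.trace * t + p.eval t * t ^ 2 := by
    funext t
    exact Matrix.det_one_add_smul t X
  rw [h1]
  have h2 : HasDerivAt (fun t : ℝ => 1 + X.trace * t) X.trace 0 := by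
    simpa using ((hasDerivAt_id (0:ℝ)).const_mul X.trace).const_add 1
  have h3 : HasDerivAt (fun t : ℝ => p.eval t * t ^ 2)
      (p.derivative.eval 0 * 0 ^ 2 + p.eval 0 * (2 * 0)) 0 := by
    refine (p.hasDerivAt 0).mul ?_
    have := hasDerivAt_pow 2 (0:ℝ)
    simpa using this
  have h4 := h2.add h3
  refine h4.congr_deriv ?_
  ring

/-- local Lipschitz estimate for `qL` with a small constant -/
theorem qL_lip (n : ℕ) : ∃ K r₀ : ℝ, 0 < K ∧ 0 < r₀ ∧
    ∀ (X Y : Matrix (Fin n) (Fin n) ℝ) (d e : ℝ), 0 ≤ d → d ≤ r₀ → 0 ≤ e →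
      (∀ i j, |X i j| ≤ d) → (∀ i j, |Y i j| ≤ d) → (∀ i j, |X i j - Y i j| ≤ e) →
      |qL X - qL Y| ≤ K * d * e := by
  -- work on the normed space of functions
  set Q : (Fin n → Fin n → ℝ) → ℝ := fun X => qL (Matrix.of X) with hQ
  have hQ1 : Q = fun X : Fin n → Fin n → ℝ =>
      Real.log (1 + Matrix.of X).det - ∑ i, X i i := by
    funext X
    simp only [hQ, qL, Matrix.trace, Matrix.diag_apply, Matrix.of_apply]
  have hd0 : (1 + Matrix.of (0 : Fin n → Fin n → ℝ)).det = 1 := by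
    have : Matrix.of (0 : Fin n → Fin n → ℝ) = 0 := rfl
    rw [this, add_zero, Matrix.det_one]
  have hQc : ContDiffAt ℝ 2 Q 0 := by
    rw [hQ1]
    refine ContDiffAt.sub ?_ ?_
    · have h1 : ContDiffAt ℝ 2 (fun X : Fin n → Fin n → ℝ => (1 + Matrix.of X).det) 0 :=
        (contDiff_det1.of_le (WithTop.coe_le_coe.2 le_top)).contDiffAt
      exact h1.log (by rw [hd0]; exact one_ne_zero)
    · exact (ContDiff.sum fun i _ => contDiff_apply_apply ℝ ℝ i i).contDiffAt
  have hQd : DifferentiableAt ℝ Q 0 := hQc.differentiableAt (by norm_num)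
  have hf0 : fderiv ℝ Q 0 = 0 := by
    ext X
    have h1 : HasDerivAt (fun t : ℝ => Q (t • X)) (fderiv ℝ Q 0 X) 0 := by
      have h2 : HasFDerivAt Q (fderiv ℝ Q 0) ((0:ℝ) • X) := by
        rw [zero_smul]; exact hQd.hasFDerivAt
      have h3 : HasDerivAt (fun t : ℝ => t • X) X 0 := by
        simpa using (hasDerivAt_id (0:ℝ)).smul_const X
      exact h2.comp_hasDerivAt 0 h3
    have h2 : HasDerivAt (fun t : ℝ => Q (t • X)) 0 0 := by
      have e1 : (fun t : ℝ => Q (t • X))
          = fun t : ℝ => Real.log (1 + t • Matrix.of X).det - t * ∑ i, X i i := by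
        funext t
        rw [hQ1]
        simp only [Pi.smul_apply, smul_eq_mul, Finset.mul_sum]
        rfl
      rw [e1]
      have h3 := hasDerivAt_det_one_add (Matrix.of X)
      have h4 := h3.log (by simp)
      have h5 : HasDerivAt (fun t : ℝ => t * ∑ i, X i i) (∑ i, X i i) 0 := by
        simpa using (hasDerivAt_id (0:ℝ)).mul_const (∑ i, X i i)
      refine (h4.sub h5).congr_deriv ?_
      simp [Matrix.trace]
    rw [h1.unique h2]
    rfl
  have hfc : ContDiffAt ℝ 1 (fderiv ℝ Q) 0 := hQc.fderiv_right (by norm_num)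
  obtain ⟨K, s, hs, hK⟩ := hfc.exists_lipschitzOnWith
  have hev : ∀ᶠ X in 𝓝 (0 : Fin n → Fin n → ℝ), DifferentiableAt ℝ Q X := by
    have h1 := hQc.eventually (by norm_num)
    filter_upwards [h1] with X hX
    exact hX.differentiableAt (by norm_num)
  obtain ⟨r, hr, hball⟩ := Metric.mem_nhds_iff.1 (inter_mem hs hev)
  refine ⟨K + 1, r / 2, by positivity, by positivity, ?_⟩
  intro X Y d e hd hdr he hX hY hXY
  have hX1 : ‖(Matrix.of.symm X : Fin n → Fin n → ℝ)‖ ≤ d := by
    rw [pi_norm_le_iff_of_nonneg hd]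
    intro i
    rw [pi_norm_le_iff_of_nonneg hd]
    intro j
    exact hX i j
  have hY1 : ‖(Matrix.of.symm Y : Fin n → Fin n → ℝ)‖ ≤ d := by
    rw [pi_norm_le_iff_of_nonneg hd]
    intro i
    rw [pi_norm_le_iff_of_nonneg hd]
    intro j
    exact hY i j
  have hXY1 : ‖(Matrix.of.symm X : Fin n → Fin n → ℝ) - Matrix.of.symm Y‖ ≤ e := by
    rw [pi_norm_le_iff_of_nonneg he]
    intro i
    rw [pi_norm_le_iff_of_nonneg he]
    intro j
    exact hXY i j
  have hsub : Metric.closedBall (0 : Fin n → Fin n → ℝ) d ⊆ s ∩ {X | DifferentiableAt ℝ Q X} := by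
    refine Subset.trans ?_ hball
    intro Z hZ
    rw [Metric.mem_closedBall] at hZ
    rw [Metric.mem_ball]
    linarith
  have h0s : (0 : Fin n → Fin n → ℝ) ∈ s := mem_of_mem_nhds hs
  have hbd : ∀ Z ∈ Metric.closedBall (0 : Fin n → Fin n → ℝ) d, ‖fderiv ℝ Q Z‖ ≤ K * d := by
    intro Z hZ
    have h1 := hK.norm_sub_le (hsub hZ).1 h0s
    rw [hf0, sub_zero, sub_zero] at h1
    have h2 : ‖Z‖ ≤ d := by simpa using hZ
    exact h1.trans (mul_le_mul_of_nonneg_left h2 K.coe_nonneg)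
  have h3 := (convex_closedBall (0 : Fin n → Fin n → ℝ) d).norm_image_sub_le_of_norm_fderiv_le
    (f := Q) (C := K * d) (fun Z hZ => (hsub hZ).2) hbd
    (x := Matrix.of.symm Y) (y := Matrix.of.symm X) (by simpa using hY1) (by simpa using hX1)
  have h4 : Q (Matrix.of.symm X) - Q (Matrix.of.symm Y) = qL X - qL Y := rfl
  rw [h4, Real.norm_eq_abs] at h3
  calc |qL X - qL Y| ≤ K * d * ‖(Matrix.of.symm X : Fin n → Fin n → ℝ) - Matrix.of.symm Y‖ := h3
    _ ≤ K * d * e := mul_le_mul_of_nonneg_left hXY1 (by positivity)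
    _ ≤ (K + 1) * d * e := by
      have : 0 ≤ d * e := mul_nonneg hd he
      nlinarith

/-- exact expansion of `log det` -/
theorem log_det_add {g h : Matrix (Fin n) (Fin n) ℝ} (hg : 0 < g.det) (hgh : 0 < (g + h).det) :
    Real.log (g + h).det - Real.log g.det = (g⁻¹ * h).trace + qL (g⁻¹ * h) := by
  have hu : IsUnit g.det := hg.ne'.isUnit
  have h1 : g * (1 + g⁻¹ * h) = g + h := by
    rw [mul_add, mul_one, ← mul_assoc, Matrix.mul_nonsing_inv g hu, one_mul]
  have h2 : (g + h).det = g.det * (1 + g⁻¹ * h).det := by rw [← h1, Matrix.det_mul]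
  have h3 : 0 < (1 + g⁻¹ * h).det := by
    rw [h2] at hgh
    exact (mul_pos_iff_of_pos_left hg).1 hgh
  rw [h2, Real.log_mul hg.ne' h3.ne', qL]
  ring

end Crest.Agent.R238.EReg
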