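import Crest.Agent.R238.StepDefs

/-!
Row 238 (helper890): from `g = 1 + D²v` to `τ = g⁻¹`: ellipticity, bounds, Hölder and exterior
smallness.
-/

set_option autoImplicit false

open MeasureTheory Set Filter Matrix
open scoped ContDiff Topology

namespace Crest.Agent.R238.TauExt

variable {n : ℕ}

theorem quad_eq (A : Matrix (Fin n) (Fin n) ℝ) (z : Fin n → ℝ) :
    ∑ i, ∑ j, A i j * z i * z j = z ⬝ᵥ (A *ᵥ z) := by
  simp only [dotProduct, mulVec, Finset.mul_sum]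
  refine Finset.sum_congr rfl fun i _ => Finset.sum_congr rfl fun j _ => by ring

theorem sq_eq (z : Fin n → ℝ) : ∑ i, z i ^ 2 = z ⬝ᵥ z := by
  simp only [dotProduct]
  exact Finset.sum_congr rfl fun i _ => by ring

theorem dot_self_nonneg (z : Fin n → ℝ) : 0 ≤ z ⬝ᵥ z := by
  rw [← sq_eq]; positivity

theorem ell_lo {lo hi : ℝ} {A : Matrix (Fin n) (Fin n) ℝ} (h : Ell lo hi A) (z : Fin n → ℝ) :
    lo * (z ⬝ᵥ z) ≤ z ⬝ᵥ (A *ᵥ z) := by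
  have := (h.2 z).1; rwa [quad_eq, sq_eq] at this

theorem ell_hi {lo hi : ℝ} {A : Matrix (Fin n) (Fin n) ℝ} (h : Ell lo hi A) (z : Fin n → ℝ) :
    z ⬝ᵥ (A *ᵥ z) ≤ hi * (z ⬝ᵥ z) := by
  have := (h.2 z).2; rwa [quad_eq, sq_eq] at this

theorem ell_transpose {lo hi : ℝ} {A : Matrix (Fin n) (Fin n) ℝ} (h : Ell lo hi A) : Aᵀ = A := by
  ext i j; exact h.1 j i

theorem ell_mk {lo hi : ℝ} {A : Matrix (Fin n) (Fin n) ℝ} (hs : Aᵀ = A)
    (h1 : ∀ z : Fin n → ℝ, lo * (z ⬝ᵥ z) ≤ z ⬝ᵥ (A *ᵥ z))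
    (h2 : ∀ z : Fin n → ℝ, z ⬝ᵥ (A *ᵥ z) ≤ hi * (z ⬝ᵥ z)) : Ell lo hi A := by
  refine ⟨fun i j => ?_, fun z => ?_⟩
  · have := congrFun (congrFun hs j) i
    simpa [transpose_apply] using this
  · rw [quad_eq, sq_eq]; exact ⟨h1 z, h2 z⟩

/-- symmetry of the bilinear form -/
theorem bil_symm {A : Matrix (Fin n) (Fin n) ℝ} (hs : Aᵀ = A) (z w : Fin n → ℝ) :
    z ⬝ᵥ (A *ᵥ w) = w ⬝ᵥ (A *ᵥ z) := by
  rw [dotProduct_mulVec, ← mulVec_transpose, hs, dotProduct_comm]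

theorem ell_isUnit {lo hi : ℝ} (h0 : 0 < lo) {A : Matrix (Fin n) (Fin n) ℝ} (h : Ell lo hi A) :
    IsUnit A.det := by
  rw [← Matrix.isUnit_iff_isUnit_det]
  rw [← Matrix.mulVec_injective_iff_isUnit]
  rw [← Matrix.coe_mulVecLin, ← LinearMap.ker_eq_bot, LinearMap.ker_eq_bot']
  intro z hz
  have h1 := ell_lo h z
  have h2 : A *ᵥ z = 0 := by simpa using hz
  rw [h2, dotProduct_zero] at h1
  have h3 : z ⬝ᵥ z = 0 := le_antisymm (by nlinarith) (dot_self_nonneg z)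
  exact dotProduct_self_eq_zero.1 h3

theorem ell_inv {lo hi : ℝ} (h0 : 0 < lo) (h01 : lo ≤ hi) {A : Matrix (Fin n) (Fin n) ℝ}
    (h : Ell lo hi A) : Ell hi⁻¹ lo⁻¹ A⁻¹ := by
  have hu := ell_isUnit h0 h
  have hs := ell_transpose h
  have hsi : (A⁻¹)ᵀ = A⁻¹ := by rw [transpose_nonsing_inv, hs]
  have hhi : 0 < hi := h0.trans_le h01
  have key : ∀ z : Fin n → ℝ, A *ᵥ (A⁻¹ *ᵥ z) = z := fun z => by
    rw [mulVec_mulVec, Matrix.mul_nonsing_inv A hu, one_mulVec]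
  refine ell_mk hsi (fun z => ?_) (fun z => ?_)
  · set w := A⁻¹ *ᵥ z with hw
    have hz : A *ᵥ w = z := key z
    have h1 : 0 ≤ (w - hi⁻¹ • z) ⬝ᵥ (A *ᵥ (w - hi⁻¹ • z)) :=
      le_trans (mul_nonneg h0.le (dot_self_nonneg _)) (ell_lo h _)
    have h2 : (w - hi⁻¹ • z) ⬝ᵥ (A *ᵥ (w - hi⁻¹ • z)) =
        w ⬝ᵥ z - 2 * hi⁻¹ * (z ⬝ᵥ z) + hi⁻¹ ^ 2 * (z ⬝ᵥ (A *ᵥ z)) := by
      have e1 : w ⬝ᵥ (A *ᵥ z) = z ⬝ᵥ z := by rw [bil_symm hs, hz]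
      simp only [mulVec_sub, mulVec_smul, dotProduct_sub, sub_dotProduct, dotProduct_smul,
        smul_dotProduct, smul_eq_mul, hz, e1]
      ring
    have h3 := ell_hi h z
    have h4 : hi⁻¹ ^ 2 * (z ⬝ᵥ (A *ᵥ z)) ≤ hi⁻¹ * (z ⬝ᵥ z) := by
      calc hi⁻¹ ^ 2 * (z ⬝ᵥ (A *ᵥ z)) ≤ hi⁻¹ ^ 2 * (hi * (z ⬝ᵥ z)) := by gcongr
        _ = hi⁻¹ * (z ⬝ᵥ z) := by field_simp
    rw [dotProduct_comm z w]
    linarith
  · set w := A⁻¹ *ᵥ z with hw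
    have hz : A *ᵥ w = z := key z
    have h1 := ell_lo h w
    rw [hz] at h1
    have h2 : 0 ≤ (z - lo • w) ⬝ᵥ (z - lo • w) := dot_self_nonneg _
    have h3 : (z - lo • w) ⬝ᵥ (z - lo • w) = z ⬝ᵥ z - 2 * lo * (w ⬝ᵥ z) + lo ^ 2 * (w ⬝ᵥ w) := by
      simp only [dotProduct_sub, sub_dotProduct, dotProduct_smul, smul_dotProduct, smul_eq_mul,
        dotProduct_comm z w]
      ring
    rw [dotProduct_comm z w, inv_mul_eq_div, le_div_iff₀ h0]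
    nlinarith

/-- entries of a symmetric matrix with `0 ≤ B ≤ c` -/
theorem abs_entry_le {lo c : ℝ} (hlo : 0 ≤ lo) {B : Matrix (Fin n) (Fin n) ℝ}
    (h : Ell lo c B) (i j : Fin n) : |B i j| ≤ c := by
  have hs := ell_transpose h
  have q : ∀ i j : Fin n, (Pi.single i (1 : ℝ) : Fin n → ℝ) ⬝ᵥ (B *ᵥ Pi.single j 1) = B i j := by
    intro i j
    simp [mulVec_single_one]
  have hd : ∀ i : Fin n, B i i ≤ c := fun i => by
    have := ell_hi h (Pi.single i 1)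
    rw [q] at this
    simpa using this
  have hp : ∀ s : ℝ, s ^ 2 = 1 → 0 ≤ B i i + 2 * s * B i j + B j j := by
    intro s hs2
    have h1 : 0 ≤ (Pi.single i (1 : ℝ) + s • Pi.single j (1 : ℝ) : Fin n → ℝ) ⬝ᵥ
        (B *ᵥ (Pi.single i (1 : ℝ) + s • Pi.single j (1 : ℝ))) :=
      le_trans (mul_nonneg hlo (dot_self_nonneg _)) (ell_lo h _)
    have h2 : (Pi.single i (1 : ℝ) + s • Pi.single j (1 : ℝ) : Fin n → ℝ) ⬝ᵥ
        (B *ᵥ (Pi.single i (1 : ℝ) + s • Pi.single j (1 : ℝ))) =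
        B i i + s * B i j + s * B j i + s ^ 2 * B j j := by
      simp only [mulVec_add, mulVec_smul, dotProduct_add, add_dotProduct, dotProduct_smul,
        smul_dotProduct, smul_eq_mul, q]
      ring
    rw [h2, hs2, ← h.1 i j] at h1
    linarith
  have h1 := hp 1 (by norm_num)
  have h2 := hp (-1) (by norm_num)
  have h3 := hd i
  have h4 := hd j
  rw [abs_le]
  constructor <;> linarith

theorem abs_inv_le {lo hi : ℝ} (h0 : 0 < lo) (h01 : lo ≤ hi) {A : Matrix (Fin n) (Fin n) ℝ}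
    (h : Ell lo hi A) (i j : Fin n) : |A⁻¹ i j| ≤ lo⁻¹ :=
  abs_entry_le (inv_nonneg.2 (h0.le.trans h01)) (ell_inv h0 h01 h) i j

theorem inv_sub_le {lo hi : ℝ} (h0 : 0 < lo) (h01 : lo ≤ hi) {A B : Matrix (Fin n) (Fin n) ℝ}
    (hA : Ell lo hi A) (hB : Ell lo hi B) {d : ℝ} (hd : ∀ i j, |A i j - B i j| ≤ d)
    (i j : Fin n) : |A⁻¹ i j - B⁻¹ i j| ≤ (n : ℝ) ^ 2 * lo⁻¹ ^ 2 * d := by
  have hAu := ell_isUnit h0 hA
  have hBu := ell_isUnit h0 hB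
  have e : A⁻¹ - B⁻¹ = A⁻¹ * (B - A) * B⁻¹ := by
    rw [mul_sub, Matrix.nonsing_inv_mul A hAu, sub_mul, Matrix.mul_assoc,
      Matrix.mul_nonsing_inv B hBu, one_mul, mul_one]
  have e2 : A⁻¹ i j - B⁻¹ i j = ∑ l, ∑ k, A⁻¹ i k * (B k l - A k l) * B⁻¹ l j := by
    rw [← Matrix.sub_apply, e, Matrix.mul_apply]
    refine Finset.sum_congr rfl fun l _ => ?_
    rw [Matrix.mul_apply, Finset.sum_mul]
    rfl
  have hl : 0 ≤ lo⁻¹ := (inv_pos.2 h0).le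
  rw [e2]
  calc |∑ l, ∑ k, A⁻¹ i k * (B k l - A k l) * B⁻¹ l j|
      ≤ ∑ l : Fin n, ∑ k : Fin n, |A⁻¹ i k * (B k l - A k l) * B⁻¹ l j| :=
        (Finset.abs_sum_le_sum_abs _ _).trans
          (Finset.sum_le_sum fun l _ => Finset.abs_sum_le_sum_abs _ _)
    _ ≤ ∑ l : Fin n, ∑ k : Fin n, lo⁻¹ * d * lo⁻¹ := by
        refine Finset.sum_le_sum fun l _ => Finset.sum_le_sum fun k _ => ?_
        rw [abs_mul, abs_mul]
        have h1 := abs_inv_le h0 h01 hA i k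
        have h2 := abs_inv_le h0 h01 hB l j
        have h3 : |B k l - A k l| ≤ d := by rw [abs_sub_comm]; exact hd k l
        have hd0 : 0 ≤ d := (abs_nonneg _).trans h3
        gcongr
    _ = (n : ℝ) ^ 2 * lo⁻¹ ^ 2 * d := by
        simp only [Finset.sum_const, Finset.card_univ, Fintype.card_fin, nsmul_eq_mul]
        ring

theorem inv_sub_one_le {lo hi : ℝ} (h0 : 0 < lo) (h01 : lo ≤ hi) {A : Matrix (Fin n) (Fin n) ℝ}
    (hA : Ell lo hi A) {d : ℝ} (hd : ∀ i j, |A i j - (1 : Matrix (Fin n) (Fin n) ℝ) i j| ≤ d)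
    (i j : Fin n) : |A⁻¹ i j - (1 : Matrix (Fin n) (Fin n) ℝ) i j| ≤ n * lo⁻¹ * d := by
  have hAu := ell_isUnit h0 hA
  have e : A⁻¹ - 1 = A⁻¹ * (1 - A) := by
    rw [mul_sub, Matrix.nonsing_inv_mul A hAu, mul_one]
  have hl : 0 ≤ lo⁻¹ := (inv_pos.2 h0).le
  rw [← Matrix.sub_apply, e, Matrix.mul_apply]
  calc |∑ k, A⁻¹ i k * (1 - A) k j| ≤ ∑ k : Fin n, |A⁻¹ i k * (1 - A) k j| :=
        Finset.abs_sum_le_sum_abs _ _
    _ ≤ ∑ _k : Fin n, lo⁻¹ * d := by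
        refine Finset.sum_le_sum fun k _ => ?_
        rw [abs_mul]
        have h1 := abs_inv_le h0 h01 hA i k
        have h3 : |(1 - A) k j| ≤ d := by
          rw [Matrix.sub_apply, abs_sub_comm]; exact hd k j
        have hd0 : 0 ≤ d := (abs_nonneg _).trans h3
        gcongr
    _ = n * lo⁻¹ * d := by
        simp only [Finset.sum_const, Finset.card_univ, Fintype.card_fin, nsmul_eq_mul]
        ring

/-- (T1) -/
theorem ell_tauf {lo hi : ℝ} (h0 : 0 < lo) (h01 : lo ≤ hi) {v : E n → ℝ} {x : E n}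
    (h : Ell lo hi (gm v x)) : Ell hi⁻¹ lo⁻¹ (tauf v x) := ell_inv h0 h01 h

theorem abs_tauf_le {lo hi : ℝ} (h0 : 0 < lo) (h01 : lo ≤ hi) {v : E n → ℝ} {x : E n}
    (h : Ell lo hi (gm v x)) (i j : Fin n) : |tauf v x i j| ≤ lo⁻¹ := abs_inv_le h0 h01 h i j

theorem gm_sub (v : E n → ℝ) (x y : E n) (i j : Fin n) :
    gm v x i j - gm v y i j = Hs v x i j - Hs v y i j := by
  simp [gm]

theorem gm_sub_one (v : E n → ℝ) (x : E n) (i j : Fin n) :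
    gm v x i j - (1 : Matrix (Fin n) (Fin n) ℝ) i j = Hs v x i j := by
  simp [gm]

/-- (T2) Hölder bound of `τ` -/
theorem hb_tauf {a M lo hi : ℝ} (h0 : 0 < lo) (h01 : lo ≤ hi) {v : E n → ℝ}
    (hE : ∀ x, Ell lo hi (gm v x)) (hb : ∀ i j, HB a M (fun x => Hs v x i j)) (i j : Fin n) :
    HB a ((n : ℝ) ^ 2 * lo⁻¹ ^ 2 * M + lo⁻¹) (fun x => tauf v x i j) := by
  have hl : 0 < lo⁻¹ := inv_pos.2 h0
  have hM : 0 ≤ M := (abs_nonneg _).trans ((hb i j).1 0)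
  refine ⟨fun x => ?_, fun x y => ?_⟩
  · have h1 := abs_tauf_le h0 h01 (hE x) i j
    have h2 : 0 ≤ (n : ℝ) ^ 2 * lo⁻¹ ^ 2 * M := by positivity
    linarith
  · have h1 : ∀ k l, |gm v x k l - gm v y k l| ≤ M * ‖x - y‖ ^ a := fun k l => by
      rw [gm_sub]; exact (hb k l).2 x y
    have h2 := inv_sub_le h0 h01 (hE x) (hE y) h1 i j
    have h3 : 0 ≤ ‖x - y‖ ^ a := Real.rpow_nonneg (norm_nonneg _) a
    calc |tauf v x i j - tauf v y i j| ≤ (n : ℝ) ^ 2 * lo⁻¹ ^ 2 * (M * ‖x - y‖ ^ a) := h2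
      _ = ((n : ℝ) ^ 2 * lo⁻¹ ^ 2 * M) * ‖x - y‖ ^ a := by ring
      _ ≤ _ := mul_le_mul_of_nonneg_right (by linarith) h3

/-- (T3) exterior smallness of `τ - 1`, sup part -/
theorem ext_tauf_sup {ε lo hi : ℝ} (h0 : 0 < lo) (h01 : lo ≤ hi) {v : E n → ℝ} {x : E n}
    (hE : Ell lo hi (gm v x)) (hs : ∀ i j, |Hs v x i j| ≤ ε) (i j : Fin n) :
    |tauf v x i j - (1 : Matrix (Fin n) (Fin n) ℝ) i j| ≤ n * lo⁻¹ * ε :=
  inv_sub_one_le h0 h01 hE (fun k l => by rw [gm_sub_one]; exact hs k l) i j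

/-- (T3) exterior smallness of `τ - 1`, Hölder part -/
theorem ext_tauf_hol {d lo hi : ℝ} (h0 : 0 < lo) (h01 : lo ≤ hi) {v : E n → ℝ} {x y : E n}
    (hx : Ell lo hi (gm v x)) (hy : Ell lo hi (gm v y))
    (hs : ∀ i j, |Hs v x i j - Hs v y i j| ≤ d) (i j : Fin n) :
    |tauf v x i j - tauf v y i j| ≤ (n : ℝ) ^ 2 * lo⁻¹ ^ 2 * d :=
  inv_sub_le h0 h01 hx hy (fun k l => by rw [gm_sub]; exact hs k l) i j

end Crest.Agent.R238.TauExt
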