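import Crest.Agent.R238.BootB
import Crest.Agent.R238.CK
import Crest.Agent.R238.TauExt
import Crest.Agent.R238.AprDefs
import Crest.Agent.R238.ExiDefs
import Crest.Agent.R238.StepMat

/-!
Row 238 (S0369), node H6 (helper978), part 4: the differentiated Monge-Ampère equation and the
bootstrap of `v` to all orders from the first step and the linear induction.
-/

set_option autoImplicit false
set_option maxHeartbeats 400000

open MeasureTheory Set Filter
open scoped ContDiff Topology

namespace Crest.Agent.R238.EReg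

variable {n : ℕ}

theorem ck_iff {a : ℝ} {k : ℕ} {f : E n → ℝ} : Boot.CK a k f ↔ CK a k f := by
  induction k generalizing f with
  | zero => exact Iff.rfl
  | succ k ih =>
    constructor
    · rintro ⟨h1, h2, h3⟩
      exact ⟨h1, h2, fun i => ih.1 (h3 i)⟩
    · rintro ⟨h1, h2, h3⟩
      exact ⟨h1, h2, fun i => ih.2 (h3 i)⟩

theorem fderiv_pd_apply {f : E n → ℝ} (h : ContDiff ℝ 2 f) (e : Fin n) (x z : E n) :
    fderiv ℝ (Boot.pd e f) x z = fderiv ℝ (fderiv ℝ f) x z (ee e) := by
  have h1 : Differentiable ℝ (fderiv ℝ f) :=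
    (h.fderiv_right (m := 1) (by norm_num)).differentiable one_ne_zero
  have h2 : HasFDerivAt (fun y => fderiv ℝ f y (ee e))
      ((ContinuousLinearMap.apply ℝ ℝ (ee e : E n)).comp (fderiv ℝ (fderiv ℝ f) x)) x :=
    (ContinuousLinearMap.apply ℝ ℝ (ee e : E n)).hasFDerivAt.comp x (h1 x).hasFDerivAt
  have h3 : fderiv ℝ (Boot.pd e f) x = _ := h2.fderiv
  rw [h3]
  rfl

/-- the differentiated Monge-Ampère equation -/
theorem ma_diff {P v : E n → ℝ} {s : ℝ} (hv : ContDiff ℝ 3 v)
    (hdet : ∀ x, 0 < (gm v x).det) (hP : Differentiable ℝ P) (hMA : MAeq P s v) (e : Fin n)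
    (x : E n) : LA (tauf v) (Boot.pd e v) x = Boot.pd e (fun y => -s * P y) x := by
  have hv2 : ContDiff ℝ 2 v := hv.of_le (by norm_num)
  have hd1 : Differentiable ℝ v := hv2.differentiable (by norm_num)
  have hd2 : Differentiable ℝ (fderiv ℝ v) :=
    (hv2.fderiv_right (m := 1) (by norm_num)).differentiable one_ne_zero
  have hl : HasDerivAt (fun t : ℝ => x + t • (ee e : E n)) (ee e) 0 := by
    simpa using ((hasDerivAt_id (0:ℝ)).smul_const (ee e : E n)).const_add x
  -- derivative of the matrix entries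
  have hH : ∀ i j, Differentiable ℝ (fun y => Hs v y i j) := by
    intro i j
    have e1 : (fun y => Hs v y i j) = Boot.pd i (Boot.pd j v) := by
      funext y; exact (Boot.pd_pd_eq hv2 i j y).symm
    rw [e1]
    have h3 : ContDiff ℝ ((2 : ℕ) + 1) v := by exact_mod_cast hv
    have h4 : ContDiff ℝ ((1 : ℕ) + 1) (Boot.pd j v) := by exact_mod_cast Boot.contDiff_pd j h3
    exact (Boot.contDiff_pd i h4).differentiable (by norm_num)
  have hg : ∀ i j, HasDerivWithinAt (fun t : ℝ => gm v (x + t • (ee e : E n)) i j)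
      (Hs (Boot.pd e v) x i j) univ 0 := by
    intro i j
    have h1 : HasFDerivAt (fun y => Hs v y i j) (fderiv ℝ (fun y => Hs v y i j) x)
        (x + (0:ℝ) • (ee e : E n)) := by
      rw [zero_smul, add_zero]; exact (hH i j x).hasFDerivAt
    have h2 := h1.comp_hasDerivAt 0 hl
    have h3 : HasDerivAt (fun t : ℝ => gm v (x + t • (ee e : E n)) i j)
        (fderiv ℝ (fun y => Hs v y i j) x (ee e)) 0 := by
      have h4 := h2.const_add ((1 : Matrix (Fin n) (Fin n) ℝ) i j)
      exact h4
    rw [hasDerivWithinAt_univ]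
    refine h3.congr_deriv ?_
    exact Boot.pd_Hs hv e i j x
  have hp2 : ContDiff ℝ 2 (Boot.pd e v) := by
    have h3 : ContDiff ℝ ((2 : ℕ) + 1) v := by exact_mod_cast hv
    exact_mod_cast Boot.contDiff_pd e h3
  have hA : HasDerivAt (fun t : ℝ => Real.log (gm v (x + t • (ee e : E n))).det)
      (∑ i, ∑ j, tauf v x i j * Hs (Boot.pd e v) x i j) 0 := by
    have h1 := sm_hasDerivWithinAt_log_det_sum (S := univ) (t := 0)
      (g := fun t : ℝ => gm v (x + t • (ee e : E n)))
      (g' := Matrix.of fun i j => Hs (Boot.pd e v) x i j) hg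
      (fun i j => Boot.Hs_symm hp2 x i j) (hdet _)
    rw [hasDerivWithinAt_univ] at h1
    refine h1.congr_deriv ?_
    simp only [zero_smul, add_zero, Matrix.of_apply, tauf]
  -- derivative of the right side
  have hB : HasDerivAt (fun t : ℝ => Real.log (gm v (x + t • (ee e : E n))).det)
      (-s * fderiv ℝ P x (ee e) + (fderiv ℝ (fderiv ℝ v) x (ee e) x + fderiv ℝ v x (ee e))
        - fderiv ℝ v x (ee e)) 0 := by
    have e1 : (fun t : ℝ => Real.log (gm v (x + t • (ee e : E n))).det)
        = fun t : ℝ => -s * P (x + t • (ee e : E n))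
          + fderiv ℝ v (x + t • (ee e : E n)) (x + t • (ee e : E n))
          - v (x + t • (ee e : E n)) := by
      funext t
      have := hMA (x + t • (ee e : E n))
      linarith
    rw [e1]
    have hP1 : HasDerivAt (fun t : ℝ => -s * P (x + t • (ee e : E n)))
        (-s * fderiv ℝ P x (ee e)) 0 := by
      have h1 : HasFDerivAt P (fderiv ℝ P x) (x + (0:ℝ) • (ee e : E n)) := by
        rw [zero_smul, add_zero]; exact (hP x).hasFDerivAt
      exact (h1.comp_hasDerivAt 0 hl).const_mul _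
    have hv1 : HasDerivAt (fun t : ℝ => v (x + t • (ee e : E n))) (fderiv ℝ v x (ee e)) 0 := by
      have h1 : HasFDerivAt v (fderiv ℝ v x) (x + (0:ℝ) • (ee e : E n)) := by
        rw [zero_smul, add_zero]; exact (hd1 x).hasFDerivAt
      exact h1.comp_hasDerivAt 0 hl
    have hv2' : HasDerivAt (fun t : ℝ => fderiv ℝ v (x + t • (ee e : E n)) (x + t • (ee e : E n)))
        (fderiv ℝ (fderiv ℝ v) x (ee e) x + fderiv ℝ v x (ee e)) 0 := by
      have h1 : HasFDerivAt (fderiv ℝ v) (fderiv ℝ (fderiv ℝ v) x) (x + (0:ℝ) • (ee e : E n)) := by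
        rw [zero_smul, add_zero]; exact (hd2 x).hasFDerivAt
      have h2 : HasDerivAt (fun t : ℝ => fderiv ℝ v (x + t • (ee e : E n)))
          (fderiv ℝ (fderiv ℝ v) x (ee e)) 0 := h1.comp_hasDerivAt 0 hl
      have h3 := h2.clm_apply hl
      simpa using h3
    exact (hP1.add hv2').sub hv1
  have hAB := hA.unique hB
  have hsym : fderiv ℝ (fderiv ℝ v) x (ee e) x = fderiv ℝ (Boot.pd e v) x x := by
    rw [fderiv_pd_apply hv2]
    have := (hv2.contDiffAt (x := x)).isSymmSndFDerivAt (by simp)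
    exact this (ee e) x
  have hpd : Boot.pd e (fun y => -s * P y) x = -s * fderiv ℝ P x (ee e) := by
    show fderiv ℝ (fun y => -s * P y) x (ee e) = _
    have h1 : HasFDerivAt (fun y => -s * P y) ((-s) • fderiv ℝ P x) x :=
      (hP x).hasFDerivAt.const_mul (-s)
    rw [h1.fderiv]
    rfl
  rw [hpd, LA, hAB, hsym]
  ring

/-- **bootstrap of `v`** from the first step and the linear one-step lemma -/
theorem ck_v {a lo hi : ℝ} (ha : 0 < a) (ha1 : a < 1) (hlo : 0 < lo)
    {P v : E n → ℝ} {s : ℝ} (hP : Tst P) (hv : ContDiff ℝ 2 v)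
    (hE : ∀ x, Ell lo hi (gm v x)) (hMA : MAeq P s v)
    (hstep : Boot.StepStmt a (tauf v)) (h1 : ∀ i j, CK a 1 (fun x => Hs v x i j)) (k : ℕ) :
    ∀ i j, CK a k (fun x => Hs v x i j) := by
  -- `v ∈ C³`
  have hpd1 : ∀ e i x, Boot.pd i (Boot.pd e v) x = Hs v x i e := fun e i x =>
    Boot.pd_pd_eq hv i e x
  have hv3 : ContDiff ℝ 3 v := by
    refine Boot.contDiff_three hv fun e => ?_
    have h2 : ContDiff ℝ ((1 : ℕ) + 1) (Boot.pd e v) := by
      refine Boot.contDiff_succ_of_pd ?_ fun i => ?_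
      · have : ContDiff ℝ ((1 : ℕ) + 1) v := by exact_mod_cast hv
        exact (Boot.contDiff_pd e this).differentiable (by norm_num)
      · have e1 : Boot.pd i (Boot.pd e v) = fun x => Hs v x i e := by
          funext x; exact hpd1 e i x
        rw [e1]
        exact (h1 i e).contDiff ha
    exact_mod_cast h2
  have hdet : ∀ x, 0 < (gm v x).det := fun x => (hE x).sm_det_pos hlo
  have hPd : Differentiable ℝ P := hP.smooth.differentiable (by simp)
  have hf : Tst (fun y => -s * P y) := ⟨contDiff_const.mul hP.smooth, hP.supp.mul_left⟩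
  have hfk : ∀ k e, CK a k (Boot.pd e (fun y => -s * P y)) := fun k e =>
    (CK.of_tst (k := k + 1) ha.le ha1.le hf).der e
  induction k with
  | zero => intro i j; exact (h1 i j).mono (Nat.zero_le _)
  | succ k ih =>
    intro i j
    have hτ : ∀ i j, CK a k (fun x => tauf v x i j) := fun i j => CK_tauf' ih hlo hE i j
    refine ⟨(h1 i j).hb, (h1 i j).diff, fun e => ?_⟩
    have hp2 : ContDiff ℝ 2 (Boot.pd e v) := by
      have h3 : ContDiff ℝ ((2 : ℕ) + 1) v := by exact_mod_cast hv3
      exact_mod_cast Boot.contDiff_pd e h3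
    have hHe : ∀ i j, (fun x => Hs (Boot.pd e v) x i j)
        = fun x => fderiv ℝ (fun y => Hs v y i j) x (ee e) := by
      intro i j
      funext x
      exact (Boot.pd_Hs hv3 e i j x).symm
    have hHb : ∀ i j, ∃ M, HB a M (fun x => Hs (Boot.pd e v) x i j) := by
      intro i j
      rw [hHe]
      exact ((h1 i j).der e).hb
    have hG : ∃ G, ∀ x, ‖fderiv ℝ (Boot.pd e v) x‖ ≤ G := by
      choose M hM using fun i => (h1 i e).hb
      have hM0 : ∀ i, 0 ≤ M i := fun i => Boot.HB.nonneg (hM i)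
      refine ⟨n * ∑ i, M i, fun x => Boot.norm_fderiv_le (fun i => ?_)
        (Finset.sum_nonneg fun i _ => hM0 i)⟩
      rw [hpd1]
      exact ((hM i).1 x).trans (Finset.single_le_sum (fun j _ => hM0 j) (Finset.mem_univ i))
    have h5 := Boot.lin ha ha1.le hstep k (Boot.pd e (fun y => -s * P y)) (Boot.pd e v)
      (fun i j => ck_iff.2 (hτ i j)) (ck_iff.2 (hfk k e)) hp2 hHb hG
      (fun x => ma_diff hv3 hdet hPd hMA e x) i j
    rw [hHe] at h5
    exact ck_iff.1 h5

theorem nice_v {a lo hi : ℝ} (ha : 0 < a) (ha1 : a < 1) (hlo : 0 < lo)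
    {P v : E n → ℝ} {s : ℝ} (hP : Tst P) (hv : ContDiff ℝ 2 v)
    (hE : ∀ x, Ell lo hi (gm v x)) (hMA : MAeq P s v)
    (hstep : Boot.StepStmt a (tauf v)) (h1 : ∀ i j, CK a 1 (fun x => Hs v x i j)) : Nice v :=
  nice_of_CK ha hv fun k => ck_v ha ha1 hlo hP hv hE hMA hstep h1 k

end Crest.Agent.R238.EReg
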