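import Crest.Agent.R238.BootC
import Crest.Agent.R238.EReg4

/-!
Row 238 (S0369), node H6 (helper978), part 5: the Schauder estimate `SchT a (tauf v)` for one
solution from (B), and the assembly of `RegStmt` from the two one-step lemmas.
-/

set_option autoImplicit false
set_option maxHeartbeats 400000

open MeasureTheory Set Filter
open scoped ContDiff Topology

namespace Crest.Agent.R238.EReg

variable {n : ℕ}

/-- (B) for `τ = tauf v` -/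
theorem schT_of (hB : Apr.SchStmt) (n : ℕ) {a lo hi : ℝ} (ha : 0 < a) (ha1 : a < 1)
    (hlo : 0 < lo) (hlohi : lo ≤ hi) : ∃ ε₁ : ℝ, 0 < ε₁ ∧ ∀ (M R : ℝ) (v : E n → ℝ),
      (∀ i j, HB a M (fun x => Hs v x i j)) → (∀ x, Ell lo hi (gm v x)) → ExtS a ε₁ R v →
      Boot.SchT a (tauf v) := by
  have hhi : 0 < hi := hlo.trans_le hlohi
  obtain ⟨ε₀, hε₀, H⟩ := hB n a hi⁻¹ lo⁻¹ ha ha1 (inv_pos.2 hhi) (inv_anti₀ hlo hlohi)
  set c : ℝ := (n : ℝ) * lo⁻¹ + (n : ℝ) ^ 2 * lo⁻¹ ^ 2 + 1 with hc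
  have hl : 0 < lo⁻¹ := inv_pos.2 hlo
  have hc0 : 0 < c := by positivity
  refine ⟨ε₀ / c, div_pos hε₀ hc0, fun M R v hM hE hext => ?_⟩
  have h1 : (n : ℝ) * lo⁻¹ * (ε₀ / c) ≤ ε₀ := by
    have h2 : (n : ℝ) * lo⁻¹ ≤ c := by
      have : 0 ≤ (n : ℝ) ^ 2 * lo⁻¹ ^ 2 := by positivity
      linarith
    calc (n : ℝ) * lo⁻¹ * (ε₀ / c) ≤ c * (ε₀ / c) :=
          mul_le_mul_of_nonneg_right h2 (by positivity)
      _ = ε₀ := by field_simp
  have h2 : (n : ℝ) ^ 2 * lo⁻¹ ^ 2 * (ε₀ / c) ≤ ε₀ := by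
    have h3 : (n : ℝ) ^ 2 * lo⁻¹ ^ 2 ≤ c := by
      have : 0 ≤ (n : ℝ) * lo⁻¹ := by positivity
      linarith
    calc (n : ℝ) ^ 2 * lo⁻¹ ^ 2 * (ε₀ / c) ≤ c * (ε₀ / c) :=
          mul_le_mul_of_nonneg_right h3 (by positivity)
      _ = ε₀ := by field_simp
  obtain ⟨C, R', _, HC⟩ := H ((n : ℝ) ^ 2 * lo⁻¹ ^ 2 * M + lo⁻¹) R
  have hfar : Apr.Far a ε₀ R (tauf v) := by
    intro x y hx hy i j
    refine ⟨(TauExt.ext_tauf_sup hlo hlohi (hE x) (hext.1 x hx) i j).trans h1, ?_⟩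
    refine (TauExt.ext_tauf_hol hlo hlohi (hE x) (hE y) (hext.2 x y hx hy) i j).trans ?_
    rw [← mul_assoc]
    exact mul_le_mul_of_nonneg_right h2 (Real.rpow_nonneg (norm_nonneg _) _)
  exact ⟨C, R', fun lam hlam h N S h2 hHB hN hS => HC (tauf v)
    (fun x => TauExt.ell_tauf hlo hlohi (hE x))
    (fun i j => TauExt.hb_tauf hlo hlohi hE hM i j) hfar lam hlam h N S h2 hHB hN hS⟩

/-- nonlinear first step, as a Prop (helper190) -/
def NLStep : Prop := ∀ (n : ℕ) (a lo hi : ℝ), 0 < a → a < 1 → 0 < lo → lo ≤ hi →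
  ∀ (M : ℝ) (P : E n → ℝ), Tst P → ∀ (s : ℝ) (v : E n → ℝ), ContDiff ℝ 2 v →
    (∀ i j, HB a M (fun x => Hs v x i j)) → (∀ x, Ell lo hi (gm v x)) → MAeq P s v →
    Boot.SchT a (tauf v) → ∀ i j, CK a 1 (fun x => Hs v x i j)

/-- linear one-step lemma, as a Prop (helper174/303) -/
def LinStep : Prop := ∀ (n : ℕ) (a : ℝ), 0 < a → a < 1 →
  ∀ τ : E n → Matrix (Fin n) (Fin n) ℝ, (∀ i j, Boot.CK a 1 (fun x => τ x i j)) →
    Boot.SchT a τ → Boot.StepStmt a τ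

/-- **H6** from (B) and the two one-step lemmas -/
theorem reg_of (hB : Apr.SchStmt) (hNL : NLStep) (hLin : LinStep) : RegStmt := by
  intro n a lo hi ha ha1 hlo hlohi
  obtain ⟨ε₁, hε₁, H⟩ := schT_of hB n ha ha1 hlo hlohi
  refine ⟨ε₁, hε₁, fun M R P hP s v hcls hE hMA hext => ?_⟩
  have hT := H M R v hcls.hb hE hext
  have h1 := hNL n a lo hi ha ha1 hlo hlohi M P hP s v hcls.c2 hcls.hb hE hMA hT
  have hτ : ∀ i j, Boot.CK a 1 (fun x => tauf v x i j) := fun i j =>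
    ck_iff.2 (CK_tauf' h1 hlo hE i j)
  exact nice_v ha ha1 hlo hP hcls.c2 hE hMA (hLin n a ha ha1 (tauf v) hτ hT) h1

end Crest.Agent.R238.EReg
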