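import Crest.Agent.R238.EReg3
import Crest.Agent.R238.EReg5

/-!
Row 238 (S0369), node H6 (helper978), part 6: the nonlinear first step.
-/

set_option autoImplicit false
set_option maxHeartbeats 400000

open MeasureTheory Set Filter
open scoped ContDiff Topology

namespace Crest.Agent.R238.EReg

variable {n : ℕ}

/-- absorption -/
theorem hb_absorb {a A W₀ : ℝ} {ι : Type*} {f : ι → E n → ℝ}
    (h0 : ∀ i, HB a W₀ (f i)) (h : ∀ W, (∀ i, HB a W (f i)) → ∀ i, HB a (A + W / 2) (f i)) :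
    ∀ i, HB a (2 * A) (f i) := by
  have hk : ∀ k : ℕ, ∀ i, HB a (2 * A + (W₀ - 2 * A) / 2 ^ k) (f i) := by
    intro k
    induction k with
    | zero => intro i; simpa using h0 i
    | succ k ih =>
      intro i
      have h1 := h _ ih i
      have e : A + (2 * A + (W₀ - 2 * A) / 2 ^ k) / 2 = 2 * A + (W₀ - 2 * A) / 2 ^ (k + 1) := by
        rw [pow_succ]; field_simp; ring
      rwa [e] at h1
  intro i
  refine hb_of_forall_gt fun N hN => ?_
  have hlim : Tendsto (fun k : ℕ => 2 * A + (W₀ - 2 * A) / 2 ^ k) atTop (𝓝 (2 * A + 0)) := by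
    refine tendsto_const_nhds.add ?_
    have h1 : Tendsto (fun k : ℕ => (W₀ - 2 * A) * (1 / 2 : ℝ) ^ k) atTop
        (𝓝 ((W₀ - 2 * A) * 0)) :=
      (tendsto_pow_atTop_nhds_zero_of_lt_one (by norm_num) (by norm_num)).const_mul _
    rw [mul_zero] at h1
    refine h1.congr fun k => ?_
    rw [one_div, inv_pow]; rfl
  rw [add_zero] at hlim
  obtain ⟨k, hk1⟩ := (hlim.eventually (gt_mem_nhds hN)).exists
  exact hb_mono (hk k i) hk1.le

/-- path `t ↦ x + t z` -/
theorem hasDerivAt_path (x z : E n) (t : ℝ) : HasDerivAt (fun t : ℝ => x + t • z) z t := by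
  simpa using ((hasDerivAt_id t).smul_const z).const_add x

/-- first order difference bound -/
theorem diff_le {u : E n → ℝ} (hu : Differentiable ℝ u) (x z : E n) {B : ℝ}
    (hB : ∀ t : ℝ, |fderiv ℝ u (x + t • z) z| ≤ B) : |u (x + z) - u x| ≤ B := by
  have h1 : ∀ t ∈ Icc (0:ℝ) 1, HasDerivWithinAt (fun t : ℝ => u (x + t • z))
      (fderiv ℝ u (x + t • z) z) (Icc 0 1) t := fun t _ =>
    ((hu _).hasFDerivAt.comp_hasDerivAt t (hasDerivAt_path x z t)).hasDerivWithinAt
  have h2 := norm_image_sub_le_of_norm_deriv_le_segment_01' h1 (fun t _ => hB t)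
  simpa using h2

/-- second order difference bound -/
theorem diff_le2 {u : E n → ℝ} (hu : ContDiff ℝ 2 u) (x z : E n) {B : ℝ}
    (hB : ∀ t : ℝ, |fderiv ℝ (fderiv ℝ u) (x + t • z) z z| ≤ B) :
    |fderiv ℝ u (x + z) z - (u (x + z) - u x)| ≤ B := by
  have hd1 : Differentiable ℝ u := hu.differentiable (by norm_num)
  have hd2 : Differentiable ℝ (fderiv ℝ u) :=
    (hu.fderiv_right (m := 1) (by norm_num)).differentiable one_ne_zero
  have hB0 : 0 ≤ B := (abs_nonneg _).trans (hB 0)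
  have hφ : ∀ t : ℝ, HasDerivAt (fun t : ℝ => u (x + t • z)) (fderiv ℝ u (x + t • z) z) t :=
    fun t => (hd1 _).hasFDerivAt.comp_hasDerivAt t (hasDerivAt_path x z t)
  have hφ2 : ∀ t : ℝ, HasDerivAt (fun t : ℝ => fderiv ℝ u (x + t • z) z)
      (fderiv ℝ (fderiv ℝ u) (x + t • z) z z) t := by
    intro t
    have h1 : HasDerivAt (fun t : ℝ => fderiv ℝ u (x + t • z))
      (fderiv ℝ (fderiv ℝ u) (x + t • z) z) t :=
      (hd2 _).hasFDerivAt.comp_hasDerivAt t (hasDerivAt_path x z t)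
    have h2 := h1.clm_apply (hasDerivAt_const t z)
    simpa using h2
  -- `|φ'(1) - φ'(t)| ≤ B`
  have h3 : ∀ t ∈ Icc (0:ℝ) 1, |fderiv ℝ u (x + z) z - fderiv ℝ u (x + t • z) z| ≤ B := by
    intro t ht
    have h4 := (convex_univ (𝕜 := ℝ) (E := ℝ)).norm_image_sub_le_of_norm_hasDerivWithin_le
      (f := fun t : ℝ => fderiv ℝ u (x + t • z) z) (C := B)
      (fun t _ => (hφ2 t).hasDerivWithinAt) (fun t _ => hB t) (mem_univ t) (mem_univ 1)
    simp only [one_smul] at h4
    rw [Real.norm_eq_abs, Real.norm_eq_abs] at h4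
    refine h4.trans ?_
    have h5 : |1 - t| ≤ 1 := by rw [abs_le]; constructor <;> linarith [ht.1, ht.2]
    nlinarith
  have h4 : ∀ t ∈ Icc (0:ℝ) 1, HasDerivWithinAt
      (fun t : ℝ => t * fderiv ℝ u (x + z) z - u (x + t • z))
      (fderiv ℝ u (x + z) z - fderiv ℝ u (x + t • z) z) (Icc 0 1) t := by
    intro t _
    have h5 : HasDerivAt (fun t : ℝ => t * fderiv ℝ u (x + z) z) (fderiv ℝ u (x + z) z) t := by
      simpa using (hasDerivAt_id t).mul_const (fderiv ℝ u (x + z) z)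
    exact (h5.sub (hφ t)).hasDerivWithinAt
  have h5 := norm_image_sub_le_of_norm_deriv_le_segment_01' h4
    (fun t ht => h3 t ⟨ht.1, ht.2.le⟩)
  simp only [one_mul, one_smul, zero_mul, zero_smul, add_zero, zero_sub, sub_neg_eq_add] at h5
  rw [Real.norm_eq_abs] at h5
  have e : fderiv ℝ u (x + z) z - (u (x + z) - u x)
    = fderiv ℝ u (x + z) z - u (x + z) + u x := by ring
  rwa [e]

end Crest.Agent.R238.EReg
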