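import Crest.Agent.R238.EReg6

/-!
Row 238 (S0369), node H6 (helper978), part 7: Hölder bounds of differences; the equation of
`w = v(·+z) - v`.
-/

set_option autoImplicit false
set_option maxHeartbeats 400000

open MeasureTheory Set Filter
open scoped ContDiff Topology

namespace Crest.Agent.R238.EReg

variable {n : ℕ}

theorem fderiv_df {F : Type*} [NormedAddCommGroup F] [NormedSpace ℝ F] {f : E n → F}
    (hf : Differentiable ℝ f) (z x : E n) :
    fderiv ℝ (fun x => f (x + z) - f x) x = fderiv ℝ f (x + z) - fderiv ℝ f x := by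
  have h1 : DifferentiableAt ℝ (fun x => f (x + z)) x :=
    (hf (x + z)).comp x (differentiableAt_id.add_const z)
  rw [fderiv_fun_sub h1 (hf x), fderiv_comp_add_right]

theorem contDiff_df {k : WithTop ℕ∞} {f : E n → ℝ} (hf : ContDiff ℝ k f) (z : E n) :
    ContDiff ℝ k (fun x => f (x + z) - f x) :=
  (hf.comp (contDiff_id.add contDiff_const)).sub hf

theorem fderiv2_df {f : E n → ℝ} (hf : ContDiff ℝ 2 f) (z x : E n) :
    fderiv ℝ (fderiv ℝ (fun x => f (x + z) - f x)) x
      = fderiv ℝ (fderiv ℝ f) (x + z) - fderiv ℝ (fderiv ℝ f) x := by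
  have hd1 : Differentiable ℝ f := hf.differentiable (by norm_num)
  have hd2 : Differentiable ℝ (fderiv ℝ f) :=
    (hf.fderiv_right (m := 1) (by norm_num)).differentiable one_ne_zero
  have e : fderiv ℝ (fun x => f (x + z) - f x) = fun x => fderiv ℝ f (x + z) - fderiv ℝ f x := by
    funext x; exact fderiv_df hd1 z x
  rw [e, fderiv_df hd2]

theorem Hs_df {f : E n → ℝ} (hf : ContDiff ℝ 2 f) (z x : E n) (i j : Fin n) :
    Hs (fun x => f (x + z) - f x) x i j = Hs f (x + z) i j - Hs f x i j := by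
  unfold Hs
  rw [fderiv2_df hf]
  rfl

theorem fderiv_apply_eq (f : E n → ℝ) (x z : E n) :
    fderiv ℝ f x z = ∑ i, z i * fderiv ℝ f x (ee i) := Boot.fderiv_eq_sum_pd f x z

theorem fderiv2_apply_eq (f : E n → ℝ) (x z : E n) :
    fderiv ℝ (fderiv ℝ f) x z z = ∑ i, ∑ j, z i * (z j * Hs f x i j) := by
  have h1 : fderiv ℝ (fderiv ℝ f) x z = ∑ i, z i • fderiv ℝ (fderiv ℝ f) x (ee i) := by
    conv_lhs => rw [← Boot.sum_ee z]
    rw [map_sum]
    exact Finset.sum_congr rfl fun i _ => map_smul _ _ _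
  have h2 : ∀ L : E n →L[ℝ] ℝ, L z = ∑ j, z j * L (ee j) := by
    intro L
    conv_lhs => rw [← Boot.sum_ee z]
    rw [map_sum]
    exact Finset.sum_congr rfl fun i _ => by rw [map_smul, smul_eq_mul]
  rw [h1, _root_.sum_apply]
  refine Finset.sum_congr rfl fun i _ => ?_
  rw [_root_.smul_apply, smul_eq_mul, h2, Finset.mul_sum]
  rfl

/-- bound of a linear combination of coordinates -/
theorem lin_comb_le {c : Fin n → ℝ} {B : ℝ} (hc : ∀ i, |c i| ≤ B) (z : E n) :
    |∑ i, z i * c i| ≤ n * (‖z‖ * B) := by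
  refine (Finset.abs_sum_le_sum_abs _ _).trans ?_
  refine (Finset.sum_le_sum (g := fun _ => ‖z‖ * B) fun i _ => ?_).trans ?_
  · rw [abs_mul]
    exact mul_le_mul (Boot.abs_coord_le z i) (hc i) (abs_nonneg _) (norm_nonneg _)
  · simp

theorem quad_comb_le {c : Fin n → Fin n → ℝ} {B : ℝ} (hc : ∀ i j, |c i j| ≤ B) (z : E n) :
    |∑ i, ∑ j, z i * (z j * c i j)| ≤ n * (‖z‖ * (n * (‖z‖ * B))) := by
  have e : ∑ i, ∑ j, z i * (z j * c i j) = ∑ i, z i * ∑ j, z j * c i j := by
    refine Finset.sum_congr rfl fun i _ => ?_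
    rw [Finset.mul_sum]
  rw [e]
  exact lin_comb_le (fun i => lin_comb_le (hc i) z) z

/-- difference of a function with Hölder partial derivatives -/
theorem hb_df {a M : ℝ} {f : E n → ℝ} (hf : Differentiable ℝ f)
    (h : ∀ i, HB a M (fun x => fderiv ℝ f x (ee i))) (z : E n) :
    HB a (n * (‖z‖ * M)) (fun x => f (x + z) - f x) := by
  refine ⟨fun x => ?_, fun x y => ?_⟩
  · refine diff_le hf x z fun t => ?_
    rw [fderiv_apply_eq]
    exact lin_comb_le (fun i => (h i).1 _) z
  · -- `u x = f x - f (x + c)`, `c = y - x`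
    set u : E n → ℝ := fun p => f (p + (x - y)) - f p with hu
    have hud : Differentiable ℝ u := fun p =>
      ((hf _).comp p (differentiableAt_id.add_const (x - y))).sub (hf p)
    have h1 := diff_le hud y z (B := n * (‖z‖ * (M * ‖x - y‖ ^ a))) fun t => by
      rw [hu, fderiv_df hf, _root_.sub_apply, fderiv_apply_eq, fderiv_apply_eq,
        ← Finset.sum_sub_distrib]
      simp only [← mul_sub]
      refine lin_comb_le (fun i => ?_) z
      have h2 := (h i).2 (y + t • z + (x - y)) (y + t • z)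
      rwa [add_sub_cancel_left] at h2
    have e1 : u (y + z) - u y = (f (x + z) - f x) - (f (y + z) - f y) := by
      simp only [hu]
      have e2 : y + z + (x - y) = x + z := by abel
      have e3 : y + (x - y) = x := by abel
      rw [e2, e3]; ring
    rw [e1] at h1
    refine h1.trans (le_of_eq ?_)
    ring

/-- the remainder `∂_z f(x+z) - (f(x+z) - f x)` -/
theorem hb_rem {a M : ℝ} {f : E n → ℝ} (hf : ContDiff ℝ 2 f)
    (h : ∀ i j, HB a M (fun x => Hs f x i j)) (z : E n) :
    HB a (n * (‖z‖ * (n * (‖z‖ * M)))) (fun x => fderiv ℝ f (x + z) z - (f (x + z) - f x)) := by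
  refine ⟨fun x => ?_, fun x y => ?_⟩
  · refine diff_le2 hf x z fun t => ?_
    rw [fderiv2_apply_eq]
    exact quad_comb_le (fun i j => (h i j).1 _) z
  · set u : E n → ℝ := fun p => f (p + (x - y)) - f p with hu
    have hud : ContDiff ℝ 2 u := contDiff_df hf (x - y)
    have hd1 : Differentiable ℝ f := hf.differentiable (by norm_num)
    have h1 := diff_le2 hud y z (B := n * (‖z‖ * (n * (‖z‖ * (M * ‖x - y‖ ^ a))))) fun t => by
      rw [fderiv2_apply_eq]
      refine quad_comb_le (fun i j => ?_) z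
      rw [hu, Hs_df hf]
      have h2 := (h i j).2 (y + t • z + (x - y)) (y + t • z)
      rwa [add_sub_cancel_left] at h2
    have e1 : fderiv ℝ u (y + z) z - (u (y + z) - u y)
        = (fderiv ℝ f (x + z) z - (f (x + z) - f x))
          - (fderiv ℝ f (y + z) z - (f (y + z) - f y)) := by
      rw [hu, fderiv_df hd1, _root_.sub_apply]
      have e2 : y + z + (x - y) = x + z := by abel
      have e3 : y + (x - y) = x := by abel
      rw [e2]
      simp only [e2, e3]
      ring
    rw [e1] at h1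
    refine h1.trans (le_of_eq ?_)
    ring

/-- the equation of the difference `w = v(·+z) - v` with the fixed coefficients `τ` -/
theorem eq_df {P v : E n → ℝ} {s : ℝ} (hv : ContDiff ℝ 2 v) (hdet : ∀ x, 0 < (gm v x).det)
    (hMA : MAeq P s v) (z x : E n) :
    LA (tauf v) (fun x => v (x + z) - v x) x
      = (fderiv ℝ v (x + z) z - (v (x + z) - v x)) - s * (P (x + z) - P x)
        - qL (tauf v x * (gm v (x + z) - gm v x)) := by
  have hd1 : Differentiable ℝ v := hv.differentiable (by norm_num)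
  have h1 := log_det_add (g := gm v x) (h := gm v (x + z) - gm v x) (hdet x)
    (by rw [add_sub_cancel]; exact hdet (x + z))
  rw [add_sub_cancel] at h1
  have h2 : ((gm v x)⁻¹ * (gm v (x + z) - gm v x)).trace
      = ∑ i, ∑ j, tauf v x i j * Hs (fun x => v (x + z) - v x) x i j := by
    rw [sm_trace_mul_sum]
    refine Finset.sum_congr rfl fun i _ => Finset.sum_congr rfl fun j _ => ?_
    rw [Hs_df hv, Boot.Hs_symm hv (x + z) i j, Boot.Hs_symm hv x i j]
    simp [tauf, gm]
  have h3 := hMA x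
  have h4 := hMA (x + z)
  have h5 : fderiv ℝ (fun x => v (x + z) - v x) x x = fderiv ℝ v (x + z) x - fderiv ℝ v x x := by
    rw [fderiv_df hd1]; rfl
  have h6 : fderiv ℝ v (x + z) (x + z) = fderiv ℝ v (x + z) x + fderiv ℝ v (x + z) z := map_add _ _ _
  rw [LA, ← h2, h5]
  have h7 : tauf v x * (gm v (x + z) - gm v x) = (gm v x)⁻¹ * (gm v (x + z) - gm v x) := rfl
  rw [h7]
  linarith

end Crest.Agent.R238.EReg
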