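import Crest.Agent.R238.EReg7

/-!
Row 238 (S0369), node H6 (helper978), part 8: the nonlinear first step `NLStep`.
-/

set_option autoImplicit false
set_option maxHeartbeats 400000

open MeasureTheory Set Filter
open scoped ContDiff Topology

namespace Crest.Agent.R238.EReg

variable {n : ℕ}

theorem qL_zero : qL (0 : Matrix (Fin n) (Fin n) ℝ) = 0 := by
  simp [qL]

/-- the `qL` term -/
theorem hb_qL {a K r₀ : ℝ}
    (hq : ∀ (X Y : Matrix (Fin n) (Fin n) ℝ) (d e : ℝ), 0 ≤ d → d ≤ r₀ → 0 ≤ e →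
      (∀ i j, |X i j| ≤ d) → (∀ i j, |Y i j| ≤ d) → (∀ i j, |X i j - Y i j| ≤ e) →
      |qL X - qL Y| ≤ K * d * e) {X : E n → Matrix (Fin n) (Fin n) ℝ} {d W : ℝ}
    (hd : 0 ≤ d) (hdr : d ≤ r₀) (hX : ∀ x i j, |X x i j| ≤ d) (hW : 0 ≤ W)
    (hXW : ∀ i j, HB a W (fun x => X x i j)) : HB a (K * d * W) (fun x => qL (X x)) := by
  refine ⟨fun x => ?_, fun x y => ?_⟩
  · have h1 := hq (X x) 0 d W hd hdr hW (hX x) (fun i j => by simpa using hd)
      (fun i j => by simpa using (hXW i j).1 x)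
    rwa [qL_zero, sub_zero] at h1
  · have h0 : 0 ≤ ‖x - y‖ ^ a := Real.rpow_nonneg (norm_nonneg _) _
    have h1 := hq (X x) (X y) d (W * ‖x - y‖ ^ a) hd hdr (mul_nonneg hW h0) (hX x) (hX y)
      (fun i j => (hXW i j).2 x y)
    rwa [← mul_assoc] at h1

theorem tst_pd {a : ℝ} (ha : 0 < a) (ha1 : a < 1) {P : E n → ℝ} (hP : Tst P) :
    ∃ M, 0 ≤ M ∧ ∀ i, HB a M (fun x => fderiv ℝ P x (ee i)) := by
  choose M hM using fun i => ((CK.of_tst (k := 1) ha.le ha1.le hP).der i).hb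
  have hM0 : ∀ i, 0 ≤ M i := fun i => hb_nonneg (hM i)
  exact ⟨∑ i, M i, Finset.sum_nonneg fun i _ => hM0 i, fun i =>
    hb_mono (hM i) (Finset.single_le_sum (fun j _ => hM0 j) (Finset.mem_univ i))⟩

theorem local_lip {v : E n → ℝ} (hv : ContDiff ℝ 1 v) (R : ℝ) : ∃ S, 0 ≤ S ∧
    ∀ z x : E n, ‖z‖ ≤ 1 → ‖x‖ ≤ R → |v (x + z) - v x| ≤ S * ‖z‖ := by
  obtain ⟨S, hS⟩ := (isCompact_closedBall (0 : E n) (|R| + 1)).exists_bound_of_continuousOn
    (f := fderiv ℝ v) (hv.continuous_fderiv (by norm_num)).continuousOn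
  refine ⟨max S 0, le_max_right _ _, fun z x hz hx => ?_⟩
  have h1 := (convex_closedBall (0 : E n) (|R| + 1)).norm_image_sub_le_of_norm_fderiv_le
    (f := v) (C := max S 0) (x := x) (y := x + z)
    (fun p _ => (hv.differentiable (by norm_num)) p) (fun p hp => (hS p hp).trans (le_max_left _ _))
    (by
      rw [mem_closedBall_zero_iff]
      have := le_abs_self R
      linarith)
    (by
      rw [mem_closedBall_zero_iff]
      have := le_abs_self R
      have := norm_add_le x z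
      linarith)
  rwa [add_sub_cancel_left, Real.norm_eq_abs] at h1

/-- one absorption step for the difference `v(·+z) - v` -/
theorem nl_step {a lo hi : ℝ} (ha : 0 < a) (ha1 : a < 1) (hlo : 0 < lo) (hlohi : lo ≤ hi)
    {M : ℝ} {P : E n → ℝ} (hP : Tst P) {s : ℝ} {v : E n → ℝ} (hv : ContDiff ℝ 2 v)
    (hM : ∀ i j, HB a M (fun x => Hs v x i j)) (hE : ∀ x, Ell lo hi (gm v x))
    (hMA : MAeq P s v) (hS : Boot.SchT a (tauf v)) :
    ∃ N δ : ℝ, 0 < δ ∧ ∀ z : E n, ‖z‖ ≤ δ → ∀ i j,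
      HB a (N * ‖z‖) (fun x => Hs v (x + z) i j - Hs v x i j) := by
  obtain ⟨C, R', hC⟩ := hS
  obtain ⟨K, r₀, hK, hr₀, hq⟩ := qL_lip n
  obtain ⟨MP, hMP0, hMP⟩ := tst_pd ha ha1 hP
  obtain ⟨S, hS0, hS⟩ := local_lip (hv.of_le (by norm_num)) R'
  have hPd : Differentiable ℝ P := hP.smooth.differentiable (by simp)
  have hdet : ∀ x, 0 < (gm v x).det := fun x => (hE x).sm_det_pos hlo
  rcases isEmpty_or_nonempty (Fin n) with hn | hn
  · exact ⟨0, 1, one_pos, fun z _ i => (hn.false i).elim⟩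
  obtain ⟨i0⟩ := hn
  have hM0 : 0 ≤ M := hb_nonneg (hM i0 i0)
  set T : ℝ := (n : ℝ) ^ 2 * lo⁻¹ ^ 2 * M + lo⁻¹ with hT
  have hl : 0 < lo⁻¹ := inv_pos.2 hlo
  have hT0 : 0 ≤ T := by positivity
  have hτ : ∀ i j, HB a T (fun x => tauf v x i j) := fun i j => TauExt.hb_tauf hlo hlohi hE hM i j
  set c1 : ℝ := n * (T * M) with hc1
  have hc10 : 0 ≤ c1 := by positivity
  set c2 : ℝ := |C| * (K * c1 * (n * (2 * T))) with hc2
  have hc20 : 0 ≤ c2 := by positivity
  set η : ℝ := min (r₀ / (c1 + 1)) (1 / (2 * (c2 + 1))) with hη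
  have hη0 : 0 < η := lt_min (by positivity) (by positivity)
  set δ : ℝ := min 1 (η ^ a⁻¹) with hδ
  have hδ0 : 0 < δ := lt_min one_pos (Real.rpow_pos_of_pos hη0 _)
  set N1 : ℝ := n * (n * M) + |s| * (n * MP) with hN1
  refine ⟨2 * (|C| * (N1 + S)), δ, hδ0, fun z hz => ?_⟩
  have hz1 : ‖z‖ ≤ 1 := hz.trans (min_le_left _ _)
  have hza : ‖z‖ ^ a ≤ η := by
    have h1 : ‖z‖ ≤ η ^ a⁻¹ := hz.trans (min_le_right _ _)
    calc ‖z‖ ^ a ≤ (η ^ a⁻¹) ^ a := Real.rpow_le_rpow (norm_nonneg _) h1 ha.le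
      _ = η := Real.rpow_inv_rpow hη0.le ha.ne'
  have hza0 : 0 ≤ ‖z‖ ^ a := Real.rpow_nonneg (norm_nonneg _) _
  have hz0 : 0 ≤ ‖z‖ := norm_nonneg z
  set w : E n → ℝ := fun x => v (x + z) - v x with hw
  have hw2 : ContDiff ℝ 2 w := contDiff_df hv z
  have hHw : ∀ x i j, Hs w x i j = Hs v (x + z) i j - Hs v x i j := fun x i j => Hs_df hv z x i j
  -- sup bound of the matrix entries
  have hXe : ∀ x i j, (tauf v x * (gm v (x + z) - gm v x)) i j
      = ∑ k, tauf v x i k * (Hs v (x + z) k j - Hs v x k j) := by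
    intro x i j
    rw [Matrix.mul_apply]
    refine Finset.sum_congr rfl fun k _ => ?_
    rw [Matrix.sub_apply, TauExt.gm_sub]
  have hXd : ∀ x i j, |(tauf v x * (gm v (x + z) - gm v x)) i j| ≤ c1 * ‖z‖ ^ a := by
    intro x i j
    rw [hXe]
    refine (Finset.abs_sum_le_sum_abs _ _).trans ?_
    refine (Finset.sum_le_sum (g := fun _ => T * (M * ‖z‖ ^ a)) fun k _ => ?_).trans ?_
    · rw [abs_mul]
      have h2 := (hM k j).2 (x + z) x
      rw [add_sub_cancel_left] at h2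
      exact mul_le_mul ((hτ i k).1 x) h2 (abs_nonneg _) hT0
    · simp only [Finset.sum_const, Finset.card_univ, Fintype.card_fin, nsmul_eq_mul]
      rw [hc1]
      exact le_of_eq (by ring)
  have hdr : c1 * ‖z‖ ^ a ≤ r₀ := by
    have h1 : ‖z‖ ^ a ≤ r₀ / (c1 + 1) := hza.trans (min_le_left _ _)
    calc c1 * ‖z‖ ^ a ≤ (c1 + 1) * (r₀ / (c1 + 1)) :=
          mul_le_mul (by linarith) h1 hza0 (by positivity)
      _ = r₀ := by field_simp
  have hθ : c2 * ‖z‖ ^ a ≤ 1 / 2 := by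
    have h1 : ‖z‖ ^ a ≤ 1 / (2 * (c2 + 1)) := hza.trans (min_le_right _ _)
    calc c2 * ‖z‖ ^ a ≤ (c2 + 1) * (1 / (2 * (c2 + 1))) :=
          mul_le_mul (by linarith) h1 hza0 (by positivity)
      _ = 1 / 2 := by field_simp
  -- the absorption
  have key : ∀ p : Fin n × Fin n, HB a (2 * (|C| * (N1 + S) * ‖z‖)) (fun x => Hs w x p.1 p.2) := by
    refine hb_absorb (W₀ := M + M) (fun p => ?_) (fun W hW p => ?_)
    · simp only [hHw]
      exact hb_sub (hb_comp_add (hM p.1 p.2) z) (hM p.1 p.2)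
    · have hW0 : 0 ≤ W := hb_nonneg (hW (i0, i0))
      have hXW : ∀ i j, HB a (n * (2 * (T * W)))
          (fun x => (tauf v x * (gm v (x + z) - gm v x)) i j) := by
        intro i j
        have h1 := hb_sum (a := a) Finset.univ (M := fun _ : Fin n => 2 * (T * W))
          (f := fun k x => tauf v x i k * (Hs v (x + z) k j - Hs v x k j)) (fun k _ => by
            have h2 := hW (k, j)
            simp only [hHw] at h2
            exact hb_mul (hτ i k) h2)
        simp only [Finset.sum_const, Finset.card_univ, Fintype.card_fin, nsmul_eq_mul] at h1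
        simp only [hXe]
        exact h1
      have hQ := hb_qL hq (X := fun x => tauf v x * (gm v (x + z) - gm v x))
        (by positivity) hdr hXd (by positivity) hXW
      have hG := hb_rem hv hM z
      have hPz : HB a (|s| * (n * (‖z‖ * MP))) (fun x => s * (P (x + z) - P x)) := by
        have h1 := hb_df hPd hMP z
        refine ⟨fun x => ?_, fun x y => ?_⟩
        · rw [abs_mul]; exact mul_le_mul_of_nonneg_left (h1.1 x) (abs_nonneg _)
        · rw [← mul_sub, abs_mul, mul_assoc]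
          exact mul_le_mul_of_nonneg_left (h1.2 x y) (abs_nonneg _)
      have hL := hb_sub (hb_sub hG hPz) hQ
      have hLw : HB a (N1 * ‖z‖ + K * (c1 * ‖z‖ ^ a) * (n * (2 * (T * W))))
          (fun x => LA (tauf v) w x + 0 * w x) := by
        have e1 : (fun x => LA (tauf v) w x + 0 * w x)
            = fun x => (fderiv ℝ v (x + z) z - (v (x + z) - v x)) - s * (P (x + z) - P x)
              - qL (tauf v x * (gm v (x + z) - gm v x)) := by
          funext x
          rw [zero_mul, add_zero]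
          exact eq_df hv hdet hMA z x
        rw [e1]
        refine hb_mono hL ?_
        have h2 : (n : ℝ) * (‖z‖ * (n * (‖z‖ * M))) ≤ n * (n * M) * ‖z‖ := by
          have h3 : 0 ≤ (n : ℝ) * (n * M) * ‖z‖ := by positivity
          calc (n : ℝ) * (‖z‖ * (n * (‖z‖ * M))) = (n * (n * M) * ‖z‖) * ‖z‖ := by ring
            _ ≤ (n * (n * M) * ‖z‖) * 1 := mul_le_mul_of_nonneg_left hz1 h3
            _ = _ := mul_one _
        have h4 : |s| * (n * (‖z‖ * MP)) = |s| * (n * MP) * ‖z‖ := by ring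
        rw [h4, hN1]
        linarith
      have hfin := hC 0 (Or.inl rfl) w _ (S * ‖z‖) hw2 ⟨W, fun i j => hW (i, j)⟩ hLw
        (fun x hx => hS z x hz1 hx) p.1 p.2
      refine hb_mono hfin ?_
      set N2 : ℝ := N1 * ‖z‖ + K * (c1 * ‖z‖ ^ a) * (n * (2 * (T * W))) + S * ‖z‖ with hN2
      have hN1' : 0 ≤ N1 := by positivity
      have hN20 : 0 ≤ N2 := by positivity
      calc C * N2 ≤ |C| * N2 := mul_le_mul_of_nonneg_right (le_abs_self C) hN20
        _ = |C| * (N1 + S) * ‖z‖ + (c2 * ‖z‖ ^ a) * W := by rw [hN2, hc2]; ring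
        _ ≤ |C| * (N1 + S) * ‖z‖ + (1 / 2) * W := by
          have := mul_le_mul_of_nonneg_right hθ hW0
          linarith
        _ = |C| * (N1 + S) * ‖z‖ + W / 2 := by ring
  intro i j
  have h1 := key (i, j)
  simp only [hHw] at h1
  have e : 2 * (|C| * (N1 + S)) * ‖z‖ = 2 * (|C| * (N1 + S) * ‖z‖) := by ring
  rw [e]
  exact h1

/-- **the nonlinear first step** -/
theorem nlStep : NLStep := by
  intro n a lo hi ha ha1 hlo hlohi M P hP s v hv hM hE hMA hS i j
  obtain ⟨N, δ, hδ, h⟩ := nl_step ha ha1 hlo hlohi hP hv hM hE hMA hS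
  have hDQ : Boot.DQ a N δ (fun x => Hs v x i j) := fun z hz => h z hz i j
  obtain ⟨h1, h2⟩ := hDQ.deriv ha hδ
  exact ⟨⟨M, hM i j⟩, h1.differentiable (by norm_num), fun e => ⟨N * ‖(ee e : E n)‖, h2 (ee e)⟩⟩

end Crest.Agent.R238.EReg
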