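import Mathlib

/-! Row 238, node H5 (D): abstract continuity method on a Banach space `Y` with a Banach algebra
`A` of coefficients (no Fredholm theory, no compactness): uniform Picard-Lindeloef steps. -/

set_option linter.unusedVariables false

open Set Metric

namespace Crest.Agent.R238.EStep

section Inv

variable {B : Type*} [NormedRing B] [CompleteSpace B]

/-- perturbation of a unit -/
theorem isUnit_near {a b : B} {M : ℝ} (hM : 0 < M) (ha : IsUnit a)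
    (hi : ‖Ring.inverse a‖ ≤ M) (hb : ‖b - a‖ ≤ 1 / (2 * M)) : IsUnit b := by
  obtain ⟨u, rfl⟩ := ha
  have h1 : ‖((u⁻¹ : Bˣ) : B)‖ ≤ M := by simpa [Ring.inverse_unit] using hi
  rcases subsingleton_or_nontrivial B with hs | hn
  · exact ⟨1, Subsingleton.elim _ _⟩
  have h2 : (0 : ℝ) < ‖((u⁻¹ : Bˣ) : B)‖ := Units.norm_pos u⁻¹
  have h3 : ‖b - u‖ < ‖((u⁻¹ : Bˣ) : B)‖⁻¹ := by
    refine lt_of_le_of_lt hb ?_
    rw [lt_inv_comm₀ (by positivity) h2]
    have : (1 / (2 * M))⁻¹ = 2 * M := by field_simp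
    rw [this]; linarith
  exact ⟨Units.ofNearby u b h3, rfl⟩

theorem inverse_le {a b : B} {M : ℝ} (hM : 0 < M) (ha : IsUnit a)
    (hi : ‖Ring.inverse a‖ ≤ M) (hb : ‖b - a‖ ≤ 1 / (2 * M)) : ‖Ring.inverse b‖ ≤ 2 * M := by
  have hbu := isUnit_near hM ha hi hb
  have key : Ring.inverse b = Ring.inverse a - Ring.inverse a * (b - a) * Ring.inverse b := by
    have e1 : Ring.inverse a * a = 1 := Ring.inverse_mul_cancel a ha
    have e2 : b * Ring.inverse b = 1 := Ring.mul_inverse_cancel b hbu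
    rw [mul_sub, sub_mul, e1, mul_assoc, e2]; noncomm_ring
  have h1 : ‖Ring.inverse b‖ ≤ M + M * (1 / (2 * M)) * ‖Ring.inverse b‖ := by
    calc ‖Ring.inverse b‖ = ‖Ring.inverse a - Ring.inverse a * (b - a) * Ring.inverse b‖ := by
          rw [← key]
      _ ≤ ‖Ring.inverse a‖ + ‖Ring.inverse a * (b - a) * Ring.inverse b‖ := norm_sub_le _ _
      _ ≤ M + M * (1 / (2 * M)) * ‖Ring.inverse b‖ := by
          gcongr
          calc ‖Ring.inverse a * (b - a) * Ring.inverse b‖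
              ≤ ‖Ring.inverse a * (b - a)‖ * ‖Ring.inverse b‖ := norm_mul_le _ _
            _ ≤ (‖Ring.inverse a‖ * ‖b - a‖) * ‖Ring.inverse b‖ := by
                gcongr; exact norm_mul_le _ _
            _ ≤ M * (1 / (2 * M)) * ‖Ring.inverse b‖ := by gcongr
  have h2 : M * (1 / (2 * M)) = 1 / 2 := by field_simp
  rw [h2] at h1
  linarith

theorem inverse_lip {a b b' : B} {M : ℝ} (hM : 0 < M) (ha : IsUnit a)
    (hi : ‖Ring.inverse a‖ ≤ M) (hb : ‖b - a‖ ≤ 1 / (2 * M)) (hb' : ‖b' - a‖ ≤ 1 / (2 * M)) :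
    ‖Ring.inverse b - Ring.inverse b'‖ ≤ (2 * M) ^ 2 * ‖b - b'‖ := by
  have hbu := isUnit_near hM ha hi hb
  have hbu' := isUnit_near hM ha hi hb'
  have key : Ring.inverse b - Ring.inverse b' = Ring.inverse b * (b' - b) * Ring.inverse b' := by
    have e1 : Ring.inverse b * b = 1 := Ring.inverse_mul_cancel b hbu
    have e2 : b' * Ring.inverse b' = 1 := Ring.mul_inverse_cancel b' hbu'
    rw [mul_sub, sub_mul, e1, mul_assoc, e2]; noncomm_ring
  rw [key]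
  calc ‖Ring.inverse b * (b' - b) * Ring.inverse b'‖
      ≤ ‖Ring.inverse b * (b' - b)‖ * ‖Ring.inverse b'‖ := norm_mul_le _ _
    _ ≤ (‖Ring.inverse b‖ * ‖b' - b‖) * ‖Ring.inverse b'‖ := by gcongr; exact norm_mul_le _ _
    _ ≤ (2 * M * ‖b' - b‖) * (2 * M) := by
        gcongr
        · exact inverse_le hM ha hi hb
        · exact inverse_le hM ha hi hb'
    _ = (2 * M) ^ 2 * ‖b - b'‖ := by rw [norm_sub_rev]; ring

end Inv

section Main

variable {Y A : Type*} [NormedAddCommGroup Y] [NormedSpace ℝ Y] [CompleteSpace Y]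
  [NormedRing A] [NormedAlgebra ℝ A] [CompleteSpace A]

/-- the linearised operator `ρ ↦ ρ + T ((i - 1) * K ρ)`, `i = g⁻¹`. -/
noncomputable def DK (K : Y →L[ℝ] A) (T : A →L[ℝ] Y) (i : A) : Y →L[ℝ] Y :=
  ContinuousLinearMap.id ℝ Y + T.comp ((ContinuousLinearMap.mul ℝ A (i - 1)).comp K)

omit [CompleteSpace Y] [CompleteSpace A] in
@[simp] theorem DK_apply (K : Y →L[ℝ] A) (T : A →L[ℝ] Y) (i : A) (ρ : Y) :
    DK K T i ρ = ρ + T ((i - 1) * K ρ) := rfl

omit [CompleteSpace Y] [CompleteSpace A] in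
theorem DK_sub_le (K : Y →L[ℝ] A) (T : A →L[ℝ] Y) (i i' : A) :
    ‖DK K T i - DK K T i'‖ ≤ ‖T‖ * ‖K‖ * ‖i - i'‖ := by
  refine ContinuousLinearMap.opNorm_le_bound _ (by positivity) fun ρ => ?_
  have : (DK K T i - DK K T i') ρ = T ((i - i') * K ρ) := by
    simp only [ContinuousLinearMap.sub_apply, DK_apply]
    have : (i - i') * K ρ = (i - 1) * K ρ - (i' - 1) * K ρ := by noncomm_ring
    rw [this, map_sub]; abel
  rw [this]
  calc ‖T ((i - i') * K ρ)‖ ≤ ‖T‖ * ‖(i - i') * K ρ‖ := T.le_opNorm _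
    _ ≤ ‖T‖ * (‖i - i'‖ * ‖K ρ‖) := by gcongr; exact norm_mul_le _ _
    _ ≤ ‖T‖ * (‖i - i'‖ * (‖K‖ * ‖ρ‖)) := by gcongr; exact K.le_opNorm _
    _ = ‖T‖ * ‖K‖ * ‖i - i'‖ * ‖ρ‖ := by ring

/-- `g = 1 + K r`, `i = g⁻¹` -/
noncomputable def ginv (K : Y →L[ℝ] A) (r : Y) : A := Ring.inverse (1 + K r)

/-- the vector field of the continuity path: `r' = - DΦ(r)⁻¹ P`. -/
noncomputable def vf (K : Y →L[ℝ] A) (T : A →L[ℝ] Y) (P : Y) (r : Y) : Y :=
  - (Ring.inverse (DK K T (ginv K r))) P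

/-- the good set: `1 + K r` and the linearisation are invertible -/
def Good (K : Y →L[ℝ] A) (T : A →L[ℝ] Y) (r : Y) : Prop :=
  IsUnit (1 + K r) ∧ IsUnit (DK K T (ginv K r))

/-- Uniform step: from a good `r₀` with bounds `M0, M2` one can follow the ODE for a time `t₀`
depending only on `M0, M2, K, T, P`. -/
theorem ode_step (K : Y →L[ℝ] A) (T : A →L[ℝ] Y) (NP : ℝ) (M0 M2 d0 : ℝ) (hM0 : 0 < M0)
    (hM2 : 0 < M2) (hd0 : 0 < d0) (hNP : 0 ≤ NP) :
    ∃ t₀ > 0, ∀ P : Y, ‖P‖ ≤ NP → ∀ r₀ : Y, Good K T r₀ → ‖ginv K r₀‖ ≤ M0 →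
      ‖Ring.inverse (DK K T (ginv K r₀))‖ ≤ M2 → ∀ a : ℝ, ∃ α : ℝ → Y, α a = r₀ ∧
        ∀ t ∈ Icc a (a + t₀), Good K T (α t) ∧
          HasDerivWithinAt α (vf K T P (α t)) (Icc a (a + t₀)) t ∧ ‖α t - r₀‖ ≤ d0 := by
  set k : ℝ := ‖K‖ + 1 with hk
  set τ : ℝ := ‖T‖ + 1 with hτ
  have hk0 : 0 < k := by positivity
  have hτ0 : 0 < τ := by positivity
  -- radius
  set δ : ℝ := min (min (1 / (2 * M0 * k)) (1 / (2 * M2 * (τ * k * ((2 * M0) ^ 2 * k))))) d0
    with hδ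
  have hδ0 : 0 < δ := by positivity
  have hδd : δ ≤ d0 := min_le_right _ _
  have hδ1 : k * δ ≤ 1 / (2 * M0) := by
    calc k * δ ≤ k * (1 / (2 * M0 * k)) := by
          gcongr; exact (min_le_left _ _).trans (min_le_left _ _)
      _ = 1 / (2 * M0) := by field_simp
  have hδ2 : τ * k * ((2 * M0) ^ 2 * (k * δ)) ≤ 1 / (2 * M2) := by
    calc τ * k * ((2 * M0) ^ 2 * (k * δ))
        ≤ τ * k * ((2 * M0) ^ 2 * (k * (1 / (2 * M2 * (τ * k * ((2 * M0) ^ 2 * k)))))) := by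
          gcongr; exact (min_le_left _ _).trans (min_le_right _ _)
      _ = 1 / (2 * M2) := by field_simp
  set Lb : ℝ := 2 * M2 * NP + 1 with hLb
  have hLb0 : 0 < Lb := by positivity
  refine ⟨δ / Lb, by positivity, ?_⟩
  intro P hP r₀ hg hi0 hi2 a
  -- facts in the ball
  have f1 : ∀ r ∈ closedBall r₀ δ, ‖(1 + K r) - (1 + K r₀)‖ ≤ k * ‖r - r₀‖ := by
    intro r _
    have : (1 + K r) - (1 + K r₀) = K (r - r₀) := by rw [map_sub]; abel
    rw [this]
    calc ‖K (r - r₀)‖ ≤ ‖K‖ * ‖r - r₀‖ := K.le_opNorm _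
      _ ≤ k * ‖r - r₀‖ := by gcongr; linarith
  have f1' : ∀ r ∈ closedBall r₀ δ, ‖(1 + K r) - (1 + K r₀)‖ ≤ 1 / (2 * M0) := by
    intro r hr
    have h2 : ‖r - r₀‖ ≤ δ := by simpa [dist_eq_norm] using hr
    calc ‖(1 + K r) - (1 + K r₀)‖ ≤ k * ‖r - r₀‖ := f1 r hr
      _ ≤ k * δ := by gcongr
      _ ≤ _ := hδ1
  have f2 : ∀ r ∈ closedBall r₀ δ, IsUnit (1 + K r) := fun r hr =>
    isUnit_near hM0 hg.1 hi0 (f1' r hr)
  have f3 : ∀ r ∈ closedBall r₀ δ, ∀ r' ∈ closedBall r₀ δ,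
      ‖ginv K r - ginv K r'‖ ≤ (2 * M0) ^ 2 * (k * ‖r - r'‖) := by
    intro r hr r' hr'
    calc ‖ginv K r - ginv K r'‖ ≤ (2 * M0) ^ 2 * ‖(1 + K r) - (1 + K r')‖ :=
          inverse_lip hM0 hg.1 hi0 (f1' r hr) (f1' r' hr')
      _ ≤ (2 * M0) ^ 2 * (k * ‖r - r'‖) := by
          gcongr
          have : (1 + K r) - (1 + K r') = K (r - r') := by rw [map_sub]; abel
          rw [this]
          calc ‖K (r - r')‖ ≤ ‖K‖ * ‖r - r'‖ := K.le_opNorm _
            _ ≤ k * ‖r - r'‖ := by gcongr; linarith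
  have hr0 : r₀ ∈ closedBall r₀ δ := mem_closedBall_self hδ0.le
  have f4 : ∀ r ∈ closedBall r₀ δ, ∀ r' ∈ closedBall r₀ δ,
      ‖DK K T (ginv K r) - DK K T (ginv K r')‖ ≤ τ * k * ((2 * M0) ^ 2 * (k * ‖r - r'‖)) := by
    intro r hr r' hr'
    calc ‖DK K T (ginv K r) - DK K T (ginv K r')‖ ≤ ‖T‖ * ‖K‖ * ‖ginv K r - ginv K r'‖ :=
          DK_sub_le _ _ _ _
      _ ≤ τ * k * ((2 * M0) ^ 2 * (k * ‖r - r'‖)) := by
          gcongr
          · linarith
          · linarith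
          · exact f3 r hr r' hr'
  have f4' : ∀ r ∈ closedBall r₀ δ,
      ‖DK K T (ginv K r) - DK K T (ginv K r₀)‖ ≤ 1 / (2 * M2) := by
    intro r hr
    have h2 : ‖r - r₀‖ ≤ δ := by simpa [dist_eq_norm] using hr
    calc ‖DK K T (ginv K r) - DK K T (ginv K r₀)‖
        ≤ τ * k * ((2 * M0) ^ 2 * (k * ‖r - r₀‖)) := f4 r hr r₀ hr0
      _ ≤ τ * k * ((2 * M0) ^ 2 * (k * δ)) := by gcongr
      _ ≤ _ := hδ2
  have f5 : ∀ r ∈ closedBall r₀ δ, IsUnit (DK K T (ginv K r)) := fun r hr =>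
    isUnit_near hM2 hg.2 hi2 (f4' r hr)
  have f6 : ∀ r ∈ closedBall r₀ δ, ‖Ring.inverse (DK K T (ginv K r))‖ ≤ 2 * M2 := fun r hr =>
    inverse_le hM2 hg.2 hi2 (f4' r hr)
  have f7 : ∀ r ∈ closedBall r₀ δ, ∀ r' ∈ closedBall r₀ δ,
      ‖Ring.inverse (DK K T (ginv K r)) - Ring.inverse (DK K T (ginv K r'))‖ ≤
        (2 * M2) ^ 2 * (τ * k * ((2 * M0) ^ 2 * (k * ‖r - r'‖))) := by
    intro r hr r' hr'
    calc _ ≤ (2 * M2) ^ 2 * ‖DK K T (ginv K r) - DK K T (ginv K r')‖ :=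
          inverse_lip hM2 hg.2 hi2 (f4' r hr) (f4' r' hr')
      _ ≤ _ := by gcongr; exact f4 r hr r' hr'
  -- the truncated vector field
  classical
  set F : ℝ → Y → Y := fun _ r => if r ∈ closedBall r₀ δ then vf K T P r else 0 with hF
  have hFle : ∀ t r, ‖F t r‖ ≤ Lb := by
    intro t r
    by_cases hr : r ∈ closedBall r₀ δ
    · simp only [hF, if_pos hr, vf, norm_neg]
      calc ‖Ring.inverse (DK K T (ginv K r)) P‖
          ≤ ‖Ring.inverse (DK K T (ginv K r))‖ * ‖P‖ := ContinuousLinearMap.le_opNorm _ _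
        _ ≤ 2 * M2 * NP := by gcongr; exact f6 r hr
        _ ≤ Lb := by linarith
    · simp only [hF, if_neg hr, norm_zero]; exact hLb0.le
  set Kl : ℝ := (2 * M2) ^ 2 * (τ * k * ((2 * M0) ^ 2 * k)) * ‖P‖ with hKl
  have hKl0 : 0 ≤ Kl := by positivity
  have hlip : ∀ t, LipschitzOnWith (Real.toNNReal Kl) (F t) (closedBall r₀ δ) := by
    intro t
    refine LipschitzOnWith.of_dist_le_mul fun r hr r' hr' => ?_
    rw [dist_eq_norm, dist_eq_norm, Real.coe_toNNReal _ hKl0]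
    simp only [hF, if_pos hr, if_pos hr', vf]
    have : -(Ring.inverse (DK K T (ginv K r))) P - -(Ring.inverse (DK K T (ginv K r'))) P =
      - ((Ring.inverse (DK K T (ginv K r)) - Ring.inverse (DK K T (ginv K r'))) P) := by
      simp only [ContinuousLinearMap.sub_apply]; abel
    rw [this, norm_neg]
    calc _ ≤ ‖Ring.inverse (DK K T (ginv K r)) - Ring.inverse (DK K T (ginv K r'))‖ * ‖P‖ :=
          ContinuousLinearMap.le_opNorm _ _
      _ ≤ (2 * M2) ^ 2 * (τ * k * ((2 * M0) ^ 2 * (k * ‖r - r'‖))) * ‖P‖ := by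
          gcongr; exact f7 r hr r' hr'
      _ = Kl * ‖r - r'‖ := by rw [hKl]; ring
  have ht0 : 0 < δ / Lb := by positivity
  have hle : a ≤ a + δ / Lb := by linarith
  let t0 : Icc a (a + δ / Lb) := ⟨a, left_mem_Icc.2 hle⟩
  have hPL : IsPicardLindelof F t0 r₀ (Real.toNNReal δ) 0 (Real.toNNReal Lb)
      (Real.toNNReal Kl) := by
    refine ⟨?_, ?_, ?_, ?_⟩
    · intro t _
      have := hlip t
      rwa [← Real.coe_toNNReal δ hδ0.le] at this
    · intro x _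
      exact continuousOn_const
    · intro t _ x _
      rw [Real.coe_toNNReal _ hLb0.le]; exact hFle t x
    · have e1 : a + δ / Lb - a = δ / Lb := by ring
      have e2 : a - a = 0 := by ring
      simp only [t0, e1, e2, Real.coe_toNNReal _ hLb0.le, Real.coe_toNNReal _ hδ0.le,
        NNReal.coe_zero, sub_zero]
      rw [max_eq_left ht0.le]
      have : Lb * (δ / Lb) = δ := by field_simp
      rw [this]
  obtain ⟨α, hα0, hα⟩ := hPL.exists_eq_forall_mem_Icc_hasDerivWithinAt₀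
  have hα0' : α a = r₀ := hα0
  -- stays in the ball
  have hball : ∀ t ∈ Icc a (a + δ / Lb), α t ∈ closedBall r₀ δ := by
    intro t ht
    have hd := (convex_Icc a (a + δ / Lb)).norm_image_sub_le_of_norm_hasDerivWithin_le
      (f := α) (f' := fun t => F t (α t)) (C := Lb) hα (fun x _ => hFle x (α x))
      (left_mem_Icc.2 hle) ht
    rw [mem_closedBall, dist_eq_norm, ← hα0']
    refine hd.trans ?_
    rw [Real.norm_of_nonneg (by linarith [ht.1])]
    calc Lb * (t - a) ≤ Lb * (δ / Lb) := by gcongr; linarith [ht.2]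
      _ = δ := by field_simp
  refine ⟨α, hα0', fun t ht => ⟨⟨f2 _ (hball t ht), f5 _ (hball t ht)⟩, ?_, ?_⟩⟩
  · have := hα t ht
    simpa only [hF, if_pos (hball t ht)] using this
  · have := hball t ht
    rw [mem_closedBall, dist_eq_norm] at this
    exact this.trans hδd

omit [CompleteSpace A] in
theorem inverse_le_of_antilip {S : Y →L[ℝ] Y} (hS : IsUnit S) {M : ℝ} (hM : 0 ≤ M)
    (h : ∀ ρ, ‖ρ‖ ≤ M * ‖S ρ‖) : ‖Ring.inverse S‖ ≤ M := by
  refine ContinuousLinearMap.opNorm_le_bound _ hM fun y => ?_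
  have e : S (Ring.inverse S y) = y := by
    have := Ring.mul_inverse_cancel S hS
    calc S (Ring.inverse S y) = (S * Ring.inverse S) y := rfl
      _ = y := by rw [this]; rfl
  calc ‖Ring.inverse S y‖ ≤ M * ‖S (Ring.inverse S y)‖ := h _
    _ = M * ‖y‖ := by rw [e]

end Main

end Crest.Agent.R238.EStep
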