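import Crest.Agent.R238.ExiDefs

/-!
Row 238 (S0369), existence half (helper397): assembly of the continuity method.
-/

set_option autoImplicit false

open MeasureTheory Set Filter
open scoped ContDiff Topology

namespace Crest.Agent.R238

variable {n : ℕ}

theorem Hs_zero (x : E n) (i j : Fin n) : Hs (fun _ : E n => (0 : ℝ)) x i j = 0 := by
  unfold Hs
  have h : (fderiv ℝ (fun _ : E n => (0 : ℝ))) = fun _ => 0 := by
    funext y; simp
  rw [h]; simp

theorem gm_zero (x : E n) : gm (fun _ : E n => (0 : ℝ)) x = 1 := by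
  unfold gm
  have : (Matrix.of fun i j => Hs (fun _ : E n => (0 : ℝ)) x i j) = 0 := by
    ext i j; simp [Hs_zero]
  rw [this, add_zero]

theorem tauf_zero : tauf (fun _ : E n => (0 : ℝ)) = fun _ => 1 := by
  funext x; unfold tauf; rw [gm_zero, inv_one]

theorem Ell_one : Ell (n := n) 1 1 1 := by
  refine ⟨fun i j => ?_, fun z => ?_⟩
  · rcases eq_or_ne i j with h | h
    · subst h; rfl
    · rw [Matrix.one_apply_ne h, Matrix.one_apply_ne h.symm]
  · have h : ∑ i, ∑ j, (1 : Matrix (Fin n) (Fin n) ℝ) i j * z i * z j = ∑ i, z i ^ 2 := by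
      refine Finset.sum_congr rfl fun i _ => ?_
      rw [Finset.sum_eq_single i]
      · rw [Matrix.one_apply_eq]; ring
      · intro j _ hj; rw [Matrix.one_apply_ne (Ne.symm hj)]; ring
      · intro h; exact absurd (Finset.mem_univ i) h
    rw [h]; constructor <;> linarith

theorem Nice_zero : Nice (fun _ : E n => (0 : ℝ)) := by
  refine ⟨contDiff_const, fun k hk => ⟨0, fun x => ?_⟩⟩
  have : iteratedFDeriv ℝ k (fun _ : E n => (0 : ℝ)) = 0 := by
    rw [iteratedFDeriv_const_of_ne (by omega)]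
  rw [this]; simp

/-- a test function is Hölder -/
theorem Tst.hb {P : E n → ℝ} (h : Tst P) {a : ℝ} (ha : 0 < a) (ha1 : a < 1) :
    ∃ N, HB a N P := by
  obtain ⟨B, hB⟩ := h.supp.exists_bound_of_continuous h.smooth.continuous
  have h1 : ContDiff ℝ 1 P := h.smooth.of_le (by exact_mod_cast le_top)
  obtain ⟨K, hK⟩ := ContDiff.lipschitzWith_of_hasCompactSupport h.supp h1 (by norm_num)
  have hB0 : 0 ≤ B := (norm_nonneg _).trans (hB 0)
  refine ⟨2 * B + K, fun x => ?_, fun x y => ?_⟩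
  · have := hB x; rw [Real.norm_eq_abs] at this
    have hK0 : (0 : ℝ) ≤ K := K.2
    linarith
  · have hL : |P x - P y| ≤ K * ‖x - y‖ := by
      have := hK.dist_le_mul x y; rwa [Real.dist_eq, dist_eq_norm] at this
    have hK0 : (0 : ℝ) ≤ K := K.2
    rcases le_total ‖x - y‖ 1 with h1 | h1
    · rcases eq_or_lt_of_le (norm_nonneg (x - y)) with h0 | h0
      · rw [← h0] at hL
        have : 0 ≤ (2 * B + K) * ‖x - y‖ ^ a := by positivity
        linarith
      · have h2 : ‖x - y‖ ≤ ‖x - y‖ ^ a := by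
          calc ‖x - y‖ = ‖x - y‖ ^ (1 : ℝ) := (Real.rpow_one _).symm
            _ ≤ ‖x - y‖ ^ a := Real.rpow_le_rpow_of_exponent_ge h0 h1 ha1.le
        calc |P x - P y| ≤ K * ‖x - y‖ := hL
          _ ≤ K * ‖x - y‖ ^ a := mul_le_mul_of_nonneg_left h2 hK0
          _ ≤ (2 * B + K) * ‖x - y‖ ^ a := by
            apply mul_le_mul_of_nonneg_right _ (by positivity); linarith
    · have h2 : 1 ≤ ‖x - y‖ ^ a := Real.one_le_rpow h1 ha.le
      have h3 : |P x - P y| ≤ 2 * B := by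
        have hx := hB x; have hy := hB y
        rw [Real.norm_eq_abs] at hx hy
        calc |P x - P y| ≤ |P x| + |P y| := abs_sub _ _
          _ ≤ 2 * B := by linarith
      calc |P x - P y| ≤ 2 * B := h3
        _ ≤ (2 * B + K) * 1 := by linarith
        _ ≤ (2 * B + K) * ‖x - y‖ ^ a := mul_le_mul_of_nonneg_left h2 (by positivity)

/-- the induction hypothesis of the continuity method -/
def Hk (a lo hi : ℝ) (P : E n → ℝ) (s : ℝ) : Prop :=
  ∃ v : E n → ℝ, Nice v ∧ (∀ x, v (-x) = v x) ∧ (∀ x, Ell lo hi (gm v x)) ∧ MAeq P s v ∧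
    Srj a (tauf v)

theorem exists_start (hsol : SolStmt) {a : ℝ} (ha : 0 < a) (ha1 : a < 1) (P : E n → ℝ) :
    Hk a 1 1 P 0 := by
  refine ⟨fun _ => 0, Nice_zero, fun _ => rfl, fun x => ?_, fun x => ?_, ?_⟩
  · rw [gm_zero]; exact Ell_one
  · rw [gm_zero]; simp
  · intro f N hf he
    obtain ⟨C, -, hC⟩ := hsol n a ha ha1
    obtain ⟨v, hv2, hve, hvH, hveq⟩ := hC f N hf he
    refine ⟨v, ⟨C * N, hv2, hve, hvH⟩, fun x => ?_⟩
    rw [tauf_zero]; exact hveq x

theorem exi_asm (hsol : SolStmt) (hstep : StepStmt) (hapr : AprStmt) (hreg : RegStmt)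
    (hiso : IsoStmt) : ∀ n, Exi n := by
  intro n P hP
  have ha : (0 : ℝ) < 1 / 2 := by norm_num
  have ha1 : (1 / 2 : ℝ) < 1 := by norm_num
  set a : ℝ := 1 / 2 with hadef
  obtain ⟨lo, hi, M, M2, hlo, hlohi, hA⟩ := hapr n a ha ha1 P hP
  obtain ⟨ε₁, hε₁, hR⟩ := hreg n a (lo / 2) (hi + lo / 2) ha ha1 (by positivity) (by linarith)
  obtain ⟨R, hR0⟩ := hA (ε₁ / 2) (by positivity)
  obtain ⟨NP, hNP⟩ := hP.tst.hb ha ha1
  obtain ⟨t₀, ht₀, hS⟩ := hstep n a lo hi M M2 NP (ε₁ / 2) ha ha1 hlo hlohi (by positivity)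
  -- one step
  have hstep1 : ∀ s : ℝ, 0 ≤ s → s ≤ 1 → Hk a lo hi P s → ∀ s' : ℝ, s ≤ s' → s' ≤ s + t₀ →
      s' ≤ 1 → Hk a lo hi P s' := by
    rintro s hs0 hs1 ⟨v, hvN, hve, hvE, hvM, hvS⟩ s' h1 h2 h3
    obtain ⟨-, hCls, hAP, hExt⟩ := hR0 s hs0 hs1 v hvN hve ⟨lo, hi, hlo, hvE⟩ hvM
    obtain ⟨v', hC', hD', hE', hM', hS'⟩ := hS P hNP hP.even s v hCls hvE hvM hAP hvS s' ⟨h1, h2⟩
    have hExt' : ExtS a ε₁ R v' := by
      constructor
      · intro x hx i j
        have h4 := hExt.1 x hx i j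
        have h5 := (hD' i j).1 x
        have : Hs v' x i j = Hs v x i j + (Hs v' x i j - Hs v x i j) := by ring
        rw [this]
        exact (abs_add_le _ _).trans (by linarith)
      · intro x y hx hy i j
        have h4 := hExt.2 x y hx hy i j
        have h5 := (hD' i j).2 x y
        have : Hs v' x i j - Hs v' y i j = (Hs v x i j - Hs v y i j) +
            ((Hs v' x i j - Hs v x i j) - (Hs v' y i j - Hs v y i j)) := by ring
        rw [this]
        refine (abs_add_le _ _).trans ?_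
        calc _ ≤ ε₁ / 2 * ‖x - y‖ ^ a + ε₁ / 2 * ‖x - y‖ ^ a := add_le_add h4 h5
          _ = ε₁ * ‖x - y‖ ^ a := by ring
    have hN' : Nice v' := hR (M + ε₁ / 2) R P hP.tst s' v' hC' hE' hM' hExt'
    obtain ⟨hE'', -⟩ := hR0 s' (hs0.trans h1) h3 v' hN' hC'.even
      ⟨lo / 2, hi + lo / 2, by positivity, hE'⟩ hM'
    exact ⟨v', hN', hC'.even, hE'', hM', hS'⟩
  -- start
  have h0 : Hk a lo hi P 0 := by
    obtain ⟨v, hvN, hve, hvE, hvM, hvS⟩ := exists_start hsol ha ha1 P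
    obtain ⟨hE'', -⟩ := hR0 0 le_rfl zero_le_one v hvN hve ⟨1, 1, one_pos, hvE⟩ hvM
    exact ⟨v, hvN, hve, hE'', hvM, hvS⟩
  -- induction
  have hind : ∀ k : ℕ, Hk a lo hi P (min (k * t₀) 1) := by
    intro k
    induction k with
    | zero => simpa using h0
    | succ k ih =>
      refine hstep1 _ (le_min (by positivity) zero_le_one) (min_le_right _ _) ih _ ?_ ?_
        (min_le_right _ _)
      · refine min_le_min_right _ ?_
        have : (k : ℝ) * t₀ ≤ (k + 1 : ℕ) * t₀ := by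
          apply mul_le_mul_of_nonneg_right _ ht₀.le; push_cast; linarith
        exact this
      · have h5 : ((k + 1 : ℕ) : ℝ) * t₀ = k * t₀ + t₀ := by push_cast; ring
        rw [h5]
        rcases le_total ((k : ℝ) * t₀) 1 with h6 | h6
        · rw [min_eq_left h6]; exact min_le_left _ _
        · rw [min_eq_right h6]
          exact (min_le_right _ _).trans (by linarith)
  obtain ⟨k, hk⟩ := exists_nat_gt (1 / t₀)
  have h1 : Hk a lo hi P 1 := by
    have h2 := hind k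
    have h3 : 1 ≤ (k : ℝ) * t₀ := by
      rw [div_lt_iff₀ ht₀] at hk; exact hk.le
    rwa [min_eq_right h3] at h2
  obtain ⟨v, hvN, hve, hvE, hvM, hvS⟩ := h1
  refine ⟨v, ⟨hvN, hve, ⟨lo, hi, hlo, hvE⟩, fun x => ?_⟩, ?_⟩
  · have := hvM x
    show Real.log (gm v x).det = _
    linarith
  · refine hiso n a ha ha1 v hvN hve ⟨lo, hi, hlo, hvE⟩ (fun ε hε => ?_) hvS
    obtain ⟨R', hR'⟩ := hA ε hε
    exact ⟨R', (hR' 1 zero_le_one le_rfl v hvN hve ⟨lo, hi, hlo, hvE⟩ hvM).2.2.2⟩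

end Crest.Agent.R238
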