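import Crest.Agent.R238.StepDefs
import Crest.Agent.R238.TopDefs
import Crest.Agent.R238.GapDefs

/-!
Row 238 (S0369): SKELETON of the existence assembly (helper264): quantifier check.

`Exi n` (TopDefs) from the Props
* `RepStmt`, `SolStmt` (HolDefs), `StepStmt` (StepDefs);
* `SchStmt` (B), `SupStmt` (gap, GapDefs), `DatStmt`;
* `RegStmt`, `RegLinStmt` (regularity), `AprStmt` (a priori bounds E1-E4).
-/

set_option autoImplicit false

open MeasureTheory Set Filter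
open scoped ContDiff Topology

namespace Crest.Agent.R238.Skel

open Crest.Agent.R238

variable {n : ℕ}

/-- `A - 1` is `C^a`-small outside the ball of radius `R`. -/
def Ext (a ε R : ℝ) (A : E n → Matrix (Fin n) (Fin n) ℝ) : Prop :=
  (∀ x, R ≤ ‖x‖ → ∀ i j, |A x i j - (1 : Matrix (Fin n) (Fin n) ℝ) i j| ≤ ε) ∧
  ∀ x y, R ≤ ‖x‖ → R ≤ ‖y‖ → ∀ i j, |A x i j - A y i j| ≤ ε * ‖x - y‖ ^ a

/-- (B), variable coefficient Schauder estimate. -/
def SchStmt : Prop := ∀ (n : ℕ) (a : ℝ), 0 < a → a < 1 → ∃ ε : ℝ, 0 < ε ∧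
  ∀ lo hi M R : ℝ, 0 < lo → lo ≤ hi → ∃ C R' : ℝ, 0 < C ∧
    ∀ τ : E n → Matrix (Fin n) (Fin n) ℝ, (∀ x, Ell lo hi (τ x)) →
      (∀ i j, HB a M (fun x => τ x i j)) → Ext a ε R τ →
      ∀ lam : ℝ, (lam = 0 ∨ lam = 1) → ∀ (h : E n → ℝ) (B N B0 : ℝ), ContDiff ℝ 2 h →
        (∀ i j, HB a B (fun x => Hs h x i j)) → HB a N (fun x => LA τ h x + lam * h x) →
        (∀ x, ‖x‖ ≤ R' → |h x| ≤ B0) → ∀ i j, HB a (C * (N + B0)) (fun x => Hs h x i j)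

/-- regularity of solutions. -/
def RegStmt : Prop := ∀ (n : ℕ) (a : ℝ), 0 < a → a < 1 → ∃ ε : ℝ, 0 < ε ∧
  ∀ lo hi M R : ℝ, 0 < lo → lo ≤ hi → ∀ (P : E n → ℝ) (s : ℝ) (v : E n → ℝ), Tst P →
    Cls a M v → (∀ x, Ell lo hi (gm v x)) → Ext a ε R (gm v) → MAeq P s v → Nice v

/-- regularity for the linearised equation. -/
def RegLinStmt : Prop := ∀ (n : ℕ) (a : ℝ), 0 < a → a < 1 → ∃ ε : ℝ, 0 < ε ∧
  ∀ lo hi M R : ℝ, 0 < lo → lo ≤ hi → ∀ v : E n → ℝ, Nice v →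
    Cls a M v → (∀ x, Ell lo hi (gm v x)) → Ext a ε R (gm v) →
    ∀ (h ψ : E n → ℝ) (B : ℝ), Cls a B h → Tst ψ → (∀ x, LA (tauf v) h x + h x = ψ x) → Nice h

/-- a priori bounds (E1)-(E4) + interpolation. -/
def AprStmt : Prop := ∀ (n : ℕ) (a : ℝ), 0 < a → a < 1 → ∀ P : E n → ℝ, PDat P →
  ∃ lo hi M : ℝ, 0 < lo ∧ lo ≤ hi ∧ ∀ ε : ℝ, 0 < ε → ∃ R : ℝ, ∀ s ∈ Icc (0 : ℝ) 1,
    ∀ v : E n → ℝ, Nice v → (∀ x, v (-x) = v x) →
      (∃ lo' hi' : ℝ, 0 < lo' ∧ ∀ x, Ell lo' hi' (gm v x)) → MAeq P s v →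
      Cls a M v ∧ (∀ x, Ell lo hi (gm v x)) ∧ Ext a ε R (gm v)

/-- `Dat` of GapDefs for a solution. -/
def DatStmt : Prop := ∀ (n : ℕ) (lo hi : ℝ), 0 < lo → lo ≤ hi → ∀ P : E n → ℝ, Tst P →
  ∀ M0 : ℝ, (∀ x, |P x| ≤ M0) → ∀ s ∈ Icc (0 : ℝ) 1, ∀ v : E n → ℝ, Nice v →
    (∀ x, Ell lo hi (gm v x)) → MAeq P s v →
    Gap.Dat (1 / hi) (1 / lo) M0 (fun x => s * P x) (tauf v)

/-- sup estimate from the gap (469). -/
def SupStmt : Prop := ∀ (n : ℕ) (lo hi M0 : ℝ), 0 < lo → ∀ R ε : ℝ, 0 < ε → ∃ K : ℝ, 0 ≤ K ∧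
  ∀ (P : E n → ℝ) (τ : E n → Matrix (Fin n) (Fin n) ℝ), Gap.Dat lo hi M0 P τ →
    ∀ h : E n → ℝ, Gap.Ev h → ContDiff ℝ 2 h → ∀ B N : ℝ, (∀ x i j, |Gap.H h x i j| ≤ B) →
      (∀ x, |Gap.Lop τ h x + h x| ≤ N) → ∀ x, ‖x‖ ≤ R → |h x| ≤ ε * B + K * N

/-! ### small lemmas -/

theorem hbmono {a M M' : ℝ} {f : E n → ℝ} (h : HB a M f) (hM : M ≤ M') : HB a M' f :=
  ⟨fun x => (h.1 x).trans hM, fun x y => (h.2 x y).trans
    (mul_le_mul_of_nonneg_right hM (Real.rpow_nonneg (norm_nonneg _) a))⟩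

theorem hbnonneg {a M : ℝ} {f : E n → ℝ} (h : HB a M f) : 0 ≤ M := (abs_nonneg _).trans (h.1 0)

/-- test functions are Hölder -/
theorem tsthb {a : ℝ} (ha : 0 < a) (ha1 : a < 1) {f : E n → ℝ} (hf : Tst f) :
    ∃ N, HB a N f := by
  obtain ⟨L, hL⟩ := ContDiff.lipschitzWith_of_hasCompactSupport hf.supp hf.smooth (by simp)
  obtain ⟨B, hB⟩ := hf.supp.exists_bound_of_continuous hf.smooth.continuous
  have hB' : ∀ x, |f x| ≤ B := hB
  have hB0 : 0 ≤ B := (abs_nonneg _).trans (hB' 0)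
  have hL0 : (0 : ℝ) ≤ L := L.2
  refine ⟨2 * B + L, fun x => (hB' x).trans (by linarith), fun x y => ?_⟩
  have h1 : |f x - f y| ≤ L * ‖x - y‖ := by
    have := hL.dist_le_mul x y
    rwa [Real.dist_eq, dist_eq_norm] at this
  have h2 : |f x - f y| ≤ 2 * B := by
    have := abs_sub (f x) (f y)
    linarith [hB' x, hB' y]
  rcases le_total ‖x - y‖ 1 with h | h
  · have h3 : ‖x - y‖ ≤ ‖x - y‖ ^ a := by
      rcases (norm_nonneg (x - y)).eq_or_lt with h0 | h0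
      · rw [← h0]; exact Real.rpow_nonneg le_rfl a
      · calc ‖x - y‖ = ‖x - y‖ ^ (1 : ℝ) := (Real.rpow_one _).symm
          _ ≤ ‖x - y‖ ^ a := Real.rpow_le_rpow_of_exponent_ge h0 h ha1.le
    have h4 : 0 ≤ ‖x - y‖ ^ a := Real.rpow_nonneg (norm_nonneg _) a
    calc |f x - f y| ≤ L * ‖x - y‖ := h1
      _ ≤ L * ‖x - y‖ ^ a := mul_le_mul_of_nonneg_left h3 hL0
      _ ≤ (2 * B + L) * ‖x - y‖ ^ a := mul_le_mul_of_nonneg_right (by linarith) h4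
  · have h3 : 1 ≤ ‖x - y‖ ^ a := Real.one_le_rpow h ha.le
    calc |f x - f y| ≤ 2 * B := h2
      _ ≤ (2 * B + L) * 1 := by linarith
      _ ≤ (2 * B + L) * ‖x - y‖ ^ a := mul_le_mul_of_nonneg_left h3 (by linarith)

/-- matrix inverse (H1b 437 / 57) -/
def InvStmt : Prop := ∀ (n : ℕ) (a lo hi M : ℝ), 0 < a → a < 1 → 0 < lo → lo ≤ hi →
  ∃ M' : ℝ, ∀ g : E n → Matrix (Fin n) (Fin n) ℝ, (∀ x, Ell lo hi (g x)) →
    (∀ i j, HB a M (fun x => g x i j)) →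
    (∀ x, Ell (1 / hi) (1 / lo) (g x)⁻¹) ∧ ∀ i j, HB a M' (fun x => (g x)⁻¹ i j)

/-- exterior smallness of the inverse (437) -/
def InvExtStmt : Prop := ∀ (n : ℕ) (a ε : ℝ), 0 < a → a < 1 → 0 < ε → ∃ ε' : ℝ, 0 < ε' ∧
  ∀ (R lo hi : ℝ) (g : E n → Matrix (Fin n) (Fin n) ℝ), 0 < lo → (∀ x, Ell lo hi (g x)) →
    Ext a ε' R g → Ext a ε R (fun x => (g x)⁻¹)

theorem Ext.mono {a ε ε' R : ℝ} {A : E n → Matrix (Fin n) (Fin n) ℝ} (h : Ext a ε R A)
    (hε : ε ≤ ε') : Ext a ε' R A :=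
  ⟨fun x hx i j => (h.1 x hx i j).trans hε, fun x y hx hy i j => (h.2 x y hx hy i j).trans
    (mul_le_mul_of_nonneg_right hε (Real.rpow_nonneg (norm_nonneg _) a))⟩

theorem HB_gm {a M : ℝ} {v : E n → ℝ} {i j : Fin n} (h : HB a M (fun x => Hs v x i j)) :
    HB a (M + 1) (fun x => gm v x i j) := by
  have h1 : |(1 : Matrix (Fin n) (Fin n) ℝ) i j| ≤ 1 := by
    rw [Matrix.one_apply]; split_ifs <;> simp
  refine ⟨fun x => ?_, fun x y => ?_⟩
  · have h2 := h.1 x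
    calc |gm v x i j| = |(1 : Matrix (Fin n) (Fin n) ℝ) i j + Hs v x i j| := by simp [gm]
      _ ≤ _ := abs_add_le _ _
      _ ≤ M + 1 := by linarith
  · have h2 := h.2 x y
    have h3 : 0 ≤ ‖x - y‖ ^ a := Real.rpow_nonneg (norm_nonneg _) a
    calc |gm v x i j - gm v y i j| = |Hs v x i j - Hs v y i j| := by simp [gm]
      _ ≤ M * ‖x - y‖ ^ a := h2
      _ ≤ (M + 1) * ‖x - y‖ ^ a := by nlinarith

/-- the absorption argument: (B) + sup estimate give the a priori bound `APr`. -/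
theorem apr_of (hSch : SchStmt) (hSup : SupStmt) (hDat : DatStmt) (hInv : InvStmt)
    (hInvE : InvExtStmt) (n : ℕ) (a : ℝ) (ha : 0 < a) (ha1 : a < 1) :
    ∃ ε : ℝ, 0 < ε ∧ ∀ lo hi M R : ℝ, 0 < lo → lo ≤ hi → ∀ P : E n → ℝ, Tst P →
      ∃ M2 : ℝ, ∀ s ∈ Icc (0 : ℝ) 1, ∀ v : E n → ℝ, Nice v → Cls a M v →
        (∀ x, Ell lo hi (gm v x)) → Ext a ε R (gm v) → MAeq P s v → APr a M2 (tauf v) := by
  obtain ⟨ε₁, hε₁, hS⟩ := hSch n a ha ha1
  obtain ⟨ε, hε, hE⟩ := hInvE n a ε₁ ha ha1 hε₁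
  refine ⟨ε, hε, fun lo hi M R hlo hlh P hP => ?_⟩
  have hhi : 0 < hi := hlo.trans_le hlh
  obtain ⟨M', hM'⟩ := hInv n a lo hi (M + 1) ha ha1 hlo hlh
  obtain ⟨C, R', hC, hS'⟩ := hS (1 / hi) (1 / lo) M' R (by positivity)
    (one_div_le_one_div_of_le hlo hlh)
  obtain ⟨M0, hM0⟩ := hP.supp.exists_bound_of_continuous hP.smooth.continuous
  obtain ⟨K, hK, hSu⟩ := hSup n (1 / hi) (1 / lo) M0 (by positivity) R' (1 / (2 * C))
    (by positivity)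
  refine ⟨2 * C * (1 + K), fun s hs v hv hcls hell hext hma h N hh hN i j => ?_⟩
  obtain ⟨B, hB⟩ := hh
  have hN0 : 0 ≤ N := hbnonneg hN
  have hdat := hDat n lo hi hlo hlh P hP M0 (fun x => hM0 x) s hs v hv hell hma
  obtain ⟨hinv1, hinv2⟩ := hM' (gm v) hell (fun i j => HB_gm (hcls.hb i j))
  have hext' : Ext a ε₁ R (tauf v) := hE R lo hi (gm v) hlo hell hext
  -- for each bound of the Hessian, a better one
  have key : ∀ b : ℝ, (∀ x i j, |Hs h x i j| ≤ b) →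
      ∀ i j, HB a (C * (N + (1 / (2 * C) * b + K * N))) (fun x => Hs h x i j) := by
    intro b hb
    have h1 := hSu (fun x => s * P x) (tauf v) hdat h hB.even hB.c2 b N (fun x i j => hb x i j)
      (fun x => hN.1 x)
    refine hS' (tauf v) hinv1 hinv2 hext' 1 (Or.inr rfl) h B N _ hB.c2 hB.hb ?_ h1
    simpa using hN
  -- the best bound
  set S : Set ℝ := {b | 0 ≤ b ∧ ∀ x i j, |Hs h x i j| ≤ b} with hSdef
  have hBS : max B 0 ∈ S := ⟨le_max_right _ _, fun x i j => ((hB.hb i j).1 x).trans (le_max_left _ _)⟩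
  have hSne : S.Nonempty := ⟨_, hBS⟩
  have hSbd : BddBelow S := ⟨0, fun b hb => hb.1⟩
  set b0 := sInf S with hb0
  have hb0S : b0 ∈ S := by
    refine ⟨le_csInf hSne fun b hb => hb.1, fun x i j => ?_⟩
    exact le_csInf hSne fun b hb => hb.2 x i j
  have h2 : C * (N + (1 / (2 * C) * b0 + K * N)) ∈ S :=
    ⟨by have := hb0S.1; positivity, fun x i j => (key b0 hb0S.2 i j).1 x⟩
  have h3 : b0 ≤ C * (N + (1 / (2 * C) * b0 + K * N)) := csInf_le hSbd h2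
  have h4 : C * (N + (1 / (2 * C) * b0 + K * N)) = C * (1 + K) * N + b0 / 2 := by
    field_simp
    ring
  rw [h4] at h3
  refine hbmono (key b0 hb0S.2 i j) ?_
  rw [h4]
  linarith

/-- state of the continuity method -/
structure St (a lo hi M ε R : ℝ) (P : E n → ℝ) (s : ℝ) (v : E n → ℝ) : Prop where
  nice : Nice v
  cls : Cls a M v
  ell : ∀ x, Ell lo hi (gm v x)
  ext : Ext a ε R (gm v)
  ma : MAeq P s v
  srj : Srj a (tauf v)

theorem Hs_zero (x : E n) (i j : Fin n) : Hs (fun _ : E n => (0 : ℝ)) x i j = 0 := by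
  have : fderiv ℝ (fun _ : E n => (0 : ℝ)) = fun _ => 0 := by
    ext1 y; simp
  simp [Hs, this]

theorem gm_zero (x : E n) : gm (fun _ : E n => (0 : ℝ)) x = 1 := by
  ext i j
  simp [gm, Hs_zero]

theorem Ell_one : Ell 1 1 (1 : Matrix (Fin n) (Fin n) ℝ) := by
  refine ⟨fun i j => by simp [Matrix.one_apply, eq_comm], fun z => ?_⟩
  have : ∑ i, ∑ j, (1 : Matrix (Fin n) (Fin n) ℝ) i j * z i * z j = ∑ i, z i ^ 2 := by
    refine Finset.sum_congr rfl fun i _ => ?_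
    simp [Matrix.one_apply, pow_two]
  rw [this]
  simp

theorem Nice_zero : Nice (fun _ : E n => (0 : ℝ)) := by
  refine ⟨contDiff_const, fun k hk => ⟨0, fun x => ?_⟩⟩
  have : iteratedFDeriv ℝ k (fun _ : E n => (0 : ℝ)) = 0 :=
    iteratedFDeriv_const_of_ne (by omega) 0
  rw [this]
  simp

theorem MAeq_zero (P : E n → ℝ) : MAeq P 0 (fun _ => (0 : ℝ)) := by
  intro x
  rw [gm_zero]
  simp

theorem Srj_zero (hSol : SolStmt) {a : ℝ} (ha : 0 < a) (ha1 : a < 1) :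
    Srj a (tauf (fun _ : E n => (0 : ℝ))) := by
  intro f N hf he
  obtain ⟨C, hC, h⟩ := hSol n a ha ha1
  obtain ⟨v, h1, h2, h3, h4⟩ := h f N hf he
  refine ⟨v, ⟨C * N, h1, h2, h3⟩, fun x => ?_⟩
  rw [← h4 x]
  have : ∀ y : E n, tauf (fun _ : E n => (0 : ℝ)) y = 1 := fun y => by
    rw [tauf, gm_zero]; simp
  simp only [LA, this]

/-- **the assembly** -/
theorem exi_of (hSol : SolStmt) (hStep : StepStmt) (hSch : SchStmt)
    (hSup : SupStmt) (hDat : DatStmt) (hInv : InvStmt) (hInvE : InvExtStmt) (hReg : RegStmt)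
    (hLin : RegLinStmt) (hApr : AprStmt) (n : ℕ) : Exi n := by
  intro P hP
  have ha : (0 : ℝ) < 1 / 2 := by norm_num
  have ha1 : (1 / 2 : ℝ) < 1 := by norm_num
  set a : ℝ := 1 / 2
  obtain ⟨ε₁, hε₁, hA⟩ := apr_of hSch hSup hDat hInv hInvE n a ha ha1
  obtain ⟨ε₂, hε₂, hR⟩ := hReg n a ha ha1
  obtain ⟨ε₃, hε₃, hL⟩ := hLin n a ha ha1
  obtain ⟨lo, hi, M, hlo, hlh, hApr'⟩ := hApr n a ha ha1 P hP
  set ε : ℝ := min (min ε₁ ε₂) ε₃ / 2 with hεd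
  have hε : 0 < ε := by positivity
  have e1 : ε ≤ ε₁ := by
    have := min_le_left (min ε₁ ε₂) ε₃
    have := min_le_left ε₁ ε₂
    linarith
  have e2 : ε + ε ≤ ε₂ := by
    have := min_le_left (min ε₁ ε₂) ε₃
    have := min_le_right ε₁ ε₂
    linarith
  have e3 : ε ≤ ε₃ := by
    have := min_le_right (min ε₁ ε₂) ε₃
    linarith
  obtain ⟨R, hR'⟩ := hApr' ε hε
  obtain ⟨M2, hM2⟩ := hA lo hi M R hlo hlh P hP.tst
  obtain ⟨NP, hNP⟩ := tsthb ha ha1 hP.tst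
  obtain ⟨t₀, ht₀, hstep⟩ := hStep n a lo hi M M2 NP ε ha ha1 hlo hlh hε
  -- one step
  have step : ∀ s ∈ Icc (0 : ℝ) 1, ∀ v, St a lo hi M ε R P s v → ∀ s' ∈ Icc s (s + t₀), s' ≤ 1 →
      ∃ v', St a lo hi M ε R P s' v' := by
    intro s hs v hv s' hs' hs'1
    have hAPr := hM2 s hs v hv.nice hv.cls hv.ell (hv.ext.mono e1) hv.ma
    obtain ⟨v', h1, h2, h3, h4, h5⟩ := hstep P hNP hP.even s v hv.cls hv.ell hv.ma hAPr hv.srj s' hs'
    have hext : Ext a ε₂ R (gm v') := by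
      have hd : ∀ x i j, gm v' x i j = gm v x i j + (Hs v' x i j - Hs v x i j) := by
        intro x i j
        simp [gm]
      refine ⟨fun x hx i j => ?_, fun x y hx hy i j => ?_⟩
      · have q1 := hv.ext.1 x hx i j
        have q2 := (h2 i j).1 x
        rw [hd]
        calc |gm v x i j + (Hs v' x i j - Hs v x i j) - (1 : Matrix (Fin n) (Fin n) ℝ) i j|
            = |(gm v x i j - (1 : Matrix (Fin n) (Fin n) ℝ) i j)
              + (Hs v' x i j - Hs v x i j)| := by congr 1; ring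
          _ ≤ _ := abs_add_le _ _
          _ ≤ ε + ε := add_le_add q1 q2
          _ ≤ ε₂ := e2
      · have q1 := hv.ext.2 x y hx hy i j
        have q2 := (h2 i j).2 x y
        have q3 : 0 ≤ ‖x - y‖ ^ a := Real.rpow_nonneg (norm_nonneg _) a
        rw [hd, hd]
        calc |gm v x i j + (Hs v' x i j - Hs v x i j) - (gm v y i j + (Hs v' y i j - Hs v y i j))|
            = |(gm v x i j - gm v y i j)
              + ((Hs v' x i j - Hs v x i j) - (Hs v' y i j - Hs v y i j))| := by congr 1; ring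
          _ ≤ _ := abs_add_le _ _
          _ ≤ ε * ‖x - y‖ ^ a + ε * ‖x - y‖ ^ a := add_le_add q1 q2
          _ = (ε + ε) * ‖x - y‖ ^ a := by ring
          _ ≤ ε₂ * ‖x - y‖ ^ a := mul_le_mul_of_nonneg_right e2 q3
    have hn : Nice v' := hR (lo / 2) (hi + lo / 2) (M + ε) R (by positivity) (by linarith) P s' v'
      hP.tst h1 h3 hext h4
    obtain ⟨g1, g2, g3⟩ := hR' s' ⟨hs.1.trans hs'.1, hs'1⟩ v' hn h1.even
      ⟨lo / 2, hi + lo / 2, by positivity, h3⟩ h4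
    exact ⟨v', hn, g1, g2, g3, h4, h5⟩
  -- start
  have start : ∃ v, St a lo hi M ε R P 0 v := by
    obtain ⟨g1, g2, g3⟩ := hR' 0 (by simp) (fun _ => 0) Nice_zero (fun _ => rfl)
      ⟨1, 1, one_pos, fun x => by rw [gm_zero]; exact Ell_one⟩ (MAeq_zero P)
    exact ⟨_, Nice_zero, g1, g2, g3, MAeq_zero P, Srj_zero hSol ha ha1⟩
  have ind : ∀ k : ℕ, ∃ v, St a lo hi M ε R P (min 1 (k * t₀)) v := by
    intro k
    induction k with
    | zero => simpa using start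
    | succ k ih =>
      obtain ⟨v, hv⟩ := ih
      have hk : (0 : ℝ) ≤ k * t₀ := by positivity
      refine step _ ⟨le_min zero_le_one hk, min_le_left _ _⟩ v hv _ ⟨?_, ?_⟩ (min_le_left _ _)
      · refine min_le_min le_rfl ?_
        push_cast
        linarith
      · push_cast
        rcases le_total 1 ((k : ℝ) * t₀) with h | h
        · rw [min_eq_left h]
          exact (min_le_left _ _).trans (by linarith)
        · rw [min_eq_right h]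
          refine (min_le_right _ _).trans (by linarith)
  obtain ⟨k, hk⟩ := exists_nat_ge (1 / t₀)
  obtain ⟨v, hv⟩ := ind k
  rw [min_eq_left ((div_le_iff₀ ht₀).1 hk)] at hv
  refine ⟨v, ⟨hv.nice, hv.cls.even, ⟨lo, hi, hlo, hv.ell⟩, fun x => ?_⟩, fun ψ hψ he => ?_⟩
  · have := hv.ma x
    change Real.log (gm v x).det = _
    linarith
  · obtain ⟨N, hN⟩ := tsthb ha ha1 hψ
    obtain ⟨h, ⟨B, hB⟩, h2⟩ := hv.srj ψ N hN he
    exact ⟨h, hL lo hi M R hlo hlh v hv.nice hv.cls hv.ell (hv.ext.mono e3) h ψ B hB hψ h2, hB.even,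
      h2⟩

end Crest.Agent.R238.Skel
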