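import Crest.Agent.R238.IdentX4

/-!
# Row 238, node IDENT, x-side instance, part 5: the inequality for test functions
-/

set_option autoImplicit false
set_option linter.unusedSectionVars false

open Finset MeasureTheory Matrix
open scoped ContDiff

namespace Crest.Agent.R238.IdX

variable {n : ℕ} {κ : Type*} [Fintype κ]
variable {u Psi : Sm n} {c : ℝ} (hpos : ∀ x, (hR u.1 x).PosDef) (hMA : MA u Psi c)
variable (Φ : κ → Sm n) (r : κ → ℝ) (φ : Sm n)

/-- the field `f = ∑ r_k <x, ∇Φ_k>` -/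
noncomputable def fel (Φ : κ → Sm n) (r : κ → ℝ) : Sm n := ∑ k, r k • ∑ b, xc b * pd b (Φ k)

/-- one wall contribution -/
noncomputable def Fk (k : κ) : Sm n :=
  (2 * r k) • (∑ a, ∑ b, hM (Φ k) b a * (xD u (det_ne hpos)).q φ a b
      + ∑ a, ∑ b, xc b * hM (Φ k) a b * (xD u (det_ne hpos)).z φ a)
    - ∑ a, ∑ b, hM (Φ k) a b * ((xD u (det_ne hpos)).z φ a * (xD u (det_ne hpos)).z φ b)
    - ∑ d, ∑ b, hM (Φ k) d b * ∑ a, (xD u (det_ne hpos)).Am φ a d * (xD u (det_ne hpos)).q φ a b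

lemma pd_fel (a : Fin n) :
    pd a (fel Φ r) = ∑ k, r k • (pd a (Φ k) + ∑ b, xc b * hM (Φ k) a b) := by
  rw [fel, map_sum]
  refine sum_congr rfl fun k _ => ?_
  rw [Derivation.map_smul, map_sum]
  congr 1
  have h5 : ∀ i, pd a (xc i * pd i (Φ k) : Sm n) = xc i * hM (Φ k) a i
      + (if a = i then 1 else 0) * pd i (Φ k) := by
    intro i
    rw [Derivation.leibniz, smul_eq_mul, smul_eq_mul, pd_xc]
    show _ = xc i * pd a (pd i (Φ k)) + _
    ring
  simp_rw [h5, sum_add_distrib]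
  simp
  ring

include hMA in
lemma main_E (hφ : φ ∈ Cc n) (hΦ : ∀ a, pd a Psi = ∑ k, pd a (Φ k)) :
    - 2 * EE Psi (fel Φ r * (xD u (det_ne hpos)).Lpsi φ)
      - EE Psi ((xD u (det_ne hpos)).Lpsi φ * (xD u (det_ne hpos)).Lpsi φ)
    = EE Psi (∑ k, Fk hpos Φ r φ k)
      - EE Psi (∑ a, ∑ b, ((xD u (det_ne hpos)).N φ b a - (xD u (det_ne hpos)).Am φ b a)
          * ((xD u (det_ne hpos)).N φ a b - (xD u (det_ne hpos)).Am φ a b))
      - EE Psi ((xD u (det_ne hpos)).X5 φ + (xD u (det_ne hpos)).X6 φ) := by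
  set S := xD u (det_ne hpos) with hS
  set J := xJ hpos hMA with hJ
  have hE : ∀ f, J.E f = EE Psi f := fun f => rfl
  have id := J.identity φ hφ
  have e1 := J.E_mul_Lpsi φ hφ (fel Φ r)
  simp only [hE] at id e1
  -- H
  have hH : ∀ a b, S.H a b = ∑ k, hM (Φ k) a b := by
    intro a b
    rw [HData.H, hS, xD_DU, MA_pd (det_ne hpos) hMA b, hΦ, map_sum]
    rfl
  -- the linear term
  have e2 : ∑ a, EE Psi (S.DU a (fel Φ r) * S.z φ a)
      = ∑ k, r k * (EE Psi (∑ a, ∑ b, hM (Φ k) b a * S.q φ a b)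
        + EE Psi (∑ a, ∑ b, xc b * hM (Φ k) a b * S.z φ a)) := by
    have a1 : ∀ a, S.DU a (fel Φ r) * S.z φ a
        = ∑ k, r k • (pd a (Φ k) * S.z φ a + ∑ b, xc b * hM (Φ k) a b * S.z φ a) := by
      intro a
      rw [hS, xD_DU, pd_fel, sum_mul]
      refine sum_congr rfl fun k _ => ?_
      rw [smul_mul_assoc, add_mul, sum_mul]
    have a2 : ∀ a, EE Psi (S.DU a (fel Φ r) * S.z φ a)
        = ∑ k, r k * (EE Psi (pd a (Φ k) * S.z φ a)
          + EE Psi (∑ b, xc b * hM (Φ k) a b * S.z φ a)) := by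
      intro a
      rw [a1, map_sum]
      refine sum_congr rfl fun k _ => ?_
      rw [map_smul, map_add, smul_eq_mul]
    simp_rw [a2]
    rw [sum_comm]
    refine sum_congr rfl fun k _ => ?_
    rw [← mul_sum, sum_add_distrib, map_sum (EE Psi) (fun a => ∑ b, xc b * hM (Φ k) a b * S.z φ a)]
    congr 2
    have a3 := J.E_U_z φ hφ (fun a => pd a (Φ k))
    simp only [hE] at a3
    rw [a3, map_sum]
    refine sum_congr rfl fun a _ => ?_
    rw [map_sum]
    refine sum_congr rfl fun b _ => ?_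
    rw [xD_DU]
    rfl
  -- the quadratic terms
  have e3 : EE Psi (∑ a, ∑ b, S.H a b * (S.z φ a * S.z φ b))
      = ∑ k, EE Psi (∑ a, ∑ b, hM (Φ k) a b * (S.z φ a * S.z φ b)) := by
    rw [← map_sum]
    congr 1
    simp_rw [hH, sum_mul]
    exact HData.sum_pull3' _
  have e4 : EE Psi (∑ d, ∑ b, S.H d b * ∑ a, S.Am φ a d * S.q φ a b)
      = ∑ k, EE Psi (∑ d, ∑ b, hM (Φ k) d b * ∑ a, S.Am φ a d * S.q φ a b) := by
    rw [← map_sum]
    congr 1
    simp_rw [hH, sum_mul]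
    exact HData.sum_pull3' _
  have e5 : EE Psi (∑ k, Fk hpos Φ r φ k)
      = 2 * ∑ k, r k * (EE Psi (∑ a, ∑ b, hM (Φ k) b a * S.q φ a b)
        + EE Psi (∑ a, ∑ b, xc b * hM (Φ k) a b * S.z φ a))
        - ∑ k, EE Psi (∑ a, ∑ b, hM (Φ k) a b * (S.z φ a * S.z φ b))
        - ∑ k, EE Psi (∑ d, ∑ b, hM (Φ k) d b * ∑ a, S.Am φ a d * S.q φ a b) := by
    rw [map_sum, mul_sum, ← sum_sub_distrib, ← sum_sub_distrib]
    refine sum_congr rfl fun k _ => ?_
    rw [Fk, map_sub, map_sub, map_smul, map_add, smul_eq_mul]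
    ring
  rw [e5, id, e1, e2, e3, e4]
  ring

/-- local right hand side (before the Stein step) -/
noncomputable def Nloc (u : E n → ℝ) (Φ : κ → Sm n) (r : κ → ℝ) (x : E n) : ℝ :=
  ∑ k, r k ^ 2 * (∑ a, ∑ b, Hs (Φ k).1 x a b * (hR u x)⁻¹ a b
    + ∑ a, ∑ b, Hs (Φ k).1 x a b * (x a * x b))

lemma evx_hM_apply (f : Sm n) (x : E n) (a b : Fin n) : evx x (hM f a b) = Hs f.1 x a b := by
  rw [evx_apply]
  show (pd a (pd b f) : Sm n).1 x = _
  rw [pd_pd]

lemma evx_smul (x : E n) (t : ℝ) (f : Sm n) : evx x (t • f) = t * evx x f := rfl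

lemma Fk_le (hconv : ∀ k x, (hR (Φ k).1 x).PosSemidef) (k : κ) (x : E n) :
    evx x (Fk hpos Φ r φ k) ≤ r k ^ 2 * (∑ a, ∑ b, Hs (Φ k).1 x a b * (hR u.1 x)⁻¹ a b
    + ∑ a, ∑ b, Hs (Φ k).1 x a b * (x a * x b)) := by
  set S := xD u (det_ne hpos) with hS
  set Hx := hR (Φ k).1 x with hHx
  set G := hR u.1 x with hG
  set Q : Matrix (Fin n) (Fin n) ℝ := fun a b => evx x (S.q φ a b) with hQ
  set zx : Fin n → ℝ := fun a => evx x (S.z φ a) with hzx
  have hGt : Gᵀ = G := (hpos x).1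
  have hHt : ∀ a b, Hx a b = Hx b a := fun a b => by
    have h : Hxᵀ = Hx := (hconv k x).1
    exact congrFun (congrFun h b) a
  have hQt : Qᵀ = Q := by
    ext a b
    show evx x (S.q φ b a) = evx x (S.q φ a b)
    rw [S.q_symm]
  have hTG : G⁻¹ * G = 1 := inv_mul_hR hpos x
  have hGT : G * G⁻¹ = 1 := mul_eq_one_comm.mp hTG
  have hTt : (G⁻¹)ᵀ = G⁻¹ := by rw [transpose_nonsing_inv, hGt]
  -- evaluation of `F_k`
  have e1 : evx x (Fk hpos Φ r φ k) = 2 * r k * (∑ a, ∑ b, Hx a b * Q a b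
      + ∑ a, ∑ b, Hx a b * (zx a * x b))
      - ∑ a, ∑ b, Hx a b * (zx a * zx b)
      - ∑ a, ∑ b, Hx a b * (Q * G * Q) a b := by
    rw [Fk, map_sub, map_sub, evx_smul, map_add, map_sum, map_sum, map_sum, map_sum]
    congr 1
    · congr 1
      · congr 2
        · refine sum_congr rfl fun a _ => ?_
          rw [map_sum]
          refine sum_congr rfl fun b _ => ?_
          rw [map_mul, evx_hM_apply]
          show Hx b a * Q a b = _
          rw [hHt b a]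
        · refine sum_congr rfl fun a _ => ?_
          rw [map_sum]
          refine sum_congr rfl fun b _ => ?_
          rw [map_mul, map_mul, evx_hM_apply]
          show x b * Hx a b * zx a = _
          ring
      · refine sum_congr rfl fun a _ => ?_
        rw [map_sum]
        refine sum_congr rfl fun b _ => ?_
        rw [map_mul, map_mul, evx_hM_apply]
        rfl
    · refine sum_congr rfl fun d _ => ?_
      rw [map_sum]
      refine sum_congr rfl fun b _ => ?_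
      rw [map_mul, evx_hM_apply]
      show Hx d b * _ = _
      congr 1
      rw [map_sum, Matrix.mul_apply]
      refine sum_congr rfl fun a _ => ?_
      rw [map_mul, S.Am_eq_g, map_sum]
      show (∑ i, evx x (S.g a i * S.q φ i d)) * Q a b = (Q * G) d a * Q a b
      congr 1
      rw [Matrix.mul_apply]
      refine sum_congr rfl fun i _ => ?_
      rw [map_mul]
      have hg' : evx x (S.g a i) = G a i := by
        rw [evx_apply]; show (pd a (pd i u) : Sm n).1 x = _; rw [pd_pd]; rfl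
      have hga : G a i = G i a := congrFun (congrFun hGt i) a
      rw [hg', hga]
      show G i a * Q i d = Q d i * G i a
      have hq : Q i d = Q d i := congrFun (congrFun hQt d) i
      rw [hq]; ring
  -- first square
  have p1 := psd_quad (hconv k x) (fun a => zx a - r k * x a)
  -- second square
  set Y : Matrix (Fin n) (Fin n) ℝ := Q - r k • G⁻¹ with hY
  have hYt : Yᵀ = Y := by rw [hY, transpose_sub, transpose_smul, hQt, hTt]
  have hP : (Y * G * Y).PosSemidef := by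
    have := (hpos x).posSemidef.conjTranspose_mul_mul_same Y
    rwa [conjTranspose_eq_transpose_of_trivial, hYt] at this
  have p2 := psd_hs (hconv k x) hP
  have hexp : Y * G * Y = Q * G * Q - (2 * r k) • Q + (r k ^ 2) • G⁻¹ := by
    rw [hY]
    have a1 : Q * G * G⁻¹ = Q := by rw [Matrix.mul_assoc, hGT, Matrix.mul_one]
    have a2 : G⁻¹ * G * Q = Q := by rw [hTG, Matrix.one_mul]
    have a3 : G⁻¹ * G * G⁻¹ = G⁻¹ := by rw [hTG, Matrix.one_mul]
    simp only [Matrix.sub_mul, Matrix.mul_sub, Matrix.smul_mul, Matrix.mul_smul, a1, a2, a3,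
      smul_sub, smul_smul]
    module
  rw [hexp] at p2
  have p2' : ∑ a, ∑ b, Hx a b * (Q * G * Q - (2 * r k) • Q + (r k ^ 2) • G⁻¹) a b
      = ∑ a, ∑ b, Hx a b * (Q * G * Q) a b - 2 * r k * ∑ a, ∑ b, Hx a b * Q a b
        + r k ^ 2 * ∑ a, ∑ b, Hx a b * G⁻¹ a b := by
    simp_rw [mul_sum]
    rw [← sum_sub_distrib, ← sum_add_distrib]
    refine sum_congr rfl fun a _ => ?_
    rw [← sum_sub_distrib, ← sum_add_distrib]
    refine sum_congr rfl fun b _ => ?_
    rw [Matrix.add_apply, Matrix.sub_apply, Matrix.smul_apply, Matrix.smul_apply, smul_eq_mul,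
      smul_eq_mul]
    ring
  have p1' : ∑ a, ∑ b, Hx a b * ((zx a - r k * x a) * (zx b - r k * x b))
      = ∑ a, ∑ b, Hx a b * (zx a * zx b) - 2 * r k * ∑ a, ∑ b, Hx a b * (zx a * x b)
        + r k ^ 2 * ∑ a, ∑ b, Hx a b * (x a * x b) := by
    have hsw : ∑ a, ∑ b, Hx a b * (zx a * x b) = ∑ a, ∑ b, Hx a b * (x a * zx b) := by
      rw [sum_comm]
      refine sum_congr rfl fun a _ => sum_congr rfl fun b _ => ?_
      rw [hHt b a]; ring
    have h2 : 2 * r k * ∑ a, ∑ b, Hx a b * (zx a * x b)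
        = r k * ∑ a, ∑ b, Hx a b * (zx a * x b) + r k * ∑ a, ∑ b, Hx a b * (x a * zx b) := by
      rw [← hsw]; ring
    rw [h2]
    simp_rw [mul_sum]
    rw [← sum_add_distrib, ← sum_sub_distrib, ← sum_add_distrib]
    refine sum_congr rfl fun a _ => ?_
    rw [← sum_add_distrib, ← sum_sub_distrib, ← sum_add_distrib]
    refine sum_congr rfl fun b _ => ?_
    ring
  rw [p2'] at p2
  rw [p1'] at p1
  rw [e1]
  have f1 : ∑ a, ∑ b, Hs (Φ k).1 x a b * (hR u.1 x)⁻¹ a b = ∑ a, ∑ b, Hx a b * G⁻¹ a b := rfl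
  have f2 : ∑ a, ∑ b, Hs (Φ k).1 x a b * (x a * x b) = ∑ a, ∑ b, Hx a b * (x a * x b) := rfl
  rw [f1, f2]
  linarith

lemma Fk_mem (hφ : φ ∈ Cc n) (k : κ) (J : HInt (xD u (det_ne hpos))) (hJ : J.I = Cc n) :
    Fk hpos Φ r φ k ∈ Cc n := by
  have hφ' : φ ∈ J.I := by rw [hJ]; exact hφ
  have hz := fun a => J.z_mem φ hφ' a
  have hq := fun a b => J.q_mem φ hφ' a b
  have hsm : ∀ (t : ℝ) (X : Sm n), X ∈ J.I → t • X ∈ J.I := by
    intro t X hX
    rw [Algebra.smul_def]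
    exact J.I.mul_mem_left _ hX
  rw [← hJ, Fk]
  refine J.I.sub_mem (J.I.sub_mem (hsm _ _ (J.I.add_mem ?_ ?_)) ?_) ?_
  · exact Ideal.sum_mem _ fun a _ => Ideal.sum_mem _ fun b _ => J.I.mul_mem_left _ (hq a b)
  · exact Ideal.sum_mem _ fun a _ => Ideal.sum_mem _ fun b _ => J.I.mul_mem_left _ (hz a)
  · exact Ideal.sum_mem _ fun a _ => Ideal.sum_mem _ fun b _ =>
      J.I.mul_mem_left _ (J.I.mul_mem_left _ (hz b))
  · exact Ideal.sum_mem _ fun a _ => Ideal.sum_mem _ fun b _ => J.I.mul_mem_left _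
      (Ideal.sum_mem _ fun d _ => J.I.mul_mem_left _ (hq d b))

include hpos hMA in
/-- IDENT, ring form. -/
theorem ident_ring (hφ : φ ∈ Cc n) (hΦ : ∀ a, pd a Psi = ∑ k, pd a (Φ k))
    (hconv : ∀ k x, (hR (Φ k).1 x).PosSemidef)
    (hN : Integrable (fun x => Nloc u.1 Φ r x * wt Psi x)) :
    2 * (∫ x, (fel Φ r).1 x * Gu u.1 φ.1 x * wt Psi x)
      - ∫ x, (Gu u.1 φ.1 x) ^ 2 * wt Psi x ≤ ∫ x, Nloc u.1 Φ r x * wt Psi x := by
  set S := xD u (det_ne hpos) with hS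
  set J := xJ hpos hMA with hJ
  have hL : S.Lpsi φ ∈ Cc n := J.Lpsi_mem φ hφ
  have hm := main_E hpos hMA Φ r φ hφ hΦ
  have e1 : EE Psi (fel Φ r * S.Lpsi φ) = - ∫ x, (fel Φ r).1 x * Gu u.1 φ.1 x * wt Psi x := by
    rw [EE_eq Psi ((Cc n).mul_mem_left _ hL), ← integral_neg]
    refine integral_congr_ae (Filter.Eventually.of_forall fun x => ?_)
    show ((fel Φ r).1 x * (S.Lpsi φ).1 x) * wt Psi x
      = -((fel Φ r).1 x * Gu u.1 φ.1 x * wt Psi x)
    rw [Gu_eq (det_ne hpos) φ x]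
    ring
  have e2 : EE Psi (S.Lpsi φ * S.Lpsi φ) = ∫ x, (Gu u.1 φ.1 x) ^ 2 * wt Psi x := by
    rw [EE_eq Psi ((Cc n).mul_mem_left _ hL)]
    refine integral_congr_ae (Filter.Eventually.of_forall fun x => ?_)
    show ((S.Lpsi φ).1 x * (S.Lpsi φ).1 x) * wt Psi x = (Gu u.1 φ.1 x) ^ 2 * wt Psi x
    rw [Gu_eq (det_ne hpos) φ x]
    ring
  have hA := fun a b => J.Am_mem φ hφ a b
  have hNm : ∀ a b, S.N φ a b ∈ Cc n := fun a b => J.memDU a _ (J.z_mem φ hφ b)
  have h1 : 0 ≤ EE Psi (∑ a, ∑ b, (S.N φ b a - S.Am φ b a) * (S.N φ a b - S.Am φ a b)) := by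
    refine EE_nonneg ?_ (T1x_nonneg hpos φ)
    exact Ideal.sum_mem _ fun a _ => Ideal.sum_mem _ fun b _ =>
      (Cc n).mul_mem_left _ ((Cc n).sub_mem (hNm a b) (hA a b))
  have h2 : 0 ≤ EE Psi (S.X5 φ + S.X6 φ) := by
    refine EE_nonneg ?_ (X56_nonneg hpos φ)
    have hB := fun d a b => J.B_mem φ hφ d a b
    refine (Cc n).add_mem ?_ ?_
    · exact Ideal.sum_mem _ fun d _ => Ideal.sum_mem _ fun e _ => (Cc n).mul_mem_left _
        (Ideal.sum_mem _ fun a _ => Ideal.sum_mem _ fun a' _ => (Cc n).mul_mem_left _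
          (Ideal.sum_mem _ fun b _ => Ideal.sum_mem _ fun b' _ => (Cc n).mul_mem_left _
            ((Cc n).mul_mem_left _ (hB _ _ _))))
    · exact Ideal.sum_mem _ fun d _ => Ideal.sum_mem _ fun e _ => (Cc n).mul_mem_left _
        (Ideal.sum_mem _ fun a _ => Ideal.sum_mem _ fun a' _ =>
          (Cc n).mul_mem_left _ (hB _ _ _))
  have h3 : EE Psi (∑ k, Fk hpos Φ r φ k) ≤ ∫ x, Nloc u.1 Φ r x * wt Psi x := by
    refine EE_le (Ideal.sum_mem _ fun k _ => Fk_mem hpos Φ r φ hφ k J rfl) _ ?_ hN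
    intro x
    rw [← evx_apply, map_sum, Nloc]
    exact sum_le_sum fun k _ => Fk_le hpos Φ r φ hconv k x
  rw [e1, e2] at hm
  have h4 : 2 * (∫ x, (fel Φ r).1 x * Gu u.1 φ.1 x * wt Psi x)
      - ∫ x, (Gu u.1 φ.1 x) ^ 2 * wt Psi x
      = EE Psi (∑ k, Fk hpos Φ r φ k)
        - EE Psi (∑ a, ∑ b, (S.N φ b a - S.Am φ b a) * (S.N φ a b - S.Am φ a b))
        - EE Psi (S.X5 φ + S.X6 φ) := by
    rw [← hm]; ring
  rw [h4]
  linarith

end Crest.Agent.R238.IdX
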