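import Crest.Agent.R238.IdMain3
import Crest.Agent.R238.IdentX5

/-! Row 238: `ident n : Ident n`, from 390's `ident_ring`. (helper477) -/

set_option autoImplicit false
open scoped ContDiff Topology
open Set Filter MeasureTheory Finset

noncomputable section

namespace Crest.Agent.R238.IdM

open Crest.Agent.R238.Asm Crest.Agent.R238.IdX

variable {n m : ℕ}

theorem hR_uu {v : E n → ℝ} (hv : ContDiff ℝ ∞ v) (x : E n) : hR (uu v) x = gM v x := by
  ext i j
  show Hs (uu v) x i j = _
  rw [Hs_uu hv]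
  rfl

theorem ell_posDef {lo hi : ℝ} (hlo : 0 < lo) {A : Matrix (Fin n) (Fin n) ℝ}
    (hA : Ell lo hi A) : A.PosDef := by
  refine Matrix.PosDef.of_dotProduct_mulVec_pos ?_ fun z hz => ?_
  · ext i j
    simp only [Matrix.conjTranspose_apply, star_trivial]
    exact hA.1 j i
  · have h1 := (hA.2 z).1
    have h2 : 0 < ∑ i, z i ^ 2 := by
      obtain ⟨i, hi⟩ : ∃ i, z i ≠ 0 := by
        by_contra hcon
        push Not at hcon
        exact hz (funext hcon)
      exact Finset.sum_pos' (fun i _ => sq_nonneg _) ⟨i, Finset.mem_univ _, by positivity⟩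
    have h3 : star z ⬝ᵥ A.mulVec z = ∑ i, ∑ j, A i j * z i * z j := by
      simp only [dotProduct, Matrix.mulVec, Pi.star_apply, star_trivial, Finset.mul_sum]
      refine Finset.sum_congr rfl fun i _ => Finset.sum_congr rfl fun j _ => ?_
      ring
    rw [h3]
    exact lt_of_lt_of_le (by positivity) h1

theorem vec_sum (z : Fin n → ℝ) (T : E n →L[ℝ] ℝ) :
    T (∑ j, z j • ee j) = ∑ j, z j * T (ee j) := by
  rw [map_sum]
  simp only [map_smul, smul_eq_mul]

theorem quad_Hs (f : E n → ℝ) (x : E n) (z : Fin n → ℝ) :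
    fderiv ℝ (fderiv ℝ f) x (∑ j, z j • ee j) (∑ j, z j • ee j)
      = ∑ i, ∑ j, Hs f x i j * z i * z j := by
  have h1 : fderiv ℝ (fderiv ℝ f) x (∑ j, z j • ee j)
      = ∑ i, z i • fderiv ℝ (fderiv ℝ f) x (ee i) := by
    rw [map_sum]
    simp only [map_smul]
  rw [h1, _root_.sum_apply]
  refine Finset.sum_congr rfl fun i _ => ?_
  rw [smul_apply, vec_sum, smul_eq_mul, Finset.mul_sum]
  refine Finset.sum_congr rfl fun j _ => ?_
  unfold Hs
  ring

theorem vec_eq (x : E n) : x = ∑ j, x j • (ee j : E n) := by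
  ext k
  simp [Finset.sum_apply, Pi.single_apply]

theorem hR_psd {f : E n → ℝ} (hf : ContDiff ℝ ∞ f)
    (h : ∀ x w, 0 ≤ fderiv ℝ (fderiv ℝ f) x w w) (x : E n) : (hR f x).PosSemidef := by
  refine Matrix.PosSemidef.of_dotProduct_mulVec_nonneg ?_ fun z => ?_
  · ext i j
    simp only [Matrix.conjTranspose_apply, star_trivial]
    exact IdX.Hs_symm hf x j i
  · have h3 : star z ⬝ᵥ (hR f x).mulVec z = ∑ i, ∑ j, Hs f x i j * z i * z j := by
      simp only [dotProduct, Matrix.mulVec, Pi.star_apply, star_trivial, Finset.mul_sum]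
      refine Finset.sum_congr rfl fun i _ => Finset.sum_congr rfl fun j _ => ?_
      show z i * (Hs f x i j * z j) = _
      ring
    rw [h3, ← quad_Hs]
    exact h x _

theorem ring390 (n : ℕ) : Ring390 n := by
  intro P v hP hs m Φ r hΦ hsum hpos hN ϕ hϕ
  obtain ⟨lo, hi, hlo, hE⟩ := hs.ell
  have hvs := hs.nice.smooth
  set U : Sm n := mkS (uu v) (uu_smooth hvs) with hU
  set PS : Sm n := mkS (ps P) (ps_smooth hP.tst.smooth) with hPS
  set W : Option (Fin m) → Sm n := fun k => mkS (Φ k) (hΦ k) with hW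
  have hpos' : ∀ x, (hR U.1 x).PosDef := fun x => by
    show (hR (uu v) x).PosDef
    rw [hR_uu hvs]
    exact ell_posDef hlo (hE x)
  have hMA : MA U PS 0 := by
    intro x
    show Real.log (hR (uu v) x).det - fderiv ℝ (uu v) x x + uu v x = 0 - ps P x
    rw [hR_uu hvs, hs.ma x, fderiv_uu hvs]
    simp only [add_apply, innerSL_apply_apply, real_inner_self_eq_norm_sq, uu, ps]
    ring
  have hΦ' : ∀ a, IdX.pd a PS = ∑ k, IdX.pd a (W k) := by
    intro a
    apply Subtype.ext
    funext x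
    have h1 := congrArg (fun T : E n →L[ℝ] ℝ => T (ee a)) (hsum x)
    simp only [_root_.sum_apply] at h1
    have h2 : ((∑ k, IdX.pd a (W k) : Sm n) : E n → ℝ) x
        = ∑ k, ((IdX.pd a (W k) : Sm n) : E n → ℝ) x := by
      rw [AddSubmonoidClass.coe_finsetSum, Finset.sum_apply]
    rw [h2]
    exact h1.symm
  have hconv : ∀ k x, (hR (W k).1 x).PosSemidef := fun k x => hR_psd (hΦ k) (hpos k) x
  have hinv : ∀ x, (hR U.1 x)⁻¹ = tauM v x := fun x => by
    show (hR (uu v) x)⁻¹ = _
    rw [hR_uu hvs]; rfl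
  have hwt : ∀ x, IdX.wt PS x = R238.wt P x := fun x => rfl
  have hNl : ∀ x, IdX.Nloc U.1 W r x = IdM.Nloc v Φ r x := by
    intro x
    unfold IdX.Nloc IdM.Nloc
    refine Finset.sum_congr rfl fun k _ => ?_
    rw [hinv]
    congr 1
    congr 1
    · refine Finset.sum_congr rfl fun i _ => Finset.sum_congr rfl fun j _ => ?_
      exact mul_comm _ _
    · have e := quad_Hs (Φ k) x (fun i => x i)
      rw [← vec_eq] at e
      rw [e]
      refine Finset.sum_congr rfl fun i _ => Finset.sum_congr rfl fun j _ => ?_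
      show Hs (Φ k) x i j * (x i * x j) = _
      ring
  have hGu : ∀ x, Gu U.1 ϕ x = LL v ϕ x := by
    intro x
    have e1 : ∀ h : E n → ℝ, Lu U.1 h = Lop v h := by
      intro h
      unfold Lu Lop
      congr 1
      funext y
      exact hinv y
    unfold Gu LL
    simp only [e1]
  have hfel : ∀ x, (fel W r).1 x = ∑ k, r k * fderiv ℝ (Φ k) x x := by
    intro x
    have h2 : (fel W r).1 x = ∑ k, r k * ∑ b, x b * fderiv ℝ (Φ k) x (ee b) := by
      unfold fel
      have h3 : ((∑ k, r k • ∑ b, xc b * IdX.pd b (W k) : Sm n) : E n → ℝ) x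
          = ∑ k, ((r k • ∑ b, xc b * IdX.pd b (W k) : Sm n) : E n → ℝ) x := by
        rw [AddSubmonoidClass.coe_finsetSum, Finset.sum_apply]
      refine h3.trans (Finset.sum_congr rfl fun k _ => ?_)
      have h4 : ((∑ b, xc b * IdX.pd b (W k) : Sm n) : E n → ℝ) x
          = ∑ b, ((xc b * IdX.pd b (W k) : Sm n) : E n → ℝ) x := by
        rw [AddSubmonoidClass.coe_finsetSum, Finset.sum_apply]
      show r k * ((∑ b, xc b * IdX.pd b (W k) : Sm n) : E n → ℝ) x = _
      rw [h4]
      rfl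
    rw [h2]
    refine Finset.sum_congr rfl fun k _ => ?_
    congr 1
    conv_rhs => rw [vec_eq x, map_sum]
    refine Finset.sum_congr rfl fun b _ => ?_
    rw [map_smul, smul_eq_mul, ← vec_eq x]
  have hN' : Integrable (fun x => IdX.Nloc U.1 W r x * IdX.wt PS x) := by
    have e : (fun x => IdX.Nloc U.1 W r x * IdX.wt PS x)
        = fun x => IdM.Nloc v Φ r x * R238.wt P x := by
      funext x; rw [hNl, hwt]
    rw [e]; exact hN
  have key := ident_ring hpos' hMA W r (mkS ϕ hϕ.smooth) (show mkS ϕ hϕ.smooth ∈ Cc n from hϕ.supp)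
    hΦ' hconv hN'
  have k1 : ∀ x, (fel W r).1 x * Gu U.1 (mkS ϕ hϕ.smooth : Sm n).1 x * IdX.wt PS x
      = (∑ k, r k * fderiv ℝ (Φ k) x x) * LL v ϕ x * R238.wt P x := fun x => by
    rw [hfel, hwt]
    congr 2
    exact hGu x
  have k2 : ∀ x, (Gu U.1 (mkS ϕ hϕ.smooth : Sm n).1 x) ^ 2 * IdX.wt PS x
      = LL v ϕ x ^ 2 * R238.wt P x := fun x => by
    rw [hwt]
    congr 2
    exact hGu x
  have a1 := integral_congr_ae (μ := volume) (Eventually.of_forall k1)
  have a2 := integral_congr_ae (μ := volume) (Eventually.of_forall k2)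
  have a3 : ∫ x, IdX.Nloc U.1 W r x * IdX.wt PS x = ∫ x, IdM.Nloc v Φ r x * R238.wt P x :=
    integral_congr_ae (Eventually.of_forall fun x => by simp only [hNl, hwt])
  rw [a1, a2, a3] at key
  exact key

/-- **IDENT** -/
theorem ident (n : ℕ) : Ident n := ident_of_ring (ring390 n)

end Crest.Agent.R238.IdM
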