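import Crest.Agent.R238.StepMat

/-!
Row 238, node H5 (helper57): `log det` of an elliptic Hölder matrix field is Hölder.
-/

set_option autoImplicit false

open MeasureTheory Set Filter
open scoped ContDiff Topology

namespace Crest.Agent.R238

variable {n : ℕ}

theorem Ell.sm_segment {lo hi : ℝ} {A B : Matrix (Fin n) (Fin n) ℝ} (hA : Ell lo hi A)
    (hB : Ell lo hi B) {s : ℝ} (hs : s ∈ Icc (0 : ℝ) 1) : Ell lo hi (B + s • (A - B)) := by
  refine ⟨fun i j => ?_, fun z => ?_⟩
  · simp only [Matrix.add_apply, Matrix.smul_apply, Matrix.sub_apply, hA.1 i j, hB.1 i j]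
  · have e : ∑ i, ∑ j, (B + s • (A - B)) i j * z i * z j
        = (1 - s) * (∑ i, ∑ j, B i j * z i * z j) + s * (∑ i, ∑ j, A i j * z i * z j) := by
      simp only [Finset.mul_sum, ← Finset.sum_add_distrib]
      refine Finset.sum_congr rfl fun i _ => Finset.sum_congr rfl fun j _ => ?_
      simp only [Matrix.add_apply, Matrix.smul_apply, Matrix.sub_apply, smul_eq_mul]
      ring
    rw [e]
    obtain ⟨h1, h2⟩ := hA.2 z
    obtain ⟨h3, h4⟩ := hB.2 z
    have hs0 := hs.1
    have hs1 : 0 ≤ 1 - s := by linarith [hs.2]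
    constructor
    · nlinarith [mul_le_mul_of_nonneg_left h1 hs0, mul_le_mul_of_nonneg_left h3 hs1]
    · nlinarith [mul_le_mul_of_nonneg_left h2 hs0, mul_le_mul_of_nonneg_left h4 hs1]

/-- `log det` is Lipschitz on elliptic matrices. -/
theorem sm_logdet_lip {lo hi : ℝ} (hlo : 0 < lo) {A B : Matrix (Fin n) (Fin n) ℝ}
    (hA : Ell lo hi A) (hB : Ell lo hi B) {c : ℝ} (hc : ∀ i j, |A i j - B i j| ≤ c) :
    |Real.log A.det - Real.log B.det| ≤ (n : ℝ) ^ 2 / lo * c := by
  have hd : ∀ s ∈ Icc (0 : ℝ) 1, HasDerivWithinAt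
      (fun s => Real.log (B + s • (A - B)).det)
      ((((B + s • (A - B))⁻¹ * (A - B))).trace) (Icc (0 : ℝ) 1) s := by
    intro s hs
    refine sm_hasDerivWithinAt_log_det (g := fun s => B + s • (A - B)) (g' := A - B)
      (fun i j => ?_) ((hA.sm_segment hB hs).sm_det_pos hlo)
    have h1 : HasDerivWithinAt (fun s : ℝ => B i j + s * (A i j - B i j))
        (0 + 1 * (A i j - B i j)) (Icc (0 : ℝ) 1) s :=
      (hasDerivWithinAt_const _ _ _).add ((hasDerivWithinAt_id s _).mul_const _)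
    simpa using h1
  have hb : ∀ s ∈ Icc (0 : ℝ) 1, ‖(((B + s • (A - B))⁻¹ * (A - B))).trace‖
      ≤ (n : ℝ) ^ 2 / lo * c := by
    intro s hs
    rw [sm_trace_mul_sum, Real.norm_eq_abs]
    have h2 : ∀ i j, |(B + s • (A - B))⁻¹ i j * (A - B) j i| ≤ 1 / lo * c := by
      intro i j
      rw [abs_mul]
      exact mul_le_mul ((hA.sm_segment hB hs).sm_abs_inv_le hlo i j) (hc j i) (abs_nonneg _)
        (by positivity)
    calc |∑ i, ∑ j, (B + s • (A - B))⁻¹ i j * (A - B) j i|
        ≤ ∑ i : Fin n, ∑ j : Fin n, 1 / lo * c := by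
          refine (Finset.abs_sum_le_sum_abs _ _).trans (Finset.sum_le_sum fun i _ => ?_)
          refine (Finset.abs_sum_le_sum_abs _ _).trans (Finset.sum_le_sum fun j _ => ?_)
          exact h2 i j
      _ = (n : ℝ) ^ 2 / lo * c := by
          simp only [Finset.sum_const, Finset.card_univ, Fintype.card_fin, nsmul_eq_mul]
          ring
  have h := Convex.norm_image_sub_le_of_norm_hasDerivWithin_le hd hb (convex_Icc 0 1)
    (left_mem_Icc.2 zero_le_one) (right_mem_Icc.2 zero_le_one)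
  simpa using h

/-- (W): `log det` of an elliptic Hölder matrix field is bounded and Hölder (explicit). -/
theorem hb_logdet_explicit {a lo hi M : ℝ} (hlo : 0 < lo)
    {g : E n → Matrix (Fin n) (Fin n) ℝ} (hE : ∀ x, Ell lo hi (g x))
    (hg : ∀ i j, HB a M (fun x => g x i j)) :
    HB a ((n : ℝ) ^ 2 / lo * (|M| + lo) + |Real.log (lo • (1 : Matrix (Fin n) (Fin n) ℝ)).det|)
      (fun x => Real.log (g x).det) := by
  have hE' : ∀ x, Ell lo (max lo hi) (g x) := fun x =>
    (hE x).sm_mono le_rfl (le_max_right _ _)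
  have h1 : Ell lo (max lo hi) (lo • (1 : Matrix (Fin n) (Fin n) ℝ)) := by
    refine ⟨fun i j => ?_, fun z => ?_⟩
    · simp only [Matrix.smul_apply, Matrix.one_apply, eq_comm]
    · have e : ∑ i, ∑ j, (lo • (1 : Matrix (Fin n) (Fin n) ℝ)) i j * z i * z j
          = lo * ∑ i, z i ^ 2 := by
        rw [Finset.mul_sum]
        refine Finset.sum_congr rfl fun i _ => ?_
        rw [Finset.sum_eq_single i]
        · simp [Matrix.smul_apply, Matrix.one_apply]
          ring
        · intro j _ hj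
          simp [Matrix.smul_apply, Matrix.one_apply, hj.symm]
        · simp
      rw [e]
      exact ⟨le_rfl, mul_le_mul_of_nonneg_right (le_max_left _ _)
        (Finset.sum_nonneg fun i _ => sq_nonneg _)⟩
  have hn0 : 0 ≤ (n : ℝ) ^ 2 / lo := by positivity
  constructor
  · intro x
    have h2 : ∀ i j, |g x i j - (lo • (1 : Matrix (Fin n) (Fin n) ℝ)) i j| ≤ |M| + lo := by
      intro i j
      have h3 : |g x i j| ≤ |M| := ((hg i j).1 x).trans (le_abs_self M)
      have h4 : |(lo • (1 : Matrix (Fin n) (Fin n) ℝ)) i j| ≤ lo := by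
        rw [Matrix.smul_apply, Matrix.one_apply]
        split_ifs
        · simp [abs_of_pos hlo]
        · simp [hlo.le]
      exact (abs_sub _ _).trans (add_le_add h3 h4)
    have h5 := sm_logdet_lip hlo (hE' x) h1 h2
    have h6 := abs_sub_abs_le_abs_sub (Real.log (g x).det)
      (Real.log (lo • (1 : Matrix (Fin n) (Fin n) ℝ)).det)
    linarith
  · intro x y
    have h2 : ∀ i j, |g x i j - g y i j| ≤ |M| * ‖x - y‖ ^ a := fun i j =>
      ((hg i j).2 x y).trans (mul_le_mul_of_nonneg_right (le_abs_self M)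
        (Real.rpow_nonneg (norm_nonneg _) _))
    have h3 := sm_logdet_lip hlo (hE x) (hE y) h2
    refine h3.trans ?_
    have h4 : 0 ≤ ‖x - y‖ ^ a := Real.rpow_nonneg (norm_nonneg _) _
    rw [← mul_assoc]
    refine mul_le_mul_of_nonneg_right ?_ h4
    have h5 : (n : ℝ) ^ 2 / lo * |M| ≤ (n : ℝ) ^ 2 / lo * (|M| + lo) :=
      mul_le_mul_of_nonneg_left (by linarith) hn0
    have h6 := abs_nonneg (Real.log (lo • (1 : Matrix (Fin n) (Fin n) ℝ)).det)
    linarith

/-- (W), qualitative form. -/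
theorem hb_logdet {a lo hi M : ℝ} (_ha : 0 < a) (hlo : 0 < lo)
    {g : E n → Matrix (Fin n) (Fin n) ℝ} (hE : ∀ x, Ell lo hi (g x))
    (hg : ∀ i j, HB a M (fun x => g x i j)) :
    ∃ N, HB a N (fun x => Real.log (g x).det) :=
  ⟨_, hb_logdet_explicit hlo hE hg⟩

end Crest.Agent.R238
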