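import Crest.Agent.R238.TopAux
import Crest.Agent.R238.SoftConc

/-!
Row 238 (S0369): assembly `Exi n → Ident n → Dens n → Soft.LocalIneq n` (helper394).
-/

set_option autoImplicit false

open MeasureTheory Set Filter
open scoped ContDiff Topology

namespace Crest.Agent.R238

variable {n m : ℕ}

/-! ### the wall functions -/

theorem contDiff_Hw {ν : Fin m → E n} {φ : Fin m → ℝ → ℝ} (hw : ∀ k, Soft.Wall (φ k)) :
    ContDiff ℝ ∞ (Soft.Hw ν φ) := by
  unfold Soft.Hw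
  exact ContDiff.sum fun k _ => (hw k).smooth.comp (contDiff_const.inner ℝ contDiff_id)

theorem Hw_neg {ν : Fin m → E n} {φ : Fin m → ℝ → ℝ} (hw : ∀ k, Soft.Wall (φ k)) (x : E n) :
    Soft.Hw ν φ (-x) = Soft.Hw ν φ x := by
  unfold Soft.Hw
  exact Finset.sum_congr rfl fun k _ => by rw [inner_neg_right, (hw k).even]

theorem fr_neg {ν : Fin m → E n} {φ : Fin m → ℝ → ℝ} (hw : ∀ k, Soft.Wall (φ k))
    (r : Fin m → ℝ) (x : E n) : Soft.fr ν φ r (-x) = Soft.fr ν φ r x := by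
  unfold Soft.fr
  exact Finset.sum_congr rfl fun k _ => by rw [inner_neg_right, (hw k).odd]; ring

theorem continuous_inner' (v : E n) : Continuous fun x : E n => (inner ℝ v x : ℝ) :=
  continuous_const.inner continuous_id

theorem continuous_fr {ν : Fin m → E n} {φ : Fin m → ℝ → ℝ} (hw : ∀ k, Soft.Wall (φ k))
    (r : Fin m → ℝ) : Continuous (Soft.fr ν φ r) := by
  unfold Soft.fr
  exact continuous_finset_sum _ fun k _ => continuous_const.mul
    ((continuous_inner' _).mul ((hw k).cont1.comp (continuous_inner' _)))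

theorem continuous_Nr {ν : Fin m → E n} {φ : Fin m → ℝ → ℝ} (hw : ∀ k, Soft.Wall (φ k))
    (r : Fin m → ℝ) : Continuous (Soft.Nr ν φ r) := by
  unfold Soft.Nr
  exact continuous_finset_sum _ fun k _ => continuous_const.mul
    (((continuous_inner' _).mul ((hw k).cont1.comp (continuous_inner' _))).add
      (((continuous_inner' _).pow 2).mul ((hw k).cont2.comp (continuous_inner' _))))

theorem fr_bound {ν : Fin m → E n} {φ : Fin m → ℝ → ℝ} (hw : ∀ k, Soft.Wall (φ k))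
    (r : Fin m → ℝ) : ∃ C : ℝ, ∀ x, |Soft.fr ν φ r x| ≤ C * (1 + ‖x‖ ^ 2) := by
  choose C hC0 hC using fun k => (hw k).bdd'
  refine ⟨∑ k, |r k| * (C k * ‖ν k‖ ^ 2), fun x => ?_⟩
  unfold Soft.fr
  refine (Finset.abs_sum_le_sum_abs _ _).trans ?_
  rw [Finset.sum_mul]
  refine Finset.sum_le_sum fun k _ => ?_
  have h1 := (hw k).deriv_le (hC k) (inner ℝ (ν k) x)
  have h2 : |(inner ℝ (ν k) x : ℝ)| ≤ ‖ν k‖ * ‖x‖ := abs_real_inner_le_norm _ _
  have h3 : 0 ≤ |(inner ℝ (ν k) x : ℝ)| := abs_nonneg _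
  rw [abs_mul, abs_mul]
  have h4 : |(inner ℝ (ν k) x : ℝ)| * |deriv (φ k) (inner ℝ (ν k) x)|
      ≤ C k * ‖ν k‖ ^ 2 * (1 + ‖x‖ ^ 2) := by
    calc |(inner ℝ (ν k) x : ℝ)| * |deriv (φ k) (inner ℝ (ν k) x)|
        ≤ |(inner ℝ (ν k) x : ℝ)| * (C k * |(inner ℝ (ν k) x : ℝ)|) :=
          mul_le_mul_of_nonneg_left h1 h3
      _ = C k * |(inner ℝ (ν k) x : ℝ)| ^ 2 := by ring
      _ ≤ C k * (‖ν k‖ * ‖x‖) ^ 2 :=
          mul_le_mul_of_nonneg_left (pow_le_pow_left₀ h3 h2 2) (hC0 k)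
      _ ≤ C k * ‖ν k‖ ^ 2 * (1 + ‖x‖ ^ 2) := by
          have : 0 ≤ C k * ‖ν k‖ ^ 2 := mul_nonneg (hC0 k) (sq_nonneg _)
          nlinarith
  calc |r k| * (|(inner ℝ (ν k) x : ℝ)| * |deriv (φ k) (inner ℝ (ν k) x)|)
      ≤ |r k| * (C k * ‖ν k‖ ^ 2 * (1 + ‖x‖ ^ 2)) :=
        mul_le_mul_of_nonneg_left h4 (abs_nonneg _)
    _ = _ := by ring

theorem pg_sq : Gap.PG (fun x : E n => 1 + ‖x‖ ^ 2) :=
  (Gap.pg_const 1).add (Gap.pg_norm.pow 2)

theorem pg_fr {ν : Fin m → E n} {φ : Fin m → ℝ → ℝ} (hw : ∀ k, Soft.Wall (φ k))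
    (r : Fin m → ℝ) : Gap.PG (Soft.fr ν φ r) := by
  obtain ⟨C, hC⟩ := fr_bound (ν := ν) hw r
  refine ((Gap.pg_const (n := n) C).mul pg_sq).mono fun x => ?_
  exact (hC x).trans (le_abs_self _)

theorem pg_Nr {ν : Fin m → E n} {φ : Fin m → ℝ → ℝ} (hw : ∀ k, Soft.Wall (φ k))
    (r : Fin m → ℝ) : Gap.PG (Soft.Nr ν φ r) := by
  unfold Soft.Nr
  refine Gap.PG.sum _ fun k _ => (Gap.pg_const _).mul ?_
  obtain ⟨C, hC0, hC⟩ := (hw k).bdd'
  have h1 : Gap.PG (fun x : E n => deriv (φ k) (inner ℝ (ν k) x)) :=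
    ((Gap.pg_const (n := n) C).mul (Gap.pg_inner (ν k))).mono fun x => by
      rw [abs_mul, abs_of_nonneg hC0]
      exact (hw k).deriv_le hC _
  have h2 : Gap.PG (fun x : E n => deriv (deriv (φ k)) (inner ℝ (ν k) x)) :=
    Gap.PG.of_bdd fun x => hC _
  exact ((Gap.pg_inner (ν k)).mul h1).add (((Gap.pg_inner (ν k)).pow 2).mul h2)

/-! ### the variance inequality with the weight `wt P` -/

/-- abstract variance step -/
theorem var_le {P v : E n → ℝ} (hP : PDat P) (hS : Sol P v) (hI : Iso v) (hD : Dens n)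
    (hz : ∀ h : E n → ℝ, Tst h → ∫ x, Lop v h x * wt P x = 0)
    {f : E n → ℝ} (hf : Continuous f) (he : ∀ x, f (-x) = f x)
    (hb : ∃ C : ℝ, ∀ x, |f x| ≤ C * (1 + ‖x‖ ^ 2)) {R : ℝ}
    (hR : ∀ ϕ : E n → ℝ, Tst ϕ →
      2 * (∫ x, f x * LL v ϕ x * wt P x) - ∫ x, LL v ϕ x ^ 2 * wt P x ≤ R) :
    (∫ x, f x ^ 2 * wt P x) * (∫ x, wt P x) - (∫ x, f x * wt P x) ^ 2
      ≤ (∫ x, wt P x) * R := by
  have hpf : Gap.PG f := by
    obtain ⟨C, hC⟩ := hb
    refine ((Gap.pg_const (n := n) C).mul pg_sq).mono fun x => (hC x).trans (le_abs_self _)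
  set Z := ∫ x, wt P x with hZ
  have hZ0 : 0 < Z := hP.wt_pos
  set c := (∫ x, f x * wt P x) / Z with hc
  have iw : Integrable (wt P) := hP.integrable_wt
  have i1 : Integrable (fun x => f x * wt P x) := hP.integrable hf hpf
  have i2 : Integrable (fun x => f x ^ 2 * wt P x) := hP.integrable (hf.pow 2) (hpf.pow 2)
  -- centered function
  let F : E n → ℝ := fun x => f x - c
  have hF : Continuous F := hf.sub continuous_const
  have hFe : ∀ x, F (-x) = F x := fun x => by simp only [F, he]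
  have hFb : ∃ C : ℝ, ∀ x, |F x| ≤ C * (1 + ‖x‖ ^ 2) := by
    obtain ⟨C, hC⟩ := hb
    refine ⟨C + |c|, fun x => (abs_sub _ _).trans ?_⟩
    have := hC x
    have h1 : |c| ≤ |c| * (1 + ‖x‖ ^ 2) := by nlinarith [abs_nonneg c, sq_nonneg ‖x‖]
    linarith [add_mul C |c| (1 + ‖x‖ ^ 2)]
  have hpF : Gap.PG F := hpf.sub (Gap.pg_const c)
  have hF0 : ∫ x, F x * wt P x = 0 := by
    have : (fun x => F x * wt P x) = fun x => f x * wt P x - c * wt P x := by
      ext x; simp only [F]; ring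
    rw [this, integral_sub i1 (iw.const_mul c), integral_const_mul, ← hZ, hc]
    field_simp
    ring
  have iF2 : Integrable (fun x => F x ^ 2 * wt P x) := hP.integrable (hF.pow 2) (hpF.pow 2)
  -- variance bound
  have key : ∫ x, F x ^ 2 * wt P x ≤ R := by
    refine le_of_forall_pos_le_add fun ε hε => ?_
    obtain ⟨ϕ, hϕ, hle⟩ := hD P v hP hS hI F hF hFe hFb hF0 ε hε
    have hT := hS.tst_LL hϕ
    have hw : Continuous (LL v ϕ) := hT.smooth.continuous
    have hpw : Gap.PG (LL v ϕ) := hT.pg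
    have j1 : Integrable (fun x => f x * LL v ϕ x * wt P x) :=
      hP.integrable (hf.mul hw) (hpf.mul hpw)
    have j2 : Integrable (fun x => LL v ϕ x ^ 2 * wt P x) :=
      hP.integrable (hw.pow 2) (hpw.pow 2)
    have j3 : Integrable (fun x => LL v ϕ x * wt P x) := hP.integrable hw hpw
    have h0 : ∫ x, LL v ϕ x * wt P x = 0 := hz _ (hS.tst_Lop_add hϕ)
    have h1 : ∫ x, (F x - LL v ϕ x) ^ 2 * wt P x
        = (∫ x, F x ^ 2 * wt P x)
          - (2 * (∫ x, f x * LL v ϕ x * wt P x) - ∫ x, LL v ϕ x ^ 2 * wt P x) := by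
      have e1 : (fun x => (F x - LL v ϕ x) ^ 2 * wt P x)
          = fun x => (F x ^ 2 * wt P x - (2 * (f x * LL v ϕ x * wt P x)
            - 2 * c * (LL v ϕ x * wt P x))) + LL v ϕ x ^ 2 * wt P x := by
        ext x; simp only [F]; ring
      have k1 : Integrable (fun x => 2 * (f x * LL v ϕ x * wt P x)
          - 2 * c * (LL v ϕ x * wt P x)) := (j1.const_mul 2).sub (j3.const_mul (2 * c))
      have k2 : Integrable (fun x => F x ^ 2 * wt P x - (2 * (f x * LL v ϕ x * wt P x)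
          - 2 * c * (LL v ϕ x * wt P x))) := iF2.sub k1
      rw [e1, integral_add k2 j2, integral_sub iF2 k1,
        integral_sub (j1.const_mul 2) (j3.const_mul (2 * c)), integral_const_mul,
        integral_const_mul, h0]
      ring
    have h2 := hR ϕ hϕ
    linarith
  -- conclusion
  have h3 : ∫ x, F x ^ 2 * wt P x
      = (∫ x, f x ^ 2 * wt P x) - (∫ x, f x * wt P x) ^ 2 / Z := by
    have e1 : (fun x => F x ^ 2 * wt P x)
        = fun x => (f x ^ 2 * wt P x - 2 * c * (f x * wt P x)) + c ^ 2 * wt P x := by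
      ext x; simp only [F]; ring
    have k1 : Integrable (fun x => f x ^ 2 * wt P x - 2 * c * (f x * wt P x)) :=
      i2.sub (i1.const_mul (2 * c))
    rw [e1, integral_add k1 (iw.const_mul (c ^ 2)),
      integral_sub i2 (i1.const_mul (2 * c)), integral_const_mul, integral_const_mul, ← hZ, hc]
    field_simp
    ring
  rw [h3] at key
  have h4 : (∫ x, f x ^ 2 * wt P x) * Z - (∫ x, f x * wt P x) ^ 2
      = Z * ((∫ x, f x ^ 2 * wt P x) - (∫ x, f x * wt P x) ^ 2 / Z) := by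
    field_simp
  rw [h4]
  exact mul_le_mul_of_nonneg_left key hZ0.le

/-- ASSEMBLY -/
theorem localIneq_of (hE : Exi n) (hId : Ident n) (hD : Dens n) : Soft.LocalIneq n := by
  intro m ν φ r V hw hV hVe hVc ⟨ε, hε, hconv⟩ ⟨b, R, hR⟩
  set P : E n → ℝ := fun x => V x + Soft.Hw ν φ x - ‖x‖ ^ 2 / 2 - b with hPdef
  have hnorm : ContDiff ℝ ∞ (fun x : E n => ‖x‖ ^ 2 / 2) :=
    (contDiff_norm_sq ℝ).div_const 2
  have hPs : ContDiff ℝ ∞ P := ((hV.add (contDiff_Hw hw)).sub hnorm).sub contDiff_const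
  have hP : PDat P := by
    refine ⟨⟨hPs, ?_⟩, ?_, ⟨ε, hε, ?_⟩⟩
    · refine HasCompactSupport.intro (isCompact_closedBall (0 : E n) R) fun x hx => ?_
      have : R ≤ ‖x‖ := by
        by_contra h
        exact hx (by simpa using (not_le.1 h).le)
      simp only [P, hR x this]
      ring
    · intro x
      simp only [P, hVe, Hw_neg hw, norm_neg]
    · have h1 : (fun x : E n => ‖x‖ ^ 2 / 2 + P x - ε * ‖x‖ ^ 2)
          = fun x => (V x + Soft.Hw ν φ x - ε * ‖x‖ ^ 2) + (-b) := by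
        ext x; simp only [P]; ring
      rw [h1]
      exact hconv.add_const (-b)
  obtain ⟨v, hS, hI⟩ := hE P hP
  obtain ⟨hz, hid⟩ := hId P v hP hS
  have hsum : ∀ x, V x + Soft.Hw ν φ x = ‖x‖ ^ 2 / 2 + P x + b := fun x => by
    simp only [P]; ring
  have hin := hid m ν φ r V b hw hV hVe hVc hsum
  have hvar := var_le hP hS hI hD hz (continuous_fr (ν := ν) hw r) (fr_neg hw r)
    (fr_bound hw r) hin
  -- pass from `wt P` to `exp (-(V + Hw))`
  have hexp : ∀ x, Real.exp (-(V x + Soft.Hw ν φ x)) = Real.exp (-b) * wt P x := fun x => by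
    rw [hsum x, wt, ← Real.exp_add]
    congr 1
    ring
  unfold Soft.Static
  simp only [hexp]
  have hpull : ∀ g : E n → ℝ, ∫ x, g x * (Real.exp (-b) * wt P x)
      = Real.exp (-b) * ∫ x, g x * wt P x := fun g => by
    rw [← integral_const_mul]
    exact integral_congr_ae (Eventually.of_forall fun x => by ring)
  rw [hpull (fun x => Soft.fr ν φ r x ^ 2), hpull (fun x => Soft.fr ν φ r x),
    hpull (fun x => Soft.Nr ν φ r x), integral_const_mul]
  have hb0 : 0 < Real.exp (-b) := Real.exp_pos _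
  have h5 := mul_le_mul_of_nonneg_left hvar (mul_pos hb0 hb0).le
  nlinarith [h5]

end Crest.Agent.R238
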