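import Crest.Agent.R238.Hol4
import Crest.Agent.R238.StepFin
import Crest.Agent.R238.AEstF
import Crest.Agent.R238.EReg
import Crest.Agent.R238.BootE
import Crest.Agent.R238.SchAll
import Crest.Agent.R238.ExiAsm
import Crest.Agent.R238.IdentMain
import Crest.Agent.R238.Dens
import Crest.Agent.R238.Top
import Crest.Agent.R238.SoftAll
import Crest.Agent.R238.Endgame
import Crest.Agent.R238.AprMain

/-! Row 238: S0369 from the last open node `AprStmt` (integrator, helper744). -/

set_option autoImplicit false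
open MeasureTheory

namespace Crest.Agent.R238

theorem exi_of_apr744 (hapr : AprStmt) (n : ℕ) : Exi n :=
  exi_asm solStmt (Step.step_stmt solStmt AEst.repStmt) hapr reg (Boot.iso_stmt Apr.schStmt_all) n

theorem s0369_of_apr744 (hapr : AprStmt)
    (n : ℕ) (hn : 1 ≤ n)
    (K L : Set (EuclideanSpace ℝ (Fin n)))
    (hKc : IsCompact K) (hKv : Convex ℝ K) (hKi : (interior K).Nonempty) (hKs : ∀ x ∈ K, -x ∈ K)
    (hLc : IsCompact L) (hLv : Convex ℝ L) (hLi : (interior L).Nonempty) (hLs : ∀ x ∈ L, -x ∈ L)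
    (t : ℝ) (ht0 : 0 ≤ t) (ht1 : t ≤ 1) :
    volume K ^ (1 - t) * volume L ^ t ≤
      volume (⋂ u ∈ Metric.sphere (0 : EuclideanSpace ℝ (Fin n)) 1,
        {x : EuclideanSpace ℝ (Fin n) | inner ℝ x u ≤
          sSup ((fun y => inner ℝ y u) '' K) ^ (1 - t) * sSup ((fun y => inner ℝ y u) '' L) ^ t}) :=
  s0369_of_slab n hn
    (Soft.slab_of_localIneq n (localIneq_of (exi_of_apr744 hapr n) (IdM.ident n) (dens n)))
    K L hKc hKv hKi hKs hLc hLv hLi hLs t ht0 ht1

end Crest.Agent.R238
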