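import Mathlib
import Crest.Agent.R238.GapDefs

/-!
Row 238 (S0369), module H4 (GAP): growth of even `C²` functions with bounded Hessian
(helper470).
-/

set_option autoImplicit false

open MeasureTheory Real Set Filter Topology Metric

namespace Crest.Agent.R238.Gap

theorem sum_smul_e {n : ℕ} (v : E n) : ∑ i, v i • (e i : E n) = v := by
  ext j
  simp [e, Finset.sum_apply, Pi.single_apply]

theorem sum_abs_le {n : ℕ} (v : E n) : ∑ i, |v i| ≤ √n * ‖v‖ := by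
  have h1 : (∑ i, |v i|) ^ 2 ≤ n * ‖v‖ ^ 2 := by
    have := sq_sum_le_card_mul_sum_sq (s := (Finset.univ : Finset (Fin n))) (f := fun i => |v i|)
    rw [EuclideanSpace.norm_sq_eq]
    simpa using this
  have h2 : (√n * ‖v‖) ^ 2 = n * ‖v‖ ^ 2 := by
    rw [mul_pow, Real.sq_sqrt (Nat.cast_nonneg n)]
  have h3 : 0 ≤ √n * ‖v‖ := by positivity
  exact abs_le_of_sq_le_sq' (by rw [h2]; exact h1) h3 |>.2

theorem hess_apply {n : ℕ} {h : E n → ℝ} (x v w : E n) :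
    fderiv ℝ (fun y => fderiv ℝ h y) x v w = ∑ i, ∑ j, v i * w j * H h x i j := by
  conv_lhs => rw [← sum_smul_e v, ← sum_smul_e w]
  simp only [map_sum, map_smul, sum_apply, smul_apply,
    smul_eq_mul, H]
  rw [Finset.sum_comm]
  refine Finset.sum_congr rfl fun i _ => ?_
  rw [Finset.mul_sum]
  refine Finset.sum_congr rfl fun j _ => ?_
  ring

theorem norm_hess_le {n : ℕ} {h : E n → ℝ} {B : ℝ} {x : E n} (hB : ∀ i j, |H h x i j| ≤ B)
    (hB0 : 0 ≤ B) : ‖fderiv ℝ (fun y => fderiv ℝ h y) x‖ ≤ n * B := by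
  refine ContinuousLinearMap.opNorm_le_bound _ (by positivity) fun v => ?_
  refine ContinuousLinearMap.opNorm_le_bound _ (by positivity) fun w => ?_
  rw [hess_apply, Real.norm_eq_abs]
  calc |∑ i, ∑ j, v i * w j * H h x i j|
      ≤ ∑ i, ∑ j, |v i| * |w j| * B := by
        refine (Finset.abs_sum_le_sum_abs _ _).trans (Finset.sum_le_sum fun i _ => ?_)
        refine (Finset.abs_sum_le_sum_abs _ _).trans (Finset.sum_le_sum fun j _ => ?_)
        rw [abs_mul, abs_mul]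
        exact mul_le_mul_of_nonneg_left (hB i j) (by positivity)
    _ = (∑ i, |v i|) * (∑ j, |w j|) * B := by
        rw [Finset.sum_mul_sum, Finset.sum_mul]
        refine Finset.sum_congr rfl fun i _ => ?_
        rw [Finset.sum_mul]
    _ ≤ (√n * ‖v‖) * (√n * ‖w‖) * B := by
        refine mul_le_mul_of_nonneg_right ?_ hB0
        exact mul_le_mul (sum_abs_le v) (sum_abs_le w)
          (Finset.sum_nonneg fun _ _ => abs_nonneg _) (by positivity)
    _ = (√n * √n) * B * ‖v‖ * ‖w‖ := by ring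
    _ = n * B * ‖v‖ * ‖w‖ := by rw [Real.mul_self_sqrt (Nat.cast_nonneg n)]

theorem fderiv_zero_of_even {n : ℕ} {h : E n → ℝ} (hh : ContDiff ℝ 1 h) (he : Ev h) :
    fderiv ℝ h 0 = 0 := by
  have h1 : HasFDerivAt h (fderiv ℝ h 0) 0 :=
    (hh.differentiable one_ne_zero 0).hasFDerivAt
  have h2 : HasFDerivAt (fun x => h (-x)) (-(fderiv ℝ h 0)) 0 := by
    have h3 : HasFDerivAt h (fderiv ℝ h 0) (-0) := by simpa using h1
    have := h3.comp (0 : E n) (hasFDerivAt_id (0 : E n)).neg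
    simpa [Function.comp_def] using! this
  have h4 : (fun x => h (-x)) = h := by
    funext x
    exact he x
  rw [h4] at h2
  have h5 := h1.unique h2
  have h6 : (2 : ℝ) • fderiv ℝ h 0 = 0 := by
    rw [two_smul]
    nth_rewrite 1 [h5]
    simp
  exact (smul_eq_zero.1 h6).resolve_left (by norm_num)

/-- growth of the gradient. -/
theorem norm_fderiv_le {n : ℕ} {h : E n → ℝ} (hh : ContDiff ℝ 2 h) (he : Ev h) {B : ℝ}
    (hB : ∀ x i j, |H h x i j| ≤ B) (hB0 : 0 ≤ B) (x : E n) :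
    ‖fderiv ℝ h x‖ ≤ n * B * ‖x‖ := by
  have h2 : ContDiff ℝ 1 (fderiv ℝ h) := hh.fderiv_right (by norm_num)
  have h3 := Convex.norm_image_sub_le_of_norm_fderiv_le (𝕜 := ℝ) (f := fderiv ℝ h)
    (C := n * B) (s := univ) (x := 0) (y := x)
    (fun y _ => (h2.differentiable one_ne_zero) y)
    (fun y _ => norm_hess_le (fun i j => hB y i j) hB0) convex_univ (mem_univ _) (mem_univ _)
  rw [fderiv_zero_of_even (hh.of_le (by norm_num)) he] at h3
  simpa using h3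

theorem norm_e {n : ℕ} (i : Fin n) : ‖(e i : E n)‖ = 1 := by simp [e]

theorem abs_pd_le {n : ℕ} {h : E n → ℝ} (hh : ContDiff ℝ 2 h) (he : Ev h) {B : ℝ}
    (hB : ∀ x i j, |H h x i j| ≤ B) (hB0 : 0 ≤ B) (i : Fin n) (x : E n) :
    |pd i h x| ≤ n * B * ‖x‖ := by
  unfold pd
  rw [← Real.norm_eq_abs]
  calc ‖fderiv ℝ h x (e i)‖ ≤ ‖fderiv ℝ h x‖ * ‖(e i : E n)‖ :=
        ContinuousLinearMap.le_opNorm _ _
    _ = ‖fderiv ℝ h x‖ := by rw [norm_e, mul_one]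
    _ ≤ _ := norm_fderiv_le hh he hB hB0 x

theorem abs_fderiv_self_le {n : ℕ} {h : E n → ℝ} (hh : ContDiff ℝ 2 h) (he : Ev h) {B : ℝ}
    (hB : ∀ x i j, |H h x i j| ≤ B) (hB0 : 0 ≤ B) (x : E n) :
    |fderiv ℝ h x x| ≤ n * B * ‖x‖ ^ 2 := by
  rw [← Real.norm_eq_abs]
  calc ‖fderiv ℝ h x x‖ ≤ ‖fderiv ℝ h x‖ * ‖x‖ := ContinuousLinearMap.le_opNorm _ _
    _ ≤ (n * B * ‖x‖) * ‖x‖ :=
        mul_le_mul_of_nonneg_right (norm_fderiv_le hh he hB hB0 x) (norm_nonneg _)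
    _ = _ := by ring

/-- growth of the function. -/
theorem abs_le_of_hess {n : ℕ} {h : E n → ℝ} (hh : ContDiff ℝ 2 h) (he : Ev h) {B : ℝ}
    (hB : ∀ x i j, |H h x i j| ≤ B) (hB0 : 0 ≤ B) (x : E n) :
    |h x - h 0| ≤ n * B * ‖x‖ ^ 2 := by
  have h1 : ContDiff ℝ 1 h := hh.of_le (by norm_num)
  have h3 := Convex.norm_image_sub_le_of_norm_fderiv_le (𝕜 := ℝ) (f := h)
    (C := n * B * ‖x‖) (s := closedBall 0 ‖x‖) (x := 0) (y := x)
    (fun y _ => (h1.differentiable one_ne_zero) y)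
    (fun y hy => (norm_fderiv_le hh he hB hB0 y).trans
      (mul_le_mul_of_nonneg_left (by simpa using hy) (by positivity)))
    (convex_closedBall _ _) (by simp) (by simp)
  rw [Real.norm_eq_abs, sub_zero] at h3
  calc |h x - h 0| ≤ n * B * ‖x‖ * ‖x‖ := h3
    _ = _ := by ring

theorem abs_le_of_hess' {n : ℕ} {h : E n → ℝ} (hh : ContDiff ℝ 2 h) (he : Ev h) {B B0 : ℝ}
    (hB : ∀ x i j, |H h x i j| ≤ B) (hB0 : 0 ≤ B) (h0 : |h 0| ≤ B0) (x : E n) :
    |h x| ≤ B0 + n * B * ‖x‖ ^ 2 := by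
  have h1 := abs_le_of_hess hh he hB hB0 x
  have h2 : |h x| ≤ |h 0| + |h x - h 0| := by
    have := abs_add_le (h 0) (h x - h 0)
    simpa using this
  linarith

theorem pg_of_hess {n : ℕ} {h : E n → ℝ} (hh : ContDiff ℝ 2 h) (he : Ev h) {B : ℝ}
    (hB : ∀ x i j, |H h x i j| ≤ B) (hB0 : 0 ≤ B) : PG h := by
  refine ⟨|h 0| + n * B, 2, fun x => ?_⟩
  refine (abs_le_of_hess' hh he hB hB0 le_rfl x).trans ?_
  have h1 : (1 : ℝ) ≤ (1 + ‖x‖) ^ 2 := by
    have := norm_nonneg x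
    nlinarith
  have h2 : ‖x‖ ^ 2 ≤ (1 + ‖x‖) ^ 2 := by
    have := norm_nonneg x
    nlinarith
  have h3 : (0 : ℝ) ≤ n * B := by positivity
  nlinarith [mul_le_mul_of_nonneg_left h1 (abs_nonneg (h 0)), mul_le_mul_of_nonneg_left h2 h3]

theorem pg_pd_of_hess {n : ℕ} {h : E n → ℝ} (hh : ContDiff ℝ 2 h) (he : Ev h) {B : ℝ}
    (hB : ∀ x i j, |H h x i j| ≤ B) (hB0 : 0 ≤ B) (i : Fin n) : PG (pd i h) := by
  refine ⟨n * B, 1, fun x => ?_⟩
  refine (abs_pd_le hh he hB hB0 i x).trans ?_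
  have h3 : (0 : ℝ) ≤ n * B := by positivity
  have := norm_nonneg x
  rw [pow_one]
  exact mul_le_mul_of_nonneg_left (by linarith) h3

theorem pg_H {n : ℕ} {h : E n → ℝ} {B : ℝ} (hB : ∀ x i j, |H h x i j| ≤ B) (i j : Fin n) :
    PG (fun x => H h x i j) :=
  ⟨B, 0, fun x => by simpa using hB x i j⟩

end Crest.Agent.R238.Gap
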