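import Mathlib

/-!
# Row 238, module H4 (gap), part (C3): Poincaré inequality for `exp (-(|x|²/2 + P x)) dx`, `P` bounded

Maurey–Pisier rotation argument, explicit (non sharp) constant, no differentiation under the
integral, no integration by parts.
-/

set_option autoImplicit false
set_option linter.unusedSectionVars false

open MeasureTheory Set Real

noncomputable section

namespace Crest.Agent.R238.GapPo

variable {E : Type*} [NormedAddCommGroup E] [InnerProductSpace ℝ E] [FiniteDimensional ℝ E]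
  [MeasurableSpace E] [BorelSpace E]

/-- the (unnormalised) Gaussian weight -/
def G (x : E) : ℝ := Real.exp (-(‖x‖ ^ 2 / 2))

omit [FiniteDimensional ℝ E] [MeasurableSpace E] [BorelSpace E] in
lemma G_pos (x : E) : 0 < G x := Real.exp_pos _

omit [FiniteDimensional ℝ E] [MeasurableSpace E] [BorelSpace E] in
lemma continuous_G : Continuous (G : E → ℝ) := by
  unfold G; fun_prop

/-- the rotation (an involution) `(x, y) ↦ (s x + c y, c x - s y)` -/
def rotL (θ : ℝ) : (E × E) →ₗ[ℝ] (E × E) where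
  toFun p := (Real.sin θ • p.1 + Real.cos θ • p.2, Real.cos θ • p.1 - Real.sin θ • p.2)
  map_add' p q := by
    ext <;> simp [smul_add] <;> abel
  map_smul' a p := by
    ext
    · simp [smul_comm a]
    · simp [smul_comm a, smul_sub]

omit [FiniteDimensional ℝ E] [MeasurableSpace E] [BorelSpace E] in
lemma rotL_apply (θ : ℝ) (p : E × E) : rotL θ p =
    (Real.sin θ • p.1 + Real.cos θ • p.2, Real.cos θ • p.1 - Real.sin θ • p.2) := rfl

omit [FiniteDimensional ℝ E] [MeasurableSpace E] [BorelSpace E] in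
lemma rotL_rotL (θ : ℝ) (p : E × E) : rotL θ (rotL θ p) = p := by
  have h := Real.sin_sq_add_cos_sq θ
  rw [rotL_apply, rotL_apply]
  ext
  · simp only [smul_add, smul_sub, smul_smul]
    have : (Real.sin θ * Real.sin θ) • p.1 + (Real.sin θ * Real.cos θ) • p.2 +
        ((Real.cos θ * Real.cos θ) • p.1 - (Real.cos θ * Real.sin θ) • p.2) =
        (Real.sin θ ^ 2 + Real.cos θ ^ 2) • p.1 := by
      rw [mul_comm (Real.cos θ) (Real.sin θ)]
      module
    rw [this, h, one_smul]
  · simp only [smul_add, smul_sub, smul_smul]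
    have : (Real.cos θ * Real.sin θ) • p.1 + (Real.cos θ * Real.cos θ) • p.2 -
        ((Real.sin θ * Real.cos θ) • p.1 - (Real.sin θ * Real.sin θ) • p.2) =
        (Real.sin θ ^ 2 + Real.cos θ ^ 2) • p.2 := by
      rw [mul_comm (Real.cos θ) (Real.sin θ)]
      module
    rw [this, h, one_smul]

omit [MeasurableSpace E] [BorelSpace E] in
lemma abs_det_rotL (θ : ℝ) : |LinearMap.det (rotL θ : (E × E) →ₗ[ℝ] (E × E))| = 1 := by
  have h : (rotL θ : (E × E) →ₗ[ℝ] (E × E)) ∘ₗ rotL θ = LinearMap.id :=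
    LinearMap.ext fun p => rotL_rotL θ p
  have h2 := congrArg LinearMap.det h
  rw [LinearMap.det_comp, LinearMap.det_id] at h2
  have h3 : |LinearMap.det (rotL θ : (E × E) →ₗ[ℝ] (E × E))| ^ 2 = 1 := by
    rw [sq_abs, sq, h2]
  nlinarith [abs_nonneg (LinearMap.det (rotL θ : (E × E) →ₗ[ℝ] (E × E)))]

lemma map_rotL (θ : ℝ) :
    Measure.map (rotL θ) ((volume : Measure E).prod (volume : Measure E)) =
      (volume : Measure E).prod (volume : Measure E) := by
  have hd : LinearMap.det (rotL θ : (E × E) →ₗ[ℝ] (E × E)) ≠ 0 := by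
    intro h
    have := abs_det_rotL (E := E) θ
    rw [h] at this
    simp at this
  rw [Measure.map_linearMap_addHaar_eq_smul_addHaar _ hd, abs_inv, abs_det_rotL]
  simp

omit [FiniteDimensional ℝ E] [MeasurableSpace E] [BorelSpace E] in
lemma G_rotL (θ : ℝ) (p : E × E) : G (rotL θ p).1 * G (rotL θ p).2 = G p.1 * G p.2 := by
  unfold G
  rw [← Real.exp_add, ← Real.exp_add]
  congr 1
  have h := Real.sin_sq_add_cos_sq θ
  have h1 : ‖(rotL θ p).1‖ ^ 2 = Real.sin θ ^ 2 * ‖p.1‖ ^ 2 +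
      2 * (Real.sin θ * Real.cos θ * inner ℝ p.1 p.2) + Real.cos θ ^ 2 * ‖p.2‖ ^ 2 := by
    rw [rotL_apply]
    simp only
    rw [norm_add_sq_real, norm_smul, norm_smul, inner_smul_left, inner_smul_right, mul_pow, mul_pow]
    simp only [Real.norm_eq_abs, sq_abs, conj_trivial]
    ring
  have h2 : ‖(rotL θ p).2‖ ^ 2 = Real.cos θ ^ 2 * ‖p.1‖ ^ 2 -
      2 * (Real.sin θ * Real.cos θ * inner ℝ p.1 p.2) + Real.sin θ ^ 2 * ‖p.2‖ ^ 2 := by
    rw [rotL_apply]
    simp only
    rw [norm_sub_sq_real, norm_smul, norm_smul, inner_smul_left, inner_smul_right, mul_pow, mul_pow]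
    simp only [Real.norm_eq_abs, sq_abs, conj_trivial]
    ring
  rw [h1, h2]
  have h3 : Real.cos θ ^ 2 = 1 - Real.sin θ ^ 2 := by linarith
  rw [h3]; ring

/-- `(∫ g)² ≤ L ∫ g²` on an interval. -/
lemma sq_integral_le {g : ℝ → ℝ} (hg : Continuous g) {L : ℝ} (hL : 0 < L) :
    (∫ t in (0 : ℝ)..L, g t) ^ 2 ≤ L * ∫ t in (0 : ℝ)..L, g t ^ 2 := by
  set I := ∫ t in (0 : ℝ)..L, g t with hI
  have h0 : 0 ≤ ∫ t in (0 : ℝ)..L, (g t - I / L) ^ 2 :=
    intervalIntegral.integral_nonneg hL.le fun t _ => sq_nonneg _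
  have h1 : (∫ t in (0 : ℝ)..L, (g t - I / L) ^ 2) =
      (∫ t in (0 : ℝ)..L, g t ^ 2) - 2 * (I / L) * I + L * (I / L) ^ 2 := by
    have h2 : (fun t => (g t - I / L) ^ 2) =
        fun t => g t ^ 2 - 2 * (I / L) * g t + (I / L) ^ 2 := by
      funext t; ring
    rw [h2, intervalIntegral.integral_add, intervalIntegral.integral_sub,
      intervalIntegral.integral_const_mul, intervalIntegral.integral_const]
    · simp [hI]
    · exact (by fun_prop : Continuous _).intervalIntegrable _ _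
    · exact (by fun_prop : Continuous _).intervalIntegrable _ _
    · exact (by fun_prop : Continuous _).intervalIntegrable _ _
    · exact (by fun_prop : Continuous _).intervalIntegrable _ _
  rw [h1] at h0
  have h3 : L * ((∫ t in (0 : ℝ)..L, g t ^ 2) - 2 * (I / L) * I + L * (I / L) ^ 2) =
      L * (∫ t in (0 : ℝ)..L, g t ^ 2) - I ^ 2 := by
    field_simp
    ring
  have h4 := mul_nonneg hL.le h0
  rw [h3] at h4
  linarith

omit [FiniteDimensional ℝ E] [MeasurableSpace E] [BorelSpace E] in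
/-- pointwise estimate along the quarter circle -/
lemma sub_sq_le {f : E → ℝ} (hf : ContDiff ℝ 1 f) (x y : E) :
    (f x - f y) ^ 2 ≤ (π / 2) * ∫ θ in (0 : ℝ)..(π / 2),
      ‖fderiv ℝ f (rotL θ (x, y)).1‖ ^ 2 * ‖(rotL θ (x, y)).2‖ ^ 2 := by
  have hdf : Continuous (fderiv ℝ f) := hf.continuous_fderiv (by norm_num)
  set g : ℝ → ℝ := fun θ => fderiv ℝ f (rotL θ (x, y)).1 (rotL θ (x, y)).2 with hg
  have hc1 : Continuous fun θ : ℝ => (rotL θ (x, y)).1 := by
    simp only [rotL_apply]; fun_prop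
  have hc2 : Continuous fun θ : ℝ => (rotL θ (x, y)).2 := by
    simp only [rotL_apply]; fun_prop
  have hgc : Continuous g := (hdf.comp hc1).clm_apply hc2
  have hder : ∀ θ : ℝ, HasDerivAt (fun θ => f (rotL θ (x, y)).1) (g θ) θ := by
    intro θ
    have h1 : HasDerivAt (fun θ : ℝ => (rotL θ (x, y)).1) (rotL θ (x, y)).2 θ := by
      simp only [rotL_apply]
      have := ((Real.hasDerivAt_sin θ).smul_const x).add ((Real.hasDerivAt_cos θ).smul_const y)
      refine this.congr_deriv ?_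
      rw [neg_smul, sub_eq_add_neg]
    have h2 : HasFDerivAt f (fderiv ℝ f (rotL θ (x, y)).1) (rotL θ (x, y)).1 :=
      (hf.differentiable (by norm_num) _).hasFDerivAt
    exact h2.comp_hasDerivAt θ h1
  have hFTC : (∫ θ in (0 : ℝ)..(π / 2), g θ) = f x - f y := by
    rw [intervalIntegral.integral_eq_sub_of_hasDerivAt (fun θ _ => hder θ)
      (hgc.intervalIntegrable _ _)]
    simp [rotL_apply]
  have hpi : 0 < π / 2 := by positivity
  rw [← hFTC]
  refine (sq_integral_le hgc hpi).trans ?_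
  gcongr
  refine intervalIntegral.integral_mono_on hpi.le ((hgc.pow 2).intervalIntegrable _ _) ?_ ?_
  · exact (((hdf.comp hc1).norm.pow 2).mul (hc2.norm.pow 2)).intervalIntegrable _ _
  · intro θ _
    have h := (fderiv ℝ f (rotL θ (x, y)).1).le_opNorm (rotL θ (x, y)).2
    have h' : |g θ| ≤ ‖fderiv ℝ f (rotL θ (x, y)).1‖ * ‖(rotL θ (x, y)).2‖ := h
    calc g θ ^ 2 = |g θ| ^ 2 := (sq_abs _).symm
      _ ≤ (‖fderiv ℝ f (rotL θ (x, y)).1‖ * ‖(rotL θ (x, y)).2‖) ^ 2 := by gcongr
      _ = _ := by ring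


lemma continuous_rotL (θ : ℝ) : Continuous (rotL θ : (E × E) →ₗ[ℝ] (E × E)) :=
  LinearMap.continuous_of_finiteDimensional _

lemma measurePreserving_rotL (θ : ℝ) :
    MeasurePreserving (rotL θ) ((volume : Measure E).prod (volume : Measure E))
      ((volume : Measure E).prod (volume : Measure E)) :=
  ⟨(continuous_rotL θ).measurable, map_rotL θ⟩

/-- integrated Maurey–Pisier inequality for the Gaussian weight, in `ENNReal` form -/
lemma lint_key {f : E → ℝ} (hf : ContDiff ℝ 1 f) :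
    ∫⁻ p : E × E, ENNReal.ofReal ((f p.1 - f p.2) ^ 2 * (G p.1 * G p.2))
        ∂((volume : Measure E).prod (volume : Measure E)) ≤
      ENNReal.ofReal (π ^ 2 / 4) * ((∫⁻ x : E, ENNReal.ofReal (‖fderiv ℝ f x‖ ^ 2 * G x)) *
        (∫⁻ y : E, ENNReal.ofReal (‖y‖ ^ 2 * G y))) := by
  have hdf : Continuous (fderiv ℝ f) := hf.continuous_fderiv (by norm_num)
  have hG : Continuous (G : E → ℝ) := continuous_G
  have hpi : 0 < π / 2 := by positivity
  set B : E × E → ENNReal := fun q => ENNReal.ofReal (‖fderiv ℝ f q.1‖ ^ 2 * ‖q.2‖ ^ 2 *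
    (G q.1 * G q.2)) with hB
  have hBm : Measurable B := by
    refine ENNReal.measurable_ofReal.comp (Continuous.measurable ?_)
    exact (((hdf.comp continuous_fst).norm.pow 2).mul (continuous_snd.norm.pow 2)).mul
      ((hG.comp continuous_fst).mul (hG.comp continuous_snd))
  have hrot : Continuous fun q : ℝ × (E × E) => rotL q.1 q.2 := by
    simp only [rotL_apply]; fun_prop
  -- pointwise
  have hpt : ∀ p : E × E, ENNReal.ofReal ((f p.1 - f p.2) ^ 2 * (G p.1 * G p.2)) ≤
      ENNReal.ofReal (π / 2) * ∫⁻ θ in Ioc (0 : ℝ) (π / 2), B (rotL θ p) := by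
    intro p
    have hGG : 0 ≤ G p.1 * G p.2 := (mul_pos (G_pos _) (G_pos _)).le
    have hc : Continuous fun θ : ℝ => ‖fderiv ℝ f (rotL θ p).1‖ ^ 2 * ‖(rotL θ p).2‖ ^ 2 *
        (G p.1 * G p.2) := by
      have h1a : Continuous fun θ : ℝ => (rotL θ p).1 := by
        simp only [rotL_apply]; fun_prop
      have h1b : Continuous fun θ : ℝ => (rotL θ p).2 := by
        simp only [rotL_apply]; fun_prop
      have h1c : Continuous fun θ : ℝ => ‖fderiv ℝ f (rotL θ p).1‖ ^ 2 :=
        (hdf.comp h1a).norm.pow 2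
      have h1d : Continuous fun θ : ℝ => ‖(rotL θ p).2‖ ^ 2 := h1b.norm.pow 2
      exact (h1c.mul h1d).mul continuous_const
    have h1 := mul_le_mul_of_nonneg_right (sub_sq_le hf p.1 p.2) hGG
    have h2 : (π / 2) * (∫ θ in (0 : ℝ)..(π / 2),
        ‖fderiv ℝ f (rotL θ (p.1, p.2)).1‖ ^ 2 * ‖(rotL θ (p.1, p.2)).2‖ ^ 2) * (G p.1 * G p.2) =
        (π / 2) * ∫ θ in Ioc (0 : ℝ) (π / 2),
          ‖fderiv ℝ f (rotL θ p).1‖ ^ 2 * ‖(rotL θ p).2‖ ^ 2 * (G p.1 * G p.2) := by
      rw [intervalIntegral.integral_of_le hpi.le, integral_mul_const]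
      ring
    rw [h2] at h1
    have hint : IntegrableOn (fun θ : ℝ => ‖fderiv ℝ f (rotL θ p).1‖ ^ 2 * ‖(rotL θ p).2‖ ^ 2 *
        (G p.1 * G p.2)) (Ioc (0 : ℝ) (π / 2)) volume := by
      have := hc.intervalIntegrable (μ := volume) 0 (π / 2)
      rwa [intervalIntegrable_iff_integrableOn_Ioc_of_le hpi.le] at this
    have h3 := ofReal_integral_eq_lintegral_ofReal hint
      (Filter.Eventually.of_forall fun θ => mul_nonneg (by positivity) hGG)
    calc ENNReal.ofReal ((f p.1 - f p.2) ^ 2 * (G p.1 * G p.2))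
        ≤ ENNReal.ofReal ((π / 2) * ∫ θ in Ioc (0 : ℝ) (π / 2),
          ‖fderiv ℝ f (rotL θ p).1‖ ^ 2 * ‖(rotL θ p).2‖ ^ 2 * (G p.1 * G p.2)) :=
          ENNReal.ofReal_le_ofReal h1
      _ = ENNReal.ofReal (π / 2) * ENNReal.ofReal (∫ θ in Ioc (0 : ℝ) (π / 2),
          ‖fderiv ℝ f (rotL θ p).1‖ ^ 2 * ‖(rotL θ p).2‖ ^ 2 * (G p.1 * G p.2)) :=
          ENNReal.ofReal_mul hpi.le
      _ = ENNReal.ofReal (π / 2) * ∫⁻ θ in Ioc (0 : ℝ) (π / 2),
          ENNReal.ofReal (‖fderiv ℝ f (rotL θ p).1‖ ^ 2 * ‖(rotL θ p).2‖ ^ 2 *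
            (G p.1 * G p.2)) := by rw [h3]
      _ = ENNReal.ofReal (π / 2) * ∫⁻ θ in Ioc (0 : ℝ) (π / 2), B (rotL θ p) := by
          congr 1
          refine lintegral_congr fun θ => ?_
          rw [hB]
          simp only
          rw [G_rotL]
  refine (lintegral_mono hpt).trans ?_
  have hmeas : Measurable (Function.uncurry fun (p : E × E) (θ : ℝ) => B (rotL θ p)) := by
    refine hBm.comp ?_
    exact (hrot.comp (continuous_snd.prodMk continuous_fst)).measurable
  rw [lintegral_const_mul _ (Measurable.lintegral_prod_right hmeas)]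
  rw [lintegral_lintegral_swap hmeas.aemeasurable]
  have hin : ∀ θ : ℝ, ∫⁻ p : E × E, B (rotL θ p)
      ∂((volume : Measure E).prod (volume : Measure E)) =
      (∫⁻ x : E, ENNReal.ofReal (‖fderiv ℝ f x‖ ^ 2 * G x)) *
        (∫⁻ y : E, ENNReal.ofReal (‖y‖ ^ 2 * G y)) := by
    intro θ
    rw [(measurePreserving_rotL (E := E) θ).lintegral_comp hBm]
    rw [← lintegral_prod_mul]
    · refine lintegral_congr fun p => ?_
      rw [hB, ← ENNReal.ofReal_mul (mul_nonneg (by positivity) (G_pos _).le)]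
      ring_nf
    · refine (ENNReal.measurable_ofReal.comp (Continuous.measurable ?_)).aemeasurable
      exact (hdf.norm.pow 2).mul hG
    · refine (ENNReal.measurable_ofReal.comp (Continuous.measurable ?_)).aemeasurable
      exact (continuous_norm.pow 2).mul hG
  simp only [hin]
  rw [lintegral_const, Measure.restrict_apply MeasurableSet.univ, univ_inter, Real.volume_Ioc,
    sub_zero]
  have h4 : ENNReal.ofReal (π ^ 2 / 4) = ENNReal.ofReal (π / 2) * ENNReal.ofReal (π / 2) := by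
    rw [← ENNReal.ofReal_mul hpi.le]
    congr 1; ring
  rw [h4]
  exact le_of_eq (by ring)

/-- the weight `exp (-(|x|²/2 + P x))` -/
def wt (P : E → ℝ) (x : E) : ℝ := Real.exp (-(‖x‖ ^ 2 / 2 + P x))

lemma wt_pos (P : E → ℝ) (x : E) : 0 < wt P x := Real.exp_pos _

lemma wt_eq (P : E → ℝ) (x : E) : wt P x = G x * Real.exp (-P x) := by
  unfold wt G
  rw [← Real.exp_add]; congr 1; ring

lemma wt_le {P : E → ℝ} {m : ℝ} (hm : ∀ x, m ≤ P x) (x : E) : wt P x ≤ Real.exp (-m) * G x := by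
  rw [wt_eq, mul_comm]
  gcongr
  · exact (G_pos x).le
  · exact hm x

lemma G_le_wt {P : E → ℝ} {M : ℝ} (hM : ∀ x, P x ≤ M) (x : E) : G x ≤ Real.exp M * wt P x := by
  rw [wt_eq, ← mul_assoc, mul_comm (Real.exp M), mul_assoc, ← Real.exp_add]
  have h1 : 1 ≤ Real.exp (M + -P x) := Real.one_le_exp (by linarith [hM x])
  nlinarith [G_pos x]

lemma measurable_wt {P : E → ℝ} (hP : Measurable P) : Measurable (wt P) := by
  unfold wt; fun_prop

lemma pow_mul_G_le (N : ℕ) (x : E) :
    (1 + ‖x‖) ^ N * G x ≤ N.factorial * Real.exp (3 / 2) := by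
  have h0 : 0 ≤ 1 + ‖x‖ := by positivity
  have h1 := Real.pow_div_factorial_le_exp (1 + ‖x‖) h0 N
  rw [div_le_iff₀ (by positivity)] at h1
  have h2 : Real.exp (1 + ‖x‖) * G x ≤ Real.exp (3 / 2) := by
    unfold G
    rw [← Real.exp_add]
    apply Real.exp_le_exp.mpr
    nlinarith [sq_nonneg (‖x‖ - 1)]
  calc (1 + ‖x‖) ^ N * G x ≤ (Real.exp (1 + ‖x‖) * N.factorial) * G x := by
        gcongr
        exact (G_pos x).le
    _ = N.factorial * (Real.exp (1 + ‖x‖) * G x) := by ring
    _ ≤ N.factorial * Real.exp (3 / 2) := by gcongr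

/-- integrability of `(1 + ‖x‖)^k G x` -/
lemma integrable_pow_G (k : ℕ) : Integrable (fun x : E => (1 + ‖x‖) ^ k * G x) := by
  set N := Module.finrank ℝ E + 1 with hN
  have hint : Integrable (fun x : E => (1 + ‖x‖) ^ (-(N : ℝ))) :=
    integrable_one_add_norm (by rw [hN]; push_cast; linarith)
  refine Integrable.mono' (hint.const_mul ((k + N).factorial * Real.exp (3 / 2))) ?_ ?_
  · exact (Continuous.mul (by fun_prop) continuous_G).aestronglyMeasurable
  · refine Filter.Eventually.of_forall fun x => ?_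
    have h0 : 0 < 1 + ‖x‖ := by positivity
    rw [Real.norm_eq_abs, abs_of_nonneg (mul_nonneg (by positivity) (G_pos x).le),
      Real.rpow_neg h0.le, Real.rpow_natCast, ← div_eq_mul_inv, le_div_iff₀ (by positivity)]
    calc (1 + ‖x‖) ^ k * G x * (1 + ‖x‖) ^ N = (1 + ‖x‖) ^ (k + N) * G x := by ring
      _ ≤ _ := pow_mul_G_le (k + N) x

lemma integrable_growth {P : E → ℝ} (hP : Measurable P) {m : ℝ} (hm : ∀ x, m ≤ P x)
    {F : E → ℝ} (hF : AEStronglyMeasurable F volume) {K : ℝ} {k : ℕ}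
    (hFb : ∀ x, |F x| ≤ K * (1 + ‖x‖) ^ k) : Integrable (fun x => F x * wt P x) := by
  refine Integrable.mono' ((integrable_pow_G (E := E) k).const_mul (K * Real.exp (-m))) ?_ ?_
  · exact hF.mul (measurable_wt hP).aestronglyMeasurable
  · refine Filter.Eventually.of_forall fun x => ?_
    rw [Real.norm_eq_abs, abs_mul, abs_of_pos (wt_pos P x)]
    have h1 : 0 ≤ K * (1 + ‖x‖) ^ k := (abs_nonneg _).trans (hFb x)
    calc |F x| * wt P x ≤ (K * (1 + ‖x‖) ^ k) * (Real.exp (-m) * G x) :=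
          mul_le_mul (hFb x) (wt_le hm x) (wt_pos P x).le h1
      _ = K * Real.exp (-m) * ((1 + ‖x‖) ^ k * G x) := by ring

/-- the constants `Z = ∫ G`, `M₂ = ∫ |x|² G` -/
def ZG (E : Type*) [NormedAddCommGroup E] [InnerProductSpace ℝ E] [FiniteDimensional ℝ E]
  [MeasurableSpace E] [BorelSpace E] : ℝ := ∫ x : E, G x
def MG (E : Type*) [NormedAddCommGroup E] [InnerProductSpace ℝ E] [FiniteDimensional ℝ E]
  [MeasurableSpace E] [BorelSpace E] : ℝ := ∫ x : E, ‖x‖ ^ 2 * G x

lemma integrable_G : Integrable (G : E → ℝ) := by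
  simpa using integrable_pow_G (E := E) 0

lemma ZG_pos : 0 < ZG E := by
  unfold ZG
  rw [integral_pos_iff_support_of_nonneg (fun x => (G_pos x).le) integrable_G]
  have : Function.support (G : E → ℝ) = Set.univ := by
    ext x; simp [(G_pos x).ne']
  rw [this]
  exact Measure.measure_univ_pos.mpr (NeZero.ne _)

/-- **Poincaré inequality for `exp (-(|x|²/2+P))`**, `m ≤ P ≤ M`, constant
`(π²/8) (M₂/Z) e^{2(M-m)}`. -/
theorem poincare {P : E → ℝ} (hP : Measurable P) {m M : ℝ} (hm : ∀ x, m ≤ P x)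
    (hM : ∀ x, P x ≤ M) {f : E → ℝ} (hf : ContDiff ℝ 1 f)
    (hf2 : Integrable (fun x => f x ^ 2 * wt P x)) (hf1 : Integrable (fun x => f x * wt P x))
    (hf0 : ∫ x, f x * wt P x = 0)
    (hdf : Integrable (fun x => ‖fderiv ℝ f x‖ ^ 2 * wt P x)) :
    ∫ x, f x ^ 2 * wt P x ≤ (π ^ 2 / 8) * (MG E / ZG E) * Real.exp (2 * (M - m)) *
      ∫ x, ‖fderiv ℝ f x‖ ^ 2 * wt P x := by
  set w : E → ℝ := wt P with hw
  have hwpos : ∀ x, 0 < w x := wt_pos P
  have hwi : Integrable w := by
    have := integrable_growth (E := E) hP hm (F := fun _ => 1) aestronglyMeasurable_const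
      (K := 1) (k := 0) (by simp)
    simpa using this
  set W := ∫ x, w x with hW
  set A := ∫ x, f x ^ 2 * w x with hA
  set D := ∫ x, ‖fderiv ℝ f x‖ ^ 2 * w x with hD
  have hdfc : Continuous (fderiv ℝ f) := hf.continuous_fderiv (by norm_num)
  have hD0 : 0 ≤ D := integral_nonneg fun x => mul_nonneg (by positivity) (hwpos x).le
  have hM0 : 0 ≤ MG E := integral_nonneg fun x => mul_nonneg (by positivity) (G_pos x).le
  -- the product integral
  have hprodint : Integrable (fun p : E × E => (f p.1 - f p.2) ^ 2 * (w p.1 * w p.2))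
      ((volume : Measure E).prod volume) := by
    have h1 := Integrable.mul_prod hf2 hwi
    have h2 := Integrable.mul_prod hf1 hf1
    have h3 := Integrable.mul_prod hwi hf2
    refine ((h1.sub (h2.const_mul 2)).add h3).congr (Filter.Eventually.of_forall fun p => ?_)
    simp only [Pi.add_apply, Pi.sub_apply]
    ring
  have hprod : ∫ p : E × E, (f p.1 - f p.2) ^ 2 * (w p.1 * w p.2)
      ∂((volume : Measure E).prod volume) = 2 * (W * A) := by
    have h1 := Integrable.mul_prod hf2 hwi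
    have h2 := Integrable.mul_prod hf1 hf1
    have h3 := Integrable.mul_prod hwi hf2
    have he : (fun p : E × E => (f p.1 - f p.2) ^ 2 * (w p.1 * w p.2)) = fun p =>
        ((f p.1 ^ 2 * w p.1) * w p.2 - 2 * ((f p.1 * w p.1) * (f p.2 * w p.2))) +
          w p.1 * (f p.2 ^ 2 * w p.2) := by
      funext p; ring
    have h2' : Integrable (fun p : E × E => 2 * ((f p.1 * w p.1) * (f p.2 * w p.2)))
        ((volume : Measure E).prod volume) := h2.const_mul 2
    have h12 : Integrable (fun p : E × E => (f p.1 ^ 2 * w p.1) * w p.2 -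
        2 * ((f p.1 * w p.1) * (f p.2 * w p.2))) ((volume : Measure E).prod volume) := h1.sub h2'
    rw [he, integral_add h12 h3, integral_sub h1 h2', integral_const_mul]
    rw [integral_prod_mul (fun x => f x ^ 2 * w x) w,
      integral_prod_mul (fun x => f x * w x) (fun x => f x * w x),
      integral_prod_mul w (fun x => f x ^ 2 * w x), hf0]
    ring
  have hlhs : ENNReal.ofReal (2 * (W * A)) =
      ∫⁻ p : E × E, ENNReal.ofReal ((f p.1 - f p.2) ^ 2 * (w p.1 * w p.2))
        ∂((volume : Measure E).prod volume) := by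
    rw [← hprod]
    exact ofReal_integral_eq_lintegral_ofReal hprodint
      (Filter.Eventually.of_forall fun p => mul_nonneg (sq_nonneg _)
        (mul_pos (hwpos _) (hwpos _)).le)
  have hstep1 : ∫⁻ p : E × E, ENNReal.ofReal ((f p.1 - f p.2) ^ 2 * (w p.1 * w p.2))
        ∂((volume : Measure E).prod volume) ≤
      ENNReal.ofReal (Real.exp (-(2 * m))) *
        ∫⁻ p : E × E, ENNReal.ofReal ((f p.1 - f p.2) ^ 2 * (G p.1 * G p.2))
        ∂((volume : Measure E).prod volume) := by
    rw [← lintegral_const_mul']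
    · refine lintegral_mono fun p => ?_
      rw [← ENNReal.ofReal_mul (Real.exp_pos _).le]
      refine ENNReal.ofReal_le_ofReal ?_
      have h1 := wt_le hm p.1
      have h2 := wt_le hm p.2
      have h3 : w p.1 * w p.2 ≤ (Real.exp (-m) * G p.1) * (Real.exp (-m) * G p.2) :=
        mul_le_mul h1 h2 (hwpos _).le (mul_nonneg (Real.exp_pos _).le (G_pos _).le)
      have h4 : Real.exp (-(2 * m)) = Real.exp (-m) * Real.exp (-m) := by
        rw [← Real.exp_add]; congr 1; ring
      rw [h4]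
      calc (f p.1 - f p.2) ^ 2 * (w p.1 * w p.2) ≤
          (f p.1 - f p.2) ^ 2 * ((Real.exp (-m) * G p.1) * (Real.exp (-m) * G p.2)) :=
            mul_le_mul_of_nonneg_left h3 (sq_nonneg _)
        _ = _ := by ring
    · exact ENNReal.ofReal_ne_top
  have hstep2 : ∫⁻ x : E, ENNReal.ofReal (‖fderiv ℝ f x‖ ^ 2 * G x) ≤
      ENNReal.ofReal (Real.exp M * D) := by
    rw [hD, ENNReal.ofReal_mul (Real.exp_pos _).le, ofReal_integral_eq_lintegral_ofReal hdf
      (Filter.Eventually.of_forall fun x => mul_nonneg (by positivity) (hwpos x).le),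
      ← lintegral_const_mul' _ _ ENNReal.ofReal_ne_top]
    refine lintegral_mono fun x => ?_
    rw [← ENNReal.ofReal_mul (Real.exp_pos _).le]
    refine ENNReal.ofReal_le_ofReal ?_
    calc ‖fderiv ℝ f x‖ ^ 2 * G x ≤ ‖fderiv ℝ f x‖ ^ 2 * (Real.exp M * wt P x) :=
          mul_le_mul_of_nonneg_left (G_le_wt hM x) (by positivity)
      _ = _ := by rw [hw]; ring
  have hstep3 : ∫⁻ y : E, ENNReal.ofReal (‖y‖ ^ 2 * G y) = ENNReal.ofReal (MG E) := by
    unfold MG
    rw [ofReal_integral_eq_lintegral_ofReal]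
    · refine Integrable.mono' (integrable_pow_G (E := E) 2) ?_ ?_
      · exact (Continuous.mul (by fun_prop) continuous_G).aestronglyMeasurable
      · refine Filter.Eventually.of_forall fun x => ?_
        rw [Real.norm_eq_abs, abs_of_nonneg (mul_nonneg (by positivity) (G_pos x).le)]
        have h1 : ‖x‖ ^ 2 ≤ (1 + ‖x‖) ^ 2 := by gcongr; linarith
        exact mul_le_mul_of_nonneg_right h1 (G_pos x).le
    · exact Filter.Eventually.of_forall fun x => mul_nonneg (by positivity) (G_pos x).le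
  have hall : ENNReal.ofReal (2 * (W * A)) ≤
      ENNReal.ofReal (Real.exp (-(2 * m)) * ((π ^ 2 / 4) * ((Real.exp M * D) * MG E))) := by
    rw [hlhs]
    refine hstep1.trans ?_
    rw [ENNReal.ofReal_mul (Real.exp_pos _).le]
    gcongr
    refine (lint_key hf).trans ?_
    rw [ENNReal.ofReal_mul (by positivity)]
    gcongr
    rw [ENNReal.ofReal_mul (mul_nonneg (Real.exp_pos _).le hD0), hstep3]
    gcongr
  have hreal : 2 * (W * A) ≤ Real.exp (-(2 * m)) * ((π ^ 2 / 4) * ((Real.exp M * D) * MG E)) := by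
    rwa [ENNReal.ofReal_le_ofReal_iff (by positivity)] at hall
  -- lower bound for W
  have hZ := ZG_pos (E := E)
  have hWlow : Real.exp (-M) * ZG E ≤ W := by
    unfold ZG
    rw [hW, ← integral_const_mul]
    refine integral_mono (integrable_G.const_mul _) hwi fun x => ?_
    have h1 := G_le_wt hM x
    calc Real.exp (-M) * G x ≤ Real.exp (-M) * (Real.exp M * wt P x) :=
          mul_le_mul_of_nonneg_left h1 (Real.exp_pos _).le
      _ = w x := by rw [← mul_assoc, ← Real.exp_add]; simp [hw]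
  have hA0 : 0 ≤ A := integral_nonneg fun x => mul_nonneg (sq_nonneg _) (hwpos x).le
  have h5 : 2 * ((Real.exp (-M) * ZG E) * A) ≤
      Real.exp (-(2 * m)) * ((π ^ 2 / 4) * ((Real.exp M * D) * MG E)) := by
    refine le_trans ?_ hreal
    gcongr
  have h6 : Real.exp (2 * (M - m)) = Real.exp M * Real.exp M * Real.exp (-(2 * m)) := by
    rw [← Real.exp_add, ← Real.exp_add]; congr 1; ring
  have h7 : Real.exp M * Real.exp (-M) = 1 := by rw [← Real.exp_add]; simp
  have h8 : ZG E * A ≤ (π ^ 2 / 8) * MG E * Real.exp (2 * (M - m)) * D := by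
    rw [h6]
    have h9 := mul_le_mul_of_nonneg_left h5 (Real.exp_pos M).le
    have h10 : Real.exp M * (2 * ((Real.exp (-M) * ZG E) * A)) = 2 * (ZG E * A) := by
      calc _ = 2 * ((Real.exp M * Real.exp (-M)) * (ZG E * A)) := by ring
        _ = _ := by rw [h7]; ring
    rw [h10] at h9
    nlinarith [h9]
  calc A = (ZG E * A) / ZG E := by field_simp
    _ ≤ ((π ^ 2 / 8) * MG E * Real.exp (2 * (M - m)) * D) / ZG E := by gcongr
    _ = _ := by ring

end Crest.Agent.R238.GapPo
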