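import Crest.Agent.R238.GapDefs
import Crest.Agent.R238.GapPoin

/-!
# Row 238, module H4 (gap), part (C3) in the notation of `GapDefs` (helper609)
-/

set_option autoImplicit false

open MeasureTheory Set Real

noncomputable section

namespace Crest.Agent.R238.Gap

variable {n : ℕ}

/-- the Poincaré constant -/
def KP (n : ℕ) (M0 : ℝ) : ℝ :=
  (π ^ 2 / 8) * (GapPo.MG (E n) / GapPo.ZG (E n)) * Real.exp (4 * M0)

lemma KP_nonneg (n : ℕ) (M0 : ℝ) : 0 ≤ KP n M0 := by
  unfold KP
  have h1 : 0 ≤ GapPo.MG (E n) :=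
    integral_nonneg fun x => mul_nonneg (by positivity) (GapPo.G_pos x).le
  have h2 := GapPo.ZG_pos (E := E n)
  positivity

lemma wt_eq_wt (P : E n → ℝ) : GapPo.wt P = wt P := rfl

lemma norm_fderiv_sq_le (f : E n → ℝ) (x : E n) :
    ‖fderiv ℝ f x‖ ^ 2 ≤ ∑ i, pd i f x ^ 2 := by
  have hS : 0 ≤ ∑ i, pd i f x ^ 2 := Finset.sum_nonneg fun i _ => sq_nonneg _
  have h : ‖fderiv ℝ f x‖ ≤ Real.sqrt (∑ i, pd i f x ^ 2) := by
    refine ContinuousLinearMap.opNorm_le_bound _ (Real.sqrt_nonneg _) fun v => ?_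
    have hv : v = ∑ i, v i • e i := by
      ext j
      simp [e, Finset.sum_apply, Pi.single_apply]
    have h1 : fderiv ℝ f x v = ∑ i, v i * pd i f x := by
      conv_lhs => rw [hv]
      rw [map_sum]
      refine Finset.sum_congr rfl fun i _ => ?_
      rw [map_smul, smul_eq_mul]; rfl
    rw [h1, Real.norm_eq_abs, ← Real.sqrt_sq_eq_abs, EuclideanSpace.norm_eq, ← Real.sqrt_mul hS]
    refine Real.sqrt_le_sqrt ?_
    have h2 := Finset.sum_mul_sq_le_sq_mul_sq Finset.univ (fun i => v i) (fun i => pd i f x)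
    calc (∑ i, v i * pd i f x) ^ 2 ≤ (∑ i, v i ^ 2) * ∑ i, pd i f x ^ 2 := h2
      _ = (∑ i, pd i f x ^ 2) * ∑ i, ‖v i‖ ^ 2 := by
          rw [mul_comm]
          congr 1
          refine Finset.sum_congr rfl fun i _ => ?_
          rw [Real.norm_eq_abs, sq_abs]
  calc ‖fderiv ℝ f x‖ ^ 2 ≤ Real.sqrt (∑ i, pd i f x ^ 2) ^ 2 := by gcongr
    _ = _ := Real.sq_sqrt hS

/-- continuous functions with polynomial growth are integrable against `wt P` -/
lemma integrable_of_PG {P : E n → ℝ} (hP : Continuous P) {M0 : ℝ} (hb : ∀ x, |P x| ≤ M0)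
    {f : E n → ℝ} (hf : Continuous f) (hg : PG f) : Integrable (fun x => f x * wt P x) := by
  obtain ⟨K, k, hK⟩ := hg
  exact GapPo.integrable_growth hP.measurable (m := -M0) (fun x => (abs_le.mp (hb x)).1)
    hf.aestronglyMeasurable hK

lemma PG_sq {f : E n → ℝ} (hf : PG f) : PG (fun x => f x ^ 2) := by
  obtain ⟨K, k, hK⟩ := hf
  refine ⟨K ^ 2, 2 * k, fun x => ?_⟩
  rw [abs_pow]
  calc |f x| ^ 2 ≤ (K * (1 + ‖x‖) ^ k) ^ 2 := pow_le_pow_left₀ (abs_nonneg _) (hK x) 2
    _ = _ := by ring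

/-- **Poincaré inequality**, mean zero version. -/
theorem poincare_mean {P : E n → ℝ} (hP : Continuous P) {M0 : ℝ} (hb : ∀ x, |P x| ≤ M0)
    {f : E n → ℝ} (hf : ContDiff ℝ 1 f) (hfg : PG f) (hdf : ∀ i, PG (pd i f))
    (h0 : ∫ x, f x * wt P x = 0) :
    ∫ x, f x ^ 2 * wt P x ≤ KP n M0 * ∫ x, (∑ i, pd i f x ^ 2) * wt P x := by
  have hpc : ∀ i, Continuous (pd i f) := fun i =>
    (hf.continuous_fderiv (by norm_num)).clm_apply continuous_const
  have hpi : ∀ i, Integrable (fun x => pd i f x ^ 2 * wt P x) := fun i =>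
    integrable_of_PG hP hb ((hpc i).pow 2) (PG_sq (hdf i))
  have hsum : Integrable (fun x => (∑ i, pd i f x ^ 2) * wt P x) := by
    have : (fun x => (∑ i, pd i f x ^ 2) * wt P x) = fun x => ∑ i, pd i f x ^ 2 * wt P x := by
      funext x; rw [Finset.sum_mul]
    rw [this]
    exact integrable_finsetSum _ fun i _ => hpi i
  have hwp : ∀ x, 0 < wt P x := fun x => GapPo.wt_pos P x
  have hdi : Integrable (fun x => ‖fderiv ℝ f x‖ ^ 2 * wt P x) := by
    refine Integrable.mono' hsum ?_ ?_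
    · refine AEStronglyMeasurable.mul ?_ (GapPo.measurable_wt hP.measurable).aestronglyMeasurable
      exact ((hf.continuous_fderiv (by norm_num)).norm.pow 2).aestronglyMeasurable
    · refine Filter.Eventually.of_forall fun x => ?_
      rw [Real.norm_eq_abs, abs_of_nonneg (mul_nonneg (by positivity) (hwp x).le)]
      exact mul_le_mul_of_nonneg_right (norm_fderiv_sq_le f x) (hwp x).le
  have hmain := GapPo.poincare hP.measurable (m := -M0) (M := M0)
    (fun x => (abs_le.mp (hb x)).1) (fun x => (abs_le.mp (hb x)).2) hf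
    (integrable_of_PG hP hb (hf.continuous.pow 2) (PG_sq hfg))
    (integrable_of_PG hP hb hf.continuous hfg) h0 hdi
  have hle : ∫ x, ‖fderiv ℝ f x‖ ^ 2 * wt P x ≤ ∫ x, (∑ i, pd i f x ^ 2) * wt P x :=
    integral_mono hdi hsum fun x =>
      mul_le_mul_of_nonneg_right (norm_fderiv_sq_le f x) (hwp x).le
  have hK : KP n M0 = (π ^ 2 / 8) * (GapPo.MG (E n) / GapPo.ZG (E n)) *
      Real.exp (2 * (M0 - -M0)) := by
    unfold KP; congr 2; ring
  calc ∫ x, f x ^ 2 * wt P x ≤ KP n M0 * ∫ x, ‖fderiv ℝ f x‖ ^ 2 * wt P x := by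
        rw [hK]; exact hmain
    _ ≤ _ := mul_le_mul_of_nonneg_left hle (KP_nonneg n M0)

/-- **Poincaré inequality** for odd functions, `P` even. -/
theorem odd_poincare {P : E n → ℝ} (hP : Continuous P) (hPe : Ev P) {M0 : ℝ}
    (hb : ∀ x, |P x| ≤ M0) {f : E n → ℝ} (hf : ContDiff ℝ 1 f) (hodd : ∀ x, f (-x) = -f x)
    (hfg : PG f) (hdf : ∀ i, PG (pd i f)) :
    ∫ x, f x ^ 2 * wt P x ≤ KP n M0 * ∫ x, (∑ i, pd i f x ^ 2) * wt P x := by
  refine poincare_mean hP hb hf hfg hdf ?_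
  have h1 : ∫ x, f x * wt P x = ∫ x, f (-x) * wt P (-x) :=
    (integral_neg_eq_self (fun x => f x * wt P x) volume).symm
  have h2 : (fun x : E n => f (-x) * wt P (-x)) = fun x => -(f x * wt P x) := by
    funext x
    rw [hodd, neg_mul]
    congr 2
    unfold wt
    rw [norm_neg, hPe]
  rw [h2, integral_neg] at h1
  linarith

/-- **Poincaré inequality**, variance version. -/
theorem var_poincare {P : E n → ℝ} (hP : Continuous P) {M0 : ℝ} (hb : ∀ x, |P x| ≤ M0)
    {f : E n → ℝ} (hf : ContDiff ℝ 1 f) (hfg : PG f) (hdf : ∀ i, PG (pd i f)) :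
    ∫ x, (f x - (∫ y, f y * wt P y) / ∫ y, wt P y) ^ 2 * wt P x ≤
      KP n M0 * ∫ x, (∑ i, pd i f x ^ 2) * wt P x := by
  set c := (∫ y, f y * wt P y) / ∫ y, wt P y with hc
  have hwi : Integrable (fun x : E n => wt P x) := by
    have := integrable_of_PG hP hb (f := fun _ => (1 : ℝ)) continuous_const
      ⟨1, 0, fun x => by simp⟩
    simpa using this
  have hW : 0 < ∫ y, wt P y := by
    rw [integral_pos_iff_support_of_nonneg (f := fun x : E n => wt P x)
      (fun x => (GapPo.wt_pos P x).le) hwi]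
    have : Function.support (fun x : E n => wt P x) = Set.univ := by
      ext x; simp [wt, (Real.exp_pos _).ne']
    rw [this]
    exact Measure.measure_univ_pos.mpr (NeZero.ne _)
  have hfi := integrable_of_PG hP hb hf.continuous hfg
  have hpd : ∀ i x, pd i (fun x => f x - c) x = pd i f x := by
    intro i x
    unfold pd
    rw [fderiv_sub_const]
  have h := poincare_mean hP hb (f := fun x => f x - c) (hf.sub contDiff_const) ?_ ?_ ?_
  · simpa only [hpd] using h
  · obtain ⟨K, k, hK⟩ := hfg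
    refine ⟨K + |c|, k, fun x => ?_⟩
    have h1 : (1 : ℝ) ≤ (1 + ‖x‖) ^ k := one_le_pow₀ (by linarith [norm_nonneg x])
    calc |f x - c| ≤ |f x| + |c| := abs_sub _ _
      _ ≤ K * (1 + ‖x‖) ^ k + |c| * (1 + ‖x‖) ^ k := by
          gcongr
          · exact hK x
          · exact le_mul_of_one_le_right (abs_nonneg _) h1
      _ = _ := by ring
  · intro i
    obtain ⟨K, k, hK⟩ := hdf i
    exact ⟨K, k, fun x => by rw [hpd]; exact hK x⟩
  · have h1 : (fun x => (f x - c) * wt P x) = fun x => f x * wt P x - c * wt P x := by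
      funext x; ring
    rw [h1, integral_sub hfi (hwi.const_mul c), integral_const_mul, hc]
    field_simp
    ring

end Crest.Agent.R238.Gap
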