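import Crest.Agent.R238.HolDefs

/-!
Row 238 (S0369), node H1b (helper437): algebra of bounded Hölder functions `HB a M f`.

Part 1: sums, differences, multiples, products, finite sums, limits, composition.
-/

set_option autoImplicit false

open MeasureTheory Set Filter
open scoped ContDiff Topology

namespace Crest.Agent.R238

variable {n : ℕ}

theorem HB.nonneg {a M : ℝ} {f : E n → ℝ} (h : HB a M f) : 0 ≤ M :=
  (abs_nonneg _).trans (h.1 0)

theorem HB.mono {a M N : ℝ} {f : E n → ℝ} (h : HB a M f) (hMN : M ≤ N) : HB a N f :=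
  ⟨fun x => (h.1 x).trans hMN, fun x y => (h.2 x y).trans
    (mul_le_mul_of_nonneg_right hMN (Real.rpow_nonneg (norm_nonneg _) a))⟩

theorem HB.congr {a M : ℝ} {f g : E n → ℝ} (h : HB a M f) (hfg : ∀ x, g x = f x) : HB a M g := by
  have : g = f := funext hfg
  rwa [this]

theorem HB.const {a M c : ℝ} (hc : |c| ≤ M) : HB a M (fun _ : E n => c) := by
  refine ⟨fun _ => hc, fun x y => ?_⟩
  simp only [sub_self, abs_zero]
  exact mul_nonneg ((abs_nonneg c).trans hc) (Real.rpow_nonneg (norm_nonneg _) a)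

theorem HB.zero {a M : ℝ} (hM : 0 ≤ M) : HB a M (fun _ : E n => (0 : ℝ)) :=
  HB.const (by simpa using hM)

theorem HB.add {a M N : ℝ} {f g : E n → ℝ} (hf : HB a M f) (hg : HB a N g) :
    HB a (M + N) (fun x => f x + g x) := by
  refine ⟨fun x => (abs_add_le _ _).trans (add_le_add (hf.1 x) (hg.1 x)), fun x y => ?_⟩
  have h1 : f x + g x - (f y + g y) = (f x - f y) + (g x - g y) := by ring
  rw [h1, add_mul]
  exact (abs_add_le _ _).trans (add_le_add (hf.2 x y) (hg.2 x y))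

theorem HB.neg {a M : ℝ} {f : E n → ℝ} (hf : HB a M f) : HB a M (fun x => -f x) := by
  refine ⟨fun x => by rw [abs_neg]; exact hf.1 x, fun x y => ?_⟩
  have h1 : -f x - -f y = -(f x - f y) := by ring
  rw [h1, abs_neg]
  exact hf.2 x y

theorem HB.sub {a M N : ℝ} {f g : E n → ℝ} (hf : HB a M f) (hg : HB a N g) :
    HB a (M + N) (fun x => f x - g x) :=
  (hf.add hg.neg).congr fun x => by ring

theorem HB.const_mul {a M : ℝ} (c : ℝ) {f : E n → ℝ} (hf : HB a M f) :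
    HB a (|c| * M) (fun x => c * f x) := by
  refine ⟨fun x => by rw [abs_mul]; exact mul_le_mul_of_nonneg_left (hf.1 x) (abs_nonneg c),
    fun x y => ?_⟩
  rw [← mul_sub, abs_mul, mul_assoc]
  exact mul_le_mul_of_nonneg_left (hf.2 x y) (abs_nonneg c)

/-- product: constant `2 M N` -/
theorem HB.mul {a M N : ℝ} {f g : E n → ℝ} (hf : HB a M f) (hg : HB a N g) :
    HB a (2 * M * N) (fun x => f x * g x) := by
  have hM := hf.nonneg
  have hN := hg.nonneg
  have hMN : 0 ≤ M * N := mul_nonneg hM hN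
  refine ⟨fun x => ?_, fun x y => ?_⟩
  · rw [abs_mul]
    calc |f x| * |g x| ≤ M * N := mul_le_mul (hf.1 x) (hg.1 x) (abs_nonneg _) hM
      _ ≤ 2 * M * N := by nlinarith
  · have hp : 0 ≤ ‖x - y‖ ^ a := Real.rpow_nonneg (norm_nonneg _) a
    have h1 : f x * g x - f y * g y = (f x - f y) * g x + f y * (g x - g y) := by ring
    rw [h1]
    calc |(f x - f y) * g x + f y * (g x - g y)|
        ≤ |(f x - f y) * g x| + |f y * (g x - g y)| := abs_add_le _ _
      _ = |f x - f y| * |g x| + |f y| * |g x - g y| := by rw [abs_mul, abs_mul]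
      _ ≤ (M * ‖x - y‖ ^ a) * N + M * (N * ‖x - y‖ ^ a) := by
          refine add_le_add (mul_le_mul (hf.2 x y) (hg.1 x) (abs_nonneg _) (mul_nonneg hM hp))
            (mul_le_mul (hf.1 y) (hg.2 x y) (abs_nonneg _) hM)
      _ = 2 * M * N * ‖x - y‖ ^ a := by ring

/-- product with separate sup bounds: sup `A`, `B`, Hölder constants `M`, `N`. -/
theorem HB.of_mul {a A B M N C : ℝ} {f g : E n → ℝ}
    (hfA : ∀ x, |f x| ≤ A) (hgB : ∀ x, |g x| ≤ B)
    (hf : ∀ x y, |f x - f y| ≤ M * ‖x - y‖ ^ a) (hg : ∀ x y, |g x - g y| ≤ N * ‖x - y‖ ^ a)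
    (h1 : A * B ≤ C) (h2 : M * B + A * N ≤ C) : HB a C (fun x => f x * g x) := by
  have hA : 0 ≤ A := (abs_nonneg _).trans (hfA 0)
  have hB : 0 ≤ B := (abs_nonneg _).trans (hgB 0)
  refine ⟨fun x => ?_, fun x y => ?_⟩
  · rw [abs_mul]
    exact (mul_le_mul (hfA x) (hgB x) (abs_nonneg _) hA).trans h1
  · have hp : 0 ≤ ‖x - y‖ ^ a := Real.rpow_nonneg (norm_nonneg _) a
    have e1 : f x * g x - f y * g y = (f x - f y) * g x + f y * (g x - g y) := by ring
    rw [e1]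
    calc |(f x - f y) * g x + f y * (g x - g y)|
        ≤ |(f x - f y) * g x| + |f y * (g x - g y)| := abs_add_le _ _
      _ = |f x - f y| * |g x| + |f y| * |g x - g y| := by rw [abs_mul, abs_mul]
      _ ≤ (M * ‖x - y‖ ^ a) * B + A * (N * ‖x - y‖ ^ a) := by
          refine add_le_add (mul_le_mul (hf x y) (hgB x) (abs_nonneg _)
            ((abs_nonneg _).trans (hf x y))) (mul_le_mul (hfA y) (hg x y) (abs_nonneg _) hA)
      _ = (M * B + A * N) * ‖x - y‖ ^ a := by ring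
      _ ≤ C * ‖x - y‖ ^ a := mul_le_mul_of_nonneg_right h2 hp

theorem HB.sum {a : ℝ} {ι : Type*} (s : Finset ι) {M : ι → ℝ} {f : ι → E n → ℝ}
    (hf : ∀ i ∈ s, HB a (M i) (f i)) : HB a (∑ i ∈ s, M i) (fun x => ∑ i ∈ s, f i x) := by
  refine ⟨fun x => (Finset.abs_sum_le_sum_abs _ _).trans
    (Finset.sum_le_sum fun i hi => (hf i hi).1 x), fun x y => ?_⟩
  rw [← Finset.sum_sub_distrib, Finset.sum_mul]
  exact (Finset.abs_sum_le_sum_abs _ _).trans (Finset.sum_le_sum fun i hi => (hf i hi).2 x y)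

theorem HB.sum_univ {a M : ℝ} {m : ℕ} {f : Fin m → E n → ℝ}
    (hf : ∀ i, HB a M (f i)) : HB a (m * M) (fun x => ∑ i, f i x) := by
  have h := HB.sum (a := a) Finset.univ (M := fun _ => M) (f := f) (fun i _ => hf i)
  simpa using h

theorem HB.sum_univ₂ {a M : ℝ} {m k : ℕ} {f : Fin m → Fin k → E n → ℝ}
    (hf : ∀ i j, HB a M (f i j)) : HB a (m * (k * M)) (fun x => ∑ i, ∑ j, f i j x) :=
  HB.sum_univ fun i => HB.sum_univ fun j => hf i j

/-- composition with an even function is even etc.: `f (-x)`. -/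
theorem HB.comp_neg {a M : ℝ} {f : E n → ℝ} (hf : HB a M f) : HB a M (fun x => f (-x)) := by
  refine ⟨fun x => hf.1 (-x), fun x y => ?_⟩
  have h := hf.2 (-x) (-y)
  have e : ‖-x - -y‖ = ‖x - y‖ := by
    rw [← norm_neg]; congr 1; abel
  rwa [e] at h

/-- translation -/
theorem HB.comp_add {a M : ℝ} {f : E n → ℝ} (hf : HB a M f) (c : E n) :
    HB a M (fun x => f (x + c)) := by
  refine ⟨fun x => hf.1 _, fun x y => ?_⟩
  have h := hf.2 (x + c) (y + c)
  simpa using h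

/-- composition with a `K`-Lipschitz function on the values. -/
theorem HB.comp_lip {a M K B : ℝ} {f : E n → ℝ} (hf : HB a M f) {F : ℝ → ℝ}
    (hK : 0 ≤ K) (hF : ∀ x y, |F (f x) - F (f y)| ≤ K * |f x - f y|) (hB : ∀ x, |F (f x)| ≤ B)
    {C : ℝ} (h1 : B ≤ C) (h2 : K * M ≤ C) : HB a C (fun x => F (f x)) := by
  refine ⟨fun x => (hB x).trans h1, fun x y => ?_⟩
  have hp : 0 ≤ ‖x - y‖ ^ a := Real.rpow_nonneg (norm_nonneg _) a
  calc |F (f x) - F (f y)| ≤ K * |f x - f y| := hF x y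
    _ ≤ K * (M * ‖x - y‖ ^ a) := mul_le_mul_of_nonneg_left (hf.2 x y) hK
    _ = (K * M) * ‖x - y‖ ^ a := by ring
    _ ≤ C * ‖x - y‖ ^ a := mul_le_mul_of_nonneg_right h2 hp

/-- a bounded Lipschitz function is Hölder -/
theorem HB.of_lip {a B K : ℝ} (ha : 0 < a) (ha1 : a ≤ 1) {f : E n → ℝ}
    (hB : ∀ x, |f x| ≤ B) (hK : 0 ≤ K) (hL : ∀ x y, |f x - f y| ≤ K * ‖x - y‖) :
    HB a (2 * B + K) f := by
  have hB0 : 0 ≤ B := (abs_nonneg _).trans (hB 0)
  refine ⟨fun x => (hB x).trans (by linarith), fun x y => ?_⟩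
  rcases le_total ‖x - y‖ 1 with h1 | h1
  · have h2 : ‖x - y‖ ≤ ‖x - y‖ ^ a := by
      rcases eq_or_lt_of_le (norm_nonneg (x - y)) with h0 | h0
      · rw [← h0, Real.zero_rpow ha.ne']
      · calc ‖x - y‖ = ‖x - y‖ ^ (1 : ℝ) := (Real.rpow_one _).symm
          _ ≤ ‖x - y‖ ^ a := Real.rpow_le_rpow_of_exponent_ge h0 h1 ha1
    have hp : 0 ≤ ‖x - y‖ ^ a := Real.rpow_nonneg (norm_nonneg _) a
    calc |f x - f y| ≤ K * ‖x - y‖ := hL x y
      _ ≤ K * ‖x - y‖ ^ a := mul_le_mul_of_nonneg_left h2 hK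
      _ ≤ (2 * B + K) * ‖x - y‖ ^ a := mul_le_mul_of_nonneg_right (by linarith) hp
  · have h2 : 1 ≤ ‖x - y‖ ^ a := Real.one_le_rpow h1 ha.le
    calc |f x - f y| ≤ |f x| + |f y| := abs_sub _ _
      _ ≤ B + B := add_le_add (hB x) (hB y)
      _ ≤ (2 * B + K) * 1 := by linarith
      _ ≤ (2 * B + K) * ‖x - y‖ ^ a := mul_le_mul_of_nonneg_left h2 (by linarith)

/-- pointwise limits -/
theorem HB.of_tendsto {a M : ℝ} {ι : Type*} {l : Filter ι} [l.NeBot] {F : ι → E n → ℝ}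
    {f : E n → ℝ} (hF : ∀ᶠ i in l, HB a M (F i))
    (hlim : ∀ x, Tendsto (fun i => F i x) l (𝓝 (f x))) : HB a M f := by
  refine ⟨fun x => ?_, fun x y => ?_⟩
  · exact le_of_tendsto (hlim x).abs (hF.mono fun i hi => hi.1 x)
  · exact le_of_tendsto ((hlim x).sub (hlim y)).abs (hF.mono fun i hi => hi.2 x y)

/-- change of exponent: smaller exponents are weaker -/
theorem HB.exp_mono {a b M : ℝ} (hb : 0 < b) (hba : b ≤ a) {f : E n → ℝ} (hf : HB a M f) :
    HB b (2 * M) f := by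
  have hM := hf.nonneg
  refine ⟨fun x => (hf.1 x).trans (by linarith), fun x y => ?_⟩
  rcases le_total ‖x - y‖ 1 with h1 | h1
  · have h2 : ‖x - y‖ ^ a ≤ ‖x - y‖ ^ b := by
      rcases eq_or_lt_of_le (norm_nonneg (x - y)) with h0 | h0
      · rw [← h0, Real.zero_rpow hb.ne', Real.zero_rpow (hb.trans_le hba).ne']
      · exact Real.rpow_le_rpow_of_exponent_ge h0 h1 hba
    calc |f x - f y| ≤ M * ‖x - y‖ ^ a := hf.2 x y
      _ ≤ M * ‖x - y‖ ^ b := mul_le_mul_of_nonneg_left h2 hM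
      _ ≤ (2 * M) * ‖x - y‖ ^ b :=
          mul_le_mul_of_nonneg_right (by linarith) (Real.rpow_nonneg (norm_nonneg _) b)
  · have h2 : 1 ≤ ‖x - y‖ ^ b := Real.one_le_rpow h1 hb.le
    calc |f x - f y| ≤ |f x| + |f y| := abs_sub _ _
      _ ≤ M + M := add_le_add (hf.1 x) (hf.1 y)
      _ = (2 * M) * 1 := by ring
      _ ≤ (2 * M) * ‖x - y‖ ^ b := mul_le_mul_of_nonneg_left h2 (by linarith)

end Crest.Agent.R238
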