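import Crest.Agent.R238.HBMat

/-!
Row 238 (S0369), node H1b (helper437), part 3: `log det` calculus.

* `avgI A B = ∫₀¹ (A + t (B - A))⁻¹ dt`; `log det B - log det A = tr(avgI A B (B - A))`;
  `avgI` is elliptic and Hölder (`HB.avgInv`), close to `C⁻¹` if `A`, `B` are close to `C`;
* `HB.logdet_master`: `log det g₂ - log det g₁ - tr(g₀⁻¹ (g₂ - g₁))` is `HB a (C N D)`;
* `HB.logdet_remainder`, `HB.qlemma`, `Ell.qlemma` (pointwise).
-/

set_option autoImplicit false

open MeasureTheory Set Filter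
open scoped ContDiff Topology

namespace Crest.Agent.R238

variable {n : ℕ}

/-- integral over `[0,1]` of `HB` functions -/
theorem HB.integral01 {a M : ℝ} {F : ℝ → E n → ℝ} (hF : ∀ t ∈ Icc (0 : ℝ) 1, HB a M (F t))
    (hc : ∀ x, ContinuousOn (fun t => F t x) (Icc 0 1)) :
    HB a M (fun x => ∫ t in (0 : ℝ)..1, F t x) := by
  have hsub : ∀ t ∈ uIoc (0 : ℝ) 1, t ∈ Icc (0 : ℝ) 1 := by
    intro t ht
    rw [uIoc_of_le zero_le_one] at ht
    exact Ioc_subset_Icc_self ht
  have hI : ∀ x, IntervalIntegrable (fun t => F t x) volume 0 1 := by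
    intro x
    refine ContinuousOn.intervalIntegrable ?_
    rw [uIcc_of_le zero_le_one]
    exact hc x
  refine ⟨fun x => ?_, fun x y => ?_⟩
  · have h := intervalIntegral.norm_integral_le_of_norm_le_const (a := (0 : ℝ)) (b := 1)
      (f := fun t => F t x) (C := M) (fun t ht => (hF t (hsub t ht)).1 x)
    simpa using h
  · rw [← intervalIntegral.integral_sub (hI x) (hI y)]
    have h := intervalIntegral.norm_integral_le_of_norm_le_const (a := (0 : ℝ)) (b := 1)
      (f := fun t => F t x - F t y) (C := M * ‖x - y‖ ^ a)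
      (fun t ht => (hF t (hsub t ht)).2 x y)
    simpa using h

/-- averaged inverse along the segment -/
noncomputable def avgI (A B : Matrix (Fin n) (Fin n) ℝ) : Matrix (Fin n) (Fin n) ℝ :=
  Matrix.of fun i j => ∫ t in (0 : ℝ)..1, (A + t • (B - A))⁻¹ i j

theorem avgI_apply (A B : Matrix (Fin n) (Fin n) ℝ) (i j : Fin n) :
    avgI A B i j = ∫ t in (0 : ℝ)..1, (A + t • (B - A))⁻¹ i j := rfl

theorem Ell.continuousOn_inv {lo hi : ℝ} (hlo : 0 < lo) {A B : Matrix (Fin n) (Fin n) ℝ}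
    (hA : Ell lo hi A) (hB : Ell lo hi B) (i j : Fin n) :
    ContinuousOn (fun t : ℝ => (A + t • (B - A))⁻¹ i j) (Icc 0 1) := by
  have hbd : ∀ k l, |(B - A) k l| ≤ 2 * |hi| := by
    intro k l
    rw [Matrix.sub_apply]
    have h1 := (hA.abs_entry_le hlo.le k l).trans (le_abs_self hi)
    have h2 := (hB.abs_entry_le hlo.le k l).trans (le_abs_self hi)
    calc |B k l - A k l| ≤ |B k l| + |A k l| := abs_sub _ _
      _ ≤ 2 * |hi| := by linarith
  have hK : 0 ≤ (n : ℝ) ^ 2 * (2 * |hi|) / lo ^ 2 := by positivity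
  have hL : LipschitzOnWith ⟨(n : ℝ) ^ 2 * (2 * |hi|) / lo ^ 2, hK⟩
      (fun t : ℝ => (A + t • (B - A))⁻¹ i j) (Icc 0 1) := by
    refine LipschitzOnWith.of_dist_le_mul fun s hs t ht => ?_
    rw [Real.dist_eq, Real.dist_eq]
    show _ ≤ ((n : ℝ) ^ 2 * (2 * |hi|) / lo ^ 2) * |s - t|
    have h := (hA.segment hB hs).abs_inv_sub_le hlo (hA.segment hB ht)
      (d := 2 * |hi| * |s - t|) (fun k l => by
        have e : (A + s • (B - A)) k l - (A + t • (B - A)) k l = (s - t) * (B - A) k l := by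
          simp only [Matrix.add_apply, Matrix.smul_apply, smul_eq_mul]; ring
        rw [e, abs_mul, mul_comm]
        exact mul_le_mul_of_nonneg_right (hbd k l) (abs_nonneg _)) i j
    calc _ ≤ (n : ℝ) ^ 2 * (2 * |hi| * |s - t|) / lo ^ 2 := h
      _ = _ := by ring
  exact hL.continuousOn

theorem Ell.intervalIntegrable_inv {lo hi : ℝ} (hlo : 0 < lo) {A B : Matrix (Fin n) (Fin n) ℝ}
    (hA : Ell lo hi A) (hB : Ell lo hi B) (i j : Fin n) :
    IntervalIntegrable (fun t : ℝ => (A + t • (B - A))⁻¹ i j) volume 0 1 := by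
  refine ContinuousOn.intervalIntegrable ?_
  rw [uIcc_of_le zero_le_one]
  exact hA.continuousOn_inv hlo hB i j

/-- `∑ᵢⱼ (avgI A B)ᵢⱼ Yᵢⱼ` as an integral -/
theorem Ell.sum_avgInv {lo hi : ℝ} (hlo : 0 < lo) {A B : Matrix (Fin n) (Fin n) ℝ}
    (hA : Ell lo hi A) (hB : Ell lo hi B) (Y : Fin n → Fin n → ℝ) :
    ∑ i, ∑ j, avgI A B i j * Y i j
      = ∫ t in (0 : ℝ)..1, ∑ i, ∑ j, (A + t • (B - A))⁻¹ i j * Y i j := by
  have h1 := fun i j => hA.intervalIntegrable_inv hlo hB i j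
  have h2 : ∀ i j, IntervalIntegrable (fun t : ℝ => (A + t • (B - A))⁻¹ i j * Y i j)
      volume 0 1 := fun i j => (h1 i j).mul_const _
  have h3 : ∀ i, IntervalIntegrable (fun t : ℝ => ∑ j, (A + t • (B - A))⁻¹ i j * Y i j)
      volume 0 1 := by
    intro i
    have := IntervalIntegrable.sum Finset.univ (fun j _ => h2 i j)
    refine this.congr fun t _ => ?_
    simp only [Finset.sum_apply]
  rw [intervalIntegral.integral_finsetSum fun i _ => h3 i]
  refine Finset.sum_congr rfl fun i _ => ?_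
  rw [intervalIntegral.integral_finsetSum fun j _ => h2 i j]
  refine Finset.sum_congr rfl fun j _ => ?_
  rw [avgI_apply, intervalIntegral.integral_mul_const]

/-- **exact linearisation** of `log det` -/
theorem Ell.logdet_eq_avgInv {lo hi : ℝ} (hlo : 0 < lo) {A B : Matrix (Fin n) (Fin n) ℝ}
    (hA : Ell lo hi A) (hB : Ell lo hi B) :
    Real.log B.det - Real.log A.det = ∑ i, ∑ j, avgI A B i j * (B i j - A i j) := by
  have hg : ∀ t : ℝ, ∀ i j : Fin n, HasDerivWithinAt (fun s : ℝ => (A + s • (B - A)) i j)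
      ((B - A) i j) (Icc 0 1) t := by
    intro t i j
    have h1 : HasDerivAt (fun s : ℝ => A i j + s * (B - A) i j) ((B - A) i j) t := by
      simpa using ((hasDerivAt_id t).mul_const ((B - A) i j)).const_add (A i j)
    refine (h1.hasDerivWithinAt).congr_of_eventuallyEq (Eventually.of_forall fun s => ?_) ?_ <;>
    simp [Matrix.add_apply, Matrix.smul_apply]
  have hs : ∀ i j, (B - A) i j = (B - A) j i := by
    intro i j
    rw [Matrix.sub_apply, Matrix.sub_apply, hB.1 i j, hA.1 i j]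
  have hd : ∀ t ∈ Icc (0 : ℝ) 1, HasDerivWithinAt
      (fun s : ℝ => Real.log (A + s • (B - A)).det)
      (∑ i, ∑ j, (A + t • (B - A))⁻¹ i j * (B - A) i j) (Icc 0 1) t := by
    intro t ht
    exact sm_hasDerivWithinAt_log_det_sum (hg t) hs ((hA.segment hB ht).det_pos hlo)
  have hc : ContinuousOn (fun s : ℝ => Real.log (A + s • (B - A)).det) (Icc 0 1) :=
    fun t ht => (hd t ht).continuousWithinAt
  have hint : IntervalIntegrable
      (fun t : ℝ => ∑ i, ∑ j, (A + t • (B - A))⁻¹ i j * (B - A) i j) volume 0 1 := by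
    refine ContinuousOn.intervalIntegrable ?_
    rw [uIcc_of_le zero_le_one]
    exact continuousOn_finsetSum _ fun i _ => continuousOn_finsetSum _ fun j _ =>
      (hA.continuousOn_inv hlo hB i j).mul continuousOn_const
  have h := intervalIntegral.integral_eq_sub_of_hasDerivAt_of_le zero_le_one hc
    (fun t ht => (hd t (Ioo_subset_Icc_self ht)).hasDerivAt (Icc_mem_nhds ht.1 ht.2)) hint
  have h2 := hA.sum_avgInv hlo hB (fun i j => (B - A) i j)
  rw [← h2] at h
  simp only [one_smul, zero_smul, add_zero, add_sub_cancel, Matrix.sub_apply] at h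
  exact h.symm

/-- the averaged inverse is elliptic -/
theorem Ell.avgInv {lo hi : ℝ} (hlo : 0 < lo) (hhi : lo ≤ hi) {A B : Matrix (Fin n) (Fin n) ℝ}
    (hA : Ell lo hi A) (hB : Ell lo hi B) : Ell (1 / hi) (1 / lo) (avgI A B) := by
  have hE : ∀ t ∈ Icc (0 : ℝ) 1, Ell (1 / hi) (1 / lo) (A + t • (B - A))⁻¹ := fun t ht =>
    (hA.segment hB ht).inv hlo hhi
  refine ⟨fun i j => ?_, fun z => ?_⟩
  · rw [avgI_apply, avgI_apply]
    refine intervalIntegral.integral_congr fun t ht => ?_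
    rw [uIcc_of_le zero_le_one] at ht
    exact (hE t ht).1 i j
  · have h := hA.sum_avgInv hlo hB (fun i j => z i * z j)
    have e : ∑ i, ∑ j, avgI A B i j * z i * z j
        = ∫ t in (0 : ℝ)..1, ∑ i, ∑ j, (A + t • (B - A))⁻¹ i j * (z i * z j) := by
      rw [← h]
      exact Finset.sum_congr rfl fun i _ => Finset.sum_congr rfl fun j _ => by ring
    have hint : IntervalIntegrable
        (fun t : ℝ => ∑ i, ∑ j, (A + t • (B - A))⁻¹ i j * (z i * z j)) volume 0 1 := by
      refine ContinuousOn.intervalIntegrable ?_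
      rw [uIcc_of_le zero_le_one]
      exact continuousOn_finsetSum _ fun i _ => continuousOn_finsetSum _ fun j _ =>
        (hA.continuousOn_inv hlo hB i j).mul continuousOn_const
    have hq : ∀ t ∈ Icc (0 : ℝ) 1,
        1 / hi * ∑ i, z i ^ 2 ≤ ∑ i, ∑ j, (A + t • (B - A))⁻¹ i j * (z i * z j) ∧
        ∑ i, ∑ j, (A + t • (B - A))⁻¹ i j * (z i * z j) ≤ 1 / lo * ∑ i, z i ^ 2 := by
      intro t ht
      have h1 := (hE t ht).2 z
      have e1 : ∑ i, ∑ j, (A + t • (B - A))⁻¹ i j * (z i * z j)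
          = ∑ i, ∑ j, (A + t • (B - A))⁻¹ i j * z i * z j :=
        Finset.sum_congr rfl fun i _ => Finset.sum_congr rfl fun j _ => by ring
      rw [e1]
      exact h1
    rw [e]
    constructor
    · have h3 := intervalIntegral.integral_mono_on (a := (0 : ℝ)) (b := 1) (μ := volume)
        zero_le_one (intervalIntegrable_const (c := 1 / hi * ∑ i, z i ^ 2)) hint
        (fun t ht => (hq t ht).1)
      simpa using h3
    · have h3 := intervalIntegral.integral_mono_on (a := (0 : ℝ)) (b := 1) (μ := volume)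
        zero_le_one hint (intervalIntegrable_const (c := 1 / lo * ∑ i, z i ^ 2))
        (fun t ht => (hq t ht).2)
      simpa using h3

/-! ### fields -/

/-- convex combinations of fields -/
theorem HB.segment {a M : ℝ} {g h : E n → Matrix (Fin n) (Fin n) ℝ}
    (hg : ∀ i j, HB a M (fun x => g x i j)) (hh : ∀ i j, HB a M (fun x => h x i j))
    {t : ℝ} (ht : t ∈ Icc (0 : ℝ) 1) (i j : Fin n) :
    HB a M (fun x => (g x + t • (h x - g x)) i j) := by
  have h1 := ((hg i j).const_mul (1 - t)).add ((hh i j).const_mul t)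
  rw [abs_of_nonneg (by linarith [ht.2] : 0 ≤ 1 - t), abs_of_nonneg ht.1] at h1
  have e : (1 - t) * M + t * M = M := by ring
  rw [e] at h1
  refine h1.congr fun x => ?_
  simp only [Matrix.add_apply, Matrix.smul_apply, Matrix.sub_apply, smul_eq_mul]
  ring

/-- the constant of the inverse -/
noncomputable def cInv (n : ℕ) (lo M : ℝ) : ℝ := 1 / lo + n ^ 2 * M / lo ^ 2

theorem HB.avgInv {a M lo hi : ℝ} (hlo : 0 < lo) {g h : E n → Matrix (Fin n) (Fin n) ℝ}
    (hE : ∀ x, Ell lo hi (g x)) (hE' : ∀ x, Ell lo hi (h x))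
    (hg : ∀ i j, HB a M (fun x => g x i j)) (hh : ∀ i j, HB a M (fun x => h x i j))
    (i j : Fin n) : HB a (cInv n lo M) (fun x => avgI (g x) (h x) i j) := by
  refine HB.integral01 (F := fun t x => (g x + t • (h x - g x))⁻¹ i j) (fun t ht => ?_)
    fun x => (hE x).continuousOn_inv hlo (hE' x) i j
  exact HB.matInv hlo (fun x => (hE x).segment (hE' x) ht)
    (fun i j => HB.segment hg hh ht i j) i j

/-- the averaged inverse is close to `g₀⁻¹` -/
theorem HB.avgInv_sub {a M N lo hi hi₀ : ℝ} (hlo : 0 < lo)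
    {g₀ g h : E n → Matrix (Fin n) (Fin n) ℝ} (hE₀ : ∀ x, Ell lo hi₀ (g₀ x))
    (hE : ∀ x, Ell lo hi (g x)) (hE' : ∀ x, Ell lo hi (h x))
    (hg₀ : ∀ i j, HB a M (fun x => g₀ x i j))
    (hg : ∀ i j, HB a M (fun x => g x i j)) (hh : ∀ i j, HB a M (fun x => h x i j))
    (hN : ∀ i j, HB a N (fun x => g x i j - g₀ x i j))
    (hN' : ∀ i j, HB a N (fun x => h x i j - g₀ x i j)) (i j : Fin n) :
    HB a (n * (2 * (n * (2 * cInv n lo M * N)) * cInv n lo M))
      (fun x => avgI (g x) (h x) i j - (g₀ x)⁻¹ i j) := by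
  have h1 := HB.integral01 (a := a)
    (M := n * (2 * (n * (2 * cInv n lo M * N)) * cInv n lo M))
    (F := fun t x => (g x + t • (h x - g x))⁻¹ i j - (g₀ x)⁻¹ i j)
    (fun t ht => ?_)
    (fun x => ((hE x).continuousOn_inv hlo (hE' x) i j).sub continuousOn_const)
  · refine h1.congr fun x => ?_
    rw [intervalIntegral.integral_sub ((hE x).intervalIntegrable_inv hlo (hE' x) i j)
      intervalIntegrable_const, avgI_apply]
    simp
  · refine HB.matInv_sub hlo (fun x => (hE x).segment (hE' x) ht) hE₀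
      (fun i j => HB.segment hg hh ht i j) hg₀ (fun i j => ?_) i j
    have h2 := ((hN i j).const_mul (1 - t)).add ((hN' i j).const_mul t)
    rw [abs_of_nonneg (by linarith [ht.2] : 0 ≤ 1 - t), abs_of_nonneg ht.1] at h2
    have e : (1 - t) * N + t * N = N := by ring
    rw [e] at h2
    refine h2.congr fun x => ?_
    simp only [Matrix.add_apply, Matrix.smul_apply, Matrix.sub_apply, smul_eq_mul]
    ring

/-- the constant of the quadratic remainder -/
noncomputable def cLog (n : ℕ) (lo M : ℝ) : ℝ := 8 * n ^ 4 * cInv n lo M ^ 2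

/-- **master estimate**: `log det g₂ - log det g₁ - tr(g₀⁻¹(g₂ - g₁))` is `HB a (C N D)` if
`g₁ - g₀`, `g₂ - g₀` are `HB a N` and `g₂ - g₁` is `HB a D`. -/
theorem HB.logdet_master {a M N D lo hi hi₀ : ℝ} (hlo : 0 < lo)
    {g₀ g₁ g₂ : E n → Matrix (Fin n) (Fin n) ℝ} (hE₀ : ∀ x, Ell lo hi₀ (g₀ x))
    (hE₁ : ∀ x, Ell lo hi (g₁ x)) (hE₂ : ∀ x, Ell lo hi (g₂ x))
    (hg₀ : ∀ i j, HB a M (fun x => g₀ x i j))
    (hg₁ : ∀ i j, HB a M (fun x => g₁ x i j)) (hg₂ : ∀ i j, HB a M (fun x => g₂ x i j))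
    (hN₁ : ∀ i j, HB a N (fun x => g₁ x i j - g₀ x i j))
    (hN₂ : ∀ i j, HB a N (fun x => g₂ x i j - g₀ x i j))
    (hD : ∀ i j, HB a D (fun x => g₂ x i j - g₁ x i j)) :
    HB a (cLog n lo M * N * D) (fun x => Real.log (g₂ x).det - Real.log (g₁ x).det
      - ∑ i, ∑ j, (g₀ x)⁻¹ i j * (g₂ x i j - g₁ x i j)) := by
  have h1 := HB.trMul (A := fun x => avgI (g₁ x) (g₂ x) - (g₀ x)⁻¹)
    (H := fun x => g₂ x - g₁ x) (N := D)
    (fun i j => (HB.avgInv_sub hlo hE₀ hE₁ hE₂ hg₀ hg₁ hg₂ hN₁ hN₂ i j).congr fun x => by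
      rw [Matrix.sub_apply])
    (fun i j => (hD i j).congr fun x => by rw [Matrix.sub_apply])
  have e : (n : ℝ) * (n * (2 * (n * (2 * (n * (2 * cInv n lo M * N)) * cInv n lo M)) * D))
      = cLog n lo M * N * D := by rw [cLog]; ring
  rw [e] at h1
  refine h1.congr fun x => ?_
  rw [(hE₁ x).logdet_eq_avgInv hlo (hE₂ x), ← Finset.sum_sub_distrib]
  refine Finset.sum_congr rfl fun i _ => ?_
  rw [← Finset.sum_sub_distrib]
  refine Finset.sum_congr rfl fun j _ => ?_
  rw [Matrix.sub_apply, Matrix.sub_apply]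
  ring

/-- **quadratic remainder**: `log det(g + h) - log det g - tr(g⁻¹h)` is `HB a (C N²)`. -/
theorem HB.logdet_remainder {a M N lo hi : ℝ} (hlo : 0 < lo)
    {g h : E n → Matrix (Fin n) (Fin n) ℝ} (hE : ∀ x, Ell lo hi (g x))
    (hE' : ∀ x, Ell lo hi (g x + h x)) (hg : ∀ i j, HB a M (fun x => g x i j))
    (hgh : ∀ i j, HB a M (fun x => (g x + h x) i j)) (hh : ∀ i j, HB a N (fun x => h x i j)) :
    HB a (cLog n lo M * N ^ 2) (fun x => Real.log (g x + h x).det - Real.log (g x).det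
      - ∑ i, ∑ j, (g x)⁻¹ i j * h x i j) := by
  have h1 := HB.logdet_master (N := N) (D := N) hlo hE hE hE' hg hg hgh
    (fun i j => ?_) (fun i j => ?_) (fun i j => ?_)
  · have e : cLog n lo M * N * N = cLog n lo M * N ^ 2 := by ring
    rw [e] at h1
    refine h1.congr fun x => ?_
    congr 1
    refine Finset.sum_congr rfl fun i _ => Finset.sum_congr rfl fun j _ => ?_
    rw [Matrix.add_apply]
    ring
  · exact (HB.zero (hh i j).nonneg).congr fun x => by ring
  · exact (hh i j).congr fun x => by rw [Matrix.add_apply]; ring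
  · exact (hh i j).congr fun x => by rw [Matrix.add_apply]; ring

/-- **q-lemma** for fields, base matrix `1`, `q(X) = log det(1+X) - tr X`. -/
theorem HB.qlemma {a M N D lo hi : ℝ} (hlo : 0 < lo) (hlo1 : lo ≤ 1)
    {X Y : E n → Matrix (Fin n) (Fin n) ℝ} (hX : ∀ x, Ell lo hi (1 + X x))
    (hY : ∀ x, Ell lo hi (1 + Y x)) (hM : 1 ≤ M)
    (hgX : ∀ i j, HB a M (fun x => (1 + X x) i j)) (hgY : ∀ i j, HB a M (fun x => (1 + Y x) i j))
    (hNX : ∀ i j, HB a N (fun x => X x i j)) (hNY : ∀ i j, HB a N (fun x => Y x i j))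
    (hD : ∀ i j, HB a D (fun x => X x i j - Y x i j)) :
    HB a (cLog n lo M * N * D) (fun x => (Real.log (1 + X x).det - ∑ i, X x i i)
      - (Real.log (1 + Y x).det - ∑ i, Y x i i)) := by
  have h1 := HB.logdet_master (N := N) (D := D) (hi₀ := 1) (g₀ := fun _ => 1) hlo
    (fun _ => (Ell.one n).mono hlo1 le_rfl) hY hX
    (fun i j => HB.const (((Ell.one n).abs_entry_le zero_le_one i j).trans hM)) hgY hgX
    (fun i j => (hNY i j).congr fun x => by rw [Matrix.add_apply]; ring)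
    (fun i j => (hNX i j).congr fun x => by rw [Matrix.add_apply]; ring)
    (fun i j => (hD i j).congr fun x => by rw [Matrix.add_apply, Matrix.add_apply]; ring)
  refine h1.congr fun x => ?_
  have e : ∑ i, ∑ j, (1 : Matrix (Fin n) (Fin n) ℝ)⁻¹ i j * ((1 + X x) i j - (1 + Y x) i j)
      = ∑ i, X x i i - ∑ i, Y x i i := by
    rw [inv_one, ← Finset.sum_sub_distrib]
    refine Finset.sum_congr rfl fun i _ => ?_
    rw [Finset.sum_eq_single i]
    · rw [Matrix.one_apply_eq, Matrix.add_apply, Matrix.add_apply]; ring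
    · intro b _ hb
      rw [Matrix.one_apply_ne hb.symm, zero_mul]
    · simp
  rw [e]
  ring

/-- **q-lemma**, pointwise: `r(X) = log det(A+X) - log det A - tr(A⁻¹X)`,
`|r(X) - r(Y)| ≤ (n⁴/lo²) (x + y) d`. -/
theorem Ell.qlemma {lo hi hi₀ x y d : ℝ} (hlo : 0 < lo) {A X Y : Matrix (Fin n) (Fin n) ℝ}
    (hA : Ell lo hi₀ A) (hX : Ell lo hi (A + X)) (hY : Ell lo hi (A + Y))
    (hx : ∀ i j, |X i j| ≤ x) (hy : ∀ i j, |Y i j| ≤ y) (hd : ∀ i j, |X i j - Y i j| ≤ d) :
    |(Real.log (A + X).det - ∑ i, ∑ j, A⁻¹ i j * X i j)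
      - (Real.log (A + Y).det - ∑ i, ∑ j, A⁻¹ i j * Y i j)| ≤ n ^ 4 / lo ^ 2 * (x + y) * d := by
  obtain ⟨t, ht, h⟩ := hY.logdet_mvt hlo hX
  have ht' := Ioo_subset_Icc_self ht
  set B : Matrix (Fin n) (Fin n) ℝ := A + Y + t • (A + X - (A + Y)) with hB
  have hBE : Ell lo hi B := hY.segment hX ht'
  have e1 : (Real.log (A + X).det - ∑ i, ∑ j, A⁻¹ i j * X i j)
      - (Real.log (A + Y).det - ∑ i, ∑ j, A⁻¹ i j * Y i j)
      = ∑ i, ∑ j, (B⁻¹ - A⁻¹) i j * (X - Y) i j := by
    have e2 : ∑ i, ∑ j, (B⁻¹ - A⁻¹) i j * (X - Y) i j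
        = ∑ i, ∑ j, B⁻¹ i j * ((A + X) i j - (A + Y) i j)
          - (∑ i, ∑ j, A⁻¹ i j * X i j - ∑ i, ∑ j, A⁻¹ i j * Y i j) := by
      simp only [← Finset.sum_sub_distrib]
      refine Finset.sum_congr rfl fun i _ => Finset.sum_congr rfl fun j _ => ?_
      simp only [Matrix.sub_apply, Matrix.add_apply]
      ring
    rw [e2, ← h]
    ring
  have hBA : ∀ i j, |B i j - A i j| ≤ x + y := by
    intro i j
    have e3 : B i j - A i j = (1 - t) * Y i j + t * X i j := by
      rw [hB]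
      simp only [Matrix.add_apply, Matrix.smul_apply, Matrix.sub_apply, smul_eq_mul]
      ring
    rw [e3]
    have h1 : |(1 - t) * Y i j| ≤ y := by
      rw [abs_mul, abs_of_nonneg (by linarith [ht'.2] : 0 ≤ 1 - t)]
      calc (1 - t) * |Y i j| ≤ 1 * |Y i j| :=
            mul_le_mul_of_nonneg_right (by linarith [ht'.1]) (abs_nonneg _)
        _ ≤ y := by rw [one_mul]; exact hy i j
    have h2 : |t * X i j| ≤ x := by
      rw [abs_mul, abs_of_nonneg ht'.1]
      calc t * |X i j| ≤ 1 * |X i j| := mul_le_mul_of_nonneg_right ht'.2 (abs_nonneg _)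
        _ ≤ x := by rw [one_mul]; exact hx i j
    calc |(1 - t) * Y i j + t * X i j| ≤ |(1 - t) * Y i j| + |t * X i j| := abs_add_le _ _
      _ ≤ x + y := by linarith
  rw [e1]
  refine (abs_dsum_le (X := B⁻¹ - A⁻¹) (Y := X - Y) (x := n ^ 2 * (x + y) / lo ^ 2) (y := d)
    (fun i j => by rw [Matrix.sub_apply]; exact hBE.abs_inv_sub_le hlo hA hBA i j)
    (fun i j => by rw [Matrix.sub_apply]; exact hd i j)).trans (le_of_eq ?_)
  ring

end Crest.Agent.R238
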