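import Crest.Agent.R238.HBAlg
import Crest.Agent.R238.StepMat

/-!
Row 238 (S0369), node H1b (helper437), part 2: matrix fields with `HB` entries.

* `Ell.abs_entry_le`, `Ell.diag_mem`, `Ell.convex`, `Ell.one`;
* `HB.matMul`, `HB.matInv`, `HB.matDet`, `HB.logDet`, `HB.trMul`;
* `abs_logdet_sub_le` (Lipschitz bound of `log det` on elliptic matrices).
-/

set_option autoImplicit false

open MeasureTheory Set Filter
open scoped ContDiff Topology

namespace Crest.Agent.R238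

variable {n : ℕ}

/-! ### names of 57's `StepMat` lemmas without prefix -/

theorem quad_eq (A : Matrix (Fin n) (Fin n) ℝ) (y z : Fin n → ℝ) :
    z ⬝ᵥ (A.mulVec y) = ∑ i, ∑ j, A i j * z i * y j := sm_quad_eq A y z

theorem Ell.posDef {lo hi : ℝ} (hlo : 0 < lo) {A : Matrix (Fin n) (Fin n) ℝ}
    (h : Ell lo hi A) : A.PosDef := h.sm_posDef hlo

theorem Ell.det_pos {lo hi : ℝ} (hlo : 0 < lo) {A : Matrix (Fin n) (Fin n) ℝ}
    (h : Ell lo hi A) : 0 < A.det := h.sm_det_pos hlo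

theorem Ell.isUnit_det {lo hi : ℝ} (hlo : 0 < lo) {A : Matrix (Fin n) (Fin n) ℝ}
    (h : Ell lo hi A) : IsUnit A.det := h.sm_isUnit_det hlo

theorem Ell.isUnit {lo hi : ℝ} (hlo : 0 < lo) {A : Matrix (Fin n) (Fin n) ℝ}
    (h : Ell lo hi A) : IsUnit A := h.sm_isUnit hlo

theorem Ell.mul_inv {lo hi : ℝ} (hlo : 0 < lo) {A : Matrix (Fin n) (Fin n) ℝ}
    (h : Ell lo hi A) : A * A⁻¹ = 1 := h.sm_mul_inv hlo

theorem Ell.inv_mul {lo hi : ℝ} (hlo : 0 < lo) {A : Matrix (Fin n) (Fin n) ℝ}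
    (h : Ell lo hi A) : A⁻¹ * A = 1 := h.sm_inv_mul hlo

theorem Ell.transpose_eq {lo hi : ℝ} {A : Matrix (Fin n) (Fin n) ℝ} (h : Ell lo hi A) :
    A.transpose = A := h.sm_transpose_eq

theorem Ell.inv_symm {lo hi : ℝ} {A : Matrix (Fin n) (Fin n) ℝ} (h : Ell lo hi A)
    (i j : Fin n) : A⁻¹ i j = A⁻¹ j i := h.sm_inv_symm i j

theorem Ell.mono {lo hi lo' hi' : ℝ} {A : Matrix (Fin n) (Fin n) ℝ} (h : Ell lo hi A)
    (h1 : lo' ≤ lo) (h2 : hi ≤ hi') : Ell lo' hi' A := h.sm_mono h1 h2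

theorem Ell.add_small {lo hi : ℝ} (hlo : 0 ≤ lo) {A B : Matrix (Fin n) (Fin n) ℝ}
    (h : Ell lo hi A) (hs : ∀ i j, B i j = B j i) (hB : ∀ i j, |B i j| ≤ lo / (2 * n)) :
    Ell (lo / 2) (hi + lo / 2) (A + B) := h.sm_add_small hlo hs hB

theorem Ell.abs_inv_le {lo hi : ℝ} (hlo : 0 < lo) {A : Matrix (Fin n) (Fin n) ℝ}
    (h : Ell lo hi A) (i j : Fin n) : |A⁻¹ i j| ≤ 1 / lo := h.sm_abs_inv_le hlo i j

theorem Ell.inv {lo hi : ℝ} (hlo : 0 < lo) (hhi : lo ≤ hi) {A : Matrix (Fin n) (Fin n) ℝ}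
    (h : Ell lo hi A) : Ell (1 / hi) (1 / lo) A⁻¹ := h.sm_inv hlo hhi

theorem quad_abs_le {B : Matrix (Fin n) (Fin n) ℝ} {c : ℝ} (hB : ∀ i j, |B i j| ≤ c)
    (z : Fin n → ℝ) : |∑ i, ∑ j, B i j * z i * z j| ≤ c * n * ∑ i, z i ^ 2 :=
  sm_quad_abs_le hB z

/-! ### pointwise lemmas on elliptic matrices -/

theorem quad_single_add (A : Matrix (Fin n) (Fin n) ℝ) (i j : Fin n) (c : ℝ) :
    ∑ k, ∑ l, A k l * ((Pi.single i (1 : ℝ) + c • Pi.single j (1 : ℝ) : Fin n → ℝ) k) *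
      ((Pi.single i (1 : ℝ) + c • Pi.single j (1 : ℝ) : Fin n → ℝ) l)
      = A i i + c * (A i j + A j i) + c ^ 2 * A j j := by
  rw [← quad_eq]
  simp only [Matrix.mulVec_add, Matrix.mulVec_smul, dotProduct_add, add_dotProduct,
    smul_dotProduct, dotProduct_smul, single_one_dotProduct, Matrix.mulVec_single_one,
    smul_eq_mul, Matrix.col_apply]
  ring

theorem Ell.diag_ge {lo hi : ℝ} {A : Matrix (Fin n) (Fin n) ℝ} (h : Ell lo hi A) (i : Fin n) :
    lo ≤ A i i := by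
  have h1 := (h.2 (Pi.single i (1 : ℝ) + (0 : ℝ) • Pi.single i (1 : ℝ))).1
  rw [quad_single_add] at h1
  have h3 : ∑ k, (Pi.single i (1 : ℝ) + (0 : ℝ) • Pi.single i (1 : ℝ) : Fin n → ℝ) k ^ 2 = 1 := by
    rw [Finset.sum_eq_single i]
    · simp
    · intro b _ hb
      simp [Pi.single_eq_of_ne hb]
    · simp
  rw [h3] at h1
  linarith

theorem Ell.diag_le {lo hi : ℝ} {A : Matrix (Fin n) (Fin n) ℝ} (h : Ell lo hi A) (i : Fin n) :
    A i i ≤ hi := by
  have h1 := (h.2 (Pi.single i (1 : ℝ) + (0 : ℝ) • Pi.single i (1 : ℝ))).2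
  rw [quad_single_add] at h1
  have h3 : ∑ k, (Pi.single i (1 : ℝ) + (0 : ℝ) • Pi.single i (1 : ℝ) : Fin n → ℝ) k ^ 2 = 1 := by
    rw [Finset.sum_eq_single i]
    · simp
    · intro b _ hb
      simp [Pi.single_eq_of_ne hb]
    · simp
  rw [h3] at h1
  linarith

theorem Ell.abs_offdiag_le {lo hi : ℝ} {A : Matrix (Fin n) (Fin n) ℝ} (h : Ell lo hi A)
    {i j : Fin n} (hij : i ≠ j) : |A i j| ≤ hi - lo := by
  have hs : ∀ c : ℝ, ∑ k, (Pi.single i (1 : ℝ) + c • Pi.single j (1 : ℝ) : Fin n → ℝ) k ^ 2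
      = 1 + c ^ 2 := by
    intro c
    have e : ∀ k, (Pi.single i (1 : ℝ) + c • Pi.single j (1 : ℝ) : Fin n → ℝ) k ^ 2
        = (if k = i then 1 else 0) + (if k = j then c ^ 2 else 0) := by
      intro k
      simp only [Pi.add_apply, Pi.smul_apply, smul_eq_mul, Pi.single_apply]
      by_cases h1 : k = i
      · have h2 : k ≠ j := fun h => hij (h1.symm.trans h)
        simp [h1, hij]
      · by_cases h2 : k = j
        · simp [h2, hij.symm]
        · simp [h1, h2]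
    simp only [e, Finset.sum_add_distrib]
    simp
  have h1 := (h.2 (Pi.single i (1 : ℝ) + (1 : ℝ) • Pi.single j (1 : ℝ))).2
  have h2 := (h.2 (Pi.single i (1 : ℝ) + (-1 : ℝ) • Pi.single j (1 : ℝ))).2
  rw [quad_single_add, hs] at h1 h2
  have h3 := h.1 j i
  have h4 := h.diag_ge i
  have h5 := h.diag_ge j
  rw [h3] at h1 h2
  rw [abs_le]
  constructor <;> nlinarith

theorem Ell.abs_entry_le {lo hi : ℝ} (hlo : 0 ≤ lo) {A : Matrix (Fin n) (Fin n) ℝ}
    (h : Ell lo hi A) (i j : Fin n) : |A i j| ≤ hi := by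
  by_cases hij : i = j
  · subst hij
    have h1 := h.diag_ge i
    have h2 := h.diag_le i
    rw [abs_of_nonneg (hlo.trans h1)]
    exact h2
  · exact (h.abs_offdiag_le hij).trans (by linarith)

theorem Ell.one (n : ℕ) : Ell 1 1 (1 : Matrix (Fin n) (Fin n) ℝ) := by
  refine ⟨fun i j => ?_, fun z => ?_⟩
  · rw [Matrix.one_apply, Matrix.one_apply]
    simp only [eq_comm]
  · have h : ∑ i, ∑ j, (1 : Matrix (Fin n) (Fin n) ℝ) i j * z i * z j = ∑ i, z i ^ 2 := by
      refine Finset.sum_congr rfl fun i _ => ?_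
      rw [Finset.sum_eq_single i]
      · simp [sq]
      · intro b _ hb
        simp [Matrix.one_apply_ne hb.symm]
      · simp
    rw [h]
    exact ⟨le_of_eq (by ring), le_of_eq (by ring)⟩

theorem quad_add_smul (A B : Matrix (Fin n) (Fin n) ℝ) (s t : ℝ) (z : Fin n → ℝ) :
    ∑ i, ∑ j, (s • A + t • B) i j * z i * z j
      = s * (∑ i, ∑ j, A i j * z i * z j) + t * (∑ i, ∑ j, B i j * z i * z j) := by
  simp only [Finset.mul_sum, ← Finset.sum_add_distrib]
  refine Finset.sum_congr rfl fun i _ => Finset.sum_congr rfl fun j _ => ?_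
  simp only [Matrix.add_apply, Matrix.smul_apply, smul_eq_mul]
  ring

theorem Ell.convex {lo hi : ℝ} {A B : Matrix (Fin n) (Fin n) ℝ} (hA : Ell lo hi A)
    (hB : Ell lo hi B) {s t : ℝ} (hs : 0 ≤ s) (ht : 0 ≤ t) (hst : s + t = 1) :
    Ell lo hi (s • A + t • B) := by
  refine ⟨fun i j => ?_, fun z => ?_⟩
  · simp only [Matrix.add_apply, Matrix.smul_apply, hA.1 i j, hB.1 i j]
  · rw [quad_add_smul]
    obtain ⟨a1, a2⟩ := hA.2 z
    obtain ⟨b1, b2⟩ := hB.2 z
    have e : s = 1 - t := by linarith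
    have p1 := mul_le_mul_of_nonneg_left a1 hs
    have p2 := mul_le_mul_of_nonneg_left a2 hs
    have p3 := mul_le_mul_of_nonneg_left b1 ht
    have p4 := mul_le_mul_of_nonneg_left b2 ht
    constructor
    · calc lo * ∑ i, z i ^ 2 = s * (lo * ∑ i, z i ^ 2) + t * (lo * ∑ i, z i ^ 2) := by
            rw [← add_mul, hst, one_mul]
        _ ≤ _ := add_le_add p1 p3
    · calc _ ≤ s * (hi * ∑ i, z i ^ 2) + t * (hi * ∑ i, z i ^ 2) := add_le_add p2 p4
        _ = hi * ∑ i, z i ^ 2 := by rw [← add_mul, hst, one_mul]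

/-- the segment `A + t (B - A)` stays elliptic -/
theorem Ell.segment {lo hi : ℝ} {A B : Matrix (Fin n) (Fin n) ℝ} (hA : Ell lo hi A)
    (hB : Ell lo hi B) {t : ℝ} (ht : t ∈ Icc (0 : ℝ) 1) : Ell lo hi (A + t • (B - A)) := by
  have h := hA.convex hB (s := 1 - t) (t := t) (by linarith [ht.2]) ht.1 (by ring)
  have e : (1 - t) • A + t • B = A + t • (B - A) := by
    rw [smul_sub, sub_smul, one_smul]; abel
  rwa [e] at h

/-- bound of a triple product of entries -/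
theorem abs_triple_le {X Y Z : Matrix (Fin n) (Fin n) ℝ} {x y z : ℝ} (hX : ∀ i j, |X i j| ≤ x)
    (hY : ∀ i j, |Y i j| ≤ y) (hZ : ∀ i j, |Z i j| ≤ z) (i j : Fin n) :
    |(X * Y * Z) i j| ≤ n * (n * (x * y * z)) := by
  have hx : 0 ≤ x := (abs_nonneg _).trans (hX i j)
  have hy : 0 ≤ y := (abs_nonneg _).trans (hY i j)
  rw [Matrix.mul_apply]
  calc |∑ l, (X * Y) i l * Z l j| ≤ ∑ l, |(X * Y) i l * Z l j| :=
        Finset.abs_sum_le_sum_abs _ _
    _ ≤ ∑ _l : Fin n, n * (x * y * z) := by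
        refine Finset.sum_le_sum fun l _ => ?_
        rw [abs_mul, Matrix.mul_apply]
        have h1 : |∑ k, X i k * Y k l| ≤ n * (x * y) := by
          calc |∑ k, X i k * Y k l| ≤ ∑ k, |X i k * Y k l| := Finset.abs_sum_le_sum_abs _ _
            _ ≤ ∑ _k : Fin n, x * y := by
                refine Finset.sum_le_sum fun k _ => ?_
                rw [abs_mul]
                exact mul_le_mul (hX i k) (hY k l) (abs_nonneg _) hx
            _ = n * (x * y) := by simp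
        calc |∑ k, X i k * Y k l| * |Z l j| ≤ (n * (x * y)) * z :=
              mul_le_mul h1 (hZ l j) (abs_nonneg _) (by positivity)
          _ = n * (x * y * z) := by ring
    _ = n * (n * (x * y * z)) := by simp

/-- Lipschitz bound of the inverse -/
theorem Ell.abs_inv_sub_le {lo hi hi' d : ℝ} (hlo : 0 < lo) {A B : Matrix (Fin n) (Fin n) ℝ}
    (hA : Ell lo hi A) (hB : Ell lo hi' B) (hd : ∀ i j, |A i j - B i j| ≤ d) (i j : Fin n) :
    |A⁻¹ i j - B⁻¹ i j| ≤ n ^ 2 * d / lo ^ 2 := by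
  have e : A⁻¹ - B⁻¹ = A⁻¹ * (B - A) * B⁻¹ := by
    rw [mul_sub, sub_mul, hA.inv_mul hlo, mul_assoc, hB.mul_inv hlo]; simp
  have h1 : |(A⁻¹ * (B - A) * B⁻¹) i j| ≤ n * (n * (1 / lo * d * (1 / lo))) := by
    refine abs_triple_le (hA.abs_inv_le hlo) (fun k l => ?_) (hB.abs_inv_le hlo) i j
    rw [Matrix.sub_apply, abs_sub_comm]
    exact hd k l
  rw [← e, Matrix.sub_apply] at h1
  refine h1.trans (le_of_eq ?_)
  field_simp

/-! ### matrix fields with `HB` entries -/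

theorem HB.matMul {a M N : ℝ} {g h : E n → Matrix (Fin n) (Fin n) ℝ}
    (hg : ∀ i j, HB a M (fun x => g x i j)) (hh : ∀ i j, HB a N (fun x => h x i j))
    (i j : Fin n) : HB a (n * (2 * M * N)) (fun x => (g x * h x) i j) := by
  refine (HB.sum_univ (f := fun k x => g x i k * h x k j) fun k => (hg i k).mul (hh k j)).congr
    fun x => ?_
  rw [Matrix.mul_apply]

/-- `∑ᵢⱼ Aᵢⱼ Hᵢⱼ` -/
theorem HB.trMul {a M N : ℝ} {A H : E n → Matrix (Fin n) (Fin n) ℝ}
    (hA : ∀ i j, HB a M (fun x => A x i j)) (hH : ∀ i j, HB a N (fun x => H x i j)) :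
    HB a (n * (n * (2 * M * N))) (fun x => ∑ i, ∑ j, A x i j * H x i j) :=
  HB.sum_univ₂ fun i j => (hA i j).mul (hH i j)

theorem HB.matInv {a M lo hi : ℝ} (hlo : 0 < lo) {g : E n → Matrix (Fin n) (Fin n) ℝ}
    (hE : ∀ x, Ell lo hi (g x)) (hg : ∀ i j, HB a M (fun x => g x i j)) (i j : Fin n) :
    HB a (1 / lo + n ^ 2 * M / lo ^ 2) (fun x => (g x)⁻¹ i j) := by
  have hM := (hg i j).nonneg
  have h0 : 0 ≤ (n : ℝ) ^ 2 * M / lo ^ 2 := by positivity
  have h1 : 0 ≤ 1 / lo := by positivity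
  refine ⟨fun x => ((hE x).abs_inv_le hlo i j).trans (by linarith), fun x y => ?_⟩
  have hp : 0 ≤ ‖x - y‖ ^ a := Real.rpow_nonneg (norm_nonneg _) a
  have h2 := (hE x).abs_inv_sub_le hlo (hE y) (fun k l => (hg k l).2 x y) i j
  calc |(g x)⁻¹ i j - (g y)⁻¹ i j| ≤ n ^ 2 * (M * ‖x - y‖ ^ a) / lo ^ 2 := h2
    _ = (n ^ 2 * M / lo ^ 2) * ‖x - y‖ ^ a := by ring
    _ ≤ (1 / lo + n ^ 2 * M / lo ^ 2) * ‖x - y‖ ^ a :=
        mul_le_mul_of_nonneg_right (by linarith) hp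

/-- difference of two inverse fields: small if the fields are close. -/
theorem HB.matInv_sub {a M M' N lo hi hi' : ℝ} (hlo : 0 < lo)
    {g h : E n → Matrix (Fin n) (Fin n) ℝ} (hE : ∀ x, Ell lo hi (g x))
    (hE' : ∀ x, Ell lo hi' (h x)) (hg : ∀ i j, HB a M (fun x => g x i j))
    (hh : ∀ i j, HB a M' (fun x => h x i j)) (hgh : ∀ i j, HB a N (fun x => g x i j - h x i j))
    (i j : Fin n) :
    HB a (n * (2 * (n * (2 * (1 / lo + n ^ 2 * M / lo ^ 2) * N)) *
      (1 / lo + n ^ 2 * M' / lo ^ 2))) (fun x => (g x)⁻¹ i j - (h x)⁻¹ i j) := by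
  have h1 := HB.matMul (fun i j => HB.matInv hlo hE hg i j)
    (h := fun x => h x - g x) (N := N) (fun i j => ((hgh i j).neg).congr fun x => by
      rw [Matrix.sub_apply]; ring)
  have h2 := HB.matMul h1 (fun i j => HB.matInv hlo hE' hh i j) i j
  refine h2.congr fun x => ?_
  have e : (g x)⁻¹ - (h x)⁻¹ = (g x)⁻¹ * (h x - g x) * (h x)⁻¹ := by
    rw [mul_sub, sub_mul, (hE x).inv_mul hlo, mul_assoc, (hE' x).mul_inv hlo]; simp
  rw [← Matrix.sub_apply, e]

theorem HB.prod_pow {a M K : ℝ} (hMK : 2 * M ≤ K) {ι : Type*} (s : Finset ι)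
    {f : ι → E n → ℝ} (hf : ∀ i ∈ s, HB a M (f i)) :
    HB a (K ^ s.card) (fun x => ∏ i ∈ s, f i x) := by
  classical
  induction s using Finset.induction_on with
  | empty => simpa using HB.const (n := n) (a := a) (M := 1) (c := 1) (by simp)
  | insert i s hi ih =>
    have h1 := hf i (Finset.mem_insert_self i s)
    have h2 := ih fun j hj => hf j (Finset.mem_insert_of_mem hj)
    have h3 := h1.mul h2
    simp only [Finset.prod_insert hi, Finset.card_insert_of_notMem hi]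
    refine h3.mono ?_
    have h4 := h2.nonneg
    rw [pow_succ]
    nlinarith

theorem HB.matDet {a M K : ℝ} (hMK : 2 * M ≤ K) {g : E n → Matrix (Fin n) (Fin n) ℝ}
    (hg : ∀ i j, HB a M (fun x => g x i j)) :
    HB a (n.factorial * K ^ n) (fun x => (g x).det) := by
  have h1 : HB a (∑ _σ : Equiv.Perm (Fin n), K ^ n) (fun x => ∑ σ : Equiv.Perm (Fin n),
      ((Equiv.Perm.sign σ : ℤ) : ℝ) * ∏ i, g x (σ i) i) := by
    refine HB.sum _ fun σ _ => ?_
    have h2 := HB.prod_pow hMK (Finset.univ : Finset (Fin n)) (f := fun i x => g x (σ i) i)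
      (fun i _ => hg (σ i) i)
    have h3 := h2.const_mul ((Equiv.Perm.sign σ : ℤ) : ℝ)
    have h4 : |((Equiv.Perm.sign σ : ℤ) : ℝ)| = 1 := by
      rcases Int.units_eq_one_or (Equiv.Perm.sign σ) with h | h <;> simp [h]
    rw [h4, one_mul, Finset.card_univ, Fintype.card_fin] at h3
    exact h3
  have h5 : (∑ _σ : Equiv.Perm (Fin n), K ^ n) = n.factorial * K ^ n := by
    simp [Fintype.card_perm]
  rw [h5] at h1
  refine h1.congr fun x => ?_
  rw [Matrix.det_apply']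

/-! ### `log det` -/

/-- mean value form: there is an intermediate elliptic matrix -/
theorem Ell.logdet_mvt {lo hi : ℝ} (hlo : 0 < lo) {A B : Matrix (Fin n) (Fin n) ℝ}
    (hA : Ell lo hi A) (hB : Ell lo hi B) : ∃ t ∈ Ioo (0 : ℝ) 1,
    Real.log B.det - Real.log A.det
      = ∑ i, ∑ j, (A + t • (B - A))⁻¹ i j * (B i j - A i j) := by
  have hg : ∀ t : ℝ, ∀ i j : Fin n, HasDerivWithinAt (fun s : ℝ => (A + s • (B - A)) i j)
      ((B - A) i j) (Icc 0 1) t := by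
    intro t i j
    have h1 : HasDerivAt (fun s : ℝ => A i j + s * (B - A) i j) ((B - A) i j) t := by
      simpa using ((hasDerivAt_id t).mul_const ((B - A) i j)).const_add (A i j)
    refine (h1.hasDerivWithinAt).congr_of_eventuallyEq (Eventually.of_forall fun s => ?_) ?_ <;>
    simp [Matrix.add_apply, Matrix.smul_apply]
  have hs : ∀ i j, (B - A) i j = (B - A) j i := by
    intro i j
    rw [Matrix.sub_apply, Matrix.sub_apply, hB.1 i j, hA.1 i j]
  have hd : ∀ t ∈ Icc (0 : ℝ) 1, HasDerivWithinAt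
      (fun s : ℝ => Real.log (A + s • (B - A)).det)
      (∑ i, ∑ j, (A + t • (B - A))⁻¹ i j * (B - A) i j) (Icc 0 1) t := by
    intro t ht
    exact sm_hasDerivWithinAt_log_det_sum (hg t) hs ((hA.segment hB ht).det_pos hlo)
  have hc : ContinuousOn (fun s : ℝ => Real.log (A + s • (B - A)).det) (Icc 0 1) :=
    fun t ht => (hd t ht).continuousWithinAt
  obtain ⟨t, ht, h⟩ := exists_hasDerivAt_eq_slope
    (fun s : ℝ => Real.log (A + s • (B - A)).det)
    (fun t => ∑ i, ∑ j, (A + t • (B - A))⁻¹ i j * (B - A) i j) zero_lt_one hc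
    (fun t ht => (hd t (Ioo_subset_Icc_self ht)).hasDerivAt (Icc_mem_nhds ht.1 ht.2))
  refine ⟨t, ht, ?_⟩
  simp only [sub_zero, div_one, one_smul, zero_smul, add_zero, add_sub_cancel,
    Matrix.sub_apply] at h
  exact h.symm

theorem abs_dsum_le {X Y : Matrix (Fin n) (Fin n) ℝ} {x y : ℝ} (hX : ∀ i j, |X i j| ≤ x)
    (hY : ∀ i j, |Y i j| ≤ y) : |∑ i, ∑ j, X i j * Y i j| ≤ n * (n * (x * y)) := by
  calc |∑ i, ∑ j, X i j * Y i j| ≤ ∑ i, |∑ j, X i j * Y i j| := Finset.abs_sum_le_sum_abs _ _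
    _ ≤ ∑ _i : Fin n, (n * (x * y)) := by
        refine Finset.sum_le_sum fun i _ => ?_
        calc |∑ j, X i j * Y i j| ≤ ∑ j, |X i j * Y i j| := Finset.abs_sum_le_sum_abs _ _
          _ ≤ ∑ _j : Fin n, x * y := by
              refine Finset.sum_le_sum fun j _ => ?_
              rw [abs_mul]
              exact mul_le_mul (hX i j) (hY i j) (abs_nonneg _) ((abs_nonneg _).trans (hX i j))
          _ = n * (x * y) := by simp
    _ = n * (n * (x * y)) := by simp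

/-- Lipschitz bound of `log det` on elliptic matrices -/
theorem Ell.abs_logdet_sub_le {lo hi d : ℝ} (hlo : 0 < lo) {A B : Matrix (Fin n) (Fin n) ℝ}
    (hA : Ell lo hi A) (hB : Ell lo hi B) (hd : ∀ i j, |A i j - B i j| ≤ d) :
    |Real.log A.det - Real.log B.det| ≤ n ^ 2 * d / lo := by
  obtain ⟨t, ht, h⟩ := hA.logdet_mvt hlo hB
  rw [abs_sub_comm, h]
  have h1 := abs_dsum_le (X := (A + t • (B - A))⁻¹) (Y := B - A) (x := 1 / lo) (y := d)
    ((hA.segment hB (Ioo_subset_Icc_self ht)).abs_inv_le hlo)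
    (fun i j => by rw [Matrix.sub_apply, abs_sub_comm]; exact hd i j)
  simp only [Matrix.sub_apply] at h1
  refine h1.trans (le_of_eq ?_)
  field_simp

/-- sup bound of `log det` on elliptic matrices -/
theorem Ell.abs_logdet_le {lo hi : ℝ} (hlo : 0 < lo) {A : Matrix (Fin n) (Fin n) ℝ}
    (hA : Ell lo hi A) : |Real.log A.det| ≤ n ^ 2 * (|hi| + 1) / min lo 1 := by
  have hm : 0 < min lo 1 := lt_min hlo one_pos
  have h1 : Ell (min lo 1) (max hi 1) A := hA.mono (min_le_left _ _) (le_max_left _ _)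
  have h2 : Ell (min lo 1) (max hi 1) (1 : Matrix (Fin n) (Fin n) ℝ) :=
    (Ell.one n).mono (min_le_right _ _) (le_max_right _ _)
  have h3 := h1.abs_logdet_sub_le hm h2 (d := |hi| + 1) (fun i j => by
    have h4 := (hA.abs_entry_le hlo.le i j).trans (le_abs_self hi)
    have h5 := (Ell.one n).abs_entry_le zero_le_one i j
    calc |A i j - (1 : Matrix (Fin n) (Fin n) ℝ) i j|
        ≤ |A i j| + |(1 : Matrix (Fin n) (Fin n) ℝ) i j| := abs_sub _ _
      _ ≤ |hi| + 1 := add_le_add h4 h5)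
  simpa using h3

theorem HB.logDet {a M lo hi : ℝ} (hlo : 0 < lo) {g : E n → Matrix (Fin n) (Fin n) ℝ}
    (hM : 0 ≤ M) (hE : ∀ x, Ell lo hi (g x)) (hg : ∀ i j, HB a M (fun x => g x i j)) :
    HB a (n ^ 2 * (|hi| + 1) / min lo 1 + n ^ 2 * M / lo) (fun x => Real.log (g x).det) := by
  have hm : 0 < min lo 1 := lt_min hlo one_pos
  have h1 : 0 ≤ (n : ℝ) ^ 2 * (|hi| + 1) / min lo 1 := by positivity
  have h2 : 0 ≤ (n : ℝ) ^ 2 * M / lo := by positivity
  refine ⟨fun x => ((hE x).abs_logdet_le hlo).trans (by linarith), fun x y => ?_⟩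
  have hp : 0 ≤ ‖x - y‖ ^ a := Real.rpow_nonneg (norm_nonneg _) a
  have h3 := (hE x).abs_logdet_sub_le hlo (hE y) (fun k l => (hg k l).2 x y)
  calc |Real.log (g x).det - Real.log (g y).det| ≤ n ^ 2 * (M * ‖x - y‖ ^ a) / lo := h3
    _ = (n ^ 2 * M / lo) * ‖x - y‖ ^ a := by ring
    _ ≤ _ := mul_le_mul_of_nonneg_right (by linarith) hp

end Crest.Agent.R238
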