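import Crest.Agent.R238.Hol1

/-!
Row 238, H1 (helper718), file 2: from `RepStmt` and `SolStmt`: uniqueness for `L₀ + 1` on even
functions, the linear solution operator `vv` and the bounded operator `K = D² vv` on `YS n a`.
-/

set_option autoImplicit false
set_option maxSynthPendingDepth 3

open MeasureTheory Set Filter
open scoped ContDiff Topology

namespace Crest.Agent.R238

variable {n : ℕ}

/-! ### values of the sum, multiples, ... -/

namespace YS

variable {a : ℝ}

theorem fn_add (r s : YS n a) : fn (r + s) = fun x => fn r x + fn s x := rfl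

theorem fn_sub (r s : YS n a) : fn (r - s) = fun x => fn r x - fn s x := rfl

theorem fn_neg (r : YS n a) : fn (-r) = fun x => - fn r x := rfl

theorem fn_zero : fn (0 : YS n a) = fun _ => 0 := rfl

theorem fn_smul (c : ℝ) (r : YS n a) : fn (c • r) = fun x => c * fn r x := rfl

theorem add_app (r s : YS n a) (x : E n) : fn (r + s) x = fn r x + fn s x := rfl

theorem sub_app (r s : YS n a) (x : E n) : fn (r - s) x = fn r x - fn s x := rfl

theorem neg_app (r : YS n a) (x : E n) : fn (-r) x = - fn r x := rfl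

theorem zero_app (x : E n) : fn (0 : YS n a) x = 0 := rfl

theorem smul_app (c : ℝ) (r : YS n a) (x : E n) : fn (c • r) x = c * fn r x := rfl

theorem abs_le (r : YS n a) (x : E n) : |fn r x| ≤ ‖r‖ :=
  (r.1.1.norm_coe_le_norm x).trans (norm_fst_le r.1)

theorem continuous_fn (r : YS n a) : Continuous (fn r) := r.1.1.continuous

/-- evaluation is a bounded functional -/
noncomputable def ev (x : E n) : YS n a →L[ℝ] ℝ :=
  LinearMap.mkContinuous
    { toFun := fun r => fn r x, map_add' := fun _ _ => rfl, map_smul' := fun _ _ => rfl } 1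
    (fun r => by rw [one_mul]; exact abs_le r x)

theorem ev_apply (x : E n) (r : YS n a) : ev x r = fn r x := rfl

theorem norm_le_of_hb {M : ℝ} {r : YS n a} (ha : 0 < a) (h : HB a M (fn r)) : ‖r‖ ≤ M := by
  obtain ⟨s, hs, hs'⟩ := YS.exists_of_hb ha h (YS.even r)
  have : s = r := YS.ext_fn hs
  rwa [this] at hs'

theorem norm_le_iff {M : ℝ} {r : YS n a} (ha : 0 < a) : ‖r‖ ≤ M ↔ HB a M (fn r) := by
  refine ⟨fun h => ?_, norm_le_of_hb ha⟩
  have h1 := YS.hb ha r
  exact ⟨fun x => (h1.1 x).trans h, fun x y => (h1.2 x y).trans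
    (mul_le_mul_of_nonneg_right h (Real.rpow_nonneg (norm_nonneg _) _))⟩

end YS

/-! ### linearity of `Hs` and `LA` -/

theorem fderiv_comb {f g : E n → ℝ} (hf : Differentiable ℝ f) (hg : Differentiable ℝ g)
    (c d : ℝ) : fderiv ℝ (fun x => c * f x + d * g x)
      = fun x => c • fderiv ℝ f x + d • fderiv ℝ g x := by
  ext1 x
  exact (((hf x).hasFDerivAt.const_mul c).add ((hg x).hasFDerivAt.const_mul d)).fderiv

theorem c2_diff {f : E n → ℝ} (hf : ContDiff ℝ 2 f) : Differentiable ℝ f :=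
  hf.differentiable (by norm_num)

theorem c2_diff1 {f : E n → ℝ} (hf : ContDiff ℝ 2 f) : Differentiable ℝ (fderiv ℝ f) :=
  (hf.fderiv_right (m := 1) (by norm_num)).differentiable (by norm_num)

theorem Hs_comb {f g : E n → ℝ} (hf : ContDiff ℝ 2 f) (hg : ContDiff ℝ 2 g)
    (c d : ℝ) (x : E n) (i j : Fin n) :
    Hs (fun x => c * f x + d * g x) x i j = c * Hs f x i j + d * Hs g x i j := by
  have h := (((c2_diff1 hf x).hasFDerivAt.const_smul c).add
    ((c2_diff1 hg x).hasFDerivAt.const_smul d)).fderiv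
  unfold Hs
  rw [fderiv_comb (c2_diff hf) (c2_diff hg)]
  have h' : fderiv ℝ (fun x => c • fderiv ℝ f x + d • fderiv ℝ g x) x
      = c • fderiv ℝ (fderiv ℝ f) x + d • fderiv ℝ (fderiv ℝ g) x := h
  rw [h']
  simp

theorem LA_comb (A : E n → Matrix (Fin n) (Fin n) ℝ) {f g : E n → ℝ} (hf : ContDiff ℝ 2 f)
    (hg : ContDiff ℝ 2 g) (c d : ℝ) (x : E n) :
    LA A (fun x => c * f x + d * g x) x = c * LA A f x + d * LA A g x := by
  unfold LA
  simp only [Hs_comb hf hg, fderiv_comb (c2_diff hf) (c2_diff hg), mul_sub,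
    Finset.mul_sum, add_apply, smul_apply, smul_eq_mul]
  rw [show ∑ i, ∑ j, A x i j * (c * Hs f x i j + d * Hs g x i j)
    = ∑ i, ∑ j, c * (A x i j * Hs f x i j) + ∑ i, ∑ j, d * (A x i j * Hs g x i j) by
      rw [← Finset.sum_add_distrib]
      refine Finset.sum_congr rfl fun i _ => ?_
      rw [← Finset.sum_add_distrib]
      refine Finset.sum_congr rfl fun j _ => ?_
      ring]
  ring

/-! ### even functions -/

theorem fderiv_odd_of_even {f : E n → ℝ} (hf : Differentiable ℝ f) (he : ∀ x, f (-x) = f x)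
    (x : E n) : fderiv ℝ f (-x) = - fderiv ℝ f x := by
  have h1 : HasFDerivAt f (fderiv ℝ f (-x)) (-x) := (hf (-x)).hasFDerivAt
  have h2 : HasFDerivAt (fun x : E n => f (-x))
      ((fderiv ℝ f (-x)).comp (-ContinuousLinearMap.id ℝ (E n))) x :=
    h1.comp x (hasFDerivAt_id x).neg
  have h3 : (fun x : E n => f (-x)) = f := by ext x; exact he x
  rw [h3] at h2
  rw [h2.fderiv]
  ext v; simp

theorem fderiv2_even_of_even {f : E n → ℝ} (hf : ContDiff ℝ 2 f) (he : ∀ x, f (-x) = f x)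
    (x : E n) : fderiv ℝ (fderiv ℝ f) (-x) = fderiv ℝ (fderiv ℝ f) x := by
  have h1 : HasFDerivAt (fderiv ℝ f) (fderiv ℝ (fderiv ℝ f) (-x)) (-x) :=
    (c2_diff1 hf (-x)).hasFDerivAt
  have h2 : HasFDerivAt (fun x : E n => fderiv ℝ f (-x))
      ((fderiv ℝ (fderiv ℝ f) (-x)).comp (-ContinuousLinearMap.id ℝ (E n))) x :=
    h1.comp x (hasFDerivAt_id x).neg
  have h3 : (fun x : E n => fderiv ℝ f (-x)) = fun x => - fderiv ℝ f x := by
    ext1 x; exact fderiv_odd_of_even (c2_diff hf) he x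
  rw [h3] at h2
  have h4 : HasFDerivAt (fun x => - fderiv ℝ f x) (-(fderiv ℝ (fderiv ℝ f) x)) x :=
    (c2_diff1 hf x).hasFDerivAt.neg
  have h5 := h2.unique h4
  ext v w
  have h6 := congrArg (fun L : E n →L[ℝ] E n →L[ℝ] ℝ => L v w) h5
  simp at h6
  exact h6

theorem Hs_even {f : E n → ℝ} (hf : ContDiff ℝ 2 f) (he : ∀ x, f (-x) = f x)
    (x : E n) (i j : Fin n) : Hs f (-x) i j = Hs f x i j := by
  unfold Hs
  rw [fderiv2_even_of_even hf he]

/-- a bilinear form is determined by its values on the basis -/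
theorem bilin_ext {B B' : E n →L[ℝ] E n →L[ℝ] ℝ} (h : ∀ i j, B (ee i) (ee j) = B' (ee i) (ee j)) :
    B = B' := by
  have key : ∀ L L' : E n →L[ℝ] ℝ, (∀ j, L (ee j) = L' (ee j)) → L = L' := by
    intro L L' hL
    refine ContinuousLinearMap.coe_injective
      ((EuclideanSpace.basisFun (Fin n) ℝ).toBasis.ext fun j => ?_)
    simpa using hL j
  have key2 : ∀ L L' : E n →L[ℝ] (E n →L[ℝ] ℝ), (∀ j, L (ee j) = L' (ee j)) → L = L' := by
    intro L L' hL
    refine ContinuousLinearMap.coe_injective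
      ((EuclideanSpace.basisFun (Fin n) ℝ).toBasis.ext fun j => ?_)
    simpa using hL j
  exact key2 _ _ fun i => key _ _ fun j => h i j

theorem ell_one {n : ℕ} : Ell (n := n) 1 1 1 := by
  refine ⟨fun i j => ?_, fun z => ?_⟩
  · by_cases h : i = j
    · rw [h]
    · rw [Matrix.one_apply_ne h, Matrix.one_apply_ne (Ne.symm h)]
  · have : ∑ i, ∑ j, (1 : Matrix (Fin n) (Fin n) ℝ) i j * z i * z j = ∑ i, z i ^ 2 := by
      refine Finset.sum_congr rfl fun i _ => ?_
      rw [Finset.sum_eq_single i]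
      · rw [Matrix.one_apply_eq]; ring
      · intro j _ hj
        rw [Matrix.one_apply_ne (Ne.symm hj)]; ring
      · intro hi; exact absurd (Finset.mem_univ i) hi
    rw [this, one_mul]
    exact ⟨le_rfl, le_rfl⟩

/-- UNIQUENESS for `L₀ + 1` on even functions with bounded second derivatives -/
theorem sol_unique (hR : RepStmt) {v w : E n → ℝ} (hv : ContDiff ℝ 2 v) (hw : ContDiff ℝ 2 w)
    (ev : ∀ x, v (-x) = v x) (ew : ∀ x, w (-x) = w x)
    (bv : ∃ B : ℝ, ∀ x i j, |Hs v x i j| ≤ B) (bw : ∃ B : ℝ, ∀ x i j, |Hs w x i j| ≤ B)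
    (h : ∀ x, LA (fun _ => (1 : Matrix (Fin n) (Fin n) ℝ)) v x + v x
      = LA (fun _ => (1 : Matrix (Fin n) (Fin n) ℝ)) w x + w x) : v = w := by
  obtain ⟨C, -, hC⟩ := hR n (1 / 2) 1 1 (by norm_num) (by norm_num) one_pos le_rfl
  set g : E n → ℝ := fun x => 1 * v x + (-1) * w x with hg
  have gC : ContDiff ℝ 2 g := (contDiff_const.mul hv).add (contDiff_const.mul hw)
  have g0 : ∀ x, LA (fun _ => (1 : Matrix (Fin n) (Fin n) ℝ)) g x + 1 * g x = 0 := by
    intro x
    have := h x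
    rw [LA_comb _ hv hw, hg]
    simp only
    linarith
  obtain ⟨B1, hB1⟩ := bv
  obtain ⟨B2, hB2⟩ := bw
  have h1 := hC 1 ell_one 1 (Or.inr rfl) g 0 gC ⟨B1 + B2, fun x i j => ?_⟩ ?_
  · have h2 : ∀ x, fderiv ℝ (fderiv ℝ g) x = 0 := by
      intro x
      refine bilin_ext fun i j => ?_
      have h3 := (h1 i j).1 x
      rw [mul_zero] at h3
      have h4 : Hs g x i j = 0 := abs_nonpos_iff.1 h3
      simpa [Hs] using h4
    have h3 : ∀ x, fderiv ℝ g x = fderiv ℝ g 0 := fun x =>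
      is_const_of_fderiv_eq_zero (𝕜 := ℝ) (c2_diff1 gC) h2 x 0
    have ge : ∀ x, g (-x) = g x := by intro x; simp only [hg, ev, ew]
    have h4 : fderiv ℝ g 0 = 0 := by
      have h5 := fderiv_odd_of_even (c2_diff gC) ge 0
      rw [neg_zero] at h5
      have h6 : (2 : ℝ) • fderiv ℝ g 0 = 0 := by
        rw [two_smul]; nth_rewrite 1 [h5]; simp
      simpa using h6
    ext x
    have h5 := g0 x
    have h6 : LA (fun _ => (1 : Matrix (Fin n) (Fin n) ℝ)) g x = 0 := by
      unfold LA Hs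
      simp [h2, h3, h4]
    rw [h6] at h5
    simp only [hg] at h5
    linarith
  · rw [Hs_comb hv hw]
    calc |1 * Hs v x i j + -1 * Hs w x i j| ≤ |1 * Hs v x i j| + |-1 * Hs w x i j| :=
          abs_add_le _ _
      _ = |Hs v x i j| + |Hs w x i j| := by rw [abs_mul, abs_mul]; simp
      _ ≤ B1 + B2 := add_le_add (hB1 x i j) (hB2 x i j)
  · refine ⟨fun x => ?_, fun x y => ?_⟩
    · beta_reduce
      rw [g0]; simp
    · beta_reduce
      rw [g0, g0]; simp

/-- THE SOLUTION OPERATOR `vv` of `L₀ + 1` and `K = D² vv`. -/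
theorem exists_K (hR : RepStmt) (hS : SolStmt) (n : ℕ) (a : ℝ) (ha : 0 < a) (ha1 : a < 1) :
    ∃ (K : YS n a →L[ℝ] (Fin n → Fin n → YS n a)) (vv : YS n a →ₗ[ℝ] (E n → ℝ)),
      ∀ r : YS n a, ContDiff ℝ 2 (vv r) ∧ (∀ x, vv r (-x) = vv r x) ∧
        (∀ x i j, YS.fn (K r i j) x = Hs (vv r) x i j) ∧
        ∀ x, LA (fun _ => (1 : Matrix (Fin n) (Fin n) ℝ)) (vv r) x + vv r x = YS.fn r x := by
  obtain ⟨C, hC0, hC⟩ := hS n a ha ha1
  have h1 : ∀ r : YS n a, ∃ v : E n → ℝ, ContDiff ℝ 2 v ∧ (∀ x, v (-x) = v x) ∧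
      (∀ i j, HB a (C * ‖r‖) (fun x => Hs v x i j)) ∧
      ∀ x, LA (fun _ => (1 : Matrix (Fin n) (Fin n) ℝ)) v x + v x = YS.fn r x := fun r =>
    hC (YS.fn r) ‖r‖ (YS.hb ha r) (YS.even r)
  choose V hV using h1
  have bdV : ∀ r : YS n a, ∃ B : ℝ, ∀ x i j, |Hs (V r) x i j| ≤ B := fun r =>
    ⟨C * ‖r‖, fun x i j => ((hV r).2.2.1 i j).1 x⟩
  -- general linear combination
  have comb : ∀ (c d : ℝ) (r s : YS n a), V (c • r + d • s) = fun x => c * V r x + d * V s x := by
    intro c d r s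
    have hr := hV r
    have hs := hV s
    refine sol_unique hR (hV _).1 ((contDiff_const.mul hr.1).add (contDiff_const.mul hs.1))
      (hV _).2.1 (fun x => by rw [hr.2.1, hs.2.1]) (bdV _) ?_ ?_
    · obtain ⟨B1, hB1⟩ := bdV r
      obtain ⟨B2, hB2⟩ := bdV s
      refine ⟨|c| * B1 + |d| * B2, fun x i j => ?_⟩
      rw [Hs_comb hr.1 hs.1]
      refine (abs_add_le _ _).trans ?_
      rw [abs_mul, abs_mul]
      exact add_le_add (mul_le_mul_of_nonneg_left (hB1 x i j) (abs_nonneg _))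
        (mul_le_mul_of_nonneg_left (hB2 x i j) (abs_nonneg _))
    · intro x
      rw [(hV _).2.2.2, LA_comb _ hr.1 hs.1]
      have e1 := hr.2.2.2 x
      have e2 := hs.2.2.2 x
      rw [YS.add_app, YS.smul_app, YS.smul_app, ← e1, ← e2]
      ring
  have add' : ∀ r s : YS n a, V (r + s) = V r + V s := by
    intro r s
    have := comb 1 1 r s
    rw [one_smul, one_smul] at this
    rw [this]; ext x; simp
  have smul' : ∀ (c : ℝ) (r : YS n a), V (c • r) = c • V r := by
    intro c r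
    have := comb c 0 r 0
    rw [smul_zero, add_zero] at this
    rw [this]; ext x; simp
  -- K
  have h2 : ∀ (r : YS n a) (i j : Fin n), ∃ k : YS n a, YS.fn k = (fun x => Hs (V r) x i j) ∧
      ‖k‖ ≤ C * ‖r‖ := fun r i j =>
    YS.exists_of_hb ha ((hV r).2.2.1 i j) (fun x => Hs_even (hV r).1 (hV r).2.1 x i j)
  choose k hk hk' using h2
  have kcomb : ∀ (c d : ℝ) (r s : YS n a) (i j : Fin n),
      k (c • r + d • s) i j = c • k r i j + d • k s i j := by
    intro c d r s i j
    refine YS.ext_fn ?_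
    ext x
    rw [hk, YS.add_app, YS.smul_app, YS.smul_app, hk, hk, comb]
    exact Hs_comb (hV r).1 (hV s).1 c d x i j
  let K0 : YS n a →ₗ[ℝ] (Fin n → Fin n → YS n a) :=
    { toFun := k
      map_add' := by
        intro r s; ext1 i; ext1 j
        have := kcomb 1 1 r s i j
        simpa using this
      map_smul' := by
        intro c r; ext1 i; ext1 j
        have := kcomb c 0 r 0 i j
        simpa using this }
  refine ⟨K0.mkContinuous C fun r => ?_,
    { toFun := V, map_add' := add', map_smul' := smul' }, fun r => ⟨(hV r).1, (hV r).2.1,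
      fun x i j => ?_, (hV r).2.2.2⟩⟩
  · have h0 : 0 ≤ C * ‖r‖ := by positivity
    exact (pi_norm_le_iff_of_nonneg h0).2 fun i => (pi_norm_le_iff_of_nonneg h0).2 fun j =>
      hk' r i j
  · exact congrFun (hk r i j) x

end Crest.Agent.R238
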