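import Crest.Agent.R238.Hol1
import Crest.Agent.R338.HOGauss

/-!
Row 238, H1 (helper718), file 3: convolution with Schwartz kernels of arbitrary width.
`ZZ r k s x = ∫ r(x + s z) k(z) dz`; derivatives in `x` fall on the kernel; parametric version.
-/

set_option autoImplicit false
set_option maxSynthPendingDepth 3

open MeasureTheory Set Filter SchwartzMap
open scoped ContDiff Topology

namespace Crest.Agent.R238.HolK

variable {n : ℕ} {W : Type*} [NormedAddCommGroup W] [NormedSpace ℝ W]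

/-- `z`-form -/
noncomputable def ZZ (r : E n → ℝ) (k : E n → W) (s : ℝ) (x : E n) : W :=
  ∫ z, r (x + s • z) • k z

/-- `y`-form -/
noncomputable def YF (r : E n → ℝ) (k : E n → W) (A : ℝ) (b : E n) : W :=
  ∫ y, r y • k (A • (y - b))

theorem YF_eq (r : E n → ℝ) (k : E n → W) {s : ℝ} (hs : 0 < s) (x : E n) :
    YF r k s⁻¹ x = s ^ n • ZZ r k s x := by
  have h1 : YF r k s⁻¹ x = ∫ u : E n, r (x + u) • k (s⁻¹ • u) := by
    unfold YF
    rw [← integral_add_left_eq_self (μ := (volume : Measure (E n)))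
      (fun y => r y • k (s⁻¹ • (y - x))) x]
    simp only [add_sub_cancel_left]
  have h2 := Measure.integral_comp_smul (volume : Measure (E n))
    (fun u : E n => r (x + u) • k (s⁻¹ • u)) s
  have h3 : (fun z : E n => r (x + s • z) • k (s⁻¹ • s • z)) = fun z => r (x + s • z) • k z := by
    ext z
    rw [smul_smul, inv_mul_cancel₀ hs.ne', one_smul]
  simp only [h3] at h2
  rw [h1]
  unfold ZZ
  rw [h2, smul_smul, finrank_euclideanSpace_fin, abs_of_pos (by positivity),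
    mul_inv_cancel₀ (by positivity), one_smul]

theorem ZZ_eq (r : E n → ℝ) (k : E n → W) {s : ℝ} (hs : 0 < s) (x : E n) :
    ZZ r k s x = (s ^ n)⁻¹ • YF r k s⁻¹ x := by
  rw [YF_eq r k hs, smul_smul, inv_mul_cancel₀ (by positivity), one_smul]

theorem sch_dec (k : 𝓢(E n, W)) (m : ℕ) : ∃ C : ℝ, 0 ≤ C ∧ ∀ z, (1 + ‖z‖) ^ m * ‖k z‖ ≤ C := by
  refine ⟨2 ^ m * (Finset.Iic (m, 0)).sup (fun m => SchwartzMap.seminorm ℝ m.1 m.2) k,
    by positivity, fun z => ?_⟩
  have h := SchwartzMap.one_add_le_sup_seminorm_apply (𝕜 := ℝ) (m := (m, 0)) (k := m) (n := 0)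
    le_rfl le_rfl k z
  rwa [norm_iteratedFDeriv_zero] at h

/-- the integrable weight -/
noncomputable def wtK (n : ℕ) (z : E n) : ℝ := ((1 + ‖z‖) ^ (n + 1))⁻¹

theorem wtK_pos (z : E n) : 0 < wtK n z := by unfold wtK; positivity

theorem integrable_wtK (n : ℕ) : Integrable (wtK n) := by
  have h := integrable_one_add_norm (E := E n) (μ := volume) (r := ((n + 1 : ℕ) : ℝ))
    (by rw [finrank_euclideanSpace_fin]; push_cast; linarith)
  refine h.congr (Eventually.of_forall fun z => ?_)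
  simp only [wtK]
  rw [Real.rpow_neg (by positivity), Real.rpow_natCast]

/-- decay of a kernel with `j` extra powers -/
theorem sch_dec' (k : 𝓢(E n, W)) (j : ℕ) :
    ∃ C : ℝ, 0 ≤ C ∧ ∀ z, (1 + ‖z‖) ^ j * ‖k z‖ ≤ C * wtK n z := by
  obtain ⟨C, hC, h⟩ := sch_dec k (j + (n + 1))
  refine ⟨C, hC, fun z => ?_⟩
  have h1 := h z
  unfold wtK
  rw [← div_eq_mul_inv, le_div_iff₀ (by positivity)]
  calc (1 + ‖z‖) ^ j * ‖k z‖ * (1 + ‖z‖) ^ (n + 1)
      = (1 + ‖z‖) ^ (j + (n + 1)) * ‖k z‖ := by rw [pow_add]; ring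
    _ ≤ C := h1

theorem sch_int_pow (k : 𝓢(E n, W)) (j : ℕ) : Integrable fun z => (1 + ‖z‖) ^ j * ‖k z‖ := by
  obtain ⟨C, hC, h⟩ := sch_dec' k j
  refine Integrable.mono' ((integrable_wtK n).const_mul C) ?_ (Eventually.of_forall fun z => ?_)
  · exact (((continuous_const.add continuous_norm).pow j).mul k.continuous.norm).aestronglyMeasurable
  · rw [Real.norm_of_nonneg (by positivity)]
    exact h z

/-- comparison of weights under an affine change -/
theorem wtK_affine {A0 L : ℝ} (hA0 : 0 < A0) (hL : 0 ≤ L) {A : ℝ} (hA : A0 ≤ A) {b y : E n}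
    (hb : ‖b‖ ≤ L) : wtK n (A • (y - b)) ≤ (1 + L + A0⁻¹) ^ (n + 1) * wtK n y := by
  have hAp : 0 < A := lt_of_lt_of_le hA0 hA
  have h1 : ‖y - b‖ ≤ A0⁻¹ * ‖A • (y - b)‖ := by
    rw [norm_smul, Real.norm_of_nonneg hAp.le]
    calc ‖y - b‖ = A0⁻¹ * (A0 * ‖y - b‖) := by field_simp
      _ ≤ A0⁻¹ * (A * ‖y - b‖) := by
        refine mul_le_mul_of_nonneg_left ?_ (by positivity)
        exact mul_le_mul_of_nonneg_right hA (norm_nonneg _)
  have h2 : ‖y‖ ≤ ‖y - b‖ + ‖b‖ := by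
    calc ‖y‖ = ‖(y - b) + b‖ := by congr 1; abel
      _ ≤ _ := norm_add_le _ _
  set z := A • (y - b) with hz
  have hi : 0 < A0⁻¹ := by positivity
  have h3 : 1 + ‖y‖ ≤ (1 + L + A0⁻¹) * (1 + ‖z‖) := by
    nlinarith [norm_nonneg z, norm_nonneg y, mul_nonneg hL (norm_nonneg z)]
  unfold wtK
  rw [← div_eq_mul_inv, le_div_iff₀ (by positivity), ← div_eq_inv_mul,
    div_le_iff₀ (by positivity), ← mul_pow]
  exact pow_le_pow_left₀ (by positivity) h3 _

section par

variable {H : Type*} [NormedAddCommGroup H] [NormedSpace ℝ H]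

theorem YF_cont_y {r : E n → ℝ} (hr : Continuous r) {k : E n → W} (hk : Continuous k)
    (A : ℝ) (b : E n) : Continuous fun y => r y • k (A • (y - b)) :=
  hr.smul (hk.comp ((continuous_id.sub continuous_const).const_smul A))

theorem YF_int {r : E n → ℝ} (hr : Continuous r) {M : ℝ} (hM : ∀ x, |r x| ≤ M)
    (k : 𝓢(E n, W)) {A : ℝ} (hA : 0 < A) (b : E n) :
    Integrable fun y => r y • k (A • (y - b)) := by
  obtain ⟨C, hC, h⟩ := sch_dec' k 0
  have hM0 : 0 ≤ M := (abs_nonneg _).trans (hM 0)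
  refine Integrable.mono' (((integrable_wtK n).const_mul ((1 + ‖b‖ + A⁻¹) ^ (n + 1))).const_mul
    (M * C)) (YF_cont_y hr k.continuous A b).aestronglyMeasurable (Eventually.of_forall fun y => ?_)
  rw [norm_smul, Real.norm_eq_abs]
  have h1 := h (A • (y - b))
  rw [pow_zero, one_mul] at h1
  calc |r y| * ‖k (A • (y - b))‖ ≤ M * (C * wtK n (A • (y - b))) :=
        mul_le_mul (hM y) h1 (norm_nonneg _) hM0
    _ ≤ M * (C * ((1 + ‖b‖ + A⁻¹) ^ (n + 1) * wtK n y)) := by
        refine mul_le_mul_of_nonneg_left (mul_le_mul_of_nonneg_left ?_ hC) hM0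
        exact wtK_affine hA (norm_nonneg b) le_rfl le_rfl
    _ = _ := by ring

/-- PARAMETRIC DERIVATIVE of `∫ r(y) k(A(t)(y - b(t))) dy` -/
theorem par (k : 𝓢(E n, W)) {r : E n → ℝ} (hr : Continuous r) {M : ℝ} (hM : ∀ x, |r x| ≤ M)
    {A : H → ℝ} {b : H → E n} {A' : H → H →L[ℝ] ℝ} {b' : H → H →L[ℝ] E n} {t0 : H} {U : Set H}
    (hU : U ∈ 𝓝 t0) (hA : ∀ t ∈ U, HasFDerivAt A (A' t) t) (hb : ∀ t ∈ U, HasFDerivAt b (b' t) t)
    {A0 L : ℝ} (hA0 : 0 < A0) (h1 : ∀ t ∈ U, A0 ≤ A t) (h1' : ∀ t ∈ U, A t ≤ L)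
    (h2 : ∀ t ∈ U, ‖b t‖ ≤ L) (h3 : ∀ t ∈ U, ‖A' t‖ ≤ L) (h4 : ∀ t ∈ U, ‖b' t‖ ≤ L) :
    Integrable (fun y => r y • (fderiv ℝ k (A t0 • (y - b t0))).comp
        ((A' t0).smulRight (y - b t0) - A t0 • b' t0)) ∧
    HasFDerivAt (fun t => YF r k (A t) (b t))
      (∫ y, r y • (fderiv ℝ k (A t0 • (y - b t0))).comp
        ((A' t0).smulRight (y - b t0) - A t0 • b' t0)) t0 := by
  have ht0 : t0 ∈ U := mem_of_mem_nhds hU
  have hL : 0 ≤ L := (norm_nonneg _).trans (h2 t0 ht0)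
  have hM0 : 0 ≤ M := (abs_nonneg _).trans (hM 0)
  have hi : 0 < A0⁻¹ := by positivity
  set k' : 𝓢(E n, E n →L[ℝ] W) := SchwartzMap.fderivCLM ℝ (E n) W k with hk'
  have hk'a : ∀ z, k' z = fderiv ℝ k z := fun z => SchwartzMap.fderivCLM_apply ℝ k z
  obtain ⟨C, hC, hd⟩ := sch_dec' k' 1
  have mF : ∀ t, AEStronglyMeasurable (fun y => r y • k (A t • (y - b t))) volume := fun t =>
    (YF_cont_y hr k.continuous _ _).aestronglyMeasurable
  have cF' : Continuous fun y => r y • (fderiv ℝ k (A t0 • (y - b t0))).comp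
        ((A' t0).smulRight (y - b t0) - A t0 • b' t0) := by
    refine hr.smul (Continuous.clm_comp ?_ ?_)
    · have e0 : Continuous fun y : E n => A t0 • (y - b t0) := by fun_prop
      have : Continuous fun y => k' (A t0 • (y - b t0)) := k'.continuous.comp e0
      simpa only [hk'a] using this
    · refine Continuous.sub ?_ continuous_const
      exact ((ContinuousLinearMap.smulRightL ℝ H (E n) (A' t0)).continuous).comp
        (continuous_id.sub continuous_const)
  have bd : ∀ t ∈ U, ∀ y, ‖r y • (fderiv ℝ k (A t • (y - b t))).comp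
        ((A' t).smulRight (y - b t) - A t • b' t)‖
      ≤ M * (L * A0⁻¹ + L * L) * C * (1 + L + A0⁻¹) ^ (n + 1) * wtK n y := by
    intro t ht y
    have hAt : 0 < A t := lt_of_lt_of_le hA0 (h1 t ht)
    set z := A t • (y - b t) with hz
    have e1 : ‖y - b t‖ ≤ A0⁻¹ * ‖z‖ := by
      rw [hz, norm_smul, Real.norm_of_nonneg hAt.le]
      calc ‖y - b t‖ = A0⁻¹ * (A0 * ‖y - b t‖) := by field_simp
        _ ≤ A0⁻¹ * (A t * ‖y - b t‖) := by
          refine mul_le_mul_of_nonneg_left ?_ hi.le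
          exact mul_le_mul_of_nonneg_right (h1 t ht) (norm_nonneg _)
    have e2 : ‖(A' t).smulRight (y - b t) - A t • b' t‖ ≤ (L * A0⁻¹ + L * L) * (1 + ‖z‖) := by
      refine (norm_sub_le _ _).trans ?_
      rw [ContinuousLinearMap.norm_smulRight_apply, norm_smul, Real.norm_of_nonneg hAt.le]
      have e3 : ‖A' t‖ * ‖y - b t‖ ≤ L * (A0⁻¹ * ‖z‖) :=
        mul_le_mul (h3 t ht) e1 (norm_nonneg _) hL
      have e4 : A t * ‖b' t‖ ≤ L * L := mul_le_mul (h1' t ht) (h4 t ht) (norm_nonneg _) hL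
      have e5 : 0 ≤ L * A0⁻¹ := mul_nonneg hL hi.le
      have e6 : 0 ≤ L * L * ‖z‖ := mul_nonneg (mul_nonneg hL hL) (norm_nonneg _)
      nlinarith
    have e7 := hd z
    rw [pow_one, hk'a] at e7
    have e8 : wtK n z ≤ (1 + L + A0⁻¹) ^ (n + 1) * wtK n y :=
      wtK_affine hA0 hL (h1 t ht) (h2 t ht)
    rw [norm_smul, Real.norm_eq_abs]
    calc |r y| * ‖(fderiv ℝ k z).comp ((A' t).smulRight (y - b t) - A t • b' t)‖
        ≤ M * (‖fderiv ℝ k z‖ * ((L * A0⁻¹ + L * L) * (1 + ‖z‖))) := by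
          refine mul_le_mul (hM y) ?_ (norm_nonneg _) hM0
          exact (ContinuousLinearMap.opNorm_comp_le _ _).trans
            (mul_le_mul_of_nonneg_left e2 (norm_nonneg _))
      _ = M * (L * A0⁻¹ + L * L) * ((1 + ‖z‖) * ‖fderiv ℝ k z‖) := by ring
      _ ≤ M * (L * A0⁻¹ + L * L) * (C * ((1 + L + A0⁻¹) ^ (n + 1) * wtK n y)) := by
          refine mul_le_mul_of_nonneg_left ?_ (by positivity)
          exact e7.trans (mul_le_mul_of_nonneg_left e8 hC)
      _ = _ := by ring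
  have ib : Integrable fun y => M * (L * A0⁻¹ + L * L) * C * (1 + L + A0⁻¹) ^ (n + 1) * wtK n y :=
    (integrable_wtK n).const_mul _
  refine ⟨Integrable.mono' ib cF'.aestronglyMeasurable
    (Eventually.of_forall fun y => bd t0 ht0 y), ?_⟩
  refine hasFDerivAt_integral_of_dominated_of_fderiv_le (𝕜 := ℝ) hU (Eventually.of_forall mF)
    (YF_int hr hM k (lt_of_lt_of_le hA0 (h1 t0 ht0)) (b t0)) cF'.aestronglyMeasurable
    (F' := fun t y => r y • (fderiv ℝ k (A t • (y - b t))).comp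
        ((A' t).smulRight (y - b t) - A t • b' t))
    (Eventually.of_forall fun y t ht => bd t ht y) ib (Eventually.of_forall fun y t ht => ?_)
  have d1 : HasFDerivAt (fun t => A t • (y - b t)) ((A' t).smulRight (y - b t) - A t • b' t) t := by
    have d2 := (hA t ht).smul ((hasFDerivAt_const y t).sub (hb t ht))
    refine d2.congr_fderiv ?_
    ext h
    simp
    abel
  have d3 : HasFDerivAt k (fderiv ℝ k (A t • (y - b t))) (A t • (y - b t)) :=
    (k.differentiableAt).hasFDerivAt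
  exact (d3.comp t d1).const_smul (r y)

end par

/-! ### consequences -/

theorem ZZ_int {r : E n → ℝ} (hr : Continuous r) {M : ℝ} (hM : ∀ x, |r x| ≤ M)
    (k : 𝓢(E n, W)) (s : ℝ) (x : E n) : Integrable fun z => r (x + s • z) • k z := by
  refine Integrable.mono' (k.integrable.norm.const_mul M) ?_ (Eventually.of_forall fun z => ?_)
  · have : Continuous fun z : E n => r (x + s • z) := hr.comp (by fun_prop)
    exact (this.smul k.continuous).aestronglyMeasurable
  · rw [norm_smul, Real.norm_eq_abs]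
    exact mul_le_mul_of_nonneg_right (hM _) (norm_nonneg _)

/-- joint continuity -/
theorem ZZ_cont {r : E n → ℝ} (hr : Continuous r) {M : ℝ} (hM : ∀ x, |r x| ≤ M)
    (k : 𝓢(E n, W)) : Continuous fun q : ℝ × E n => ZZ r k q.1 q.2 := by
  unfold ZZ
  refine continuous_of_dominated (bound := fun z => M * ‖k z‖) (fun q => ?_) (fun q => ?_)
    (k.integrable.norm.const_mul M) (Eventually.of_forall fun z => ?_)
  · exact (ZZ_int hr hM k q.1 q.2).aestronglyMeasurable
  · refine Eventually.of_forall fun z => ?_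
    rw [norm_smul, Real.norm_eq_abs]
    exact mul_le_mul_of_nonneg_right (hM _) (norm_nonneg _)
  · have : Continuous fun q : ℝ × E n => r (q.2 + q.1 • z) := hr.comp (by fun_prop)
    exact this.smul continuous_const

/-- the derivative falls on the kernel -/
theorem ZZ_deriv {r : E n → ℝ} (hr : Continuous r) {M : ℝ} (hM : ∀ x, |r x| ≤ M)
    (k : 𝓢(E n, W)) {s : ℝ} (hs : 0 < s) (x : E n) :
    HasFDerivAt (ZZ r k s) (-(s⁻¹ • ZZ r (SchwartzMap.fderivCLM ℝ (E n) W k) s x)) x := by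
  have hs' : 0 < s⁻¹ := by positivity
  obtain ⟨-, h⟩ := par (H := E n) k hr hM (A := fun _ => s⁻¹) (b := fun x => x)
    (A' := fun _ => 0) (b' := fun _ => ContinuousLinearMap.id ℝ (E n)) (t0 := x)
    (U := Metric.ball x 1) (Metric.ball_mem_nhds x one_pos)
    (fun t _ => hasFDerivAt_const _ _) (fun t _ => hasFDerivAt_id t)
    (A0 := s⁻¹) (L := s⁻¹ + (‖x‖ + 1)) hs' (fun _ _ => le_rfl)
    (fun _ _ => by linarith [norm_nonneg x])
    (fun t ht => by
      have h2 : ‖t - x‖ < 1 := by simpa [dist_eq_norm] using ht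
      have h3 : ‖t‖ ≤ ‖x‖ + ‖t - x‖ := by
        calc ‖t‖ = ‖x + (t - x)‖ := by congr 1; abel
          _ ≤ _ := norm_add_le _ _
      linarith)
    (fun _ _ => by rw [norm_zero]; positivity)
    (fun _ _ => ContinuousLinearMap.norm_id_le.trans (by linarith [norm_nonneg x]))
  have h1 : HasFDerivAt (ZZ r k s) ((s ^ n)⁻¹ • ∫ y, r y • (fderiv ℝ k (s⁻¹ • (y - x))).comp
      ((0 : E n →L[ℝ] ℝ).smulRight (y - x) - s⁻¹ • ContinuousLinearMap.id ℝ (E n))) x := by
    have h2 := h.const_smul ((s ^ n)⁻¹)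
    have h3 : (fun t => (s ^ n)⁻¹ • YF r k s⁻¹ t) = ZZ r k s := by
      ext t; rw [ZZ_eq r k hs]
    rw [← h3]
    exact h2
  refine h1.congr_fderiv ?_
  rw [ZZ_eq r _ hs, smul_comm s⁻¹, ← smul_neg]
  congr 1
  unfold YF
  rw [← integral_smul, ← integral_neg]
  refine integral_congr_ae (Eventually.of_forall fun y => ?_)
  simp only [SchwartzMap.fderivCLM_apply]
  ext v
  simp only [smul_apply, ContinuousLinearMap.comp_apply, sub_apply,
    ContinuousLinearMap.smulRight_apply, zero_apply, zero_smul, zero_sub,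
    ContinuousLinearMap.id_apply, map_neg, map_smul, neg_apply, smul_neg]
  rw [smul_comm]

/-- integrals of derivatives vanish -/
theorem int_fderiv_zero (k : 𝓢(E n, W)) :
    ∫ z, (SchwartzMap.fderivCLM ℝ (E n) W k) z = 0 := by
  have h := ZZ_deriv (r := fun _ : E n => (1 : ℝ)) continuous_const (M := 1)
    (fun x => by simp) k one_pos 0
  have h1 : ZZ (fun _ : E n => (1 : ℝ)) k 1 = fun _ => ∫ z, k z := by
    ext x; simp [ZZ]
  rw [h1] at h
  have h2 := h.unique (hasFDerivAt_const (∫ z, k z) (0 : E n))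
  simpa [ZZ] using h2

/-- the weight used in the Hölder bounds -/
noncomputable def mm (a : ℝ) (k : E n → W) : ℝ := ∫ z, ‖z‖ ^ a * ‖k z‖

theorem mm_int {a : ℝ} (ha : 0 < a) (ha1 : a < 1) (k : 𝓢(E n, W)) :
    Integrable fun z => ‖z‖ ^ a * ‖k z‖ := by
  refine Integrable.mono' (sch_int_pow k 1) ?_ (Eventually.of_forall fun z => ?_)
  · refine ((continuous_norm.rpow_const fun _ => Or.inr ha.le).mul
      k.continuous.norm).aestronglyMeasurable
  · have h0 : 0 ≤ ‖z‖ ^ a := Real.rpow_nonneg (norm_nonneg _) _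
    rw [Real.norm_of_nonneg (mul_nonneg h0 (norm_nonneg _)), pow_one]
    refine mul_le_mul_of_nonneg_right ?_ (norm_nonneg _)
    rcases le_total ‖z‖ 1 with h | h
    · exact (Real.rpow_le_one (norm_nonneg _) h ha.le).trans (by linarith [norm_nonneg z])
    · calc ‖z‖ ^ a ≤ ‖z‖ ^ (1 : ℝ) := Real.rpow_le_rpow_of_exponent_le h ha1.le
        _ = ‖z‖ := Real.rpow_one _
        _ ≤ 1 + ‖z‖ := by linarith

theorem mm_nonneg (a : ℝ) (k : E n → W) : 0 ≤ mm a k :=
  integral_nonneg fun _ => mul_nonneg (Real.rpow_nonneg (norm_nonneg _) _) (norm_nonneg _)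

theorem ZZ_bound {a : ℝ} (ha : 0 < a) (ha1 : a < 1) {r : E n → ℝ} {N : ℝ} (h : HB a N r)
    (k : 𝓢(E n, W)) (hk : ∫ z, k z = 0) {s : ℝ} (hs : 0 < s) (x : E n) :
    ‖ZZ r k s x‖ ≤ mm a k * N * s ^ a := by
  have hr := h.continuous ha
  have hN : 0 ≤ N := (abs_nonneg _).trans (h.1 0)
  have e : ZZ r k s x = ∫ z, (r (x + s • z) - r x) • k z := by
    have h1 : (fun z => (r (x + s • z) - r x) • k z)
        = fun z => r (x + s • z) • k z - r x • k z := by ext z; rw [sub_smul]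
    have i2 : Integrable fun z => r x • k z := k.integrable.smul (r x)
    rw [h1, integral_sub (ZZ_int hr h.1 k s x) i2, integral_smul, hk, smul_zero, sub_zero]
    rfl
  rw [e]
  have h2 : mm a k * N * s ^ a = ∫ z, (N * s ^ a) * (‖z‖ ^ a * ‖k z‖) := by
    rw [integral_const_mul, mm]; ring
  rw [h2]
  refine norm_integral_le_of_norm_le ((mm_int ha ha1 k).const_mul _)
    (Eventually.of_forall fun z => ?_)
  rw [norm_smul, Real.norm_eq_abs]
  have h3 := h.2 (x + s • z) x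
  rw [add_sub_cancel_left, norm_smul, Real.norm_of_nonneg hs.le,
    Real.mul_rpow hs.le (norm_nonneg _)] at h3
  calc |r (x + s • z) - r x| * ‖k z‖ ≤ N * (s ^ a * ‖z‖ ^ a) * ‖k z‖ :=
        mul_le_mul_of_nonneg_right h3 (norm_nonneg _)
    _ = _ := by ring

end Crest.Agent.R238.HolK
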