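import Crest.Agent.R238.Hol3

/-!
Row 238, H1 (helper718), file 4: the Gaussian kernel facts `HF` and **`solStmt : SolStmt`**.
-/

set_option autoImplicit false
set_option maxSynthPendingDepth 3

open MeasureTheory Set Filter SchwartzMap
open scoped ContDiff Topology

namespace Crest.Agent.R238.HolK

open Crest.Agent.R338.HO

/-- the kernels -/
noncomputable def g0 (n : ℕ) : 𝓢(E n, ℝ) := gaussRS (E n)

noncomputable def g1 (n : ℕ) : 𝓢(E n, E n →L[ℝ] ℝ) := SchwartzMap.fderivCLM ℝ (E n) ℝ (g0 n)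

noncomputable def g2 (n : ℕ) : 𝓢(E n, E n →L[ℝ] E n →L[ℝ] ℝ) :=
  SchwartzMap.fderivCLM ℝ (E n) (E n →L[ℝ] ℝ) (g1 n)

noncomputable def g3 (n : ℕ) : 𝓢(E n, E n →L[ℝ] E n →L[ℝ] E n →L[ℝ] ℝ) :=
  SchwartzMap.fderivCLM ℝ (E n) (E n →L[ℝ] E n →L[ℝ] ℝ) (g2 n)

variable {n : ℕ}

theorem g0_apply (z : E n) : g0 n z = Real.exp (-(‖z‖ ^ 2) / 2) := rfl

theorem g0_deriv (z : E n) : HasFDerivAt (g0 n) (-(g0 n z • innerSL ℝ z)) z := by
  have h1 : HasFDerivAt (fun z : E n => -(‖z‖ ^ 2) / 2) (-innerSL ℝ z) z := by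
    have h2 := (hasStrictFDerivAt_norm_sq z).hasFDerivAt
    have h3 := (h2.neg).mul_const (1 / 2 : ℝ)
    have e : (fun z : E n => -(‖z‖ ^ 2) / 2) = fun z : E n => -(‖z‖ ^ 2) * (1 / 2) := by
      ext z; ring
    rw [e]
    refine h3.congr_fderiv ?_
    ext v
    simp
  have h4 := h1.exp
  have e : (g0 n : E n → ℝ) = fun z => Real.exp (-(‖z‖ ^ 2) / 2) := by ext z; exact g0_apply z
  rw [e]
  refine h4.congr_fderiv ?_
  ext v
  simp

theorem g1_eq (z : E n) : g1 n z = -(g0 n z • innerSL ℝ z) := by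
  rw [g1, SchwartzMap.fderivCLM_apply]
  exact (g0_deriv z).fderiv

theorem g1_apply (z v : E n) : g1 n z v = -(g0 n z * inner ℝ z v) := by
  rw [g1_eq]; simp

theorem g2_apply (z v w : E n) :
    g2 n z v w = g0 n z * (inner ℝ z v * inner ℝ z w - inner ℝ v w) := by
  have h1 : HasFDerivAt (g1 n) (g2 n z) z := by
    rw [g2, SchwartzMap.fderivCLM_apply]
    exact (g1 n).differentiableAt.hasFDerivAt
  have e : (g1 n : E n → (E n →L[ℝ] ℝ)) = fun z => -(g0 n z • innerSL ℝ z) := by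
    ext1 z; exact g1_eq z
  rw [e] at h1
  have h2 := ((g0_deriv z).smul ((innerSL ℝ (E := E n)).hasFDerivAt (x := z))).neg
  have h3 := h1.unique h2
  rw [h3]
  have e2 : ∀ u v : E n, innerSL ℝ u v = inner ℝ u v := fun u v => rfl
  simp only [neg_apply, add_apply, smul_apply, ContinuousLinearMap.smulRight_apply, e2,
    smul_eq_mul]
  ring

theorem trB_g2 (z : E n) : trB (g2 n z) = -(n : ℝ) * g0 n z - g1 n z z := by
  unfold trB
  have h1 : ∀ i : Fin n, g2 n z (ee i) (ee i) = g0 n z * (z i ^ 2 - 1) := by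
    intro i
    rw [g2_apply]
    have h2 : inner ℝ z (ee i : E n) = z i := by
      rw [EuclideanSpace.inner_single_right]; simp
    have h3 : inner ℝ (ee i : E n) (ee i) = (1 : ℝ) := by
      rw [EuclideanSpace.inner_single_right]; simp
    rw [h2, h3]; ring
  simp only [h1]
  rw [g1_apply, ← Finset.mul_sum, Finset.sum_sub_distrib]
  have h4 : inner ℝ z z = ∑ i, z i ^ 2 := by
    rw [real_inner_self_eq_norm_sq, EuclideanSpace.norm_sq_eq]
    simp
  rw [h4]
  simp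
  ring

/-- normalisation -/
noncomputable def cn (n : ℕ) : ℝ := (∫ z : E n, g0 n z)⁻¹

theorem int_g0_pos (n : ℕ) : 0 < ∫ z : E n, g0 n z := by
  have hp : ∀ z : E n, 0 < g0 n z := fun z => by rw [g0_apply]; exact Real.exp_pos _
  rw [integral_pos_iff_support_of_nonneg (fun z => (hp z).le) (g0 n).integrable]
  have : Function.support (g0 n) = univ := by
    ext z; simp [(hp z).ne']
  rw [this]
  exact isOpen_univ.measure_pos volume ⟨0, mem_univ _⟩

theorem cn_pos (n : ℕ) : 0 < cn n := inv_pos.2 (int_g0_pos n)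

/-- the trace as a continuous linear map -/
noncomputable def trL (n : ℕ) : (E n →L[ℝ] E n →L[ℝ] ℝ) →L[ℝ] ℝ :=
  ∑ i : Fin n, (ContinuousLinearMap.apply ℝ ℝ (ee i : E n)).comp
    (ContinuousLinearMap.apply ℝ (E n →L[ℝ] ℝ) (ee i : E n))

theorem trL_apply (B : E n →L[ℝ] E n →L[ℝ] ℝ) : trL n B = trB B := by
  simp [trL, trB]

/-- the heat family -/
noncomputable def FF (r : E n → ℝ) (s : ℝ) (x : E n) : ℝ := cn n * ZZ r (g0 n) s x

noncomputable def FF1 (r : E n → ℝ) (s : ℝ) (x : E n) : E n →L[ℝ] ℝ :=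
  -((cn n * s⁻¹) • ZZ r (g1 n) s x)

noncomputable def FF2 (r : E n → ℝ) (s : ℝ) (x : E n) : E n →L[ℝ] E n →L[ℝ] ℝ :=
  (cn n * (s⁻¹ * s⁻¹)) • ZZ r (g2 n) s x

theorem FF_deriv {r : E n → ℝ} (hr : Continuous r) {M : ℝ} (hM : ∀ x, |r x| ≤ M)
    {s : ℝ} (hs : 0 < s) (x : E n) : HasFDerivAt (FF r s) (FF1 r s x) x := by
  have h := (ZZ_deriv hr hM (g0 n) hs x).const_mul (cn n)
  refine h.congr_fderiv ?_
  simp only [FF1, smul_neg, smul_smul]
  rfl

theorem FF1_deriv {r : E n → ℝ} (hr : Continuous r) {M : ℝ} (hM : ∀ x, |r x| ≤ M)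
    {s : ℝ} (hs : 0 < s) (x : E n) : HasFDerivAt (FF1 r s) (FF2 r s x) x := by
  have h := ((ZZ_deriv hr hM (g1 n) hs x).const_smul (cn n * s⁻¹)).neg
  refine h.congr_fderiv ?_
  simp only [FF2, smul_neg, smul_smul, neg_neg, mul_assoc]
  rfl

theorem FF2_deriv {r : E n → ℝ} (hr : Continuous r) {M : ℝ} (hM : ∀ x, |r x| ≤ M)
    {s : ℝ} (hs : 0 < s) (x : E n) : HasFDerivAt (FF2 r s)
      (-((cn n * (s⁻¹ * s⁻¹) * s⁻¹) • ZZ r (g3 n) s x)) x := by
  have h := ((ZZ_deriv hr hM (g2 n) hs x).const_smul (cn n * (s⁻¹ * s⁻¹)))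
  refine h.congr_fderiv ?_
  simp only [smul_neg, smul_smul]
  rfl

theorem FF_zero {r : E n → ℝ} (x : E n) : FF r 0 x = r x := by
  unfold FF ZZ
  simp only [zero_smul, add_zero, smul_eq_mul]
  rw [integral_const_mul, cn]
  field_simp [(int_g0_pos n).ne']

theorem FF_even {r : E n → ℝ} (he : ∀ x, r (-x) = r x) (s : ℝ) (x : E n) :
    FF r s (-x) = FF r s x := by
  unfold FF ZZ
  congr 1
  rw [← integral_neg_eq_self]
  refine integral_congr_ae (Eventually.of_forall fun z => ?_)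
  have h1 : -x + s • -z = -(x + s • z) := by rw [smul_neg]; abel
  have h2 : g0 n (-z) = g0 n z := by rw [g0_apply, g0_apply, norm_neg]
  simp only [h1, he, h2]

theorem inv_sq_rpow {s : ℝ} (hs : 0 < s) (a : ℝ) : s⁻¹ * s⁻¹ * s ^ a = s ^ (a - 2) := by
  rw [Real.rpow_sub hs, Real.rpow_two]
  field_simp

theorem inv_cube_rpow {s : ℝ} (hs : 0 < s) (a : ℝ) : s⁻¹ * s⁻¹ * s⁻¹ * s ^ a = s ^ (a - 3) := by
  rw [Real.rpow_sub hs, show (3 : ℝ) = ((3 : ℕ) : ℝ) by norm_num, Real.rpow_natCast]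
  field_simp

theorem FF2_bound {a : ℝ} (ha : 0 < a) (ha1 : a < 1) {r : E n → ℝ} {N : ℝ} (h : HB a N r)
    {s : ℝ} (hs : 0 < s) (x : E n) : ‖FF2 r s x‖ ≤ cn n * mm a (g2 n) * N * s ^ (a - 2) := by
  have h1 := ZZ_bound ha ha1 h (g2 n) (int_fderiv_zero (g1 n)) hs x
  have hi : 0 < s⁻¹ := by positivity
  have hc := cn_pos n
  unfold FF2
  rw [norm_smul, Real.norm_of_nonneg (by positivity), ← inv_sq_rpow hs]
  calc cn n * (s⁻¹ * s⁻¹) * ‖ZZ r (g2 n) s x‖
      ≤ cn n * (s⁻¹ * s⁻¹) * (mm a (g2 n) * N * s ^ a) :=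
        mul_le_mul_of_nonneg_left h1 (by positivity)
    _ = _ := by ring

theorem FF3_bound {a : ℝ} (ha : 0 < a) (ha1 : a < 1) {r : E n → ℝ} {N : ℝ} (h : HB a N r)
    {s : ℝ} (hs : 0 < s) (x : E n) : ‖-((cn n * (s⁻¹ * s⁻¹) * s⁻¹) • ZZ r (g3 n) s x)‖
      ≤ cn n * mm a (g3 n) * N * s ^ (a - 3) := by
  have h1 := ZZ_bound ha ha1 h (g3 n) (int_fderiv_zero (g2 n)) hs x
  have hi : 0 < s⁻¹ := by positivity
  have hc := cn_pos n
  rw [norm_neg, norm_smul, Real.norm_of_nonneg (by positivity), ← inv_cube_rpow hs]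
  calc cn n * (s⁻¹ * s⁻¹) * s⁻¹ * ‖ZZ r (g3 n) s x‖
      ≤ cn n * (s⁻¹ * s⁻¹) * s⁻¹ * (mm a (g3 n) * N * s ^ a) :=
        mul_le_mul_of_nonneg_left h1 (by positivity)
    _ = _ := by ring

theorem hasDerivAt_inv_pow (m : ℕ) {s : ℝ} (hs : 0 < s) :
    HasDerivAt (fun s : ℝ => (s ^ m)⁻¹) (-(m : ℝ) * (s ^ m)⁻¹ / s) s := by
  have h := (hasDerivAt_pow m s).inv (pow_ne_zero m hs.ne')
  refine h.congr_deriv ?_
  rcases m with _ | m
  · simp
  · simp only [Nat.add_sub_cancel]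
    have : s ^ (m + 1) = s ^ m * s := pow_succ s m
    rw [this]
    field_simp

/-- derivative in the angle of the `y`-form -/
theorem YF_angle {r : E n → ℝ} (hr : Continuous r) {M : ℝ} (hM : ∀ x, |r x| ≤ M)
    (x : E n) {p : ℝ} (hp : p ∈ JJ) :
    Integrable (fun y => r y * (g1 n ((Real.sin p)⁻¹ • (y - Real.cos p • x))
        (-(Real.cos p / Real.sin p) • ((Real.sin p)⁻¹ • (y - Real.cos p • x)) + x))) ∧
    HasDerivAt (fun p => YF r (g0 n) (Real.sin p)⁻¹ (Real.cos p • x))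
      (∫ y, r y * (g1 n ((Real.sin p)⁻¹ • (y - Real.cos p • x))
        (-(Real.cos p / Real.sin p) • ((Real.sin p)⁻¹ • (y - Real.cos p • x)) + x))) p := by
  have hpi := Real.pi_pos
  have hp0 := hp.1
  set σ : ℝ := p / Real.pi with hσ
  have hσ0 : 0 < σ := by positivity
  have hUJ : ∀ t ∈ Ioo (p / 2) (Real.pi / 2), t ∈ JJ := fun t ht =>
    ⟨by linarith [ht.1], ht.2⟩
  have hsin : ∀ t ∈ Ioo (p / 2) (Real.pi / 2), σ ≤ Real.sin t := by
    intro t ht
    refine le_trans ?_ (JJ.mul_le (hUJ t ht))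
    have : p / Real.pi = 2 / Real.pi * (p / 2) := by field_simp
    rw [hσ, this]
    exact mul_le_mul_of_nonneg_left ht.1.le (by positivity)
  have dA : ∀ t ∈ Ioo (p / 2) (Real.pi / 2), HasDerivAt (fun p : ℝ => (Real.sin p)⁻¹)
      (-Real.cos t / Real.sin t ^ 2) t := fun t ht =>
    (Real.hasDerivAt_sin t).inv (JJ.sin_pos (hUJ t ht)).ne'
  have db : ∀ t : ℝ, HasDerivAt (fun p : ℝ => Real.cos p • x) ((-Real.sin t) • x) t := fun t =>
    (Real.hasDerivAt_cos t).smul_const x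
  have hle : ∀ t ∈ Ioo (p / 2) (Real.pi / 2), 1 ≤ (Real.sin t)⁻¹ := fun t ht =>
    (one_le_inv₀ (JJ.sin_pos (hUJ t ht))).2 (Real.sin_le_one t)
  have hle2 : ∀ t ∈ Ioo (p / 2) (Real.pi / 2), (Real.sin t)⁻¹ ≤ σ⁻¹ := fun t ht =>
    inv_anti₀ hσ0 (hsin t ht)
  obtain ⟨hint, h⟩ := par (H := ℝ) (g0 n) hr hM (A := fun p => (Real.sin p)⁻¹)
    (b := fun p => Real.cos p • x)
    (A' := fun t => ContinuousLinearMap.toSpanSingleton ℝ (-Real.cos t / Real.sin t ^ 2))
    (b' := fun t => ContinuousLinearMap.toSpanSingleton ℝ ((-Real.sin t) • x)) (t0 := p)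
    (U := Ioo (p / 2) (Real.pi / 2)) (Ioo_mem_nhds (by linarith) hp.2)
    (fun t ht => (dA t ht).hasFDerivAt) (fun t _ => (db t).hasFDerivAt)
    (A0 := 1) (L := σ⁻¹ + σ⁻¹ ^ 2 + ‖x‖) one_pos hle
    (fun t ht => by
      have := hle2 t ht
      have h3 : 0 ≤ σ⁻¹ ^ 2 := by positivity
      linarith [norm_nonneg x])
    (fun t ht => by
      rw [norm_smul, Real.norm_of_nonneg (JJ.cos_pos (hUJ t ht)).le]
      have h3 : 0 ≤ σ⁻¹ ^ 2 := by positivity
      have h4 : 0 ≤ σ⁻¹ := by positivity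
      have h5 : Real.cos t * ‖x‖ ≤ 1 * ‖x‖ :=
        mul_le_mul_of_nonneg_right (Real.cos_le_one t) (norm_nonneg _)
      linarith)
    (fun t ht => by
      have hs := JJ.sin_pos (hUJ t ht)
      have hc := JJ.cos_pos (hUJ t ht)
      rw [ContinuousLinearMap.norm_toSpanSingleton, norm_div, norm_neg, Real.norm_of_nonneg hc.le,
        Real.norm_of_nonneg (by positivity)]
      have h6 : Real.cos t / Real.sin t ^ 2 ≤ 1 * (σ⁻¹) ^ 2 := by
        rw [div_eq_mul_inv, ← inv_pow]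
        exact mul_le_mul (Real.cos_le_one t) (pow_le_pow_left₀ (by positivity) (hle2 t ht) 2)
          (by positivity) zero_le_one
      have h4 : 0 ≤ σ⁻¹ := by positivity
      linarith [norm_nonneg x])
    (fun t ht => by
      have hs := JJ.sin_pos (hUJ t ht)
      rw [ContinuousLinearMap.norm_toSpanSingleton, norm_smul, norm_neg,
        Real.norm_of_nonneg hs.le]
      have h3 : 0 ≤ σ⁻¹ ^ 2 := by positivity
      have h4 : 0 ≤ σ⁻¹ := by positivity
      have h5 : Real.sin t * ‖x‖ ≤ 1 * ‖x‖ :=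
        mul_le_mul_of_nonneg_right (Real.sin_le_one t) (norm_nonneg _)
      linarith)
  have hs := JJ.sin_pos hp
  have key : ∀ y : E n, (r y • (fderiv ℝ (g0 n) ((Real.sin p)⁻¹ • (y - Real.cos p • x))).comp
      ((ContinuousLinearMap.toSpanSingleton ℝ (-Real.cos p / Real.sin p ^ 2)).smulRight
        (y - Real.cos p • x) - (Real.sin p)⁻¹ •
          ContinuousLinearMap.toSpanSingleton ℝ ((-Real.sin p) • x))) 1
      = r y * (g1 n ((Real.sin p)⁻¹ • (y - Real.cos p • x))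
        (-(Real.cos p / Real.sin p) • ((Real.sin p)⁻¹ • (y - Real.cos p • x)) + x)) := by
    intro y
    simp only [smul_apply, ContinuousLinearMap.comp_apply, sub_apply,
      ContinuousLinearMap.smulRight_apply, ContinuousLinearMap.toSpanSingleton_apply, one_smul,
      smul_eq_mul, g1, SchwartzMap.fderivCLM_apply]
    congr 2
    rw [smul_smul, smul_smul]
    have e1 : (Real.sin p)⁻¹ * -Real.sin p = -1 := by field_simp
    have e2 : -Real.cos p / Real.sin p ^ 2 = -(Real.cos p / Real.sin p) * (Real.sin p)⁻¹ := by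
      field_simp
    rw [e1, e2, neg_smul, one_smul, sub_neg_eq_add, one_mul]
  refine ⟨?_, ?_⟩
  · have h2 := (ContinuousLinearMap.apply ℝ ℝ (1 : ℝ)).integrable_comp hint
    refine h2.congr (Eventually.of_forall fun y => ?_)
    exact key y
  · have h2 := h.hasDerivAt
    refine h2.congr_deriv ?_
    rw [ContinuousLinearMap.integral_apply hint]
    exact integral_congr_ae (Eventually.of_forall key)

/-- HEAT EQUATION along the curve -/
theorem FF_angle {r : E n → ℝ} (hr : Continuous r) {M : ℝ} (hM : ∀ x, |r x| ≤ M)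
    (x : E n) {p : ℝ} (hp : p ∈ JJ) :
    HasDerivAt (fun p => FF r (Real.sin p) (Real.cos p • x))
      (Real.cos p * Real.sin p * trB (FF2 r (Real.sin p) (Real.cos p • x))
        - Real.sin p * FF1 r (Real.sin p) (Real.cos p • x) x) p := by
  obtain ⟨i1, h1⟩ := YF_angle hr hM x hp
  have hs := JJ.sin_pos hp
  have hs' : 0 < (Real.sin p)⁻¹ := by positivity
  have h2 : HasDerivAt (fun p : ℝ => ((Real.sin p) ^ n)⁻¹)
      (-(n : ℝ) * ((Real.sin p) ^ n)⁻¹ / Real.sin p * Real.cos p) p :=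
    (hasDerivAt_inv_pow n hs).comp p (Real.hasDerivAt_sin p)
  have h3 := (h2.mul h1).const_mul (cn n)
  have e0 : (fun p => FF r (Real.sin p) (Real.cos p • x)) =ᶠ[𝓝 p]
      fun p => cn n * (((Real.sin p) ^ n)⁻¹ * YF r (g0 n) (Real.sin p)⁻¹ (Real.cos p • x)) := by
    filter_upwards [Ioo_mem_nhds hp.1 hp.2] with q hq
    unfold FF
    rw [ZZ_eq r (g0 n) (JJ.sin_pos (show q ∈ JJ from hq)), smul_eq_mul]
  have h4 : HasDerivAt (fun p => FF r (Real.sin p) (Real.cos p • x)) _ p :=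
    h3.congr_of_eventuallyEq e0
  refine h4.congr_deriv ?_
  set s := Real.sin p with hsd
  set c := Real.cos p with hcd
  set b := c • x with hbd
  -- integrals
  have i2 : Integrable fun y => r y • g0 n (s⁻¹ • (y - b)) := YF_int hr hM (g0 n) hs' b
  have i3 : Integrable fun y => r y • g1 n (s⁻¹ • (y - b)) := YF_int hr hM (g1 n) hs' b
  have i4 : Integrable fun y => r y • g2 n (s⁻¹ • (y - b)) := YF_int hr hM (g2 n) hs' b
  have t2 : trB (YF r (g2 n) s⁻¹ b) = ∫ y, r y * trB (g2 n (s⁻¹ • (y - b))) := by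
    unfold YF
    rw [← trL_apply, ← (trL n).integral_comp_comm i4]
    refine integral_congr_ae (Eventually.of_forall fun y => ?_)
    simp only [map_smul, trL_apply, smul_eq_mul]
  have j4 : Integrable fun y => r y * trB (g2 n (s⁻¹ • (y - b))) := by
    refine ((trL n).integrable_comp i4).congr (Eventually.of_forall fun y => ?_)
    simp only [map_smul, trL_apply, smul_eq_mul]
  have t1 : (YF r (g1 n) s⁻¹ b) x = ∫ y, r y * g1 n (s⁻¹ • (y - b)) x := by
    unfold YF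
    rw [ContinuousLinearMap.integral_apply i3]
    rfl
  have j3 : Integrable fun y => r y * g1 n (s⁻¹ • (y - b)) x :=
    (ContinuousLinearMap.apply ℝ ℝ x).integrable_comp i3
  have t0 : YF r (g0 n) s⁻¹ b = ∫ y, r y * g0 n (s⁻¹ • (y - b)) := rfl
  have j2 : Integrable fun y => r y * g0 n (s⁻¹ • (y - b)) := i2
  have main : -(n : ℝ) * (c / s) * YF r (g0 n) s⁻¹ b
      + ∫ y, r y * (g1 n (s⁻¹ • (y - b)) (-(c / s) • (s⁻¹ • (y - b)) + x))
      = (c / s) * trB (YF r (g2 n) s⁻¹ b) + (YF r (g1 n) s⁻¹ b) x := by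
    rw [t2, t1, t0, ← integral_const_mul, ← integral_const_mul,
      ← integral_add (j2.const_mul _) i1, ← integral_add (j4.const_mul _) j3]
    refine integral_congr_ae (Eventually.of_forall fun y => ?_)
    simp only [trB_g2, map_add, map_smul, smul_eq_mul]
    ring
  have u2 : trB (FF2 r s b) = cn n * (s⁻¹ * s⁻¹) * ((s ^ n)⁻¹ * trB (YF r (g2 n) s⁻¹ b)) := by
    unfold FF2
    rw [ZZ_eq r (g2 n) hs, ← trL_apply, map_smul, map_smul, trL_apply, smul_eq_mul, smul_eq_mul]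
  have u1 : FF1 r s b x = -(cn n * s⁻¹ * ((s ^ n)⁻¹ * (YF r (g1 n) s⁻¹ b) x)) := by
    unfold FF1
    rw [ZZ_eq r (g1 n) hs]
    simp only [neg_apply, smul_apply, smul_eq_mul]
  rw [u2, u1]
  have hsn : (s ^ n)⁻¹ ≠ 0 := by positivity
  have e5 : cn n * (-(n : ℝ) * (s ^ n)⁻¹ / s * c * YF r (g0 n) s⁻¹ b
      + (s ^ n)⁻¹ * ∫ y, r y * (g1 n (s⁻¹ • (y - b)) (-(c / s) • (s⁻¹ • (y - b)) + x)))
      = cn n * (s ^ n)⁻¹ * (-(n : ℝ) * (c / s) * YF r (g0 n) s⁻¹ b
      + ∫ y, r y * (g1 n (s⁻¹ • (y - b)) (-(c / s) • (s⁻¹ • (y - b)) + x))) := by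
    ring
  have e6 : c * s * (cn n * (s⁻¹ * s⁻¹) * ((s ^ n)⁻¹ * trB (YF r (g2 n) s⁻¹ b)))
      - s * -(cn n * s⁻¹ * ((s ^ n)⁻¹ * (YF r (g1 n) s⁻¹ b) x))
      = cn n * (s ^ n)⁻¹ * ((c / s) * trB (YF r (g2 n) s⁻¹ b) + (YF r (g1 n) s⁻¹ b) x) := by
    field_simp
    ring
  rw [e6, ← main, ← e5]

/-- the facts `HF` for the heat family -/
theorem HF_heat {a : ℝ} (ha : 0 < a) (ha1 : a < 1) {r : E n → ℝ} {N : ℝ} (h : HB a N r)
    (he : ∀ x, r (-x) = r x) :
    HF a (cn n * (mm a (g2 n) + mm a (g3 n)) * N) r (FF r) (FF1 r) (FF2 r) where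
  nn := by
    have hN : 0 ≤ N := (abs_nonneg _).trans (h.1 0)
    have := mm_nonneg a (g2 n : E n → _)
    have := mm_nonneg a (g3 n : E n → _)
    have := cn_pos n
    positivity
  zero := fun x => FF_zero x
  even := fun s x => FF_even he s x
  d1 := fun s hs x => FF_deriv (h.continuous ha) h.1 hs x
  d2 := fun s hs x => FF1_deriv (h.continuous ha) h.1 hs x
  b2 := fun s hs x => by
    refine (FF2_bound ha ha1 h hs x).trans (mul_le_mul_of_nonneg_right ?_
      (Real.rpow_nonneg hs.le _))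
    have hN : 0 ≤ N := (abs_nonneg _).trans (h.1 0)
    refine mul_le_mul_of_nonneg_right (mul_le_mul_of_nonneg_left ?_ (cn_pos n).le) hN
    linarith [mm_nonneg a (g3 n : E n → _)]
  b3 := fun s hs x y => by
    have hN : 0 ≤ N := (abs_nonneg _).trans (h.1 0)
    have h1 := (convex_univ (𝕜 := ℝ) (E := E n)).norm_image_sub_le_of_norm_hasFDerivWithin_le
      (f := FF2 r s) (C := cn n * mm a (g3 n) * N * s ^ (a - 3))
      (fun x _ => (FF2_deriv (h.continuous ha) h.1 hs x).hasFDerivWithinAt)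
      (fun x _ => FF3_bound ha ha1 h hs x) (mem_univ y) (mem_univ x)
    refine h1.trans (mul_le_mul_of_nonneg_right (mul_le_mul_of_nonneg_right
      (mul_le_mul_of_nonneg_right (mul_le_mul_of_nonneg_left ?_ (cn_pos n).le) hN)
      (Real.rpow_nonneg hs.le _)) (norm_nonneg _))
    linarith [mm_nonneg a (g2 n : E n → _)]
  cF := continuous_const.mul (ZZ_cont (h.continuous ha) h.1 (g0 n))
  c1 := by
    have h1 : ContinuousOn (fun q : ℝ × E n => q.1⁻¹) (Ioi 0 ×ˢ univ) :=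
      continuousOn_fst.inv₀ fun q hq => (ne_of_gt hq.1)
    have h2 : ContinuousOn (fun q : ℝ × E n => cn n * q.1⁻¹) (Ioi 0 ×ˢ univ) :=
      continuousOn_const.mul h1
    have h3 := (h2.smul (ZZ_cont (h.continuous ha) h.1 (g1 n)).continuousOn).neg
    exact h3
  c2 := by
    have h1 : ContinuousOn (fun q : ℝ × E n => q.1⁻¹) (Ioi 0 ×ˢ univ) :=
      continuousOn_fst.inv₀ fun q hq => (ne_of_gt hq.1)
    have h2 : ContinuousOn (fun q : ℝ × E n => cn n * (q.1⁻¹ * q.1⁻¹)) (Ioi 0 ×ˢ univ) :=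
      continuousOn_const.mul (h1.mul h1)
    have h3 := h2.smul (ZZ_cont (h.continuous ha) h.1 (g2 n)).continuousOn
    exact h3
  dp := fun x p hp => FF_angle (h.continuous ha) h.1 x hp

/-- **SolStmt** -/
theorem solStmt' : SolStmt := by
  intro n a ha ha1
  have hcg := cg_pos ha ha1
  have hcs := HF.cs_nonneg a
  have h2 := mm_nonneg a (g2 n : E n → _)
  have h3 := mm_nonneg a (g3 n : E n → _)
  have hc := cn_pos n
  refine ⟨cn n * (mm a (g2 n) + mm a (g3 n)) * (HF.cs a + cg a) + 1, by positivity, ?_⟩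
  intro r N h he
  have hN : 0 ≤ N := (abs_nonneg _).trans (h.1 0)
  obtain ⟨v, hv1, hv2, hv3, hv4⟩ := (HF_heat ha ha1 h he).sol ha ha1
  refine ⟨v, hv1, hv2, fun i j => ?_, hv4⟩
  have h5 : cn n * (mm a (g2 n) + mm a (g3 n)) * N * (HF.cs a + cg a)
      ≤ (cn n * (mm a (g2 n) + mm a (g3 n)) * (HF.cs a + cg a) + 1) * N := by
    nlinarith
  exact ⟨fun x => ((hv3 i j).1 x).trans h5, fun x y => ((hv3 i j).2 x y).trans
    (mul_le_mul_of_nonneg_right h5 (Real.rpow_nonneg (norm_nonneg _) _))⟩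

end Crest.Agent.R238.HolK

/-- **SolStmt** -/
theorem Crest.Agent.R238.solStmt : Crest.Agent.R238.SolStmt := Crest.Agent.R238.HolK.solStmt'
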