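import Crest.Agent.R238.XInst3
import Crest.Agent.R238.Asm3

/-! Row 238, IDENT (iii), part 1: the instance `XD` attached to a solution `(P, v)`. (helper477) -/

set_option autoImplicit false
open scoped ContDiff Topology
open Set Filter MeasureTheory Finset

noncomputable section

namespace Crest.Agent.R238.IdM

open Crest.Agent.R238.XInst

variable {n m : ℕ}

/-- `u = |x|²/2 + v` -/
def uu (v : E n → ℝ) (x : E n) : ℝ := ‖x‖ ^ 2 / 2 + v x

/-- `Ψ = |x|²/2 + P` -/
def ps (P : E n → ℝ) (x : E n) : ℝ := ‖x‖ ^ 2 / 2 + P x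

theorem smooth_nsq2 : ContDiff ℝ ∞ (fun x : E n => ‖x‖ ^ 2 / 2) :=
  (contDiff_id.norm_sq ℝ).div_const 2

theorem uu_smooth {v : E n → ℝ} (hv : ContDiff ℝ ∞ v) : ContDiff ℝ ∞ (uu v) :=
  smooth_nsq2.add hv

theorem ps_smooth {P : E n → ℝ} (hP : ContDiff ℝ ∞ P) : ContDiff ℝ ∞ (ps P) :=
  smooth_nsq2.add hP

theorem fderiv_nsq2 : fderiv ℝ (fun x : E n => ‖x‖ ^ 2 / 2) = fun x => innerSL ℝ x := by
  funext x
  have h := ((hasStrictFDerivAt_norm_sq x).hasFDerivAt).mul_const (2⁻¹ : ℝ)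
  have h2 : HasFDerivAt (fun x : E n => ‖x‖ ^ 2 / 2) (innerSL ℝ x) x := by
    have e : (fun x : E n => ‖x‖ ^ 2 / 2) = fun x : E n => ‖x‖ ^ 2 * 2⁻¹ := by
      funext x; rw [div_eq_mul_inv]
    rw [e]
    refine h.congr_fderiv ?_
    ext y; simp
  exact h2.fderiv

theorem fderiv_uu {v : E n → ℝ} (hv : ContDiff ℝ ∞ v) :
    fderiv ℝ (uu v) = fun x => innerSL ℝ x + fderiv ℝ v x := by
  funext x
  have h1 : HasFDerivAt (fun x : E n => ‖x‖ ^ 2 / 2) (innerSL ℝ x) x := by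
    have h := ((smooth_nsq2 (n := n)).differentiable (by simp) x).hasFDerivAt
    rwa [fderiv_nsq2] at h
  have h2 := (hv.differentiable (by simp) x).hasFDerivAt
  exact (h1.add h2).fderiv

/-- inner product as a bilinear map -/
def inn (n : ℕ) : E n →L[ℝ] E n →L[ℝ] ℝ := innerSL ℝ

theorem inn_apply (x y : E n) : inn n x y = inner ℝ x y := rfl

theorem Hs_uu {v : E n → ℝ} (hv : ContDiff ℝ ∞ v) (x : E n) (i j : Fin n) :
    Hs (uu v) x i j = (1 : Matrix (Fin n) (Fin n) ℝ) i j + Hs v x i j := by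
  unfold Hs
  rw [fderiv_uu hv]
  have h1 : HasFDerivAt (fun x : E n => (innerSL ℝ x : E n →L[ℝ] ℝ)) (inn n) x :=
    (inn n).hasFDerivAt
  have h2 : HasFDerivAt (fderiv ℝ v) (fderiv ℝ (fderiv ℝ v) x) x :=
    ((hv.fderiv_right (m := 1) (by norm_cast)).differentiable (by norm_num) x).hasFDerivAt
  have h3 : fderiv ℝ (fun x : E n => (innerSL ℝ x : E n →L[ℝ] ℝ) + fderiv ℝ v x) x
      = inn n + fderiv ℝ (fderiv ℝ v) x := (h1.add h2).fderiv
  rw [h3]
  simp only [add_apply, inn_apply]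
  congr 1
  rw [EuclideanSpace.inner_single_left]
  by_cases hij : i = j
  · subst hij; simp
  · simp [hij]

theorem hm_uu {v : E n → ℝ} (hv : ContDiff ℝ ∞ v) (x : E n) : hm (uu v) x = gM v x := by
  ext i j
  rw [hm_apply, Hs_uu hv]
  rfl

theorem ta_uu {v : E n → ℝ} (hv : ContDiff ℝ ∞ v) : ta (uu v) = tauM v := by
  funext x
  unfold ta tauM
  rw [hm_uu hv]

/-- the instance attached to a solution -/
def xd {P v : E n → ℝ} (hP : PDat P) (hs : Sol P v) : XD n where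
  u := uu v
  Psi := ps P
  hu := uu_smooth hs.nice.smooth
  hPsi := ps_smooth hP.tst.smooth
  pos := by
    obtain ⟨lo, hi, hlo, hE⟩ := hs.ell
    intro x z hz
    have h1 := ((hE x).2 z).1
    have h2 : 0 < ∑ i, z i ^ 2 := by
      obtain ⟨i, hi⟩ : ∃ i, z i ≠ 0 := by
        by_contra hcon
        push Not at hcon
        exact hz (funext hcon)
      exact Finset.sum_pos' (fun i _ => sq_nonneg _) ⟨i, Finset.mem_univ _, by positivity⟩
    have h3 : ∀ i j, Hs (uu v) x i j = gM v x i j := fun i j => by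
      rw [← hm_uu hs.nice.smooth]; rfl
    simp only [h3]
    exact lt_of_lt_of_le (by positivity) h1
  ma := by
    intro x
    rw [hm_uu hs.nice.smooth, hs.ma x, fderiv_uu hs.nice.smooth]
    simp only [add_apply, innerSL_apply_apply, real_inner_self_eq_norm_sq, uu, ps]
    ring

theorem xd_Lf {P v : E n → ℝ} (hP : PDat P) (hs : Sol P v) (f : SA n) :
    ((xd hP hs).Lf f : E n → ℝ) = Lop v (f : E n → ℝ) := by
  funext x
  rw [XD.Lf_apply]
  show LA (ta (uu v)) _ x = _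
  rw [ta_uu hs.nice.smooth]
  rfl

end Crest.Agent.R238.IdM
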