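import Crest.Agent.R238.IdMain1
import Crest.Agent.R238.GapDat

/-! Row 238, IDENT (iii), part 2: non-compact integration by parts, the walls in the algebra `SA n`,
the reduction of `Ident n` to the corollary of the exact identity. (helper477) -/

set_option autoImplicit false
open scoped ContDiff Topology
open Set Filter MeasureTheory Finset

noncomputable section

namespace Crest.Agent.R238.IdM

open Crest.Agent.R238.XInst Crest.Agent.R238.Asm

variable {n m : ℕ}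

/-- `∫ L h dμ = 0` -/
theorem int_Lop {P v : E n → ℝ} (hP : PDat P) (hs : Sol P v) {h : E n → ℝ}
    (hh : ContDiff ℝ 2 h) (h1 : ∀ i, Gap.PG (Gap.pd i h))
    (h2 : ∀ i j, Gap.PG (fun x => Gap.H h x i j)) : ∫ x, Lop v h x * wt P x = 0 := by
  obtain ⟨lo, hi, M0, hlo, D⟩ := GapD.dat_of_sol hP hs
  have h0 : ∀ i, Gap.pd i (fun _ : E n => (1 : ℝ)) = fun _ => 0 := fun i => by
    funext x; simp [Gap.pd]
  have h := D.sym (f := fun _ => (1 : ℝ)) contDiff_const (Gap.pg_const 1)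
    (fun i => by rw [h0 i]; exact Gap.pg_const 0) hh h1 h2
  simp only [h0, mul_zero, zero_mul, Finset.sum_const_zero, integral_zero, one_mul, neg_zero] at h
  exact h

theorem pg_of_cs {f : E n → ℝ} (hf : Continuous f) (hs : HasCompactSupport f) : Gap.PG f := by
  obtain ⟨M, hM⟩ := hs.exists_bound_of_continuous hf
  exact Gap.PG.of_bdd (K := M) fun x => by simpa using hM x

theorem int_Lop_tst {P v : E n → ℝ} (hP : PDat P) (hs : Sol P v) {h : E n → ℝ} (hh : Tst h) :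
    ∫ x, Lop v h x * wt P x = 0 := by
  have c1 : ContDiff ℝ ∞ (fderiv ℝ h) := hh.smooth.fderiv_right (by simp)
  refine int_Lop hP hs (hh.smooth.of_le (by norm_cast)) (fun i => ?_) (fun i j => ?_)
  · refine pg_of_cs (c1.continuous.clm_apply continuous_const) ?_
    exact hh.supp.fderiv_apply (𝕜 := ℝ) _
  · have c2 : ContDiff ℝ ∞ (fderiv ℝ (fderiv ℝ h)) := c1.fderiv_right (by simp)
    refine pg_of_cs ((c2.continuous.clm_apply continuous_const).clm_apply continuous_const) ?_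
    have s1 : HasCompactSupport (fderiv ℝ h) := hh.supp.fderiv (𝕜 := ℝ)
    have s2 : HasCompactSupport (fderiv ℝ (fderiv ℝ h)) := s1.fderiv (𝕜 := ℝ)
    exact s2.comp_left (g := fun T : E n →L[ℝ] E n →L[ℝ] ℝ => T (ee i) (ee j)) rfl

/-- the wall: `Hs` -/
theorem Hs_wl {φ : ℝ → ℝ} (h : Soft.Wall φ) (a x : E n) (i j : Fin n) :
    Hs (wl a φ) x i j = deriv (deriv φ) (inner ℝ a x) * a i * a j := by
  unfold Hs
  rw [fderiv2_wl_apply h]
  simp [EuclideanSpace.inner_single_right]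

theorem pg_wl1 {φ : ℝ → ℝ} (h : Soft.Wall φ) (a : E n) (i : Fin n) :
    Gap.PG (Gap.pd i (wl a φ)) := by
  obtain ⟨C, hC0, hC⟩ := h.bdd'
  have e : Gap.pd i (wl a φ) = fun x => deriv φ (inner ℝ a x) * inner ℝ a (ee i) := by
    funext x; exact fderiv_wl_apply h a x (ee i)
  rw [e]
  refine Gap.PG.mul ?_ (Gap.pg_const _)
  have h1 : Gap.PG (fun x : E n => C * inner ℝ a x) := (Gap.pg_const C).mul (Gap.pg_inner a)
  refine h1.mono fun x => ?_
  rw [abs_mul, abs_of_nonneg hC0]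
  exact h.deriv_le hC _

theorem Hs_wl_bdd {φ : ℝ → ℝ} (h : Soft.Wall φ) (a : E n) (i j : Fin n) :
    ∃ C, ∀ x, |Hs (wl a φ) x i j| ≤ C := by
  obtain ⟨C, hC0, hC⟩ := h.bdd'
  refine ⟨C * |a i| * |a j|, fun x => ?_⟩
  rw [Hs_wl h, abs_mul, abs_mul]
  gcongr
  exact hC _

theorem pg_wl2 {φ : ℝ → ℝ} (h : Soft.Wall φ) (a : E n) (i j : Fin n) :
    Gap.PG (fun x => Gap.H (wl a φ) x i j) := by
  obtain ⟨C, hC⟩ := Hs_wl_bdd h a i j
  exact Gap.PG.of_bdd (K := C) hC

/-- `∫ tr(τ D²Ψ_k) dμ = ∫ x·∇Ψ_k dμ` -/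
theorem int_wall {P v : E n → ℝ} (hP : PDat P) (hs : Sol P v) {φ : ℝ → ℝ} (h : Soft.Wall φ)
    (a : E n) (i1 : Integrable fun x => fderiv ℝ (wl a φ) x x * wt P x)
    (i2 : Integrable fun x => (∑ i, ∑ j, tauM v x i j * Hs (wl a φ) x i j) * wt P x) :
    ∫ x, (∑ i, ∑ j, tauM v x i j * Hs (wl a φ) x i j) * wt P x
      = ∫ x, fderiv ℝ (wl a φ) x x * wt P x := by
  have h0 := int_Lop hP hs ((wl_smooth h a).of_le (by norm_cast)) (pg_wl1 h a) (pg_wl2 h a)
  have h1 : ∫ x, Lop v (wl a φ) x * wt P x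
      = (∫ x, (∑ i, ∑ j, tauM v x i j * Hs (wl a φ) x i j) * wt P x)
        - ∫ x, fderiv ℝ (wl a φ) x x * wt P x := by
    rw [← integral_sub i2 i1]
    refine integral_congr_ae (Eventually.of_forall fun x => ?_)
    simp only [Lop, LA]
    ring
  linarith

end Crest.Agent.R238.IdM
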