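import Crest.Agent.R238.IdMain2

/-! Row 238, IDENT (iii), part 3: `Ident n` from the wall inequality with local right-hand side.
(helper477) -/

set_option autoImplicit false
open scoped ContDiff Topology
open Set Filter MeasureTheory Finset

noncomputable section

namespace Crest.Agent.R238.IdM

open Crest.Agent.R238.XInst Crest.Agent.R238.Asm

variable {n m : ℕ}

/-- local right-hand side -/
def Nloc {ι : Type*} [Fintype ι] (v : E n → ℝ) (Φ : ι → E n → ℝ) (r : ι → ℝ) (x : E n) : ℝ :=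
  ∑ k, r k ^ 2 * ((∑ i, ∑ j, tauM v x i j * Hs (Φ k) x i j)
    + fderiv ℝ (fderiv ℝ (Φ k)) x x x)

/-- 390's inequality, in the form needed here -/
def Ring390 (n : ℕ) : Prop := ∀ P v : E n → ℝ, PDat P → Sol P v →
  ∀ (m : ℕ) (Φ : Option (Fin m) → E n → ℝ) (r : Option (Fin m) → ℝ),
    (∀ k, ContDiff ℝ ∞ (Φ k)) →
    (∀ x, ∑ k, fderiv ℝ (Φ k) x = fderiv ℝ (ps P) x) →
    (∀ k x w, 0 ≤ fderiv ℝ (fderiv ℝ (Φ k)) x w w) →
    Integrable (fun x => Nloc v Φ r x * wt P x) →
    ∀ ϕ : E n → ℝ, Tst ϕ →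
      2 * (∫ x, (∑ k, r k * fderiv ℝ (Φ k) x x) * LL v ϕ x * wt P x)
        - ∫ x, LL v ϕ x ^ 2 * wt P x ≤ ∫ x, Nloc v Φ r x * wt P x

/-- walls together with `V` -/
def wo (ν : Fin m → E n) (φ : Fin m → ℝ → ℝ) (V : E n → ℝ) : Option (Fin m) → E n → ℝ
  | none => V
  | some k => wl (ν k) (φ k)

/-- coefficients together with `0` -/
def ro (r : Fin m → ℝ) : Option (Fin m) → ℝ
  | none => 0
  | some k => r k

theorem int_wallterm {P v : E n → ℝ} (hP : PDat P) (hs : Sol P v) {φ : ℝ → ℝ}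
    (h : Soft.Wall φ) (a : E n) :
    Integrable (fun x => (∑ i, ∑ j, tauM v x i j * Hs (wl a φ) x i j) * wt P x) := by
  obtain ⟨lo, hi, M0, hlo, D⟩ := GapD.dat_of_sol hP hs
  have hc : ∀ i j, Continuous (fun x => tauM v x i j) := fun i j => (D.hτ i j).continuous
  have hh : ∀ i j, Continuous (fun x => Hs (wl a φ) x i j) := fun i j =>
    (Hs_smooth (wl_smooth h a) i j).continuous
  refine Gap.integrable_pg D.hP.continuous D.bP ?_ ?_
  · exact continuous_finsetSum _ fun i _ => continuous_finsetSum _ fun j _ => (hc i j).mul (hh i j)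
  · exact Gap.PG.sum _ fun i _ => Gap.PG.sum _ fun j _ => (D.pgτ i j).mul (pg_wl2 h a i j)

theorem int_wall1 {P : E n → ℝ} (hP : PDat P) {φ : ℝ → ℝ} (h : Soft.Wall φ) (a : E n) :
    Integrable (fun x => fderiv ℝ (wl a φ) x x * wt P x) := by
  obtain ⟨M, hM⟩ := cs_bounded hP.tst.smooth.continuous hP.tst.supp
  refine Gap.integrable_pg hP.tst.smooth.continuous hM ?_ ?_
  · have := ((wl_smooth h a).fderiv_right (m := ∞) (by simp))
    exact (this.clm_apply contDiff_id).continuous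
  · have e : (fun x => fderiv ℝ (wl a φ) x x) = fun x => ∑ b, x b * Gap.pd b (wl a φ) x := by
      funext x; exact Gap.fderiv_apply_eq_sum _ _ _
    rw [e]
    exact Gap.PG.sum _ fun b _ => (Gap.pg_coord b).mul (pg_wl1 h a b)

theorem int_wall2 {P : E n → ℝ} (hP : PDat P) {φ : ℝ → ℝ} (h : Soft.Wall φ) (a : E n) :
    Integrable (fun x => fderiv ℝ (fderiv ℝ (wl a φ)) x x x * wt P x) := by
  obtain ⟨M, hM⟩ := cs_bounded hP.tst.smooth.continuous hP.tst.supp
  obtain ⟨C, hC0, hC⟩ := h.bdd'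
  refine Gap.integrable_pg hP.tst.smooth.continuous hM ?_ ?_
  · have h1 := ((wl_smooth h a).fderiv_right (m := ∞) (by simp))
    have h2 := (h1.fderiv_right (m := ∞) (by simp))
    exact ((h2.clm_apply contDiff_id).clm_apply contDiff_id).continuous
  · have e : (fun x => fderiv ℝ (fderiv ℝ (wl a φ)) x x x)
        = fun x => deriv (deriv φ) (inner ℝ a x) * inner ℝ a x * inner ℝ a x := by
      funext x; exact fderiv2_wl_apply h a x x x
    rw [e]
    exact ((Gap.PG.of_bdd (K := C) fun x => hC _).mul (Gap.pg_inner a)).mul (Gap.pg_inner a)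

theorem int_sum2 {A B : Fin m → E n → ℝ} (c : Fin m → ℝ) (hA : ∀ k, Integrable (A k))
    (hB : ∀ k, Integrable (B k)) :
    ∫ x, ∑ k, c k * (A k x + B k x) = ∑ k, c k * ((∫ x, A k x) + ∫ x, B k x) := by
  have h : ∀ k ∈ (Finset.univ : Finset (Fin m)), Integrable (fun x => c k * (A k x + B k x)) :=
    fun k _ => ((hA k).add (hB k)).const_mul (c k)
  rw [integral_finsetSum _ h]
  refine Finset.sum_congr rfl fun k _ => ?_
  rw [integral_const_mul, integral_add (hA k) (hB k)]

theorem ident_of_ring (h390 : Ring390 n) : Ident n := by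
  intro P v hP hs
  refine ⟨fun h hh => int_Lop_tst hP hs hh, ?_⟩
  intro m ν φ r V b hw hV hVe hVc hU ϕ hϕ
  set Φ := wo ν φ V with hΦ
  have hsm : ∀ k, ContDiff ℝ ∞ (Φ k) := by
    intro k
    cases k with
    | none => exact hV
    | some k => exact wl_smooth (hw k) _
  have hsum : ∀ x, ∑ k, fderiv ℝ (Φ k) x = fderiv ℝ (ps P) x := by
    intro x
    have e1 : ps P = fun x => (∑ k, Φ k x) - b := by
      funext x
      rw [Fintype.sum_option]
      have := hU x
      rw [Hw_eq] at this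
      show ‖x‖ ^ 2 / 2 + P x = V x + (∑ k, wl (ν k) (φ k) x) - b
      rw [this]; ring
    rw [e1]
    have h1 : HasFDerivAt (fun x => ∑ k, Φ k x) (∑ k, fderiv ℝ (Φ k) x) x :=
      HasFDerivAt.fun_sum fun k _ => ((hsm k).differentiable (by simp) x).hasFDerivAt
    exact ((h1.sub_const b).fderiv).symm
  have hpos : ∀ k x w, 0 ≤ fderiv ℝ (fderiv ℝ (Φ k)) x w w := by
    intro k
    cases k with
    | none => exact fun x w => convex_snd (hV.of_le (by norm_cast)) hVc x w
    | some k =>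
      exact fun x w => convex_snd (f := wl (ν k) (φ k))
        ((wl_smooth (hw k) (ν k)).of_le (by norm_cast)) (wl_convex (hw k) (ν k)) x w
  have hN : ∀ x, Nloc v Φ (ro r) x = ∑ k, r k ^ 2 *
      ((∑ i, ∑ j, tauM v x i j * Hs (wl (ν k) (φ k)) x i j)
        + fderiv ℝ (fderiv ℝ (wl (ν k) (φ k))) x x x) := by
    intro x
    unfold Nloc
    rw [Fintype.sum_option]
    simp [ro, hΦ, wo]
  have i1 : ∀ k, Integrable (fun x => (∑ i, ∑ j, tauM v x i j * Hs (wl (ν k) (φ k)) x i j) * wt P x) :=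
    fun k => int_wallterm hP hs (hw k) (ν k)
  have i2 : ∀ k, Integrable (fun x => fderiv ℝ (wl (ν k) (φ k)) x x * wt P x) :=
    fun k => int_wall1 hP (hw k) (ν k)
  have i3 : ∀ k, Integrable (fun x => fderiv ℝ (fderiv ℝ (wl (ν k) (φ k))) x x x * wt P x) :=
    fun k => int_wall2 hP (hw k) (ν k)
  have hNe : (fun x => Nloc v Φ (ro r) x * wt P x) = fun x => ∑ k, r k ^ 2 *
      ((∑ i, ∑ j, tauM v x i j * Hs (wl (ν k) (φ k)) x i j) * wt P x
        + fderiv ℝ (fderiv ℝ (wl (ν k) (φ k))) x x x * wt P x) := by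
    funext x
    rw [hN, Finset.sum_mul]
    exact Finset.sum_congr rfl fun k _ => by ring
  have hNi : Integrable (fun x => Nloc v Φ (ro r) x * wt P x) := by
    rw [hNe]
    exact integrable_finsetSum _ fun k _ => ((i1 k).add (i3 k)).const_mul _
  have hNr : ∫ x, Nloc v Φ (ro r) x * wt P x = ∫ x, Soft.Nr ν φ r x * wt P x := by
    have e2 : ∀ x, Soft.Nr ν φ r x * wt P x = ∑ k, r k ^ 2 *
      (fderiv ℝ (wl (ν k) (φ k)) x x * wt P x
        + fderiv ℝ (fderiv ℝ (wl (ν k) (φ k))) x x x * wt P x) := by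
      intro x
      rw [Nr_eq hw, Finset.sum_mul]
      exact Finset.sum_congr rfl fun k _ => by ring
    have g1 := int_sum2 (fun k => r k ^ 2) i1 i3
    have g2 := int_sum2 (fun k => r k ^ 2) i2 i3
    calc ∫ x, Nloc v Φ (ro r) x * wt P x = _ := by rw [hNe]
      _ = _ := g1
      _ = _ := by
        refine Finset.sum_congr rfl fun k _ => ?_
        rw [int_wall hP hs (hw k) (ν k) (i2 k) (i1 k)]
      _ = _ := g2.symm
      _ = _ := integral_congr_ae (Eventually.of_forall fun x => (e2 x).symm)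
  have hf : ∀ x, ∑ k, ro r k * fderiv ℝ (Φ k) x x = Soft.fr ν φ r x := by
    intro x
    rw [fr_eq hw, Fintype.sum_option]
    simp [ro, hΦ, wo]
  have := h390 P v hP hs m Φ (ro r) hsm hsum hpos hNi ϕ hϕ
  simp only [hf] at this
  rw [hNr] at this
  exact this

end Crest.Agent.R238.IdM
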