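import Mathlib

/-!
# Row 238, node IDENT, part 1: abstract Hessian calculus

`A` is a commutative `ℝ`-algebra with commuting derivations `D i`, a potential whose
gradient is `th i`, Hessian `tau i j = D i (th j)` with inverse `g`.
-/

open Finset

namespace Crest.Agent.R238

/-- Data of an abstract Hessian structure. -/
structure HData (ι A : Type*) [Fintype ι] [DecidableEq ι] [CommRing A] [Algebra ℝ A] where
  D : ι → Derivation ℝ A A
  Dcomm : ∀ i j f, D i (D j f) = D j (D i f)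
  th : ι → A
  tau_symm : ∀ i j, D i (th j) = D j (th i)
  g : ι → ι → A
  g_symm : ∀ i j, g i j = g j i
  g_inv : ∀ i j, ∑ k, D i (th k) * g k j = if i = j then 1 else 0

namespace HData

variable {ι A : Type*} [Fintype ι] [DecidableEq ι] [CommRing A] [Algebra ℝ A]
variable (S : HData ι A)

/-- Hessian. -/
def tau (i j : ι) : A := S.D i (S.th j)

lemma tau_comm (i j : ι) : S.tau i j = S.tau j i := S.tau_symm i j

lemma tau_g (i j : ι) : ∑ k, S.tau i k * S.g k j = if i = j then 1 else 0 := S.g_inv i j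

lemma g_tau (i j : ι) : ∑ k, S.g i k * S.tau k j = if i = j then 1 else 0 := by
  have h := S.tau_g j i
  rw [show (if i = j then (1 : A) else 0) = if j = i then 1 else 0 by
    by_cases hh : i = j <;> simp [hh, eq_comm], ← h]
  refine sum_congr rfl fun k _ => ?_
  rw [S.tau_comm j k, S.g_symm i k, mul_comm]

/-- Contraction lemma. -/
lemma g_tau_contr (a : ι) (X : ι → A) :
    ∑ i, S.g a i * ∑ k, S.tau i k * X k = X a := by
  simp_rw [mul_sum]
  rw [sum_comm]
  calc ∑ k, ∑ i, S.g a i * (S.tau i k * X k)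
      = ∑ k, (∑ i, S.g a i * S.tau i k) * X k := by
        refine sum_congr rfl fun k _ => ?_
        rw [sum_mul]; refine sum_congr rfl fun i _ => by ring
    _ = X a := by simp [S.g_tau]

lemma tau_g_contr (a : ι) (X : ι → A) :
    ∑ i, S.tau a i * ∑ k, S.g i k * X k = X a := by
  simp_rw [mul_sum]
  rw [sum_comm]
  calc ∑ k, ∑ i, S.tau a i * (S.g i k * X k)
      = ∑ k, (∑ i, S.tau a i * S.g i k) * X k := by
        refine sum_congr rfl fun k _ => ?_
        rw [sum_mul]; refine sum_congr rfl fun i _ => by ring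
    _ = X a := by simp [S.tau_g]

/-- Third derivative of the potential. -/
def T (e b c : ι) : A := S.D e (S.tau b c)

lemma T_swap12 (e b c : ι) : S.T e b c = S.T b e c := by
  simp only [T, tau]; exact S.Dcomm e b _

lemma T_swap23 (e b c : ι) : S.T e b c = S.T e c b := by
  simp only [T]; rw [S.tau_comm]

lemma T_swap13 (e b c : ι) : S.T e b c = S.T c b e := by
  rw [S.T_swap12, S.T_swap23, S.T_swap12]

/-- derivative of the inverse matrix -/
lemma D_g (c a b : ι) :
    S.D c (S.g a b) = - ∑ k, ∑ l, S.g a k * (S.T c k l * S.g l b) := by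
  have h : ∀ i, ∑ k, S.tau i k * S.D c (S.g k b) = - ∑ k, S.T c i k * S.g k b := by
    intro i
    have h1 : S.D c (∑ k, S.tau i k * S.g k b) = 0 := by
      rw [S.tau_g]
      by_cases hib : i = b <;> simp [hib]
    rw [map_sum] at h1
    simp only [Derivation.leibniz, smul_eq_mul] at h1
    rw [sum_add_distrib] at h1
    have h2 : ∑ k, S.g k b * S.D c (S.tau i k) = ∑ k, S.T c i k * S.g k b := by
      refine sum_congr rfl fun k _ => by simp only [T]; ring
    rw [h2] at h1
    exact eq_neg_of_add_eq_zero_left h1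
  have h3 := S.g_tau_contr a (fun k => S.D c (S.g k b))
  rw [← h3]
  simp_rw [h]
  rw [← sum_neg_distrib]
  refine sum_congr rfl fun k _ => ?_
  rw [mul_neg, mul_sum]

/-- derivation along the dual coordinates `∂/∂x_a = ∑ g a i ∂_i`. -/
def DU (a : ι) : Derivation ℝ A A := ∑ i, S.g a i • S.D i

lemma DU_apply (a : ι) (f : A) : S.DU a f = ∑ i, S.g a i * S.D i f := by
  have h : ((∑ i, S.g a i • S.D i : Derivation ℝ A A) : A → A)
      = ∑ i, ((S.g a i • S.D i : Derivation ℝ A A) : A → A) :=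
    map_sum (Derivation.coeFnAddMonoidHom (R := ℝ) (A := A) (M := A))
      (fun i => S.g a i • S.D i) univ
  have h2 := congrFun h f
  simpa [DU, Finset.sum_apply] using h2

/-- `∂^a g_{bc}` totally symmetric -/
lemma DU_g (a b c : ι) :
    S.DU a (S.g b c) = - ∑ i, ∑ k, ∑ l, S.g a i * (S.g b k * (S.g c l * S.T i k l)) := by
  rw [DU_apply, ← sum_neg_distrib]
  refine sum_congr rfl fun i _ => ?_
  rw [S.D_g, mul_neg, mul_sum]
  congr 1
  refine sum_congr rfl fun k _ => ?_
  rw [mul_sum]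
  refine sum_congr rfl fun l _ => ?_
  rw [S.g_symm l c]; ring

lemma DU_g_swap23 (a b c : ι) : S.DU a (S.g b c) = S.DU a (S.g c b) := by
  rw [S.g_symm b c]

lemma DU_g_swap12 (a b c : ι) : S.DU a (S.g b c) = S.DU b (S.g a c) := by
  rw [S.DU_g, S.DU_g]
  congr 1
  rw [sum_comm]
  refine sum_congr rfl fun i _ => sum_congr rfl fun k _ => sum_congr rfl fun l _ => ?_
  rw [S.T_swap12]; ring

lemma DU_g_swap13 (a b c : ι) : S.DU a (S.g b c) = S.DU c (S.g b a) := by
  rw [S.DU_g_swap23, S.DU_g_swap12, S.DU_g_swap23]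

lemma DU_comm (a b : ι) (f : A) : S.DU a (S.DU b f) = S.DU b (S.DU a f) := by
  have key : ∀ a b : ι, S.DU a (S.DU b f) = ∑ j, S.DU a (S.g b j) * S.D j f
      + ∑ j, ∑ i, S.g b j * (S.g a i * S.D i (S.D j f)) := by
    intro a b
    rw [S.DU_apply b, map_sum, ← sum_add_distrib]
    refine sum_congr rfl fun j _ => ?_
    rw [Derivation.leibniz, smul_eq_mul, smul_eq_mul, S.DU_apply a (S.D j f), mul_sum]
    ring
  rw [key, key]
  congr 1
  · refine sum_congr rfl fun j _ => ?_
    rw [S.DU_g_swap12]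
  · rw [sum_comm]
    refine sum_congr rfl fun i _ => sum_congr rfl fun j _ => ?_
    rw [S.Dcomm i j]; ring

lemma DU_D (b c : ι) (f : A) :
    S.DU b (S.D c f) = S.D c (S.DU b f) - ∑ i, S.D c (S.g b i) * S.D i f := by
  rw [S.DU_apply, S.DU_apply, map_sum, ← sum_sub_distrib]
  refine sum_congr rfl fun i _ => ?_
  rw [Derivation.leibniz, smul_eq_mul, smul_eq_mul, S.Dcomm i c]; ring

lemma D_DU (b c : ι) (f : A) :
    S.D c (S.DU b f) = S.DU b (S.D c f) + ∑ i, S.D c (S.g b i) * S.D i f := by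
  rw [S.DU_D]; ring

lemma DU_th (a b : ι) : S.DU a (S.th b) = if a = b then 1 else 0 := by
  rw [S.DU_apply]; exact S.g_tau a b

/-- lowering: `D c f = ∑ a, tau c a * DU a f`. -/
lemma D_eq (c : ι) (f : A) : S.D c f = ∑ a, S.tau c a * S.DU a f := by
  simp_rw [S.DU_apply]
  rw [S.tau_g_contr c (fun i => S.D i f)]

/-- gradient of the dual weight -/
def Psi (a : ι) : A := ∑ c, (S.g a c * S.th c - S.D c (S.g a c))

/-- Hessian of the dual weight -/
def H (a b : ι) : A := S.DU a (S.Psi b)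

/-- `v^a = ∂^a φ` -/
def v (φ : A) (a : ι) : A := S.DU a φ

/-- `A^a_c = ∂_c v^a` -/
def Am (φ : A) (a c : ι) : A := S.D c (S.v φ a)

/-- `B_{d c}^a = ∂_d A^a_c` -/
def B (φ : A) (d a c : ι) : A := S.D d (S.Am φ a c)

lemma B_symm (φ : A) (d a c : ι) : S.B φ d a c = S.B φ c a d := by
  simp only [B, Am]; exact S.Dcomm d c _

/-- `p^{ab}` -/
def p (φ : A) (a b : ι) : A := S.DU a (S.v φ b)

lemma p_symm (φ : A) (a b : ι) : S.p φ a b = S.p φ b a := by
  simp only [p, v]; exact S.DU_comm a b φ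

lemma p_eq (φ : A) (a b : ι) : S.p φ a b = ∑ k, S.g a k * S.Am φ b k := by
  simp only [p, Am]; rw [S.DU_apply]

lemma Am_eq (φ : A) (a c : ι) : S.Am φ a c = ∑ k, S.tau c k * S.p φ k a := by
  simp only [Am, p]; rw [S.D_eq]

/-- `q_{ab}` -/
def q (φ : A) (a b : ι) : A := ∑ j, S.tau b j * S.Am φ j a

lemma q_symm (φ : A) (a b : ι) : S.q φ a b = S.q φ b a := by
  simp only [q]
  simp_rw [S.Am_eq, mul_sum]
  rw [sum_comm]
  refine sum_congr rfl fun i _ => sum_congr rfl fun j _ => ?_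
  rw [S.p_symm φ i j]; ring

lemma q_eq' (φ : A) (a b : ι) : S.q φ a b = ∑ j, S.tau a j * S.Am φ j b := by
  rw [q_symm]; rfl

/-- `ψ = -(L+1) φ` -/
def psi (φ : A) : A := ∑ d, (S.th d * S.v φ d - S.D d (S.v φ d)) - φ

/-- `z_a = ∂_a ψ` -/
def z (φ : A) (a : ι) : A := S.D a (S.psi φ)

/-- `N^a_d = ∂^a z_d` -/
def N (φ : A) (a d : ι) : A := S.DU a (S.z φ d)

/-- `L ψ` -/
def Lpsi (φ : A) : A := ∑ a, (S.DU a (S.z φ a) - S.Psi a * S.z φ a)

lemma z1 (φ : A) (a : ι) :
    S.z φ a = ∑ d, (S.th d * S.Am φ d a - S.D d (S.Am φ d a)) := by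
  simp only [z, psi]
  rw [map_sub, map_sum]
  have h : ∀ d, S.D a (S.th d * S.v φ d - S.D d (S.v φ d))
      = (S.th d * S.Am φ d a - S.D d (S.Am φ d a)) + S.tau a d * S.v φ d := by
    intro d
    rw [map_sub, Derivation.leibniz, smul_eq_mul, smul_eq_mul, S.Dcomm a d]
    simp only [Am, tau]; ring
  simp_rw [h]
  rw [sum_add_distrib]
  have h2 : ∑ d, S.tau a d * S.v φ d = S.D a φ := by
    simp only [v]; rw [← S.D_eq]
  rw [h2]; ring

lemma psi_tau (j : ι) : ∑ b, (S.Psi b * S.tau b j - S.DU b (S.tau b j)) = S.th j := by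
  have h1 : ∀ b, S.Psi b * S.tau b j = ∑ c, (S.g b c * S.th c * S.tau b j)
      - ∑ c, S.D c (S.g b c) * S.tau b j := by
    intro b
    rw [Psi, sum_mul, ← sum_sub_distrib]
    refine sum_congr rfl fun c _ => by ring
  have h2 : ∀ c, ∑ b, S.D c (S.g b c) * S.tau b j = - ∑ b, S.g b c * S.D c (S.tau b j) := by
    intro c
    have h : S.D c (∑ b, S.g c b * S.tau b j) = 0 := by
      rw [S.g_tau]
      by_cases hcj : c = j <;> simp [hcj]
    rw [map_sum] at h
    simp only [Derivation.leibniz, smul_eq_mul] at h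
    rw [sum_add_distrib] at h
    have e1 : ∑ b, S.g c b * S.D c (S.tau b j) = ∑ b, S.g b c * S.D c (S.tau b j) :=
      sum_congr rfl fun b _ => by rw [S.g_symm c b]
    have e2 : ∑ b, S.tau b j * S.D c (S.g c b) = ∑ b, S.D c (S.g b c) * S.tau b j :=
      sum_congr rfl fun b _ => by rw [S.g_symm c b]; ring
    rw [e1, e2] at h
    linear_combination h
  rw [sum_sub_distrib]
  simp_rw [h1]
  rw [sum_sub_distrib]
  have h3 : ∑ b, ∑ c, S.D c (S.g b c) * S.tau b j = - ∑ b, S.DU b (S.tau b j) := by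
    rw [sum_comm]
    simp_rw [h2, S.DU_apply]
    rw [sum_neg_distrib]
    congr 1
    rw [sum_comm]
  have h4 : ∑ b, ∑ c, S.g b c * S.th c * S.tau b j = S.th j := by
    rw [sum_comm]
    have : ∀ c, ∑ b, S.g b c * S.th c * S.tau b j = S.th c * (if c = j then 1 else 0) := by
      intro c
      rw [← S.g_tau c j, mul_sum]
      refine sum_congr rfl fun b _ => ?_
      rw [S.g_symm b c]; ring
    simp_rw [this]
    simp
  rw [h3, h4]; ring

lemma z2 (φ : A) (a : ι) :
    S.z φ a = ∑ b, (S.Psi b * S.q φ a b - S.DU b (S.q φ a b)) := by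
  rw [S.z1]
  have h : ∀ b, S.Psi b * S.q φ a b - S.DU b (S.q φ a b)
      = ∑ j, ((S.Psi b * S.tau b j - S.DU b (S.tau b j)) * S.Am φ j a
          - S.tau b j * S.DU b (S.Am φ j a)) := by
    intro b
    rw [q, mul_sum, map_sum, ← sum_sub_distrib]
    refine sum_congr rfl fun j _ => ?_
    rw [Derivation.leibniz, smul_eq_mul, smul_eq_mul]; ring
  simp_rw [h]
  rw [sum_comm]
  refine sum_congr rfl fun j _ => ?_
  rw [sum_sub_distrib, ← sum_mul, S.psi_tau]
  congr 1
  rw [S.D_eq j]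
  refine sum_congr rfl fun b _ => ?_
  rw [S.tau_comm]

end HData

end Crest.Agent.R238
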