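import Crest.Agent.R238.Ident1

/-!
# Row 238, node IDENT, part 2: the pointwise identity `X1 + X2 + X3 - X4 = T4`
-/

open Finset

namespace Crest.Agent.R238

namespace HData

variable {ι A : Type*} [Fintype ι] [DecidableEq ι] [CommRing A] [Algebra ℝ A]
variable (S : HData ι A)

set_option linter.unusedSectionVars false

lemma sum_pull3 {M : Type*} [AddCommMonoid M] (f : ι → ι → ι → M) :
    ∑ a, ∑ b, ∑ c, f a b c = ∑ c, ∑ a, ∑ b, f a b c := by
  calc ∑ a, ∑ b, ∑ c, f a b c = ∑ a, ∑ c, ∑ b, f a b c :=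
        sum_congr rfl fun a _ => sum_comm
    _ = _ := sum_comm

lemma sum_pull3' {κ : Type*} [Fintype κ] {M : Type*} [AddCommMonoid M] (f : ι → ι → κ → M) :
    ∑ a, ∑ b, ∑ c, f a b c = ∑ c, ∑ a, ∑ b, f a b c := by
  calc ∑ a, ∑ b, ∑ c, f a b c = ∑ a, ∑ c, ∑ b, f a b c :=
        sum_congr rfl fun a _ => sum_comm
    _ = _ := sum_comm

lemma sum_pull4 {M : Type*} [AddCommMonoid M] (f : ι → ι → ι → ι → M) :
    ∑ a, ∑ b, ∑ c, ∑ d, f a b c d = ∑ d, ∑ a, ∑ b, ∑ c, f a b c d := by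
  calc ∑ a, ∑ b, ∑ c, ∑ d, f a b c d = ∑ a, ∑ d, ∑ b, ∑ c, f a b c d :=
        sum_congr rfl fun a _ => sum_pull3 _
    _ = _ := sum_comm

lemma sum_pull5 {M : Type*} [AddCommMonoid M] (f : ι → ι → ι → ι → ι → M) :
    ∑ a, ∑ b, ∑ c, ∑ d, ∑ e, f a b c d e = ∑ e, ∑ a, ∑ b, ∑ c, ∑ d, f a b c d e := by
  calc ∑ a, ∑ b, ∑ c, ∑ d, ∑ e, f a b c d e = ∑ a, ∑ e, ∑ b, ∑ c, ∑ d, f a b c d e :=
        sum_congr rfl fun a _ => sum_pull4 _
    _ = _ := sum_comm

/-- the trace part of the quartic square -/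
def X6 (φ : A) : A := ∑ d, ∑ e, S.g d e * ∑ a, ∑ c, S.B φ d a c * S.B φ e c a

/-- the norm part of the quartic square -/
def X5 (φ : A) : A := ∑ d, ∑ e, S.g d e * ∑ a, ∑ a', S.tau a a' *
  ∑ b, ∑ b', S.g b b' * (S.B φ d a b * S.B φ e a' b')

def X1 (φ : A) : A := ∑ a, ∑ d, ∑ e, S.B φ e d a * S.DU a (S.Am φ e d)

def X2 (φ : A) : A := ∑ a, ∑ d, ∑ e, ∑ i, S.Am φ d a * (S.D e (S.g a i) * S.B φ i e d)

def X3 (φ : A) : A := ∑ c, ∑ a, ∑ b, S.DU b (S.p φ c a) * S.D c (S.q φ a b)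

def X4 (φ : A) : A := ∑ c, ∑ a, ∑ b, ∑ i, S.p φ c a * (S.D c (S.g b i) * S.D i (S.q φ a b))

lemma X1_eq (φ : A) : S.X1 φ = S.X6 φ := by
  simp only [X1, X6]
  have h : ∀ a d e, S.B φ e d a * S.DU a (S.Am φ e d)
      = ∑ i, S.g a i * (S.B φ a d e * S.B φ i e d) := by
    intro a d e
    rw [S.DU_apply, mul_sum]
    refine sum_congr rfl fun i _ => ?_
    rw [S.B_symm φ e d a]; simp only [B]; ring
  simp_rw [h]
  refine sum_congr rfl fun a _ => ?_
  rw [sum_pull3]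
  refine sum_congr rfl fun i _ => ?_
  simp_rw [mul_sum]

/-- `B` with two upper indices. -/
def Bup (φ : A) (b c a : ι) : A := ∑ k, S.g c k * ∑ i, S.g b i * S.B φ i a k

lemma DU_p (φ : A) (b c a : ι) :
    S.DU b (S.p φ c a) = ∑ k, S.DU b (S.g c k) * S.Am φ a k + S.Bup φ b c a := by
  rw [S.p_eq, map_sum, Bup, ← sum_add_distrib]
  refine sum_congr rfl fun k _ => ?_
  rw [Derivation.leibniz, smul_eq_mul, smul_eq_mul, S.DU_apply b (S.Am φ a k)]
  simp only [B]; ring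

lemma X34 (φ : A) : S.X3 φ - S.X4 φ
    = ∑ c, ∑ a, ∑ b, S.Bup φ b c a * S.D c (S.q φ a b) := by
  have h4 : S.X4 φ = ∑ c, ∑ a, ∑ b, (∑ k, S.DU b (S.g c k) * S.Am φ a k)
      * S.D c (S.q φ a b) := by
    have e1 : S.X4 φ = ∑ i, ∑ c, ∑ a, ∑ b,
        S.p φ c a * (S.D c (S.g b i) * S.D i (S.q φ a b)) := by
      rw [X4, sum_pull4]
    rw [e1]
    refine sum_congr rfl fun i _ => ?_
    rw [sum_comm]
    refine sum_congr rfl fun a _ => ?_
    rw [sum_comm]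
    refine sum_congr rfl fun b _ => ?_
    rw [← (show (∑ c, S.p φ c a * S.D c (S.g b i)) * S.D i (S.q φ a b)
      = ∑ c, S.p φ c a * (S.D c (S.g b i) * S.D i (S.q φ a b)) by
        rw [sum_mul]; exact sum_congr rfl fun c _ => by ring)]
    congr 1
    have e2 : ∀ k, S.DU b (S.g i k) * S.Am φ a k
        = ∑ c, S.g c k * S.Am φ a k * S.D c (S.g b i) := by
      intro k
      rw [S.DU_g_swap13 b i k, S.DU_g_swap23 k i b, S.DU_apply, sum_mul]
      refine sum_congr rfl fun c _ => ?_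
      rw [S.g_symm k c]; ring
    simp_rw [e2]
    rw [sum_comm]
    refine sum_congr rfl fun c _ => ?_
    rw [S.p_eq, sum_mul]
  rw [h4, X3, ← sum_sub_distrib]
  refine sum_congr rfl fun c _ => ?_
  rw [← sum_sub_distrib]
  refine sum_congr rfl fun a _ => ?_
  rw [← sum_sub_distrib]
  refine sum_congr rfl fun b _ => ?_
  rw [S.DU_p]; ring

lemma D_q (φ : A) (c a b : ι) :
    S.D c (S.q φ a b) = ∑ j, S.T c a j * S.Am φ j b + ∑ j, S.tau a j * S.B φ c j b := by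
  rw [S.q_eq', map_sum, ← sum_add_distrib]
  refine sum_congr rfl fun j _ => ?_
  rw [Derivation.leibniz, smul_eq_mul, smul_eq_mul]
  simp only [T, B]; ring

lemma X5_eq (φ : A) :
    ∑ c, ∑ a, ∑ b, S.Bup φ b c a * ∑ j, S.tau a j * S.B φ c j b = S.X5 φ := by
  simp only [X5, Bup]
  -- expand both sides completely
  have hL : ∀ c a b, (∑ k, S.g c k * ∑ i, S.g b i * S.B φ i a k)
        * ∑ j, S.tau a j * S.B φ c j b
      = ∑ j, ∑ k, ∑ i, S.g c k * (S.tau j a * (S.g b i * (S.B φ c j b * S.B φ k a i))) := by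
    intro c a b
    rw [mul_sum]
    refine sum_congr rfl fun j _ => ?_
    rw [sum_mul]
    refine sum_congr rfl fun k _ => ?_
    rw [mul_sum, sum_mul]
    refine sum_congr rfl fun i _ => ?_
    rw [S.B_symm φ i a k, S.tau_comm a j]; ring
  simp_rw [hL]
  simp_rw [mul_sum]
  -- LHS : ∑ c a b j k i ;  RHS : ∑ c k j a b i
  refine sum_congr rfl fun c _ => ?_
  -- ∑ a b j k i  vs ∑ k j a b i
  calc ∑ a, ∑ b, ∑ j, ∑ k, ∑ i,
        S.g c k * (S.tau j a * (S.g b i * (S.B φ c j b * S.B φ k a i)))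
      = ∑ k, ∑ a, ∑ b, ∑ j, ∑ i,
        S.g c k * (S.tau j a * (S.g b i * (S.B φ c j b * S.B φ k a i))) :=
        sum_pull4 (fun a b j k => ∑ i, S.g c k * (S.tau j a * (S.g b i *
          (S.B φ c j b * S.B φ k a i))))
    _ = _ := by
        refine sum_congr rfl fun k _ => ?_
        exact sum_pull3 (fun a b j => ∑ i, S.g c k * (S.tau j a * (S.g b i *
          (S.B φ c j b * S.B φ k a i))))

/-- common normal form for the mixed term -/
def Y2 (φ : A) : A := ∑ a, ∑ c, ∑ k, ∑ i, ∑ j,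
  S.g c k * (S.B φ k a i * (S.T c a j * S.p φ i j))

lemma Y2_left (φ : A) :
    ∑ c, ∑ a, ∑ b, S.Bup φ b c a * ∑ j, S.T c a j * S.Am φ j b = S.Y2 φ := by
  simp only [Y2]
  rw [sum_comm]
  refine sum_congr rfl fun a _ => sum_congr rfl fun c _ => ?_
  simp only [Bup]
  have e1 : ∀ b, (∑ k, S.g c k * ∑ i, S.g b i * S.B φ i a k) * ∑ j, S.T c a j * S.Am φ j b
      = ∑ k, ∑ i, ∑ j, S.g c k * (S.B φ k a i * (S.T c a j * (S.g i b * S.Am φ j b))) := by
    intro b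
    rw [sum_mul]
    refine sum_congr rfl fun k _ => ?_
    rw [mul_assoc, sum_mul, mul_sum]
    refine sum_congr rfl fun i _ => ?_
    rw [mul_sum, mul_sum]
    refine sum_congr rfl fun j _ => ?_
    rw [S.B_symm φ i a k, S.g_symm b i]; ring
  simp_rw [e1]
  rw [sum_comm]
  refine sum_congr rfl fun k _ => ?_
  rw [sum_comm]
  refine sum_congr rfl fun i _ => ?_
  rw [sum_comm]
  refine sum_congr rfl fun j _ => ?_
  rw [S.p_eq]
  simp_rw [mul_sum]

lemma Y2_right (φ : A) : - S.X2 φ = S.Y2 φ := by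
  simp only [X2, Y2]
  -- X2 = ∑ a d e i, A d a * (D e (g a i) * B i e d)
  have e1 : ∀ a d e i, - (S.Am φ d a * (S.D e (S.g a i) * S.B φ i e d))
      = ∑ k, ∑ l, S.g l i * (S.B φ i e d * (S.T e k l * (S.g k a * S.Am φ d a))) := by
    intro a d e i
    rw [S.D_g]
    rw [show -(S.Am φ d a * ((-∑ k, ∑ l, S.g a k * (S.T e k l * S.g l i)) * S.B φ i e d))
      = (∑ k, ∑ l, S.g a k * (S.T e k l * S.g l i)) * (S.Am φ d a * S.B φ i e d) by ring]
    rw [sum_mul]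
    refine sum_congr rfl fun k _ => ?_
    rw [sum_mul]
    refine sum_congr rfl fun l _ => ?_
    rw [S.g_symm a k]; ring
  simp_rw [← sum_neg_distrib, e1]
  -- LHS : ∑ a d e i k l ;  pull a inside : ∑ d e i k l a
  have e2 : ∑ a, ∑ d, ∑ e, ∑ i, ∑ k, ∑ l,
      S.g l i * (S.B φ i e d * (S.T e k l * (S.g k a * S.Am φ d a)))
      = ∑ d, ∑ e, ∑ i, ∑ k, ∑ l, S.g l i * (S.B φ i e d * (S.T e k l * S.p φ k d)) := by
    rw [sum_comm]
    refine sum_congr rfl fun d _ => ?_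
    rw [sum_comm]
    refine sum_congr rfl fun e _ => ?_
    rw [sum_comm]
    refine sum_congr rfl fun i _ => ?_
    rw [sum_comm]
    refine sum_congr rfl fun k _ => ?_
    rw [sum_comm]
    refine sum_congr rfl fun l _ => ?_
    rw [S.p_eq]
    simp_rw [mul_sum]
  rw [e2]
  -- ∑ d e i k l → want ∑ e l i d k
  rw [sum_comm]
  refine sum_congr rfl fun e _ => ?_
  -- ∑ d i k l → ∑ l i d k
  rw [sum_pull4 (fun d i k l => S.g l i * (S.B φ i e d * (S.T e k l * S.p φ k d)))]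
  refine sum_congr rfl fun l _ => ?_
  rw [sum_comm]
  refine sum_congr rfl fun i _ => sum_congr rfl fun d _ => sum_congr rfl fun k _ => ?_
  rw [S.T_swap13 e k l, S.T_swap23 l k e, S.p_symm φ k d]

lemma pointwise (φ : A) :
    S.X1 φ + S.X2 φ + S.X3 φ - S.X4 φ = S.X5 φ + S.X6 φ := by
  have h34 := S.X34 φ
  have h : ∑ c, ∑ a, ∑ b, S.Bup φ b c a * S.D c (S.q φ a b) = S.Y2 φ + S.X5 φ := by
    rw [← S.Y2_left, ← S.X5_eq, ← sum_add_distrib]
    refine sum_congr rfl fun c _ => ?_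
    rw [← sum_add_distrib]
    refine sum_congr rfl fun a _ => ?_
    rw [← sum_add_distrib]
    refine sum_congr rfl fun b _ => ?_
    rw [S.D_q]; ring
  have h2 := S.Y2_right φ
  have h1 := S.X1_eq φ
  linear_combination h34 + h + h1 - h2

end HData

end Crest.Agent.R238
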