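import Crest.Agent.R238.Ident3
import Crest.Agent.R238.HolDefs

/-!
# Row 238, node IDENT, x-side instance, part 1: the ring of smooth functions
-/

set_option autoImplicit false
set_option linter.unusedSectionVars false

open Finset MeasureTheory
open scoped ContDiff

namespace Crest.Agent.R238.IdX

/-! ### Jacobi's formula for derivations -/

section Jacobi

variable {ι A : Type*} [Fintype ι] [DecidableEq ι] [CommRing A] [Algebra ℝ A]

lemma der_prod (D : Derivation ℝ A A) (f : ι → A) (s : Finset ι) :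
    D (∏ i ∈ s, f i) = ∑ i ∈ s, (∏ j ∈ s.erase i, f j) * D (f i) := by
  induction s using Finset.induction_on with
  | empty => simp
  | insert a s ha ih =>
    rw [prod_insert ha, Derivation.leibniz, ih, sum_insert ha, erase_insert ha, smul_eq_mul,
      smul_eq_mul, mul_sum, add_comm]
    congr 1
    refine sum_congr rfl fun i hi => ?_
    have hia : i ≠ a := fun h => ha (h ▸ hi)
    rw [erase_insert_of_ne (Ne.symm hia), prod_insert (fun h => ha (mem_of_mem_erase h))]
    ring

lemma der_det (D : Derivation ℝ A A) (M : Matrix ι ι A) :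
    D M.det = ∑ i, ∑ j, M.adjugate i j * D (M j i) := by
  have h1 : ∀ i, ∑ j, M.adjugate i j * D (M j i)
      = (M.updateCol i (fun k => D (M k i))).det := by
    intro i
    rw [← Matrix.cramer_apply, Matrix.cramer_eq_adjugate_mulVec, Matrix.mulVec, dotProduct]
  simp_rw [h1]
  rw [Matrix.det_apply', map_sum]
  simp_rw [Matrix.det_apply']
  rw [sum_comm]
  refine sum_congr rfl fun σ _ => ?_
  have h2 : D (((Equiv.Perm.sign σ : ℤ) : A) * ∏ i, M (σ i) i)
      = ((Equiv.Perm.sign σ : ℤ) : A) * D (∏ i, M (σ i) i) := by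
    rw [Derivation.leibniz, smul_eq_mul, smul_eq_mul]
    have : D ((Equiv.Perm.sign σ : ℤ) : A) = 0 := by
      exact D.map_intCast _
    rw [this, mul_zero, add_zero]
  rw [h2, der_prod, mul_sum]
  refine sum_congr rfl fun i _ => ?_
  congr 1
  rw [← mul_prod_erase univ _ (mem_univ i)]
  rw [mul_comm]
  congr 1
  · simp
  · refine prod_congr rfl fun j hj => ?_
    rw [Matrix.updateCol_apply, if_neg (ne_of_mem_erase hj)]

end Jacobi

variable {n : ℕ}

/-- The ring of smooth functions on `E n`. -/
def Sm (n : ℕ) : Subalgebra ℝ (E n → ℝ) where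
  carrier := {f | ContDiff ℝ ∞ f}
  mul_mem' := by
    intro f g hf hg
    rw [Set.mem_ofPred_eq] at *
    exact ContDiff.mul hf hg
  add_mem' := by
    intro f g hf hg
    rw [Set.mem_ofPred_eq] at *
    exact ContDiff.add hf hg
  algebraMap_mem' := by
    intro c
    rw [Set.mem_ofPred_eq]
    exact contDiff_const

lemma mem_Sm {f : E n → ℝ} : f ∈ Sm n ↔ ContDiff ℝ ∞ f := by
  show f ∈ {f | ContDiff ℝ ∞ f} ↔ _
  rw [Set.mem_ofPred_eq]

lemma smth (f : Sm n) : ContDiff ℝ ∞ (f : E n → ℝ) := mem_Sm.1 f.2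

lemma sdiff (f : Sm n) : Differentiable ℝ (f : E n → ℝ) :=
  (smth f).differentiable (by simp)

/-- constructor -/
def mkS (f : E n → ℝ) (hf : ContDiff ℝ ∞ f) : Sm n := ⟨f, mem_Sm.2 hf⟩

/-- partial derivative as a function -/
lemma contDiff_pd {f : E n → ℝ} (hf : ContDiff ℝ ∞ f) (a : Fin n) :
    ContDiff ℝ ∞ (fun x => fderiv ℝ f x (ee a)) :=
  (hf.fderiv_right (m := ∞) (by simp)).clm_apply contDiff_const

/-- partial derivative on the ring of smooth functions -/
noncomputable def pd (a : Fin n) : Derivation ℝ (Sm n) (Sm n) :=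
  Derivation.mk'
    { toFun := fun f => mkS (fun x => fderiv ℝ (f : E n → ℝ) x (ee a)) (contDiff_pd (smth f) a)
      map_add' := by
        intro f g
        ext x
        show fderiv ℝ (fun y => (f : E n → ℝ) y + (g : E n → ℝ) y) x (ee a) = _
        rw [fderiv_fun_add (sdiff f x) (sdiff g x)]
        rfl
      map_smul' := by
        intro c f
        ext x
        show fderiv ℝ (fun y => c • (f : E n → ℝ) y) x (ee a) = _
        rw [fderiv_fun_const_smul (sdiff f x)]
        rfl }
    (by
      intro f g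
      ext x
      show fderiv ℝ (fun y => (f : E n → ℝ) y * (g : E n → ℝ) y) x (ee a) = _
      rw [fderiv_fun_mul (sdiff f x) (sdiff g x)]
      rfl)

lemma pd_apply (a : Fin n) (f : Sm n) (x : E n) :
    (pd a f : Sm n).1 x = fderiv ℝ (f : E n → ℝ) x (ee a) := rfl

lemma fderiv_pd {f : E n → ℝ} (hf : ContDiff ℝ ∞ f) (a : Fin n) (x v : E n) :
    fderiv ℝ (fun y => fderiv ℝ f y (ee a)) x v = fderiv ℝ (fderiv ℝ f) x v (ee a) := by
  have h1 : DifferentiableAt ℝ (fderiv ℝ f) x :=
    ((hf.fderiv_right (m := ∞) (by simp)).differentiable (by simp)) x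
  rw [fderiv_clm_apply h1 (differentiableAt_const _)]
  simp

lemma pd_pd (a b : Fin n) (f : Sm n) (x : E n) :
    (pd a (pd b f) : Sm n).1 x = Hs (f : E n → ℝ) x a b := by
  rw [pd_apply]
  exact fderiv_pd (smth f) b x (ee a)

lemma Hs_symm {f : E n → ℝ} (hf : ContDiff ℝ ∞ f) (x : E n) (a b : Fin n) :
    Hs f x a b = Hs f x b a := by
  have h : IsSymmSndFDerivAt ℝ f x := by
    refine (hf.contDiffAt (x := x)).isSymmSndFDerivAt ?_
    rw [minSmoothness_of_isRCLikeNormedField]
    exact WithTop.coe_le_coe.2 le_top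
  exact h (ee a) (ee b)

lemma pd_comm (a b : Fin n) (f : Sm n) : pd a (pd b f) = pd b (pd a f) := by
  ext x
  rw [pd_pd, pd_pd, Hs_symm (smth f)]

lemma pd_mkS (a : Fin n) (f : E n → ℝ) (hf : ContDiff ℝ ∞ f) (x : E n) :
    (pd a (mkS f hf) : Sm n).1 x = fderiv ℝ f x (ee a) := rfl

/-- coordinate functions -/
noncomputable def xc (i : Fin n) : Sm n := mkS (fun x => x i) (contDiff_piLp_apply 2)

lemma pd_xc (a i : Fin n) : pd a (xc i : Sm n) = if a = i then 1 else 0 := by
  ext x
  rw [xc, pd_mkS]
  have h : HasFDerivAt (fun x : E n => x i) (EuclideanSpace.proj i : E n →L[ℝ] ℝ) x :=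
    (EuclideanSpace.proj i : E n →L[ℝ] ℝ).hasFDerivAt
  rw [h.fderiv]
  by_cases hai : a = i
  · subst hai; simp
  · simp [hai, Ne.symm hai]

/-! ### compactly supported functions -/

/-- ideal of compactly supported smooth functions -/
def Cc (n : ℕ) : Ideal (Sm n) where
  carrier := {f | HasCompactSupport (f : E n → ℝ)}
  add_mem' := by
    intro f g hf hg
    rw [Set.mem_ofPred_eq] at *
    exact HasCompactSupport.add hf hg
  zero_mem' := by
    rw [Set.mem_ofPred_eq]
    exact HasCompactSupport.zero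
  smul_mem' := by
    intro c f hf
    rw [Set.mem_ofPred_eq] at *
    exact HasCompactSupport.mul_left hf

lemma mem_Cc {f : Sm n} : f ∈ Cc n ↔ HasCompactSupport (f : E n → ℝ) := Iff.rfl

lemma pd_mem_Cc (a : Fin n) {f : Sm n} (hf : f ∈ Cc n) : pd a f ∈ Cc n := by
  rw [mem_Cc] at *
  exact hf.fderiv_apply (𝕜 := ℝ) (ee a)

section functional

variable (Psi : Sm n)

/-- the weight -/
noncomputable def wt (x : E n) : ℝ := Real.exp (-(Psi : E n → ℝ) x)

lemma wt_cont : Continuous (wt Psi) :=
  Real.continuous_exp.comp (smth Psi).continuous.neg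

lemma wt_pos (x : E n) : 0 < wt Psi x := Real.exp_pos _

lemma integrable_Cc {f : Sm n} (hf : f ∈ Cc n) :
    Integrable (fun x => (f : E n → ℝ) x * wt Psi x) := by
  refine Continuous.integrable_of_hasCompactSupport ?_ ?_
  · exact (smth f).continuous.mul (wt_cont Psi)
  · exact HasCompactSupport.mul_right hf

/-- integration on the ideal -/
noncomputable def E0 : ((Cc n).restrictScalars ℝ) →ₗ[ℝ] ℝ where
  toFun f := ∫ x, (f : Sm n).1 x * wt Psi x
  map_add' := by
    intro f g
    rw [← integral_add (integrable_Cc Psi f.2) (integrable_Cc Psi g.2)]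
    refine integral_congr_ae (Filter.Eventually.of_forall fun x => ?_)
    show ((f : Sm n).1 x + (g : Sm n).1 x) * wt Psi x = _
    ring
  map_smul' := by
    intro c f
    rw [RingHom.id_apply, smul_eq_mul, ← integral_const_mul]
    refine integral_congr_ae (Filter.Eventually.of_forall fun x => ?_)
    show (c * (f : Sm n).1 x) * wt Psi x = _
    ring

/-- a linear extension of the integral to all smooth functions -/
noncomputable def EE : Sm n →ₗ[ℝ] ℝ := (LinearMap.exists_extend (E0 Psi)).choose

lemma EE_eq {f : Sm n} (hf : f ∈ Cc n) : EE Psi f = ∫ x, (f : E n → ℝ) x * wt Psi x := by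
  have h := (LinearMap.exists_extend (E0 Psi)).choose_spec
  have h2 := congrArg (fun L : ((Cc n).restrictScalars ℝ) →ₗ[ℝ] ℝ => L ⟨f, hf⟩) h
  exact h2

lemma EE_pd (a : Fin n) {f : Sm n} (hf : f ∈ Cc n) :
    EE Psi (pd a f) = EE Psi (pd a Psi * f) := by
  rw [EE_eq Psi (pd_mem_Cc a hf), EE_eq Psi ((Cc n).mul_mem_left _ hf)]
  have hw : ContDiff ℝ ∞ (wt Psi) := (smth Psi).neg.exp
  have hwd : Differentiable ℝ (wt Psi) := hw.differentiable (by simp)
  have hw' : ∀ x, fderiv ℝ (wt Psi) x (ee a)
      = - (pd a Psi : Sm n).1 x * wt Psi x := by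
    intro x
    have h1 : HasFDerivAt (fun y => -(Psi : E n → ℝ) y) (-(fderiv ℝ (Psi : E n → ℝ) x)) x :=
      ((sdiff Psi x).hasFDerivAt).neg
    have h2 := h1.exp
    have h3 : fderiv ℝ (wt Psi) x
        = Real.exp (-(Psi : E n → ℝ) x) • (-(fderiv ℝ (Psi : E n → ℝ) x)) := h2.fderiv
    rw [h3, pd_apply]
    simp only [wt, smul_apply, neg_apply, smul_eq_mul]
    ring
  have key := integral_mul_fderiv_eq_neg_fderiv_mul_of_integrable (μ := (volume : Measure (E n)))
    (f := wt Psi) (g := (f : E n → ℝ)) (v := ee a) ?_ ?_ ?_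
    (fun x _ => hwd x) (fun x _ => sdiff f x)
  · calc ∫ x, (pd a f : Sm n).1 x * wt Psi x
        = ∫ x, wt Psi x * fderiv ℝ (f : E n → ℝ) x (ee a) := by
          refine integral_congr_ae (Filter.Eventually.of_forall fun x => ?_)
          show (pd a f : Sm n).1 x * wt Psi x = _
          rw [pd_apply]; ring
      _ = - ∫ x, fderiv ℝ (wt Psi) x (ee a) * (f : E n → ℝ) x := key
      _ = ∫ x, (pd a Psi * f : Sm n).1 x * wt Psi x := by
          rw [← integral_neg]
          refine integral_congr_ae (Filter.Eventually.of_forall fun x => ?_)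
          show -(fderiv ℝ (wt Psi) x (ee a) * (f : E n → ℝ) x)
            = ((pd a Psi : Sm n).1 x * (f : E n → ℝ) x) * wt Psi x
          rw [hw']; ring
  · refine Continuous.integrable_of_hasCompactSupport ?_ ?_
    · exact (contDiff_pd hw a).continuous.mul (smth f).continuous
    · exact HasCompactSupport.mul_left hf
  · refine Continuous.integrable_of_hasCompactSupport ?_ ?_
    · exact (wt_cont Psi).mul (contDiff_pd (smth f) a).continuous
    · exact HasCompactSupport.mul_left (hf.fderiv_apply (𝕜 := ℝ) (ee a))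
  · refine Continuous.integrable_of_hasCompactSupport ?_ ?_
    · exact (wt_cont Psi).mul (smth f).continuous
    · exact HasCompactSupport.mul_left hf

end functional

end Crest.Agent.R238.IdX
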