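import Crest.Agent.R238.IdentX1

/-!
# Row 238, node IDENT, x-side instance, part 2: the dual Hessian structure and the
Monge-Ampere equation
-/

set_option autoImplicit false
set_option linter.unusedSectionVars false

open Finset MeasureTheory
open scoped ContDiff

/-! ### Dual structure (abstract) -/

namespace Crest.Agent.R238.HData

variable {ι A : Type*} [Fintype ι] [DecidableEq ι] [CommRing A] [Algebra ℝ A]

/-- the dual Hessian structure -/
def dual (S : HData ι A) (x : ι → A) (hx : ∀ a i, S.D a (x i) = if a = i then 1 else 0) :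
    HData ι A where
  D := fun i => S.DU i
  Dcomm := S.DU_comm
  th := x
  tau_symm := by
    have h : ∀ i j, S.DU i (x j) = S.g i j := by
      intro i j
      rw [S.DU_apply]
      simp [hx]
    intro i j
    rw [h, h, S.g_symm]
  g := S.tau
  g_symm := S.tau_comm
  g_inv := by
    have h : ∀ i j, S.DU i (x j) = S.g i j := by
      intro i j
      rw [S.DU_apply]
      simp [hx]
    intro i j
    simp_rw [h]
    exact S.g_tau i j

variable (S : HData ι A) (x : ι → A) (hx : ∀ a i, S.D a (x i) = if a = i then 1 else 0)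

lemma dual_tau (i j : ι) : (S.dual x hx).tau i j = S.g i j := by
  show S.DU i (x j) = S.g i j
  rw [S.DU_apply]
  simp [hx]

lemma dual_DU (a : ι) (f : A) : (S.dual x hx).DU a f = S.D a f := by
  rw [(S.dual x hx).DU_apply]
  show ∑ i, S.tau a i * S.DU i f = _
  rw [← S.D_eq]

/-- integration functional for the dual structure -/
def dualInt (I : Ideal A) (hI : ∀ a f, f ∈ I → S.D a f ∈ I) (E : A →ₗ[ℝ] ℝ)
    (hE : ∀ a f, f ∈ I → E (S.D a f) = E ((S.dual x hx).Psi a * f)) :
    HInt (S.dual x hx) where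
  I := I
  hI := by
    intro i f hf
    show S.DU i f ∈ I
    rw [S.DU_apply]
    exact Ideal.sum_mem _ fun a _ => I.mul_mem_left _ (hI a f hf)
  E := E
  ibp := by
    intro i f hf
    show E (S.DU i f) = E (x i * f)
    have h1 : S.DU i f = ∑ a, (S.D a (S.g a i * f) - S.D a (S.g a i) * f) := by
      rw [S.DU_apply]
      refine sum_congr rfl fun a _ => ?_
      rw [Derivation.leibniz, smul_eq_mul, smul_eq_mul, S.g_symm i a]; ring
    have h2 := (S.dual x hx).psi_tau i
    simp_rw [S.dual_tau, S.dual_DU] at h2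
    have h3 : (S.dual x hx).th i = x i := rfl
    rw [h3] at h2
    rw [h1, map_sum, ← h2, sum_mul, map_sum]
    refine sum_congr rfl fun a _ => ?_
    rw [map_sub, hE a _ (I.mul_mem_left _ hf), ← map_sub]
    congr 1; ring

end Crest.Agent.R238.HData

namespace Crest.Agent.R238.IdX

variable {n : ℕ}

/-- Hessian matrix with entries in the ring of smooth functions -/
noncomputable def hM (u : Sm n) : Matrix (Fin n) (Fin n) (Sm n) :=
  fun i j => pd i (pd j u)

/-- evaluation at a point -/
def evx (x : E n) : Sm n →+* ℝ where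
  toFun f := f.1 x
  map_one' := rfl
  map_mul' _ _ := rfl
  map_zero' := rfl
  map_add' _ _ := rfl

lemma evx_apply (x : E n) (f : Sm n) : evx x f = f.1 x := rfl

/-- real Hessian matrix -/
noncomputable def hR (u : E n → ℝ) (x : E n) : Matrix (Fin n) (Fin n) ℝ :=
  fun i j => Hs u x i j

lemma evx_hM (u : Sm n) (x : E n) : (evx x).mapMatrix (hM u) = hR u.1 x := by
  ext i j
  show (pd i (pd j u) : Sm n).1 x = _
  rw [pd_pd]; rfl

lemma isUnit_Sm {f : Sm n} (hf : ∀ x, f.1 x ≠ 0) : IsUnit f := by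
  refine ⟨⟨f, mkS (fun x => (f.1 x)⁻¹) ((smth f).inv hf), ?_, ?_⟩, rfl⟩
  · ext x
    show f.1 x * (f.1 x)⁻¹ = 1
    exact mul_inv_cancel₀ (hf x)
  · ext x
    show (f.1 x)⁻¹ * f.1 x = 1
    exact inv_mul_cancel₀ (hf x)

lemma det_hM (u : Sm n) (x : E n) : ((hM u).det).1 x = (hR u.1 x).det := by
  rw [← evx_hM, ← RingHom.map_det]; rfl

lemma isUnit_det {u : Sm n} (hu : ∀ x, (hR u.1 x).det ≠ 0) : IsUnit (hM u).det :=
  isUnit_Sm fun x => by rw [det_hM]; exact hu x

/-- inverse Hessian matrix -/
noncomputable def tM (u : Sm n) : Matrix (Fin n) (Fin n) (Sm n) := (hM u)⁻¹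

/-- the Hessian structure on the x-side, `D_a = ∂_a`, `g = (D²u)⁻¹`. -/
noncomputable def xS (u : Sm n) (hu : ∀ x, (hR u.1 x).det ≠ 0) : HData (Fin n) (Sm n) where
  D := pd
  Dcomm := pd_comm
  th := fun a => pd a u
  tau_symm := fun i j => pd_comm i j u
  g := tM u
  g_symm := by
    intro i j
    have h : (hM u).transpose = hM u := by
      ext1 i j
      exact pd_comm j i u
    have h2 : (tM u).transpose = tM u := by
      rw [tM, Matrix.transpose_nonsing_inv, h]
    exact congrFun (congrFun h2 j) i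
  g_inv := by
    intro i j
    have h := Matrix.mul_nonsing_inv (hM u) (isUnit_det hu)
    have h2 := congrFun (congrFun h i) j
    rw [Matrix.mul_apply, Matrix.one_apply] at h2
    exact h2

/-- the structure used for the identity: `D_i = ∑ τ_ia ∂_a`, `th_i = x_i` -/
noncomputable def xD (u : Sm n) (hu : ∀ x, (hR u.1 x).det ≠ 0) : HData (Fin n) (Sm n) :=
  (xS u hu).dual xc pd_xc

/-- Monge-Ampere equation -/
def MA (u Psi : Sm n) (c : ℝ) : Prop :=
  ∀ x, Real.log (hR u.1 x).det - fderiv ℝ u.1 x x + u.1 x = c - Psi.1 x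

lemma xD_Psi (u : Sm n) (hu : ∀ x, (hR u.1 x).det ≠ 0) (a : Fin n) :
    (xD u hu).Psi a = ∑ c, hM u a c * xc c - ∑ i, ∑ j, tM u i j * pd a (hM u j i) := by
  show ∑ c, ((xS u hu).tau a c * xc c - (xS u hu).DU c ((xS u hu).tau a c)) = _
  rw [sum_sub_distrib]
  congr 1
  simp_rw [(xS u hu).DU_apply]
  refine sum_congr rfl fun i _ => sum_congr rfl fun j _ => ?_
  congr 1
  show pd j (pd a (pd i u)) = pd a (pd j (pd i u))
  exact pd_comm _ _ _

lemma pd_det (u : Sm n) (hu : ∀ x, (hR u.1 x).det ≠ 0) (a : Fin n) :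
    pd a (hM u).det = (hM u).det * ∑ i, ∑ j, tM u i j * pd a (hM u j i) := by
  rw [der_det, mul_sum]
  refine sum_congr rfl fun i _ => ?_
  rw [mul_sum]
  refine sum_congr rfl fun j _ => ?_
  have h : (hM u).adjugate i j = (hM u).det * tM u i j := by
    rw [tM, Matrix.inv_def, Matrix.smul_apply, smul_eq_mul, ← mul_assoc,
      Ring.mul_inverse_cancel _ (isUnit_det hu), one_mul]
  rw [h]; ring

lemma clm_expand (L : E n →L[ℝ] ℝ) (x : E n) : L x = ∑ i, x i * L (ee i) := by
  have h : x = ∑ i, x i • (ee i : E n) := by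
    ext j
    simp [Finset.sum_apply, Pi.single_apply]
  conv_lhs => rw [h]
  simp [map_sum]

lemma MA_pd {u Psi : Sm n} {c : ℝ} (hu : ∀ x, (hR u.1 x).det ≠ 0) (h : MA u Psi c)
    (a : Fin n) : (xD u hu).Psi a = pd a Psi := by
  rw [xD_Psi]
  have hd : ∀ x, (hM u).det.1 x ≠ 0 := fun x => by rw [det_hM]; exact hu x
  set l : Sm n := mkS (fun x => Real.log ((hM u).det.1 x)) ((smth (hM u).det).log hd) with hl
  have hPsi : Psi = algebraMap ℝ (Sm n) c - l + ∑ i, xc i * pd i u - u := by
    ext x
    have h1 := h x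
    have h2 : (∑ i, xc i * pd i u : Sm n).1 x = fderiv ℝ u.1 x x := by
      rw [clm_expand, ← evx_apply, map_sum]
      rfl
    show Psi.1 x = c - Real.log ((hM u).det.1 x) + (∑ i, xc i * pd i u : Sm n).1 x - u.1 x
    rw [det_hM, h2]
    linarith
  have hdl : pd a l = ∑ i, ∑ j, tM u i j * pd a (hM u j i) := by
    have h3 : (hM u).det * pd a l = pd a (hM u).det := by
      ext x
      show (hM u).det.1 x * fderiv ℝ (fun x => Real.log ((hM u).det.1 x)) x (ee a)
        = fderiv ℝ (hM u).det.1 x (ee a)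
      rw [fderiv.log (sdiff _ x) (hd x)]
      simp only [smul_apply, smul_eq_mul]
      rw [← mul_assoc, mul_inv_cancel₀ (hd x), one_mul]
    rw [pd_det u hu] at h3
    exact (isUnit_det hu).mul_left_cancel h3
  have h4 : pd a Psi = - pd a l + ∑ i, xc i * hM u a i := by
    conv_lhs => rw [hPsi]
    rw [map_sub, map_add, map_sub, Derivation.map_algebraMap, map_sum]
    have h5 : ∀ i, pd a (xc i * pd i u : Sm n) = xc i * hM u a i
        + (if a = i then 1 else 0) * pd i u := by
      intro i
      rw [Derivation.leibniz, smul_eq_mul, smul_eq_mul, pd_xc]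
      show _ = xc i * pd a (pd i u) + _
      ring
    simp_rw [h5]
    rw [sum_add_distrib]
    simp
    ring
  rw [h4, hdl, sum_congr rfl (fun i _ => mul_comm (hM u a i) (xc i))]
  ring

end Crest.Agent.R238.IdX
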