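import Crest.Agent.R238.IdentX2

/-!
# Row 238, node IDENT, x-side instance, part 3: pointwise positivity (real matrices)
-/

set_option autoImplicit false
set_option linter.unusedSectionVars false

open Finset MeasureTheory Matrix
open scoped ContDiff MatrixOrder ComplexOrder

namespace Crest.Agent.R238.IdX

section RealMat

variable {ι : Type*} [Fintype ι] [DecidableEq ι]

lemma trace_mul_eq (X Y : Matrix ι ι ℝ) : trace (X * Y) = ∑ i, ∑ j, X i j * Y j i := by
  simp [Matrix.trace, Matrix.mul_apply]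

lemma exists_factor {G : Matrix ι ι ℝ} (hG : G.PosSemidef) :
    ∃ R : Matrix ι ι ℝ, G = Rᵀ * R := by
  obtain ⟨a, ha⟩ := CStarAlgebra.nonneg_iff_eq_star_mul_self.mp hG.nonneg
  refine ⟨a, ?_⟩
  rw [ha, star_eq_conjTranspose, conjTranspose_eq_transpose_of_trivial]

lemma factor_apply {G R : Matrix ι ι ℝ} (h : G = Rᵀ * R) (i j : ι) :
    G i j = ∑ k, R k i * R k j := by
  rw [h, mul_apply]; rfl

lemma psd_quad {Q : Matrix ι ι ℝ} (hQ : Q.PosSemidef) (v : ι → ℝ) :
    0 ≤ ∑ a, ∑ b, Q a b * (v a * v b) := by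
  have h := hQ.dotProduct_mulVec_nonneg v
  have e : star v ⬝ᵥ (Q *ᵥ v) = ∑ a, ∑ b, Q a b * (v a * v b) := by
    simp only [dotProduct, mulVec, star_trivial, mul_sum]
    refine sum_congr rfl fun a _ => sum_congr rfl fun b _ => by ring
  rwa [e] at h

lemma psd_hs {P Q : Matrix ι ι ℝ} (hP : P.PosSemidef) (hQ : Q.PosSemidef) :
    0 ≤ ∑ a, ∑ b, P a b * Q a b := by
  obtain ⟨R, hR⟩ := exists_factor hP
  have e : ∑ a, ∑ b, P a b * Q a b = ∑ k, ∑ a, ∑ b, Q a b * (R k a * R k b) := by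
    simp_rw [factor_apply hR, sum_mul]
    calc ∑ a, ∑ b, ∑ k, R k a * R k b * Q a b = ∑ k, ∑ a, ∑ b, R k a * R k b * Q a b := by
          rw [HData.sum_pull3]
      _ = _ := by
          refine sum_congr rfl fun k _ => sum_congr rfl fun a _ => sum_congr rfl fun b _ => ?_
          ring
  rw [e]
  exact sum_nonneg fun k _ => psd_quad hQ _

lemma T1_nonneg {G S : Matrix ι ι ℝ} (hG : G.PosSemidef) (hS : Sᵀ = S) :
    0 ≤ ∑ a, ∑ b, (G * S) b a * (G * S) a b := by
  obtain ⟨R, hR⟩ := exists_factor hG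
  have e : ∑ a, ∑ b, (G * S) b a * (G * S) a b = trace ((G * S) * (G * S)) := by
    rw [trace_mul_eq, sum_comm]
  rw [e]
  have e2 : trace ((G * S) * (G * S)) = trace ((R * S * Rᵀ) * (R * S * Rᵀ)) := by
    rw [hR]
    calc trace (Rᵀ * R * S * (Rᵀ * R * S)) = trace (Rᵀ * (R * S * Rᵀ * R * S)) := by
          simp only [Matrix.mul_assoc]
      _ = trace ((R * S * Rᵀ * R * S) * Rᵀ) := Matrix.trace_mul_comm _ _
      _ = _ := by simp only [Matrix.mul_assoc]
  rw [e2]
  have hs : (R * S * Rᵀ)ᵀ = R * S * Rᵀ := by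
    rw [transpose_mul, transpose_mul, transpose_transpose, hS, Matrix.mul_assoc]
  rw [trace_mul_eq]
  refine sum_nonneg fun i _ => sum_nonneg fun j _ => ?_
  have : (R * S * Rᵀ) j i = (R * S * Rᵀ) i j := congrFun (congrFun hs i) j
  rw [this]
  exact mul_self_nonneg _

/-- The bilinear form of the quartic term. -/
noncomputable def Fb (Tau G : Matrix ι ι ℝ) : Matrix ι ι ℝ →ₗ[ℝ] Matrix ι ι ℝ →ₗ[ℝ] ℝ :=
  LinearMap.mk₂ ℝ (fun C C' => trace (Cᵀ * Tau * C' * G) + trace (C * C'))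
    (by intro a b c; simp only [transpose_add, Matrix.add_mul, trace_add]; ring)
    (by intro r a b; simp only [transpose_smul, Matrix.smul_mul, trace_smul, smul_eq_mul]; ring)
    (by intro a b c; simp only [Matrix.mul_add, Matrix.add_mul, trace_add]; ring)
    (by intro r a b; simp only [Matrix.mul_smul, Matrix.smul_mul, trace_smul, smul_eq_mul]; ring)

lemma Fb_apply (Tau G C C' : Matrix ι ι ℝ) :
    Fb Tau G C C' = trace (Cᵀ * Tau * C' * G) + trace (C * C') := rfl

lemma Fb_nonneg {Tau G : Matrix ι ι ℝ} (hG : G.PosSemidef) (hTG : Tau * G = 1)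
    (C : Matrix ι ι ℝ) : 0 ≤ Fb Tau G C C := by
  obtain ⟨R, hR⟩ := exists_factor hG
  have h1 : (Tau * Rᵀ) * R = 1 := by rw [Matrix.mul_assoc, ← hR, hTG]
  have h2 : R * (Tau * Rᵀ) = 1 := mul_eq_one_comm.mp h1
  -- P = (R * Tau), with P * Rᵀ = 1 and Tau = Pᵀ P
  have hTs : Tauᵀ = Tau := by
    have hGs : Gᵀ = G := by rw [hR, transpose_mul, transpose_transpose]
    have h3 : G * Tauᵀ = 1 := by
      have := congrArg transpose hTG
      rwa [transpose_mul, transpose_one, hGs] at this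
    calc Tauᵀ = (Tau * G) * Tauᵀ := by rw [hTG, Matrix.one_mul]
      _ = Tau * (G * Tauᵀ) := by rw [Matrix.mul_assoc]
      _ = Tau := by rw [h3, Matrix.mul_one]
  have h4 : (R * Tau) * Rᵀ = 1 := by rw [Matrix.mul_assoc, h2]
  have h5 : Rᵀ * (R * Tau) = 1 := mul_eq_one_comm.mp h4
  have h6 : (R * Tau)ᵀ * (R * Tau) = Tau := by
    rw [transpose_mul, hTs, Matrix.mul_assoc, h5, Matrix.mul_one]
  set P := R * Tau with hP
  set X := P * C * Rᵀ with hX
  have e1 : trace (Cᵀ * Tau * C * G) = trace (Xᵀ * X) := by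
    rw [← h6, hR, hX]
    simp only [transpose_mul, transpose_transpose]
    calc trace (Cᵀ * (Pᵀ * P) * C * (Rᵀ * R)) = trace ((Cᵀ * Pᵀ * P * C * Rᵀ) * R) := by
          simp only [Matrix.mul_assoc]
      _ = trace (R * (Cᵀ * Pᵀ * P * C * Rᵀ)) := Matrix.trace_mul_comm _ _
      _ = _ := by simp only [Matrix.mul_assoc]
  have e2 : trace (C * C) = trace (X * X) := by
    rw [hX]
    calc trace (C * C) = trace (C * (Rᵀ * P) * C * (Rᵀ * P)) := by
          rw [h5, Matrix.mul_one, Matrix.mul_one]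
      _ = trace ((C * Rᵀ * P * C * Rᵀ) * P) := by simp only [Matrix.mul_assoc]
      _ = trace (P * (C * Rᵀ * P * C * Rᵀ)) := Matrix.trace_mul_comm _ _
      _ = _ := by simp only [Matrix.mul_assoc]
  rw [Fb_apply, e1, e2]
  have e3 : trace (Xᵀ * X) + trace (X * X) = ∑ i, ∑ j, (X i j + X j i) ^ 2 / 2 := by
    have a1 : trace (Xᵀ * X) = ∑ i, ∑ j, X i j ^ 2 := by
      rw [trace_mul_eq, sum_comm]
      refine sum_congr rfl fun a _ => sum_congr rfl fun b _ => ?_
      rw [transpose_apply]; ring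
    have a2 : trace (X * X) = ∑ i, ∑ j, X i j * X j i := trace_mul_eq X X
    have a3 : ∑ i, ∑ j, X i j ^ 2 = ∑ i, ∑ j, X j i ^ 2 := sum_comm
    calc trace (Xᵀ * X) + trace (X * X)
        = (∑ i, ∑ j, X i j ^ 2) / 2 + (∑ i, ∑ j, X j i ^ 2) / 2 + ∑ i, ∑ j, X i j * X j i := by
          rw [a1, a2, ← a3]; ring
      _ = _ := by
          rw [sum_div, sum_div, ← sum_add_distrib, ← sum_add_distrib]
          refine sum_congr rfl fun i _ => ?_
          rw [sum_div, sum_div, ← sum_add_distrib, ← sum_add_distrib]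
          refine sum_congr rfl fun j _ => by ring
  rw [e3]
  exact sum_nonneg fun i _ => sum_nonneg fun j _ => by positivity

lemma Fb_sum_nonneg {Tau G : Matrix ι ι ℝ} (hG : G.PosSemidef) (hTG : Tau * G = 1)
    (B : ι → Matrix ι ι ℝ) : 0 ≤ ∑ d, ∑ e, G d e * Fb Tau G (B d) (B e) := by
  obtain ⟨R, hR⟩ := exists_factor hG
  have e1 : ∑ d, ∑ e, G d e * Fb Tau G (B d) (B e)
      = ∑ k, Fb Tau G (∑ d, R k d • B d) (∑ e, R k e • B e) := by
    have a1 : ∀ k, Fb Tau G (∑ d, R k d • B d) (∑ e, R k e • B e)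
        = ∑ d, ∑ e, R k d * R k e * Fb Tau G (B d) (B e) := by
      intro k
      rw [map_sum (Fb Tau G) (fun d => R k d • B d) univ, LinearMap.sum_apply]
      refine sum_congr rfl fun d _ => ?_
      rw [map_sum]
      refine sum_congr rfl fun e _ => ?_
      rw [map_smul, map_smul, LinearMap.smul_apply, smul_eq_mul, smul_eq_mul]
      ring
    rw [sum_congr rfl fun k _ => a1 k]
    have a2 : ∀ d e, G d e * Fb Tau G (B d) (B e)
        = ∑ k, R k d * R k e * Fb Tau G (B d) (B e) := by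
      intro d e
      rw [factor_apply hR, sum_mul]
    rw [sum_congr rfl fun d _ => sum_congr rfl fun e _ => a2 d e]
    exact HData.sum_pull3 _
  rw [e1]
  exact sum_nonneg fun k _ => Fb_nonneg hG hTG _

lemma trace_form (C C' Tau G : Matrix ι ι ℝ) (hG : Gᵀ = G) :
    trace (Cᵀ * Tau * C' * G)
      = ∑ a, ∑ a', Tau a a' * ∑ b, ∑ b', G b b' * (C a b * C' a' b') := by
  have e : ∀ b, (Cᵀ * Tau * C' * G) b b
      = ∑ b', ∑ a', ∑ a, Tau a a' * (G b b' * (C a b * C' a' b')) := by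
    intro b
    rw [mul_apply]
    refine sum_congr rfl fun b' _ => ?_
    rw [mul_apply, sum_mul]
    refine sum_congr rfl fun a' _ => ?_
    rw [mul_apply, sum_mul, sum_mul]
    refine sum_congr rfl fun a _ => ?_
    have : G b' b = G b b' := congrFun (congrFun hG b) b'
    rw [this, transpose_apply]; ring
  have e0 : trace (Cᵀ * Tau * C' * G) = ∑ b, (Cᵀ * Tau * C' * G) b b := rfl
  rw [e0, sum_congr rfl fun b _ => e b]
  -- b b' a' a → a a' b b'
  calc ∑ b, ∑ b', ∑ a', ∑ a, Tau a a' * (G b b' * (C a b * C' a' b'))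
      = ∑ a, ∑ b, ∑ b', ∑ a', Tau a a' * (G b b' * (C a b * C' a' b')) := by
        rw [HData.sum_pull4]
    _ = _ := by
        refine sum_congr rfl fun a _ => ?_
        rw [HData.sum_pull3]
        refine sum_congr rfl fun a' _ => ?_
        rw [mul_sum]
        refine sum_congr rfl fun b _ => ?_
        rw [mul_sum]

end RealMat

end Crest.Agent.R238.IdX
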