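import Crest.Agent.R238.IdentX3

/-!
# Row 238, node IDENT, x-side instance, part 4: the inequality for test functions
-/

set_option autoImplicit false
set_option linter.unusedSectionVars false

open Finset MeasureTheory Matrix
open scoped ContDiff

/-! ### abstract facts -/

namespace Crest.Agent.R238.HInt

variable {ι A : Type*} [Fintype ι] [DecidableEq ι] [CommRing A] [Algebra ℝ A]
variable {S : HData ι A} (J : HInt S) (φ : A) (hφ : φ ∈ J.I)
include hφ

lemma Lpsi_mem : S.Lpsi φ ∈ J.I :=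
  Ideal.sum_mem _ fun a _ => J.I.sub_mem (J.memDU a _ (J.z_mem φ hφ a))
    (J.I.mul_mem_left _ (J.z_mem φ hφ a))

lemma E_mul_Lpsi (f : A) : J.E (f * S.Lpsi φ) = - ∑ a, J.E (S.DU a f * S.z φ a) := by
  have h : f * S.Lpsi φ = - ∑ a, f * (S.Psi a * S.z φ a - S.DU a (S.z φ a)) := by
    rw [HData.Lpsi, mul_sum, ← sum_neg_distrib]
    exact sum_congr rfl fun a _ => by ring
  rw [h, map_neg, map_sum]
  congr 1
  exact sum_congr rfl fun a _ => J.adjU' a f _ (J.z_mem φ hφ a)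

lemma E_U_z (U : ι → A) : ∑ a, J.E (U a * S.z φ a)
    = ∑ a, ∑ b, J.E (S.DU b (U a) * S.q φ a b) := by
  refine sum_congr rfl fun a _ => ?_
  rw [S.z2, mul_sum, map_sum]
  exact sum_congr rfl fun b _ => J.adjU' b (U a) _ (J.q_mem φ hφ a b)

end Crest.Agent.R238.HInt

namespace Crest.Agent.R238.HData

variable {ι A : Type*} [Fintype ι] [DecidableEq ι] [CommRing A] [Algebra ℝ A]
variable (S : HData ι A)

lemma Am_eq_g (φ : A) (a b : ι) : S.Am φ a b = ∑ i, S.g a i * S.q φ i b := by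
  simp_rw [S.q_eq' φ _ b]
  rw [S.g_tau_contr a (fun j => S.Am φ j b)]

/-- `L f` in non-divergence form -/
lemma Lop_eq (f : A) : ∑ a, (S.DU a (S.D a f) - S.Psi a * S.D a f)
    = ∑ a, ∑ b, S.tau a b * S.DU a (S.DU b f) - ∑ b, S.th b * S.DU b f := by
  have h : ∀ a, S.DU a (S.D a f) - S.Psi a * S.D a f
      = ∑ b, (S.tau a b * S.DU a (S.DU b f)
        - (S.Psi a * S.tau a b - S.DU a (S.tau a b)) * S.DU b f) := by
    intro a
    rw [S.D_eq a f, map_sum, mul_sum, ← sum_sub_distrib]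
    refine sum_congr rfl fun b _ => ?_
    rw [Derivation.leibniz, smul_eq_mul, smul_eq_mul]; ring
  simp_rw [h, sum_sub_distrib]
  congr 1
  rw [sum_comm]
  refine sum_congr rfl fun b _ => ?_
  rw [← sum_mul, S.psi_tau]

end Crest.Agent.R238.HData

namespace Crest.Agent.R238.IdX

variable {n : ℕ}

/-- The operator `L h = tr((D²u)⁻¹ D²h) - x·∇h`. -/
noncomputable def Lu (u : E n → ℝ) (h : E n → ℝ) : E n → ℝ := LA (fun x => (hR u x)⁻¹) h

/-- `G = L(L φ + φ)` -/
noncomputable def Gu (u : E n → ℝ) (φ : E n → ℝ) : E n → ℝ :=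
  Lu u (fun x => Lu u φ x + φ x)

lemma tM_apply {u : Sm n} (hu : ∀ x, (hR u.1 x).det ≠ 0) (x : E n) (i j : Fin n) :
    (tM u i j).1 x = (hR u.1 x)⁻¹ i j := by
  have h := Matrix.mul_nonsing_inv (hM u) (isUnit_det hu)
  have h2 := congrArg (evx x).mapMatrix h
  rw [map_mul, map_one, evx_hM] at h2
  have h3 := (Matrix.inv_eq_right_inv h2).symm
  exact congrFun (congrFun h3 i) j

/-- `L` on the ring of smooth functions -/
noncomputable def Lel (u : Sm n) (f : Sm n) : Sm n :=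
  ∑ a, ∑ b, tM u a b * pd a (pd b f) - ∑ b, xc b * pd b f

lemma Lel_apply {u : Sm n} (hu : ∀ x, (hR u.1 x).det ≠ 0) (f : Sm n) (x : E n) :
    (Lel u f).1 x = Lu u.1 f.1 x := by
  rw [Lu, LA, clm_expand, Lel, ← evx_apply, map_sub, map_sum, map_sum]
  simp_rw [map_sum, map_mul]
  congr 1
  refine sum_congr rfl fun a _ => sum_congr rfl fun b _ => ?_
  rw [evx_apply, evx_apply, tM_apply hu, pd_pd]

lemma Lel_neg (u f : Sm n) : Lel u (-f) = - Lel u f := by
  rw [eq_neg_iff_add_eq_zero]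
  have e1 : ∀ a b, tM u a b * pd a (pd b (-f)) + tM u a b * pd a (pd b f) = 0 := by
    intro a b
    rw [map_neg, map_neg]; ring
  have e2 : ∀ b, xc b * pd b (-f) + xc b * pd b f = 0 := by
    intro b
    rw [map_neg]; ring
  have e3 : ∑ a, ∑ b, tM u a b * pd a (pd b (-f)) + ∑ a, ∑ b, tM u a b * pd a (pd b f) = 0 := by
    rw [← sum_add_distrib]
    refine sum_eq_zero fun a _ => ?_
    rw [← sum_add_distrib]
    exact sum_eq_zero fun b _ => e1 a b
  have e4 : ∑ b, xc b * pd b (-f) + ∑ b, xc b * pd b f = 0 := by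
    rw [← sum_add_distrib]
    exact sum_eq_zero fun b _ => e2 b
  rw [Lel, Lel]
  linear_combination e3 - e4

section

variable {u : Sm n} (hu : ∀ x, (hR u.1 x).det ≠ 0)

lemma xD_D (i : Fin n) (f : Sm n) : (xD u hu).D i f = ∑ a, tM u i a * pd a f := by
  show (xS u hu).DU i f = _
  rw [(xS u hu).DU_apply]; rfl

lemma xD_DU (a : Fin n) (f : Sm n) : (xD u hu).DU a f = pd a f :=
  (xS u hu).dual_DU xc pd_xc a f

lemma xD_tau (a b : Fin n) : (xD u hu).tau a b = tM u a b :=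
  (xS u hu).dual_tau xc pd_xc a b

lemma xD_g (a b : Fin n) : (xD u hu).g a b = hM u a b := rfl

lemma xD_th (a : Fin n) : (xD u hu).th a = xc a := rfl

lemma xD_psi (φ : Sm n) : (xD u hu).psi φ = - (Lel u φ + φ) := by
  rw [HData.psi, Lel]
  simp_rw [HData.v, xD_DU, xD_D, xD_th, sum_sub_distrib]
  have h : ∑ d, ∑ a, tM u d a * pd a (pd d φ) = ∑ d, ∑ a, tM u d a * pd d (pd a φ) :=
    sum_congr rfl fun d _ => sum_congr rfl fun a _ => by rw [pd_comm]
  rw [h]
  ring

lemma xD_Lpsi (φ : Sm n) : (xD u hu).Lpsi φ = Lel u ((xD u hu).psi φ) := by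
  have h := (xD u hu).Lop_eq ((xD u hu).psi φ)
  rw [HData.Lpsi]
  simp only [HData.z]
  rw [h, Lel]
  simp_rw [xD_DU, xD_tau, xD_th]

lemma Gu_eq (φ : Sm n) (x : E n) :
    Gu u.1 φ.1 x = - ((xD u hu).Lpsi φ).1 x := by
  have h1 : (fun x => Lu u.1 φ.1 x + φ.1 x) = (Lel u φ + φ : Sm n).1 := by
    funext y
    show _ = (Lel u φ).1 y + φ.1 y
    rw [Lel_apply hu]
  rw [Gu, h1, ← Lel_apply hu, xD_Lpsi, xD_psi, Lel_neg]
  show _ = - -(Lel u (Lel u φ + φ)).1 x
  rw [neg_neg]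

end

section main

variable {u Psi : Sm n} {c : ℝ} (hpos : ∀ x, (hR u.1 x).PosDef) (hMA : MA u Psi c)

lemma det_ne (hpos : ∀ x, (hR u.1 x).PosDef) (x : E n) : (hR u.1 x).det ≠ 0 :=
  (hpos x).det_pos.ne'

/-- the integration functional -/
noncomputable def xJ : HInt (xD u (det_ne hpos)) :=
  (xS u (det_ne hpos)).dualInt xc pd_xc (Cc n) (fun a _ hf => pd_mem_Cc a hf) (EE Psi)
    (by
      intro a f hf
      show EE Psi (pd a f) = EE Psi ((xD u (det_ne hpos)).Psi a * f)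
      rw [EE_pd Psi a hf, MA_pd (det_ne hpos) hMA a])

lemma EE_nonneg {f : Sm n} (hf : f ∈ Cc n) (h : ∀ x, 0 ≤ f.1 x) : 0 ≤ EE Psi f := by
  rw [EE_eq Psi hf]
  exact integral_nonneg fun x => mul_nonneg (h x) (wt_pos Psi x).le

lemma EE_le {f : Sm n} (hf : f ∈ Cc n) (N : E n → ℝ) (h : ∀ x, f.1 x ≤ N x)
    (hN : Integrable (fun x => N x * wt Psi x)) :
    EE Psi f ≤ ∫ x, N x * wt Psi x := by
  rw [EE_eq Psi hf]
  exact integral_mono (integrable_Cc Psi hf) hN fun x =>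
    mul_le_mul_of_nonneg_right (h x) (wt_pos Psi x).le

lemma inv_mul_hR (hpos : ∀ x, (hR u.1 x).PosDef) (x : E n) :
    (hR u.1 x)⁻¹ * hR u.1 x = 1 :=
  Matrix.nonsing_inv_mul _ (isUnit_iff_ne_zero.mpr (det_ne hpos x))

lemma X56_nonneg (φ : Sm n) (x : E n) :
    0 ≤ ((xD u (det_ne hpos)).X5 φ + (xD u (det_ne hpos)).X6 φ).1 x := by
  set S := xD u (det_ne hpos) with hS
  set G := hR u.1 x with hG
  set Bx : Fin n → Matrix (Fin n) (Fin n) ℝ := fun d => fun a b => (S.B φ d a b).1 x with hBx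
  have hGt : Gᵀ = G := (hpos x).1
  have h1 : (S.X5 φ + S.X6 φ).1 x = ∑ d, ∑ e, G d e * Fb G⁻¹ G (Bx d) (Bx e) := by
    show (S.X5 φ).1 x + (S.X6 φ).1 x = _
    rw [← evx_apply x (S.X5 φ), ← evx_apply x (S.X6 φ), HData.X5, HData.X6, map_sum, map_sum,
      ← sum_add_distrib]
    refine sum_congr rfl fun d _ => ?_
    rw [map_sum, map_sum, ← sum_add_distrib]
    refine sum_congr rfl fun e _ => ?_
    rw [map_mul, map_mul, ← mul_add]
    have hg : evx x (S.g d e) = G d e := by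
      rw [evx_apply]; show (pd d (pd e u) : Sm n).1 x = _; rw [pd_pd]; rfl
    rw [hg, Fb_apply, trace_form _ _ _ _ hGt, trace_mul_eq]
    congr 2
    · rw [map_sum]
      refine sum_congr rfl fun a _ => ?_
      rw [map_sum]
      refine sum_congr rfl fun a' _ => ?_
      rw [map_mul, map_sum]
      have ht : evx x (S.tau a a') = G⁻¹ a a' := by
        rw [evx_apply, hS, xD_tau, tM_apply (det_ne hpos)]
      rw [ht]
      congr 1
      refine sum_congr rfl fun b _ => ?_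
      rw [map_sum]
      refine sum_congr rfl fun b' _ => ?_
      have hg' : evx x (S.g b b') = G b b' := by
        rw [evx_apply]; show (pd b (pd b' u) : Sm n).1 x = _; rw [pd_pd]; rfl
      rw [map_mul, map_mul, hg']
      rfl
    · rw [map_sum]
      refine sum_congr rfl fun a _ => ?_
      rw [map_sum]
      refine sum_congr rfl fun b _ => ?_
      rw [map_mul]
      rfl
  rw [h1]
  exact Fb_sum_nonneg (hpos x).posSemidef (inv_mul_hR hpos x) Bx

lemma T1x_nonneg (φ : Sm n) (x : E n) :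
    0 ≤ (∑ a, ∑ b, ((xD u (det_ne hpos)).N φ b a - (xD u (det_ne hpos)).Am φ b a)
      * ((xD u (det_ne hpos)).N φ a b - (xD u (det_ne hpos)).Am φ a b) : Sm n).1 x := by
  set S := xD u (det_ne hpos) with hS
  set G := hR u.1 x with hG
  set Sx : Matrix (Fin n) (Fin n) ℝ := fun i b => (S.D i (S.z φ b) - S.q φ i b).1 x with hSx
  have hGt : Gᵀ = G := (hpos x).1
  have hs : Sxᵀ = Sx := by
    ext i b
    show (S.D b (S.z φ i) - S.q φ b i).1 x = (S.D i (S.z φ b) - S.q φ i b).1 x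
    rw [S.q_symm φ b i]
    simp only [HData.z]
    rw [S.Dcomm]
  have e1 : ∀ a b, evx x (S.N φ a b - S.Am φ a b) = (G * Sx) a b := by
    intro a b
    rw [HData.N, S.DU_apply, S.Am_eq_g, ← sum_sub_distrib, map_sum, Matrix.mul_apply]
    refine sum_congr rfl fun i _ => ?_
    rw [← mul_sub, map_mul]
    have hg' : evx x (S.g a i) = G a i := by
      rw [evx_apply]; show (pd a (pd i u) : Sm n).1 x = _; rw [pd_pd]; rfl
    rw [hg']
    rfl
  rw [← evx_apply, map_sum]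
  simp_rw [map_sum, map_mul, e1]
  exact T1_nonneg (hpos x).posSemidef hs

end main

end Crest.Agent.R238.IdX
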