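import Crest.Agent.R238.BootB
import Crest.Agent.R238.StepDefs

/-!
Row 238, node ISO-ASM (helper890): induction for `(L+1)h = f`, all orders.
-/

set_option autoImplicit false

open MeasureTheory Set Filter
open scoped ContDiff Topology

namespace Crest.Agent.R238.IsoAsm

open Crest.Agent.R238

variable {n : ℕ}

/-- linear one-step lemma for `L + 1` (no gradient bound needed), hypothesis -/
def Step1 (a : ℝ) (τ : E n → Matrix (Fin n) (Fin n) ℝ) : Prop :=
  ∀ f w : E n → ℝ, Boot.CK a 1 f → ContDiff ℝ 2 w → (∀ i j, ∃ M, HB a M (fun x => Hs w x i j)) →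
    (∀ x, LA τ w x + w x = f x) →
    ∀ e : Fin n, ContDiff ℝ 2 (Boot.pd e w) ∧
      (∀ i j, ∃ M, HB a M (fun x => Hs (Boot.pd e w) x i j)) ∧
      ∀ x, LA τ (Boot.pd e w) x = Boot.pd e f x
        - ∑ i, ∑ j, Boot.pd e (fun y => τ y i j) x * Hs w x i j

/-- gradient of a first derivative is bounded when `D²w` is -/
theorem grad_bdd {a : ℝ} {w : E n → ℝ} (h2 : ContDiff ℝ 2 w)
    (hH : ∀ i j, ∃ M, HB a M (fun x => Hs w x i j)) (e : Fin n) :
    ∃ G, ∀ x, ‖fderiv ℝ (Boot.pd e w) x‖ ≤ G := by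
  choose M hM using fun i => hH i e
  have hM0 : ∀ i, 0 ≤ M i := fun i => Boot.HB.nonneg (hM i)
  refine ⟨n * ∑ i, M i, fun x => Boot.norm_fderiv_le (fun i => ?_)
    (Finset.sum_nonneg fun i _ => hM0 i)⟩
  rw [Boot.pd_pd_eq h2]
  exact ((hM i).1 x).trans (Finset.single_le_sum (fun j _ => hM0 j) (Finset.mem_univ i))

/-- all orders for `(L+1)w = f` -/
theorem lin1 {a : ℝ} (ha : 0 < a) (ha1 : a ≤ 1) {τ : E n → Matrix (Fin n) (Fin n) ℝ}
    (hstep : Boot.StepStmt a τ) (hstep1 : Step1 a τ)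
    (hτ : ∀ k i j, Boot.CK a k (fun x => τ x i j)) {f w : E n → ℝ} (hf : ∀ k, Boot.CK a k f)
    (h2 : ContDiff ℝ 2 w) (hH : ∀ i j, ∃ M, HB a M (fun x => Hs w x i j))
    (hL : ∀ x, LA τ w x + w x = f x) (k : ℕ) :
    ∀ i j, Boot.CK a k (fun x => Hs w x i j) := by
  have hst := hstep1 f w (hf 1) h2 hH hL
  have h3 : ContDiff ℝ 3 w := Boot.contDiff_three h2 fun e => (hst e).1
  induction k with
  | zero => exact hH
  | succ k ih =>
    intro i j
    refine ⟨hH i j, ?_, fun e => ?_⟩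
    · have : (fun x => Hs w x i j) = Boot.pd i (Boot.pd j w) := by
        funext x; exact (Boot.pd_pd_eq h2 i j x).symm
      rw [this]
      have h4 : ContDiff ℝ ((1 : ℕ) + 1) (Boot.pd j w) := by exact_mod_cast (hst j).1
      exact (Boot.contDiff_pd i h4).differentiable (by norm_num)
    · obtain ⟨h2e, hHe, hLe⟩ := hst e
      have hfe : Boot.CK a k (fun x => Boot.pd e f x
          - ∑ i, ∑ j, Boot.pd e (fun y => τ y i j) x * Hs w x i j) := by
        refine Boot.CK.sub ((hf (k + 1)).pd e) ?_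
        refine Boot.ck_sum _ fun p _ => Boot.ck_sum _ fun q _ => ?_
        exact Boot.CK.mul ((hτ (k + 1) p q).pd e) (ih p q)
      have h5 := Boot.lin ha ha1 hstep k _ (Boot.pd e w) (hτ k) hfe h2e hHe
        (grad_bdd h2 hH e) hLe i j
      refine cast ?_ h5
      congr 1
      funext x
      exact (Boot.pd_Hs h3 e i j x).symm

end Crest.Agent.R238.IsoAsm
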