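import Crest.Agent.R238.CK
import Crest.Agent.R238.IsoLin
import Crest.Agent.R238.TauExt
import Crest.Agent.R238.AprDefs
import Crest.Agent.R238.ExiDefs

/-!
Row 238, node ISO-ASM (helper890): solvability of `(L+1)φ = ψ` in the class `Nice`.
`iso_of : Apr.SchStmt → OneStepStmt → IsoStmt`.
-/

set_option autoImplicit false

open MeasureTheory Set Filter
open scoped ContDiff Topology

namespace Crest.Agent.R238.IsoAsm

open Crest.Agent.R238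

variable {n : ℕ}

/-- the Schauder estimate (B) for one fixed matrix field, without zero order term -/
def SchTau (a : ℝ) (τ : E n → Matrix (Fin n) (Fin n) ℝ) : Prop :=
  ∃ C R' : ℝ, 0 < C ∧ ∀ (h : E n → ℝ) (N S : ℝ), ContDiff ℝ 2 h →
    (∃ B, ∀ i j, HB a B (fun x => Hs h x i j)) →
    HB a N (fun x => LA τ h x) → (∀ x, ‖x‖ ≤ R' → |h x| ≤ S) →
    ∀ i j, HB a (C * (N + S)) (fun x => Hs h x i j)

/-- the two linear one-step lemmas (difference quotients) from (B) -/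
def OneStepStmt : Prop := ∀ (n : ℕ) (a : ℝ), 0 < a → a < 1 →
  ∀ τ : E n → Matrix (Fin n) (Fin n) ℝ, (∀ i j, Boot.CK a 1 (fun x => τ x i j)) → SchTau a τ →
    Boot.StepStmt a τ ∧ Step1 a τ

/-- the two classes coincide -/
theorem ck_boot {a : ℝ} {k : ℕ} {f : E n → ℝ} : CK a k f ↔ Boot.CK a k f := by
  induction k generalizing f with
  | zero => exact Iff.rfl
  | succ k ih =>
    constructor
    · intro h
      exact ⟨h.1, h.2.1, fun i => ih.1 (h.2.2 i)⟩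
    · intro h
      exact ⟨h.1, h.2.1, fun i => ih.2 (h.2.2 i)⟩

/-- far smallness of `τ - 1` from that of `D²v` -/
theorem far_tauf {a ε R lo hi : ℝ} (h0 : 0 < lo) (h01 : lo ≤ hi) (hε : 0 ≤ ε) {v : E n → ℝ}
    (hE : ∀ x, Ell lo hi (gm v x)) {δ : ℝ} (hδ : ((n : ℝ) * lo⁻¹ + (n : ℝ) ^ 2 * lo⁻¹ ^ 2) * δ ≤ ε)
    (hδ0 : 0 ≤ δ) (hs : ExtS a δ R v) : Apr.Far a ε R (tauf v) := by
  have hl : 0 < lo⁻¹ := inv_pos.2 h0
  intro x y hx hy i j
  constructor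
  · have h1 := TauExt.ext_tauf_sup h0 h01 (hE x) (hs.1 x hx) i j
    refine h1.trans (le_trans ?_ hδ)
    have : 0 ≤ (n : ℝ) ^ 2 * lo⁻¹ ^ 2 * δ := by positivity
    nlinarith
  · have h1 := TauExt.ext_tauf_hol h0 h01 (hE x) (hE y) (hs.2 x y hx hy) i j
    have h3 : 0 ≤ ‖x - y‖ ^ a := Real.rpow_nonneg (norm_nonneg _) a
    calc |tauf v x i j - tauf v y i j| ≤ (n : ℝ) ^ 2 * lo⁻¹ ^ 2 * (δ * ‖x - y‖ ^ a) := h1
      _ = ((n : ℝ) ^ 2 * lo⁻¹ ^ 2 * δ) * ‖x - y‖ ^ a := by ring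
      _ ≤ ε * ‖x - y‖ ^ a := by
          refine mul_le_mul_of_nonneg_right (le_trans ?_ hδ) h3
          have : 0 ≤ (n : ℝ) * lo⁻¹ * δ := by positivity
          nlinarith

/-- (B) for `τ = tauf v` from the general statement -/
theorem schTau_of (hS : Apr.SchStmt) {a lo hi : ℝ} (ha : 0 < a) (ha1 : a < 1) (h0 : 0 < lo)
    (h01 : lo ≤ hi) {v : E n → ℝ} (hE : ∀ x, Ell lo hi (gm v x))
    (hH : ∀ i j, ∃ M, HB a M (fun x => Hs v x i j))
    (hext : ∀ ε : ℝ, 0 < ε → ∃ R : ℝ, ExtS a ε R v) : SchTau a (tauf v) := by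
  have hhi : 0 < hi := h0.trans_le h01
  obtain ⟨ε₀, hε₀, H⟩ := hS n a hi⁻¹ lo⁻¹ ha ha1 (inv_pos.2 hhi) (inv_anti₀ h0 h01)
  have hl : 0 < lo⁻¹ := inv_pos.2 h0
  set q : ℝ := (n : ℝ) * lo⁻¹ + (n : ℝ) ^ 2 * lo⁻¹ ^ 2 with hq
  have hq0 : 0 ≤ q := by positivity
  obtain ⟨R, hR⟩ := hext (ε₀ / (q + 1)) (by positivity)
  have hδ : q * (ε₀ / (q + 1)) ≤ ε₀ := by
    rw [mul_div_assoc', div_le_iff₀ (by positivity)]
    nlinarith
  have hfar : Apr.Far a ε₀ R (tauf v) :=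
    far_tauf h0 h01 hε₀.le hE hδ (by positivity) hR
  choose M hM using hH
  set M0 : ℝ := ∑ i, ∑ j, M i j with hM0
  have hMn : ∀ i j, 0 ≤ M i j := fun i j => Boot.HB.nonneg (hM i j)
  have hMle : ∀ i j, M i j ≤ M0 := fun i j =>
    (Finset.single_le_sum (f := fun j => M i j) (fun j _ => hMn i j) (Finset.mem_univ j)).trans
      (Finset.single_le_sum (f := fun i => ∑ j, M i j)
        (fun i _ => Finset.sum_nonneg fun j _ => hMn i j) (Finset.mem_univ i))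
  have hb : ∀ i j, HB a ((n : ℝ) ^ 2 * lo⁻¹ ^ 2 * M0 + lo⁻¹) (fun x => tauf v x i j) :=
    fun i j => TauExt.hb_tauf h0 h01 hE (fun i j => Boot.HB.mono (hM i j) (hMle i j)) i j
  obtain ⟨C, R', hC, H1⟩ := H ((n : ℝ) ^ 2 * lo⁻¹ ^ 2 * M0 + lo⁻¹) R
  refine ⟨C, R', hC, fun h N S h2 hB hN hSb i j => ?_⟩
  refine H1 (tauf v) (fun x => TauExt.ell_tauf h0 h01 (hE x)) hb hfar 0 (Or.inl rfl) h N S h2 hB
    ?_ hSb i j
  simpa using hN

/-- widen the ellipticity constants so that `lo ≤ hi` -/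
theorem ell_widen {lo hi : ℝ} {A : Matrix (Fin n) (Fin n) ℝ} (h : Ell lo hi A) :
    Ell lo (max lo hi) A := by
  refine ⟨h.1, fun z => ⟨(h.2 z).1, (h.2 z).2.trans ?_⟩⟩
  exact mul_le_mul_of_nonneg_right (le_max_right _ _) (Finset.sum_nonneg fun i _ => sq_nonneg _)

/-- **ISO-ASM** -/
theorem iso_of (hS : Apr.SchStmt) (hO : OneStepStmt) : IsoStmt := by
  intro n a ha ha1 v hv _ hell hext hsrj ψ hψ hψe
  obtain ⟨lo, hi', h0, hE'⟩ := hell
  set hi : ℝ := max lo hi' with hhi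
  have h01 : lo ≤ hi := le_max_left _ _
  have hE : ∀ x, Ell lo hi (gm v x) := fun x => ell_widen (hE' x)
  have hτ : ∀ k i j, Boot.CK a k (fun x => tauf v x i j) := fun k i j =>
    ck_boot.1 (CK_tauf ha.le ha1.le hv h0 hE k i j)
  have hHv : ∀ i j, ∃ M, HB a M (fun x => Hs v x i j) := fun i j =>
    CK_of_nice ha.le ha1.le hv 0 i j
  have hB := schTau_of hS ha ha1 h0 h01 hE hHv hext
  obtain ⟨hst, hst1⟩ := hO n a ha ha1 (tauf v) (fun i j => hτ 1 i j) hB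
  have hψk : ∀ k, Boot.CK a k ψ := fun k => ck_boot.1 (CK.of_tst ha.le ha1.le hψ)
  obtain ⟨N, hN⟩ := (hψk 0).hb
  obtain ⟨h, ⟨B, hc⟩, hL⟩ := hsrj ψ N hN hψe
  have hk : ∀ k i j, CK a k (fun x => Hs h x i j) := fun k i j =>
    ck_boot.2 (lin1 ha ha1.le hst hst1 hτ hψk hc.c2 (fun i j => ⟨B, hc.hb i j⟩) hL k i j)
  exact ⟨h, nice_of_CK ha hc.c2 hk, hc.even, hL⟩

end Crest.Agent.R238.IsoAsm
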