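import Crest.Agent.R238.HolDefs

/-!
Row 238 (helper346): limit lemma for functions with uniformly Hölder second derivatives,
and its difference-quotient version.
-/

set_option autoImplicit false

open Set Filter
open scoped ContDiff Topology

namespace Crest.Agent.R238.LimC2

open Crest.Agent.R238

variable {n : ℕ}

theorem eq_sum (z : E n) : z = ∑ i, z i • ee i := by
  ext j
  simp [Finset.sum_apply, Pi.single_apply]

theorem abs_coord_le (z : E n) (i : Fin n) : |z i| ≤ ‖z‖ := by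
  have := PiLp.norm_apply_le z i
  simpa using this

theorem opnorm1_le {F : Type*} [NormedAddCommGroup F] [NormedSpace ℝ F] (B : E n →L[ℝ] F) {M : ℝ}
    (hM : 0 ≤ M) (h : ∀ i, ‖B (ee i)‖ ≤ M) : ‖B‖ ≤ n * M := by
  refine ContinuousLinearMap.opNorm_le_bound _ (by positivity) fun z => ?_
  have h1 : B z = ∑ i, z i • B (ee i) := by
    conv_lhs => rw [eq_sum z]
    simp [map_sum]
  rw [h1]
  calc ‖∑ i, z i • B (ee i)‖ ≤ ∑ i, ‖z i • B (ee i)‖ := norm_sum_le _ _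
    _ ≤ ∑ _i : Fin n, ‖z‖ * M := by
        refine Finset.sum_le_sum fun i _ => ?_
        rw [norm_smul]
        exact mul_le_mul (by simpa using abs_coord_le z i) (h i) (norm_nonneg _) (norm_nonneg _)
    _ = n * M * ‖z‖ := by simp; ring

theorem opnorm2_le (B : E n →L[ℝ] E n →L[ℝ] ℝ) {M : ℝ} (hM : 0 ≤ M)
    (h : ∀ i j, |B (ee i) (ee j)| ≤ M) : ‖B‖ ≤ n * (n * M) :=
  opnorm1_le B (by positivity) fun i => opnorm1_le (B (ee i)) hM fun j => by
    simpa using h i j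

/-- Taylor with Hölder derivative -/
theorem taylor1 {F : Type*} [NormedAddCommGroup F] [NormedSpace ℝ F] {f : E n → F}
    {f' : E n → E n →L[ℝ] F} (hf : ∀ x, HasFDerivAt f (f' x) x) {K a : ℝ} (ha : 0 ≤ a) (hK : 0 ≤ K)
    (hK' : ∀ x y, ‖f' x - f' y‖ ≤ K * ‖x - y‖ ^ a) (x y : E n) :
    ‖f y - f x - f' x (y - x)‖ ≤ K * ‖y - x‖ ^ a * ‖y - x‖ := by
  have h1 : ∀ z ∈ segment ℝ x y, ‖f' z - f' x‖ ≤ K * ‖y - x‖ ^ a := by
    intro z hz
    refine (hK' z x).trans (mul_le_mul_of_nonneg_left ?_ hK)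
    refine Real.rpow_le_rpow (norm_nonneg _) ?_ ha
    have := norm_sub_le_of_mem_segment hz
    simpa using this
  have h2 := (convex_segment x y).norm_image_sub_le_of_norm_hasFDerivWithin_le'
    (f := f) (f' := f') (φ := f' x) (fun z _ => (hf z).hasFDerivWithinAt) h1
    (left_mem_segment ℝ x y) (right_mem_segment ℝ x y)
  exact h2

/-- a `C * |y-x|^b * |y-x|` remainder gives the derivative -/
theorem hasFDerivAt_of_rpow {F : Type*} [NormedAddCommGroup F] [NormedSpace ℝ F] (f : E n → F)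
    (f' : E n →L[ℝ] F) (x : E n) (C b : ℝ) (hb : 0 < b)
    (hf : ∀ y, ‖f y - f x - f' (y - x)‖ ≤ C * ‖y - x‖ ^ b * ‖y - x‖) : HasFDerivAt f f' x := by
  rw [hasFDerivAt_iff_isLittleO, Asymptotics.isLittleO_iff]
  intro c hc
  have h1 : Tendsto (fun y : E n => C * ‖y - x‖ ^ b) (𝓝 x) (𝓝 0) := by
    have h2 : Continuous fun y : E n => C * ‖y - x‖ ^ b :=
      continuous_const.mul ((continuous_norm.comp (continuous_id.sub continuous_const)).rpow_const
        fun _ => Or.inr hb.le)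
    have h3 := h2.tendsto x
    simpa [Real.zero_rpow hb.ne'] using h3
  filter_upwards [h1.eventually (gt_mem_nhds hc)] with y hy
  exact (hf y).trans (mul_le_mul_of_nonneg_right hy.le (norm_nonneg _))

theorem continuous_of_rpow {F : Type*} [NormedAddCommGroup F] (q : E n → F) {K a : ℝ}
    (ha : 0 < a) (S2 : ∀ x y, ‖q x - q y‖ ≤ K * ‖x - y‖ ^ a) : Continuous q := by
  rw [continuous_iff_continuousAt]
  intro x
  have h1 : Tendsto (fun y : E n => K * ‖y - x‖ ^ a) (𝓝 x) (𝓝 0) := by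
    have h2 : Continuous fun y : E n => K * ‖y - x‖ ^ a :=
      continuous_const.mul ((continuous_norm.comp (continuous_id.sub continuous_const)).rpow_const
        fun _ => Or.inr ha.le)
    have h3 := h2.tendsto x
    simpa [Real.zero_rpow ha.ne'] using h3
  rw [ContinuousAt, tendsto_iff_norm_sub_tendsto_zero]
  exact squeeze_zero (fun _ => norm_nonneg _) (fun y => S2 y x) h1

/-- passing to the limit in a first order Taylor estimate -/
theorem lim_taylor {F : Type*} [NormedAddCommGroup F] [NormedSpace ℝ F] {ι : Type*} {U : Filter ι}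
    [NeBot U] {f : ι → E n → F} {f' : ι → E n → E n →L[ℝ] F} {g : E n → F} {g' : E n → E n →L[ℝ] F}
    {C b : ℝ} (h : ∀ᶠ i in U, ∀ x y, ‖f i y - f i x - f' i x (y - x)‖ ≤ C * ‖y - x‖ ^ b * ‖y - x‖)
    (h1 : ∀ x, Tendsto (fun i => f i x) U (𝓝 (g x)))
    (h2 : ∀ x, Tendsto (fun i => f' i x) U (𝓝 (g' x))) (x y : E n) :
    ‖g y - g x - g' x (y - x)‖ ≤ C * ‖y - x‖ ^ b * ‖y - x‖ := by
  have h3 : Tendsto (fun i => f' i x (y - x)) U (𝓝 (g' x (y - x))) :=
    ((ContinuousLinearMap.apply ℝ F (y - x)).continuous.tendsto _).comp (h2 x)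
  have h4 := (((h1 y).sub (h1 x)).sub h3).norm
  exact le_of_tendsto h4 (h.mono fun i hi => hi x y)

theorem lim_hol {F : Type*} [NormedAddCommGroup F] {ι : Type*} {U : Filter ι}
    [NeBot U] {f : ι → E n → F} {g : E n → F}
    {C b : ℝ} (h : ∀ᶠ i in U, ∀ x y, ‖f i x - f i y‖ ≤ C * ‖x - y‖ ^ b)
    (h1 : ∀ x, Tendsto (fun i => f i x) U (𝓝 (g x))) (x y : E n) :
    ‖g x - g y‖ ≤ C * ‖x - y‖ ^ b :=
  le_of_tendsto ((h1 x).sub (h1 y)).norm (h.mono fun _ hi => hi x y)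

theorem exists_lim {F : Type*} [NormedAddCommGroup F] [NormedSpace ℝ F] [FiniteDimensional ℝ F]
    {ι : Type*} (U : Ultrafilter ι) (f : ι → F) (R : ℝ) (h : ∀ᶠ i in (U : Filter ι), ‖f i‖ ≤ R) :
    ∃ p, Tendsto f U (𝓝 p) := by
  have : ProperSpace F := FiniteDimensional.proper ℝ F
  have h1 : (↑(U.map f) : Filter F) ≤ 𝓟 (Metric.closedBall 0 R) := by
    rw [le_principal_iff]
    show ∀ᶠ i in U, f i ∈ Metric.closedBall 0 R
    filter_upwards [h] with _ hi
    simpa using hi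
  obtain ⟨p, -, hp⟩ := (isCompact_closedBall (0 : F) R).ultrafilter_le_nhds _ h1
  exact ⟨p, hp⟩

/-- ultrafilter version of the limit lemma -/
theorem lim_ultra {ι : Type*} (U : Ultrafilter ι) (h : ι → E n → ℝ) (h0 : E n → ℝ) {a M K : ℝ}
    (ha : 0 < a) (hM : 0 ≤ M) (hK : 0 ≤ K) (hc : ∀ᶠ i in U, ContDiff ℝ 2 (h i))
    (hb : ∀ᶠ i in U, ∀ x, ‖fderiv ℝ (fderiv ℝ (h i)) x‖ ≤ M)
    (hh : ∀ᶠ i in U, ∀ x y, ‖fderiv ℝ (fderiv ℝ (h i)) x - fderiv ℝ (fderiv ℝ (h i)) y‖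
      ≤ K * ‖x - y‖ ^ a)
    (hl : ∀ x, Tendsto (fun i => h i x) U (𝓝 (h0 x))) :
    ContDiff ℝ 2 h0 ∧ (∀ x, Tendsto (fun i => fderiv ℝ (h i) x) U (𝓝 (fderiv ℝ h0 x))) ∧
      ∀ x, Tendsto (fun i => fderiv ℝ (fderiv ℝ (h i)) x) U (𝓝 (fderiv ℝ (fderiv ℝ h0) x)) := by
  classical
  have hd1 : ∀ᶠ i in U, ∀ x, HasFDerivAt (h i) (fderiv ℝ (h i) x) x := by
    filter_upwards [hc] with i hi x
    exact (hi.differentiable (by norm_num) x).hasFDerivAt
  have hd2 : ∀ᶠ i in U, ∀ x, HasFDerivAt (fderiv ℝ (h i)) (fderiv ℝ (fderiv ℝ (h i)) x) x := by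
    filter_upwards [hc] with i hi x
    exact ((hi.fderiv_right (m := 1) (by norm_num)).differentiable (by norm_num) x).hasFDerivAt
  -- first order Lipschitz
  have hlip : ∀ᶠ i in U, ∀ x y, ‖fderiv ℝ (h i) x - fderiv ℝ (h i) y‖ ≤ M * ‖x - y‖ ^ (1 : ℝ) := by
    filter_upwards [hd2, hb] with i hi hbi x y
    have := (convex_univ (𝕜 := ℝ) (E := E n)).norm_image_sub_le_of_norm_hasFDerivWithin_le
      (f := fderiv ℝ (h i)) (f' := fun x => fderiv ℝ (fderiv ℝ (h i)) x) (C := M)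
      (fun z _ => (hi z).hasFDerivWithinAt) (fun z _ => hbi z) (mem_univ y) (mem_univ x)
    simpa [Real.rpow_one] using this
  have T0 : ∀ᶠ i in U, ∀ x y, ‖h i y - h i x - fderiv ℝ (h i) x (y - x)‖
      ≤ M * ‖y - x‖ ^ (1 : ℝ) * ‖y - x‖ := by
    filter_upwards [hd1, hlip] with i h1 h2 x y
    exact taylor1 h1 zero_le_one hM h2 x y
  have T1 : ∀ᶠ i in U, ∀ x y, ‖fderiv ℝ (h i) y - fderiv ℝ (h i) x
      - fderiv ℝ (fderiv ℝ (h i)) x (y - x)‖ ≤ K * ‖y - x‖ ^ a * ‖y - x‖ := by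
    filter_upwards [hd2, hh] with i h1 h2 x y
    exact taylor1 h1 ha.le hK h2 x y
  -- boundedness of first derivatives
  have hbd : ∀ x, ∃ R, ∀ᶠ i in U, ‖fderiv ℝ (h i) x‖ ≤ R := by
    intro x
    have h1 : ∀ᶠ i in U, ∀ j : Fin n, |h i (x + ee j) - h i x - (h0 (x + ee j) - h0 x)| < 1 := by
      rw [Filter.eventually_all]
      intro j
      have := ((hl (x + ee j)).sub (hl x))
      have h2 := (Metric.tendsto_nhds.1 this) 1 one_pos
      filter_upwards [h2] with i hi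
      rwa [Real.dist_eq] at hi
    refine ⟨n * (M + 1 + ∑ j, |h0 (x + ee j) - h0 x|), ?_⟩
    filter_upwards [h1, T0] with i hi ht
    refine opnorm1_le _ (by positivity) fun j => ?_
    have e1 := ht x (x + ee j)
    have e2 : ‖(x + ee j) - x‖ = 1 := by simp
    rw [e2] at e1
    have e3 : (x + ee j) - x = (ee j : E n) := by simp
    rw [e3] at e1
    simp only [Real.one_rpow, mul_one] at e1
    have e4 := hi j
    have e5 : |h0 (x + ee j) - h0 x| ≤ ∑ j, |h0 (x + ee j) - h0 x| :=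
      Finset.single_le_sum (f := fun j => |h0 (x + ee j) - h0 x|) (fun _ _ => abs_nonneg _)
        (Finset.mem_univ j)
    rw [Real.norm_eq_abs] at e1 ⊢
    rw [abs_le] at e1 ⊢
    rw [abs_lt] at e4
    have e6 := abs_le.1 (le_refl |h0 (x + ee j) - h0 x|)
    constructor <;> linarith [e1.1, e1.2, e4.1, e4.2, e6.1, e6.2]
  have hp : ∀ x, ∃ p, Tendsto (fun i => fderiv ℝ (h i) x) U (𝓝 p) := fun x => by
    obtain ⟨R, hR⟩ := hbd x
    exact exists_lim U _ R hR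
  have hq : ∀ x, ∃ q, Tendsto (fun i => fderiv ℝ (fderiv ℝ (h i)) x) U (𝓝 q) := fun x =>
    exists_lim (F := E n →L[ℝ] E n →L[ℝ] ℝ) U (fun i => fderiv ℝ (fderiv ℝ (h i)) x) M
      (hb.mono fun _ hi => hi x)
  choose p hp using hp
  choose q hq using hq
  have S0 := lim_taylor T0 hl hp
  have S1 := lim_taylor T1 hp hq
  have S2 : ∀ x y, ‖q x - q y‖ ≤ K * ‖x - y‖ ^ a :=
    lim_hol (F := E n →L[ℝ] E n →L[ℝ] ℝ) (f := fun i => fderiv ℝ (fderiv ℝ (h i))) hh hq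
  have D0 : ∀ x, HasFDerivAt h0 (p x) x := fun x =>
    hasFDerivAt_of_rpow h0 (p x) x M 1 one_pos fun y => S0 x y
  have D1 : ∀ x, HasFDerivAt p (q x) x := fun x =>
    hasFDerivAt_of_rpow p (q x) x K a ha fun y => S1 x y
  have e0 : fderiv ℝ h0 = p := funext fun x => (D0 x).fderiv
  have e1 : fderiv ℝ p = q := funext fun x => (D1 x).fderiv
  have cq : Continuous q := continuous_of_rpow q ha S2
  refine ⟨?_, fun x => e0 ▸ hp x, fun x => ?_⟩
  · have h2 : (2 : WithTop ℕ∞) = 1 + 1 := by norm_num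
    rw [h2, contDiff_succ_iff_fderiv]
    refine ⟨fun x => (D0 x).differentiableAt, by simp, ?_⟩
    rw [e0, contDiff_one_iff_fderiv]
    exact ⟨fun x => (D1 x).differentiableAt, e1 ▸ cq⟩
  · rw [e0, e1]; exact hq x

/-- entries of the Hessian bounded by `M` ⇒ operator norm bound -/
theorem norm_hess_le {f : E n → ℝ} {x : E n} {M : ℝ} (hM : 0 ≤ M) (h : ∀ p q, |Hs f x p q| ≤ M) :
    ‖fderiv ℝ (fderiv ℝ f) x‖ ≤ n * (n * M) := opnorm2_le _ hM h

theorem norm_hess_sub_le {f : E n → ℝ} {x y : E n} {M : ℝ} (hM : 0 ≤ M)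
    (h : ∀ p q, |Hs f x p q - Hs f y p q| ≤ M) :
    ‖fderiv ℝ (fderiv ℝ f) x - fderiv ℝ (fderiv ℝ f) y‖ ≤ n * (n * M) :=
  opnorm2_le _ hM fun i j => by simpa [Hs] using h i j

theorem abs_entry_le (B : E n →L[ℝ] E n →L[ℝ] ℝ) (i j : Fin n) : |B (ee i) (ee j)| ≤ ‖B‖ := by
  have h1 := (B (ee i)).le_opNorm (ee j)
  have h2 := B.le_opNorm (ee i)
  have e1 : ‖(ee i : E n)‖ = 1 := by simp
  have e2 : ‖(ee j : E n)‖ = 1 := by simp
  rw [e2, mul_one] at h1
  rw [e1, mul_one] at h2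
  simpa using h1.trans h2

/-- **LIMIT LEMMA.** `C²` functions whose Hessians are uniformly bounded and `a`-Hölder, converging
pointwise along a filter, have a `C²` limit with the same bounds, and all derivatives of order
`≤ 2` converge pointwise. -/
theorem limC2 {ι : Type*} (l : Filter ι) [NeBot l] (h : ι → E n → ℝ) (h0 : E n → ℝ) {a M : ℝ}
    (ha : 0 < a) (hc : ∀ᶠ i in l, ContDiff ℝ 2 (h i))
    (hb : ∀ᶠ i in l, ∀ p q, HB a M (fun x => Hs (h i) x p q))
    (hl : ∀ x, Tendsto (fun i => h i x) l (𝓝 (h0 x))) :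
    ContDiff ℝ 2 h0 ∧ (∀ p q, HB a M (fun x => Hs h0 x p q)) ∧
      (∀ x, Tendsto (fun i => fderiv ℝ (h i) x) l (𝓝 (fderiv ℝ h0 x))) ∧
      (∀ x, Tendsto (fun i => fderiv ℝ (fderiv ℝ (h i)) x) l (𝓝 (fderiv ℝ (fderiv ℝ h0) x))) ∧
      ∀ x p q, Tendsto (fun i => Hs (h i) x p q) l (𝓝 (Hs h0 x p q)) := by
  classical
  -- a nonnegative version of `M`
  have hb' : ∀ᶠ i in l, ∀ x, ‖fderiv ℝ (fderiv ℝ (h i)) x‖ ≤ n * (n * |M|) := by
    filter_upwards [hb] with i hi x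
    exact norm_hess_le (abs_nonneg M) fun p q => ((hi p q).1 x).trans (le_abs_self M)
  have hh' : ∀ᶠ i in l, ∀ x y, ‖fderiv ℝ (fderiv ℝ (h i)) x - fderiv ℝ (fderiv ℝ (h i)) y‖
      ≤ (n * (n * |M|)) * ‖x - y‖ ^ a := by
    filter_upwards [hb] with i hi x y
    have h1 : 0 ≤ ‖x - y‖ ^ a := Real.rpow_nonneg (norm_nonneg _) a
    have h2 := norm_hess_sub_le (f := h i) (x := x) (y := y) (M := |M| * ‖x - y‖ ^ a)
      (by positivity) fun p q => ((hi p q).2 x y).trans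
        (mul_le_mul_of_nonneg_right (le_abs_self M) h1)
    calc _ ≤ _ := h2
      _ = _ := by ring
  have main : ∀ U : Ultrafilter ι, (U : Filter ι) ≤ l →
      ContDiff ℝ 2 h0 ∧ (∀ x, Tendsto (fun i => fderiv ℝ (h i) x) U (𝓝 (fderiv ℝ h0 x))) ∧
      ∀ x, Tendsto (fun i => fderiv ℝ (fderiv ℝ (h i)) x) U (𝓝 (fderiv ℝ (fderiv ℝ h0) x)) :=
    fun U hU => lim_ultra U h h0 ha (by positivity) (by positivity) (hU hc) (hU hb') (hU hh')
      fun x => (hl x).mono_left hU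
  have t1 : ∀ x, Tendsto (fun i => fderiv ℝ (h i) x) l (𝓝 (fderiv ℝ h0 x)) := fun x =>
    tendsto_iff_ultrafilter _ _ _ |>.2 fun U hU => (main U hU).2.1 x
  have t2 : ∀ x, Tendsto (fun i => fderiv ℝ (fderiv ℝ (h i)) x) l
      (𝓝 (fderiv ℝ (fderiv ℝ h0) x)) := fun x =>
    tendsto_iff_ultrafilter _ _ _ |>.2 fun U hU => (main U hU).2.2 x
  have t3 : ∀ x p q, Tendsto (fun i => Hs (h i) x p q) l (𝓝 (Hs h0 x p q)) := by
    intro x p q
    rw [tendsto_iff_norm_sub_tendsto_zero]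
    have h1 := (tendsto_iff_norm_sub_tendsto_zero (E := E n →L[ℝ] E n →L[ℝ] ℝ)).1 (t2 x)
    refine squeeze_zero (fun _ => norm_nonneg _) (fun i => ?_) h1
    have := abs_entry_le (fderiv ℝ (fderiv ℝ (h i)) x - fderiv ℝ (fderiv ℝ h0) x) p q
    simpa [Hs] using this
  refine ⟨(main (Ultrafilter.of l) (Ultrafilter.of_le l)).1, fun p q => ⟨fun x => ?_, fun x y => ?_⟩,
    t1, t2, t3⟩
  · exact le_of_tendsto (t3 x p q).abs (hb.mono fun i hi => (hi p q).1 x)
  · exact le_of_tendsto ((t3 x p q).sub (t3 y p q)).abs (hb.mono fun i hi => (hi p q).2 x y)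

/-- the difference quotient in direction `ee j` -/
noncomputable def dq (v : E n → ℝ) (j : Fin n) (t : ℝ) (x : E n) : ℝ := (v (x + t • ee j) - v x) / t

theorem dq_contDiff {k : WithTop ℕ∞} {v : E n → ℝ} (hv : ContDiff ℝ k v) (j : Fin n) (t : ℝ) :
    ContDiff ℝ k (dq v j t) :=
  ((hv.comp (contDiff_id.add contDiff_const)).sub hv).div_const t

theorem dq_tendsto {v : E n → ℝ} (hv : Differentiable ℝ v) (j : Fin n) (x : E n) :
    Tendsto (fun t => dq v j t x) (𝓝[≠] 0) (𝓝 (fderiv ℝ v x (ee j))) := by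
  have h1 : HasDerivAt (fun t : ℝ => v (x + t • ee j)) (fderiv ℝ v x (ee j)) 0 := by
    have h2 : HasDerivAt (fun t : ℝ => x + t • (ee j : E n)) (ee j) 0 := by
      simpa using ((hasDerivAt_id (0 : ℝ)).smul_const (ee j : E n)).const_add x
    have h3 : HasFDerivAt v (fderiv ℝ v x) (x + (0 : ℝ) • (ee j : E n)) := by
      simpa using (hv x).hasFDerivAt
    exact h3.comp_hasDerivAt 0 h2
  have h4 := h1.tendsto_slope
  refine h4.congr fun t => ?_
  simp only [slope, vsub_eq_sub, sub_zero, zero_smul, add_zero, smul_eq_mul, dq]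
  ring

/-- **DIFFERENCE QUOTIENT LEMMA** -/
theorem diffQuot {v : E n → ℝ} (hv : ContDiff ℝ 2 v) (j : Fin n) {a M : ℝ} (ha : 0 < a)
    (h : ∀ᶠ t in 𝓝[≠] (0 : ℝ), ∀ p q, HB a M (fun x => Hs (dq v j t) x p q)) :
    ContDiff ℝ 2 (fun x => fderiv ℝ v x (ee j)) ∧
      (∀ p q, HB a M (fun x => Hs (fun x => fderiv ℝ v x (ee j)) x p q)) ∧
      (∀ x, Tendsto (fun t => fderiv ℝ (dq v j t) x) (𝓝[≠] 0)
        (𝓝 (fderiv ℝ (fun x => fderiv ℝ v x (ee j)) x))) ∧
      ∀ x p q, Tendsto (fun t => Hs (dq v j t) x p q) (𝓝[≠] 0)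
        (𝓝 (Hs (fun x => fderiv ℝ v x (ee j)) x p q)) := by
  have h1 := limC2 (𝓝[≠] (0 : ℝ)) (dq v j) (fun x => fderiv ℝ v x (ee j)) ha
    (Eventually.of_forall fun t => dq_contDiff hv j t) h
    fun x => dq_tendsto (hv.differentiable (by norm_num)) j x
  exact ⟨h1.1, h1.2.1, h1.2.2.1, h1.2.2.2.2⟩

/-- differentiable with `C^k` partial derivatives ⇒ `C^{k+1}` -/
theorem contDiff_succ_of_partials {k : ℕ} {v : E n → ℝ} (hd : Differentiable ℝ v)
    (h : ∀ j, ContDiff ℝ k (fun x => fderiv ℝ v x (ee j))) : ContDiff ℝ (k + 1) v := by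
  rw [contDiff_succ_iff_fderiv]
  refine ⟨hd, by simp, ?_⟩
  exact contDiff_clm_apply_iff.2 fun z => by
    have h1 : (fun x => fderiv ℝ v x z) = fun x => ∑ i, z i * fderiv ℝ v x (ee i) := by
      funext x
      conv_lhs => rw [eq_sum z]
      simp [map_sum]
    rw [h1]
    exact ContDiff.sum fun i _ => contDiff_const.mul (h i)

/-- second derivatives in terms of the partial derivatives -/
theorem Hs_eq {v : E n → ℝ} (hv : ContDiff ℝ 2 v) (x : E n) (p q : Fin n) :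
    Hs v x p q = fderiv ℝ (fun y => fderiv ℝ v y (ee q)) x (ee p) := by
  have h1 : HasFDerivAt (fderiv ℝ v) (fderiv ℝ (fderiv ℝ v) x) x :=
    ((hv.fderiv_right (m := 1) (by norm_num)).differentiable (by norm_num) x).hasFDerivAt
  have h2 := (h1.clm_apply (hasFDerivAt_const (ee q : E n) x)).fderiv
  rw [h2]
  simp [Hs]

theorem fderiv_dq {v : E n → ℝ} (hv : Differentiable ℝ v) (j : Fin n) (t : ℝ) (x : E n) :
    fderiv ℝ (dq v j t) x = t⁻¹ • (fderiv ℝ v (x + t • ee j) - fderiv ℝ v x) := by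
  have h1 : HasFDerivAt (fun y : E n => v (y + t • ee j)) (fderiv ℝ v (x + t • ee j)) x := by
    have h2 : HasFDerivAt (fun y : E n => y + t • (ee j : E n)) (ContinuousLinearMap.id ℝ (E n)) x :=
      (hasFDerivAt_id x).add_const _
    exact (hv (x + t • ee j)).hasFDerivAt.comp x h2
  have h4 := (h1.sub (hv x).hasFDerivAt).const_mul t⁻¹
  have h5 : dq v j t = fun y => t⁻¹ * (v (y + t • ee j) - v y) := by
    funext y; simp only [dq]; ring
  rw [h5]
  exact h4.fderiv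

theorem fderiv2_dq {v : E n → ℝ} (hv : ContDiff ℝ 2 v) (j : Fin n) (t : ℝ) (x : E n) :
    fderiv ℝ (fderiv ℝ (dq v j t)) x
      = t⁻¹ • (fderiv ℝ (fderiv ℝ v) (x + t • ee j) - fderiv ℝ (fderiv ℝ v) x) := by
  have hd : Differentiable ℝ (fderiv ℝ v) :=
    (hv.fderiv_right (m := 1) (by norm_num)).differentiable (by norm_num)
  have h0 : fderiv ℝ (dq v j t) = fun x => t⁻¹ • (fderiv ℝ v (x + t • ee j) - fderiv ℝ v x) :=
    funext fun x => fderiv_dq (hv.differentiable (by norm_num)) j t x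
  have h1 : HasFDerivAt (fun y : E n => fderiv ℝ v (y + t • ee j))
      (fderiv ℝ (fderiv ℝ v) (x + t • ee j)) x := by
    have h2 : HasFDerivAt (fun y : E n => y + t • (ee j : E n)) (ContinuousLinearMap.id ℝ (E n)) x :=
      (hasFDerivAt_id x).add_const _
    exact (hd (x + t • ee j)).hasFDerivAt.comp x h2
  rw [h0]
  exact ((h1.sub (hd x).hasFDerivAt).const_smul t⁻¹).fderiv

theorem Hs_dq {v : E n → ℝ} (hv : ContDiff ℝ 2 v) (j : Fin n) (t : ℝ) (x : E n) (p q : Fin n) :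
    Hs (dq v j t) x p q = (Hs v (x + t • ee j) p q - Hs v x p q) / t := by
  rw [Hs, fderiv2_dq hv]
  simp [Hs, div_eq_inv_mul, mul_sub]

theorem Hs_symm {v : E n → ℝ} (hv : ContDiff ℝ 2 v) (x : E n) (p q : Fin n) :
    Hs v x p q = Hs v x q p :=
  (hv.contDiffAt (x := x)).isSymmSndFDerivAt (by simp) (ee p) (ee q)

/-- the Hessian entries of a `C²` function whose difference quotients in direction `j` have
uniformly Hölder Hessians are differentiable in direction `j`. -/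
theorem hasDerivAt_Hs {v : E n → ℝ} (hv : ContDiff ℝ 2 v) (j : Fin n) {a M : ℝ} (ha : 0 < a)
    (h : ∀ᶠ t in 𝓝[≠] (0 : ℝ), ∀ p q, HB a M (fun x => Hs (dq v j t) x p q)) (x : E n)
    (p q : Fin n) :
    HasDerivAt (fun t : ℝ => Hs v (x + t • ee j) p q)
      (Hs (fun x => fderiv ℝ v x (ee j)) x p q) 0 := by
  rw [hasDerivAt_iff_tendsto_slope]
  have h1 := (diffQuot hv j ha h).2.2.2 x p q
  refine h1.congr fun t => ?_
  rw [Hs_dq hv]
  simp only [slope, vsub_eq_sub, sub_zero, zero_smul, add_zero, smul_eq_mul]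
  ring

theorem fderiv_Hs {v : E n → ℝ} (hv : ContDiff ℝ 3 v) (x : E n) (j p q : Fin n) :
    fderiv ℝ (fun y => Hs v y p q) x (ee j) = Hs (fun x => fderiv ℝ v x (ee j)) x p q := by
  have h2 : ContDiff ℝ 2 v := hv.of_le (by norm_num)
  have hw : ∀ q : Fin n, ContDiff ℝ 2 (fun y => fderiv ℝ v y (ee q)) := fun q =>
    (hv.fderiv_right (m := 2) (by norm_num)).clm_apply contDiff_const
  have e1 : (fun y => Hs v y p q) = fun y => fderiv ℝ (fun z => fderiv ℝ v z (ee q)) y (ee p) :=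
    funext fun y => Hs_eq h2 y p q
  have e2 : (fun y => fderiv ℝ (fun z => fderiv ℝ v z (ee j)) y (ee q))
      = fun y => fderiv ℝ (fun z => fderiv ℝ v z (ee q)) y (ee j) := by
    funext y
    rw [← Hs_eq h2, ← Hs_eq h2, Hs_symm h2]
  rw [e1, ← Hs_eq (hw q), Hs_eq (hw j), e2, ← Hs_eq (hw q), Hs_symm (hw q)]

end Crest.Agent.R238.LimC2
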