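import Crest.Agent.R238.SoftAll
import Crest.Agent.R238.Endgame
import Crest.Agent.R238.Asm3

/-! Row 238: S0369 from `Exi`, `Ident`, `Dens`. (helper477) -/

set_option autoImplicit false
open MeasureTheory

namespace Crest.Agent.R238

/-- S0369 from existence, identity and density -/
theorem s0369_of_top (hex : ∀ n, Exi n) (hid : ∀ n, Ident n) (hde : ∀ n, Dens n)
    (n : ℕ) (hn : 1 ≤ n)
    (K L : Set (EuclideanSpace ℝ (Fin n)))
    (hKc : IsCompact K) (hKv : Convex ℝ K) (hKi : (interior K).Nonempty) (hKs : ∀ x ∈ K, -x ∈ K)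
    (hLc : IsCompact L) (hLv : Convex ℝ L) (hLi : (interior L).Nonempty) (hLs : ∀ x ∈ L, -x ∈ L)
    (t : ℝ) (ht0 : 0 ≤ t) (ht1 : t ≤ 1) :
    volume K ^ (1 - t) * volume L ^ t ≤
      volume (⋂ u ∈ Metric.sphere (0 : EuclideanSpace ℝ (Fin n)) 1,
        {x : EuclideanSpace ℝ (Fin n) | inner ℝ x u ≤
          sSup ((fun y => inner ℝ y u) '' K) ^ (1 - t) * sSup ((fun y => inner ℝ y u) '' L) ^ t}) :=
  s0369_of_slab n hn
    (Soft.slab_of_localIneq n (Asm.localIneq_of_top (hex n) (hid n) (hde n)))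
    K L hKc hKv hKi hKs hLc hLv hLi hLs t ht0 ht1

end Crest.Agent.R238
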