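import Mathlib

/-!
# Maximum principle on `ℝⁿ` (Omori–Yau form), row 238, module H7

`E` is a finite dimensional real inner product space.  All second derivatives are
`fderiv ℝ (fderiv ℝ w) x h k`.
-/

open Filter Topology Set

namespace Crest.Agent.R238.MaxP

variable {E : Type*} [NormedAddCommGroup E] [InnerProductSpace ℝ E]

/-! ## Radial functions -/

theorem hasFDerivAt_radial {F : ℝ → ℝ} {x : E} {F1 : ℝ} (h : HasDerivAt F F1 (‖x‖ ^ 2)) :
    HasFDerivAt (fun y : E => F (‖y‖ ^ 2)) ((2 * F1) • innerSL ℝ x) x := by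
  have h1 : HasFDerivAt (fun y : E => ‖y‖ ^ 2) (2 • (innerSL ℝ x)) x :=
    (hasStrictFDerivAt_norm_sq x).hasFDerivAt
  have h2 := h.comp_hasFDerivAt x h1
  refine h2.congr_fderiv ?_
  ext k
  simp
  ring

theorem fderiv_radial {F F1 : ℝ → ℝ} (h : ∀ t, 0 ≤ t → HasDerivAt F (F1 t) t) :
    fderiv ℝ (fun y : E => F (‖y‖ ^ 2)) = fun x => (2 * F1 (‖x‖ ^ 2)) • innerSL ℝ x := by
  funext x
  exact (hasFDerivAt_radial (h _ (by positivity))).fderiv

theorem fderiv_fderiv_radial {F F1 F2 : ℝ → ℝ} (h : ∀ t, 0 ≤ t → HasDerivAt F (F1 t) t)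
    (h1 : ∀ t, 0 ≤ t → HasDerivAt F1 (F2 t) t) (x a b : E) :
    fderiv ℝ (fderiv ℝ (fun y : E => F (‖y‖ ^ 2))) x a b =
      4 * F2 (‖x‖ ^ 2) * (inner ℝ x a) * (inner ℝ x b) + 2 * F1 (‖x‖ ^ 2) * inner ℝ a b := by
  rw [fderiv_radial h]
  have hA : HasFDerivAt (fun x : E => 2 * F1 (‖x‖ ^ 2))
      ((2 : ℝ) • ((2 * F2 (‖x‖ ^ 2)) • innerSL ℝ x)) x :=
    (hasFDerivAt_radial (h1 _ (by positivity))).const_mul 2
  have hB : HasFDerivAt (fun x : E => innerSL ℝ x) (innerSL ℝ : E →L[ℝ] E →L[ℝ] ℝ) x :=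
    (innerSL ℝ : E →L[ℝ] E →L[ℝ] ℝ).hasFDerivAt
  have h3 := hA.smul hB
  have h4 : fderiv ℝ (fun x : E => (2 * F1 (‖x‖ ^ 2)) • (innerSL ℝ) x) x = _ := h3.fderiv
  rw [h4]
  have h5 : ((innerSL ℝ) a) b = inner ℝ a b := rfl
  simp [h5]
  ring

/-! ## Necessary second order condition at a local maximum -/

theorem second_deriv_nonpos_of_isLocalMax {f : E → ℝ} (hf : ContDiff ℝ 2 f) {x : E}
    (hx : IsLocalMax f x) (h : E) : fderiv ℝ (fderiv ℝ f) x h h ≤ 0 := by
  by_contra hcon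
  push Not at hcon
  have hd1 : Differentiable ℝ f := hf.differentiable (by norm_num)
  have hcd : ContDiff ℝ 1 (fderiv ℝ f) := hf.fderiv_right (by norm_num)
  have hd2 : Differentiable ℝ (fderiv ℝ f) := hcd.differentiable (by norm_num)
  set l : ℝ → E := fun t => x + t • h with hl
  have hlc : ∀ t, HasDerivAt l h t := by
    intro t
    have := ((hasDerivAt_id t).smul_const h).const_add x
    simpa [hl] using this
  have hl0 : l 0 = x := by simp [hl]
  set q : ℝ → ℝ := fun t => fderiv ℝ f (l t) h with hq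
  have hp : ∀ t, HasDerivAt (fun t => f (l t)) (q t) t := by
    intro t
    exact (hd1 (l t)).hasFDerivAt.comp_hasDerivAt t (hlc t)
  have hqd : HasDerivAt q (fderiv ℝ (fderiv ℝ f) x h h) 0 := by
    have h1 : HasFDerivAt (fderiv ℝ f) (fderiv ℝ (fderiv ℝ f) x) (l 0) := by
      rw [hl0]; exact (hd2 x).hasFDerivAt
    have h2 := h1.comp_hasDerivAt (0 : ℝ) (hlc 0)
    have h3 := (ContinuousLinearMap.apply ℝ ℝ h).hasFDerivAt.comp_hasDerivAt (0:ℝ) h2
    simpa [hq, Function.comp_def] using h3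
  have hq0 : q 0 = 0 := by
    have : fderiv ℝ f x = 0 := hx.fderiv_eq_zero
    simp [hq, hl0, this]
  have hsign := eventually_nhdsWithin_sign_eq_of_deriv_pos (f := q) (x₀ := 0)
    (by rw [hqd.deriv]; exact hcon) hq0
  have hmax : ∀ᶠ t in 𝓝 (0:ℝ), f (l t) ≤ f (l 0) := by
    have hcont : Continuous l := by
      rw [continuous_iff_continuousAt]; intro t; exact (hlc t).continuousAt
    have := hcont.tendsto 0
    rw [hl0] at this
    have h4 := this.eventually hx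
    simpa [hl0] using h4
  obtain ⟨δ, hδ, hball⟩ := Metric.eventually_nhds_iff.1 (hsign.and hmax)
  have hmono : StrictMonoOn (fun t => f (l t)) (Icc 0 (δ / 2)) := by
    apply strictMonoOn_of_deriv_pos (convex_Icc _ _)
    · exact fun t _ => (hp t).continuousAt.continuousWithinAt
    · intro t ht
      rw [interior_Icc] at ht
      rw [(hp t).deriv]
      have h5 := (hball (y := t) (by
        rw [Real.dist_eq, sub_zero, abs_of_pos ht.1]; linarith [ht.2])).1
      rw [sub_zero] at h5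
      have h6 : SignType.sign t = 1 := sign_pos ht.1
      rw [h6] at h5
      exact sign_eq_one_iff.1 h5
  have h7 := hmono (left_mem_Icc.2 (by positivity)) (right_mem_Icc.2 (by positivity))
    (by positivity : (0:ℝ) < δ / 2)
  have h8 := (hball (y := δ / 2) (by
        rw [Real.dist_eq, sub_zero, abs_of_pos (by positivity)]; linarith)).2
  simp only at h7
  linarith

/-! ## The Omori–Yau form -/

theorem hasDerivAt_logp {t : ℝ} (ht : 0 ≤ t) :
    HasDerivAt (fun t => Real.log (1 + t)) ((1 + t)⁻¹) t := by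
  have h : HasDerivAt (fun t : ℝ => 1 + t) 1 t := (hasDerivAt_id t).const_add 1
  simpa using h.log (by positivity)

theorem hasDerivAt_invp {t : ℝ} (ht : 0 ≤ t) :
    HasDerivAt (fun t : ℝ => (1 + t)⁻¹) (-((1 + t) ^ 2)⁻¹) t := by
  have h : HasDerivAt (fun t : ℝ => 1 + t) 1 t := (hasDerivAt_id t).const_add 1
  have h2 := h.inv (by positivity : (1 + t : ℝ) ≠ 0)
  exact h2.congr_deriv (by rw [neg_div, one_div])

theorem contDiff_logp : ContDiff ℝ 2 (fun x : E => Real.log (1 + ‖x‖ ^ 2)) := by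
  apply ContDiff.log
  · exact contDiff_const.add (contDiff_norm_sq ℝ)
  · intro x; positivity

/-- **Omori–Yau maximum principle**: a `C²` function bounded above on a finite dimensional
inner product space has, for every `κ > 0`, an approximate maximum point `x` at which
`D w = O(κ)`, `D²w ≤ 2κ`, `0 ≤ D w(x) x ≤ 2κ`. -/
theorem omori_yau [FiniteDimensional ℝ E] {w : E → ℝ} (hw : ContDiff ℝ 2 w) {M : ℝ}
    (hM : ∀ x, w x ≤ M) (x0 : E) {κ : ℝ} (hκ : 0 < κ) :
    ∃ x, w x0 - κ * Real.log (1 + ‖x0‖ ^ 2) ≤ w x - κ * Real.log (1 + ‖x‖ ^ 2) ∧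
      (∀ h, |fderiv ℝ w x h| ≤ κ * ‖h‖) ∧ 0 ≤ fderiv ℝ w x x ∧ fderiv ℝ w x x ≤ 2 * κ ∧
      ∀ h, fderiv ℝ (fderiv ℝ w) x h h ≤ 2 * κ * ‖h‖ ^ 2 := by
  set φ : E → ℝ := fun x => Real.log (1 + ‖x‖ ^ 2) with hφ
  have hφc : ContDiff ℝ 2 φ := contDiff_logp
  set f : E → ℝ := fun x => w x - κ * φ x with hf
  have hfc : ContDiff ℝ 2 f := hw.sub (contDiff_const.mul hφc)
  have htend : Tendsto f (cocompact E) atBot := by
    have h1 : Tendsto (fun x : E => ‖x‖ ^ 2) (cocompact E) atTop :=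
      (tendsto_pow_atTop (by norm_num)).comp tendsto_norm_cocompact_atTop
    have h2 : Tendsto φ (cocompact E) atTop :=
      Real.tendsto_log_atTop.comp (tendsto_atTop_add_const_left _ 1 h1)
    have h3 : Tendsto (fun x => M - κ * φ x) (cocompact E) atBot := by
      have h4 := (h2.const_mul_atTop hκ)
      have h5 := tendsto_atBot_add_const_left (cocompact E) M (tendsto_neg_atTop_atBot.comp h4)
      simpa [sub_eq_add_neg, Function.comp_def] using h5
    refine tendsto_atBot_mono (fun x => ?_) h3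
    have := hM x
    simp only [hf]
    linarith
  obtain ⟨x, hx⟩ := hfc.continuous.exists_forall_ge htend
  have hmax : IsLocalMax f x := Filter.Eventually.of_forall hx
  have hφ1 := fderiv_radial (E := E) (F := fun t => Real.log (1 + t))
    (F1 := fun t => (1 + t)⁻¹) (fun t ht => hasDerivAt_logp ht)
  have hφ2 := fderiv_fderiv_radial (E := E) (F := fun t => Real.log (1 + t))
    (F1 := fun t => (1 + t)⁻¹) (F2 := fun t => -((1 + t) ^ 2)⁻¹)
    (fun t ht => hasDerivAt_logp ht) (fun t ht => hasDerivAt_invp ht)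
  have hwd : Differentiable ℝ w := hw.differentiable (by norm_num)
  have hφd : Differentiable ℝ φ := hφc.differentiable (by norm_num)
  have hfd : ∀ y, fderiv ℝ f y = fderiv ℝ w y - κ • fderiv ℝ φ y := by
    intro y
    have := (hwd y).hasFDerivAt.sub ((hφd y).hasFDerivAt.const_mul κ)
    exact this.fderiv
  have hfdd : fderiv ℝ (fderiv ℝ f) x =
      fderiv ℝ (fderiv ℝ w) x - κ • fderiv ℝ (fderiv ℝ φ) x := by
    have h1 : fderiv ℝ f = fun y => fderiv ℝ w y - κ • fderiv ℝ φ y := funext hfd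
    rw [h1]
    have hwc1 : ContDiff ℝ 1 (fderiv ℝ w) := hw.fderiv_right (by norm_num)
    have hφc1 : ContDiff ℝ 1 (fderiv ℝ φ) := hφc.fderiv_right (by norm_num)
    have := ((hwc1.differentiable (by norm_num)) x).hasFDerivAt.sub
      (((hφc1.differentiable (by norm_num)) x).hasFDerivAt.const_smul κ)
    exact this.fderiv
  have hd0 : fderiv ℝ w x = κ • fderiv ℝ φ x := by
    have h1 : fderiv ℝ f x = 0 := hmax.fderiv_eq_zero
    rw [hfd] at h1
    exact sub_eq_zero.1 h1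
  have hval : ∀ h, fderiv ℝ w x h = κ * (2 * (1 + ‖x‖ ^ 2)⁻¹ * inner ℝ x h) := by
    intro h
    rw [hd0, hφ, hφ1]
    simp
  have hpos : 0 < 1 + ‖x‖ ^ 2 := by positivity
  refine ⟨x, hx x0, ?_, ?_, ?_, ?_⟩
  · intro h
    rw [hval, abs_mul, abs_of_pos hκ]
    apply mul_le_mul_of_nonneg_left _ hκ.le
    rw [abs_mul, abs_of_pos (by positivity)]
    have h1 : |inner ℝ x h| ≤ ‖x‖ * ‖h‖ := abs_real_inner_le_norm x h
    calc 2 * (1 + ‖x‖ ^ 2)⁻¹ * |inner ℝ x h| ≤ 2 * (1 + ‖x‖ ^ 2)⁻¹ * (‖x‖ * ‖h‖) := by gcongr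
      _ = (2 * ‖x‖ * (1 + ‖x‖ ^ 2)⁻¹) * ‖h‖ := by ring
      _ ≤ 1 * ‖h‖ := by
        gcongr
        rw [← div_eq_mul_inv, div_le_one hpos]
        nlinarith [sq_nonneg (‖x‖ - 1)]
      _ = ‖h‖ := one_mul _
  · rw [hval, real_inner_self_eq_norm_sq]; positivity
  · rw [hval, real_inner_self_eq_norm_sq]
    have : (1 + ‖x‖ ^ 2)⁻¹ * ‖x‖ ^ 2 ≤ 1 := by
      rw [inv_mul_le_iff₀ hpos]; linarith
    nlinarith
  · intro h
    have h1 := second_deriv_nonpos_of_isLocalMax hfc hmax h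
    rw [hfdd] at h1
    have h2 : fderiv ℝ (fderiv ℝ φ) x h h ≤ 2 * ‖h‖ ^ 2 := by
      rw [hφ, hφ2, real_inner_self_eq_norm_sq]
      have h3 : (1 + ‖x‖ ^ 2)⁻¹ ≤ 1 := by
        rw [inv_le_one₀ hpos]; linarith [sq_nonneg ‖x‖]
      have h4 : 0 ≤ ((1 + ‖x‖ ^ 2) ^ 2)⁻¹ * (inner ℝ x h * inner ℝ x h) :=
        mul_nonneg (by positivity) (mul_self_nonneg _)
      nlinarith [sq_nonneg ‖h‖]
    have h5 : fderiv ℝ (fderiv ℝ w) x h h - κ * fderiv ℝ (fderiv ℝ φ) x h h ≤ 0 := by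
      simpa using h1
    nlinarith

end Crest.Agent.R238.MaxP
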