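import Crest.Agent.R238.HolDefs
import Crest.Agent.R238.MaxPOY

/-!
# Maximum principle for `LA τ` (row 238, module H7a)
-/

set_option autoImplicit false

open Filter Topology Set Matrix
open scoped MatrixOrder

namespace Crest.Agent.R238.MaxP

open Crest.Agent.R238

variable {n : ℕ}

/-- contraction of a positive semidefinite matrix with a bilinear form bounded above. -/
theorem sum_mul_le_of_form_le {A : Matrix (Fin n) (Fin n) ℝ} (hA : A.PosSemidef)
    (β : E n →L[ℝ] E n →L[ℝ] ℝ) {b : ℝ} (hβ : ∀ h, β h h ≤ b * ‖h‖ ^ 2) :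
    ∑ i, ∑ j, A i j * β (ee i) (ee j) ≤ b * A.trace := by
  obtain ⟨C, hC⟩ : ∃ C : Matrix (Fin n) (Fin n) ℝ, A = Cᴴ * C := by
    obtain ⟨C, hC⟩ := CStarAlgebra.nonneg_iff_eq_star_mul_self.1 hA.nonneg
    exact ⟨C, hC⟩
  have hAij : ∀ i j, A i j = ∑ k, C k i * C k j := by
    intro i j
    rw [hC]
    simp [Matrix.mul_apply]
  set v : Fin n → E n := fun k => ∑ i, C k i • ee i with hv
  have h1 : ∀ k, β (v k) (v k) = ∑ i, ∑ j, C k i * C k j * β (ee i) (ee j) := by
    intro k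
    simp only [hv, map_sum, map_smul, _root_.sum_apply,
      _root_.smul_apply, smul_eq_mul, Finset.mul_sum]
    rw [Finset.sum_comm]
    refine Finset.sum_congr rfl fun i _ => Finset.sum_congr rfl fun j _ => ?_
    ring
  have h2 : ∀ k, ‖v k‖ ^ 2 = ∑ i, C k i ^ 2 := by
    intro k
    rw [EuclideanSpace.norm_sq_eq]
    refine Finset.sum_congr rfl fun i _ => ?_
    have : v k i = C k i := by
      simp [hv, Finset.sum_apply, Pi.single_apply]
    rw [this, Real.norm_eq_abs, sq_abs]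
  have h3 : ∑ i, ∑ j, A i j * β (ee i) (ee j) = ∑ k, β (v k) (v k) := by
    simp_rw [h1, hAij, Finset.sum_mul]
    rw [Finset.sum_congr rfl fun i _ => Finset.sum_comm]
    rw [Finset.sum_comm]
  have h4 : A.trace = ∑ k, ∑ i, C k i ^ 2 := by
    rw [Matrix.trace]
    simp_rw [Matrix.diag_apply, hAij]
    rw [Finset.sum_comm]
    refine Finset.sum_congr rfl fun i _ => Finset.sum_congr rfl fun j _ => ?_
    ring
  rw [h3, h4, Finset.mul_sum]
  refine Finset.sum_le_sum fun k _ => ?_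
  rw [← h2]
  exact hβ _

/-- Omori–Yau for the operator `LA τ`, `τ` positive semidefinite with bounded trace. -/
theorem omori_yau_LA {τ : E n → Matrix (Fin n) (Fin n) ℝ} (hτ : ∀ x, (τ x).PosSemidef)
    {T : ℝ} (hT : ∀ x, (τ x).trace ≤ T) {w : E n → ℝ} (hw : ContDiff ℝ 2 w) {M : ℝ}
    (hM : ∀ x, w x ≤ M) (x0 : E n) {ε : ℝ} (hε : 0 < ε) :
    ∃ x, w x0 - ε ≤ w x ∧ LA τ w x ≤ ε ∧ (∀ h, |fderiv ℝ w x h| ≤ ε * ‖h‖) ∧
      ∀ h, fderiv ℝ (fderiv ℝ w) x h h ≤ ε * ‖h‖ ^ 2 := by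
  set l := Real.log (1 + ‖x0‖ ^ 2) with hl
  have hl0 : 0 ≤ l := Real.log_nonneg (by linarith [sq_nonneg ‖x0‖])
  have hT0 : 0 ≤ T := (hτ 0).trace_nonneg.trans (hT 0)
  set κ : ℝ := min (ε / (l + 1)) (min (ε / (2 * T + 1)) (ε / 2)) with hκ
  have hκ0 : 0 < κ := by
    refine lt_min (by positivity) (lt_min (by positivity) (by positivity))
  have h1 : κ * l ≤ ε := by
    have : κ ≤ ε / (l + 1) := min_le_left _ _
    rw [le_div_iff₀ (by positivity)] at this
    nlinarith
  have h2 : 2 * κ * T ≤ ε := by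
    have : κ ≤ ε / (2 * T + 1) := (min_le_right _ _).trans (min_le_left _ _)
    rw [le_div_iff₀ (by positivity)] at this
    nlinarith
  have h3 : 2 * κ ≤ ε := by
    have : κ ≤ ε / 2 := (min_le_right _ _).trans (min_le_right _ _)
    linarith
  obtain ⟨x, hx1, hx2, hx3, hx4, hx5⟩ := omori_yau hw hM x0 hκ0
  have h4 : 0 ≤ Real.log (1 + ‖x‖ ^ 2) := Real.log_nonneg (by linarith [sq_nonneg ‖x‖])
  refine ⟨x, ?_, ?_, ?_, ?_⟩
  · nlinarith [mul_nonneg hκ0.le h4]
  · have h5 := sum_mul_le_of_form_le (hτ x) (fderiv ℝ (fderiv ℝ w) x) hx5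
    have h6 : 2 * κ * (τ x).trace ≤ 2 * κ * T := by
      have := hT x
      gcongr
    unfold LA Hs
    linarith
  · intro h
    refine (hx2 h).trans ?_
    gcongr
    linarith
  · intro h
    refine (hx5 h).trans ?_
    gcongr

/-- **Maximum principle**: if `LA τ w ≥ c0 (w - a)` wherever `w > a`, and `w` is bounded above,
then `w ≤ a`. -/
theorem max_principle {τ : E n → Matrix (Fin n) (Fin n) ℝ} (hτ : ∀ x, (τ x).PosSemidef)
    {T : ℝ} (hT : ∀ x, (τ x).trace ≤ T) {w : E n → ℝ} (hw : ContDiff ℝ 2 w) {M : ℝ}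
    (hM : ∀ x, w x ≤ M) {c0 a : ℝ} (hc0 : 0 < c0)
    (h : ∀ x, a < w x → c0 * (w x - a) ≤ LA τ w x) : ∀ x, w x ≤ a := by
  intro x0
  by_contra hcon
  push Not at hcon
  set d := w x0 - a with hd
  have hd0 : 0 < d := by simp only [hd]; linarith
  set ε : ℝ := min (d / 2) (c0 * d / 4) with hε
  have hε0 : 0 < ε := lt_min (by positivity) (by positivity)
  obtain ⟨x, hx1, hx2, -, -⟩ := omori_yau_LA hτ hT hw hM x0 hε0
  have h1 : ε ≤ d / 2 := min_le_left _ _
  have h2 : ε ≤ c0 * d / 4 := min_le_right _ _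
  have h3 : d / 2 ≤ w x - a := by simp only [hd] at h1 ⊢; linarith
  have h4 := h x (by linarith)
  have h5 : c0 * (d / 2) ≤ c0 * (w x - a) := by gcongr
  have h6 : 0 < c0 * d := by positivity
  linarith

/-! ## Linearity of `LA` -/

theorem differentiable_fderiv {w : E n → ℝ} (hw : ContDiff ℝ 2 w) :
    Differentiable ℝ (fderiv ℝ w) :=
  (hw.fderiv_right (m := 1) (by norm_num)).differentiable (by norm_num)

theorem Hs_sub {f g : E n → ℝ} (hf : ContDiff ℝ 2 f) (hg : ContDiff ℝ 2 g) (x : E n)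
    (i j : Fin n) : Hs (fun y => f y - g y) x i j = Hs f x i j - Hs g x i j := by
  have h1 : fderiv ℝ (fun y => f y - g y) = fun y => fderiv ℝ f y - fderiv ℝ g y := by
    funext y
    exact (((hf.differentiable (by norm_num)) y).hasFDerivAt.sub
      ((hg.differentiable (by norm_num)) y).hasFDerivAt).fderiv
  have h2 : fderiv ℝ (fun y => fderiv ℝ f y - fderiv ℝ g y) x =
      fderiv ℝ (fderiv ℝ f) x - fderiv ℝ (fderiv ℝ g) x :=
    ((differentiable_fderiv hf x).hasFDerivAt.sub (differentiable_fderiv hg x).hasFDerivAt).fderiv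
  simp [Hs, h1, h2]

theorem Hs_const_mul {f : E n → ℝ} (hf : ContDiff ℝ 2 f) (c : ℝ) (x : E n)
    (i j : Fin n) : Hs (fun y => c * f y) x i j = c * Hs f x i j := by
  have h1 : fderiv ℝ (fun y => c * f y) = fun y => c • fderiv ℝ f y := by
    funext y
    exact (((hf.differentiable (by norm_num)) y).hasFDerivAt.const_mul c).fderiv
  have h2 : fderiv ℝ (fun y => c • fderiv ℝ f y) x = c • fderiv ℝ (fderiv ℝ f) x :=
    ((differentiable_fderiv hf x).hasFDerivAt.const_smul c).fderiv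
  simp [Hs, h1, h2]

theorem LA_sub (τ : E n → Matrix (Fin n) (Fin n) ℝ) {f g : E n → ℝ} (hf : ContDiff ℝ 2 f)
    (hg : ContDiff ℝ 2 g) (x : E n) :
    LA τ (fun y => f y - g y) x = LA τ f x - LA τ g x := by
  have h1 : fderiv ℝ (fun y => f y - g y) x = fderiv ℝ f x - fderiv ℝ g x :=
    (((hf.differentiable (by norm_num)) x).hasFDerivAt.sub
      ((hg.differentiable (by norm_num)) x).hasFDerivAt).fderiv
  unfold LA
  simp_rw [Hs_sub hf hg, h1, mul_sub, Finset.sum_sub_distrib]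
  simp
  ring

theorem LA_const_mul (τ : E n → Matrix (Fin n) (Fin n) ℝ) {f : E n → ℝ} (hf : ContDiff ℝ 2 f)
    (c : ℝ) (x : E n) : LA τ (fun y => c * f y) x = c * LA τ f x := by
  have h1 : fderiv ℝ (fun y => c * f y) x = c • fderiv ℝ f x :=
    (((hf.differentiable (by norm_num)) x).hasFDerivAt.const_mul c).fderiv
  unfold LA
  simp_rw [Hs_const_mul hf, h1, mul_sub, Finset.mul_sum]
  simp only [_root_.smul_apply, smul_eq_mul]
  congr 1
  refine Finset.sum_congr rfl fun i _ => Finset.sum_congr rfl fun j _ => ?_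
  ring

theorem LA_const (τ : E n → Matrix (Fin n) (Fin n) ℝ) (c : ℝ) (x : E n) :
    LA τ (fun _ => c) x = 0 := by
  have h1 : fderiv ℝ (fun _ : E n => c) = fun _ => 0 := by
    funext y; exact fderiv_const_apply c
  unfold LA Hs
  rw [h1]
  simp

theorem LA_neg (τ : E n → Matrix (Fin n) (Fin n) ℝ) {f : E n → ℝ} (hf : ContDiff ℝ 2 f)
    (x : E n) : LA τ (fun y => -f y) x = -LA τ f x := by
  have := LA_const_mul τ hf (-1) x
  simpa using this

theorem LA_sum {ι : Type*} (s : Finset ι) (τ : E n → Matrix (Fin n) (Fin n) ℝ)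
    {f : ι → E n → ℝ} (hf : ∀ k ∈ s, ContDiff ℝ 2 (f k)) (x : E n) :
    LA τ (fun y => ∑ k ∈ s, f k y) x = ∑ k ∈ s, LA τ (f k) x := by
  classical
  induction s using Finset.induction_on with
  | empty => simpa using LA_const τ 0 x
  | insert k s hk ih =>
    have h1 : ∀ y, ∑ i ∈ insert k s, f i y = f k y - (-∑ i ∈ s, f i y) := by
      intro y; rw [Finset.sum_insert hk]; ring
    simp_rw [h1]
    have h2 : ContDiff ℝ 2 (fun y => ∑ i ∈ s, f i y) :=
      ContDiff.sum fun i hi => hf i (Finset.mem_insert_of_mem hi)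
    have h3 : ContDiff ℝ 2 (fun y => -∑ i ∈ s, f i y) := h2.neg
    rw [LA_sub τ (hf k (Finset.mem_insert_self _ _)) h3, LA_neg τ h2,
      ih (fun i hi => hf i (Finset.mem_insert_of_mem hi)), Finset.sum_insert hk]
    ring

end Crest.Agent.R238.MaxP
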