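import Crest.Agent.R238.HBAlg
import Crest.Agent.R238.BootA
import Crest.Agent.R238.StepMat
import Crest.Agent.R238.TopDefs

/-!
Row 238 (S0369), module H6 (regularity), NONLINEAR FIRST STEP (helper190).

`v ∈ C²`, `Hs v` bounded Hölder, `log det (1 + Hs v) - x·∇v + v = -P`; the difference
`w = v(·+z) - v` solves `L_τ w = z·∇v(x+z) - w - Δ_z P - Qr(g, Hs w)` with the ONE fixed
`τ = g⁻¹`; the Schauder estimate (B) for this `τ` and absorption give `Hs w ∈ HB a (N|z|)`.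
-/

set_option autoImplicit false

open MeasureTheory Set Filter
open scoped ContDiff Topology

namespace Crest.Agent.R238.NL

open Crest.Agent.R238

variable {n : ℕ}

/-! ### second order remainder of `log det` -/

/-- `log det (g+h) - log det g - tr(g⁻¹ h)` (sum form) -/
noncomputable def Qr (g h : Matrix (Fin n) (Fin n) ℝ) : ℝ :=
  Real.log (g + h).det - Real.log g.det - ∑ i, ∑ j, g⁻¹ i j * h i j

theorem quad_line {g h : Matrix (Fin n) (Fin n) ℝ} (t : ℝ) (z : Fin n → ℝ) :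
    ∑ i, ∑ j, (g + t • h) i j * z i * z j
      = (1 - t) * (∑ i, ∑ j, g i j * z i * z j) + t * ∑ i, ∑ j, (g + h) i j * z i * z j := by
  rw [Finset.mul_sum, Finset.mul_sum, ← Finset.sum_add_distrib]
  refine Finset.sum_congr rfl fun i _ => ?_
  rw [Finset.mul_sum, Finset.mul_sum, ← Finset.sum_add_distrib]
  refine Finset.sum_congr rfl fun j _ => ?_
  simp only [Matrix.add_apply, Matrix.smul_apply, smul_eq_mul]
  ring

theorem Ell_line {lo hi : ℝ} {g h : Matrix (Fin n) (Fin n) ℝ} (hg : Ell lo hi g)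
    (hgh : Ell lo hi (g + h)) {t : ℝ} (ht0 : 0 ≤ t) (ht1 : t ≤ 1) : Ell lo hi (g + t • h) := by
  have hh : ∀ i j, h i j = h j i := fun i j => by
    have h1 := hgh.1 i j
    have h2 := hg.1 i j
    simp only [Matrix.add_apply] at h1
    linarith
  refine ⟨fun i j => ?_, fun z => ?_⟩
  · simp only [Matrix.add_apply, Matrix.smul_apply, smul_eq_mul, hg.1 i j, hh i j]
  · rw [quad_line]
    have h1 := hg.2 z
    have h2 := hgh.2 z
    constructor
    · nlinarith [mul_le_mul_of_nonneg_left h1.1 (by linarith : (0:ℝ) ≤ 1 - t),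
        mul_le_mul_of_nonneg_left h2.1 ht0]
    · nlinarith [mul_le_mul_of_nonneg_left h1.2 (by linarith : (0:ℝ) ≤ 1 - t),
        mul_le_mul_of_nonneg_left h2.2 ht0]

theorem abs_sum2_le {F : Fin n → Fin n → ℝ} {B : ℝ} (h : ∀ i j, |F i j| ≤ B) :
    |∑ i, ∑ j, F i j| ≤ (n : ℝ) ^ 2 * B := by
  calc |∑ i, ∑ j, F i j| ≤ ∑ i, |∑ j, F i j| := Finset.abs_sum_le_sum_abs _ _
    _ ≤ ∑ _i : Fin n, ∑ _j : Fin n, B := Finset.sum_le_sum fun i _ =>
        (Finset.abs_sum_le_sum_abs _ _).trans (Finset.sum_le_sum fun j _ => h i j)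
    _ = (n : ℝ) ^ 2 * B := by simp; ring

/-- entries of `A X B` as a double sum -/
theorem mul3_entry (A X B : Matrix (Fin n) (Fin n) ℝ) (i j : Fin n) :
    (A * X * B) i j = ∑ k, ∑ l, A i k * X k l * B l j := by
  simp only [Matrix.mul_apply, Finset.sum_mul]
  rw [Finset.sum_comm]

theorem inv_sub_inv {A B : Matrix (Fin n) (Fin n) ℝ} (hA : IsUnit A.det) (hB : IsUnit B.det) :
    A⁻¹ - B⁻¹ = A⁻¹ * (B - A) * B⁻¹ := by
  rw [Matrix.mul_sub, Matrix.sub_mul, Matrix.mul_assoc, Matrix.mul_nonsing_inv B hB,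
    Matrix.nonsing_inv_mul A hA, Matrix.mul_one, Matrix.one_mul]

theorem inv_entry_sub {lo hi γ : ℝ} (hlo : 0 < lo) {A B : Matrix (Fin n) (Fin n) ℝ}
    (hA : Ell lo hi A) (hB : Ell lo hi B) (h : ∀ i j, |A i j - B i j| ≤ γ) (i j : Fin n) :
    |A⁻¹ i j - B⁻¹ i j| ≤ (n : ℝ) ^ 2 * (1 / lo * γ * (1 / lo)) := by
  have h1 := inv_sub_inv (hA.sm_isUnit_det hlo) (hB.sm_isUnit_det hlo)
  have h2 : A⁻¹ i j - B⁻¹ i j = (A⁻¹ * (B - A) * B⁻¹) i j := by rw [← h1]; rfl
  rw [h2, mul3_entry]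
  refine abs_sum2_le fun k l => ?_
  have hγ : 0 ≤ γ := (abs_nonneg _).trans (h k l)
  have hl : 0 ≤ 1 / lo := by positivity
  rw [abs_mul, abs_mul]
  refine mul_le_mul (mul_le_mul (hA.sm_abs_inv_le hlo i k) ?_ (abs_nonneg _) hl)
    (hB.sm_abs_inv_le hlo l j) (abs_nonneg _) (mul_nonneg hl hγ)
  rw [Matrix.sub_apply, abs_sub_comm]
  exact h k l

/-- the quartic expression -/
noncomputable def F4 (A h B : Matrix (Fin n) (Fin n) ℝ) : ℝ :=
  ∑ i, ∑ j, (∑ k, ∑ l, A i k * h k l * B l j) * h i j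

theorem prod4_sub {a b c d a' b' c' d' K e α η β : ℝ} (ha : |a| ≤ K) (ha' : |a'| ≤ K)
    (hb : |b| ≤ e) (hb' : |b'| ≤ e) (hc : |c| ≤ K) (hc' : |c'| ≤ K) (hd : |d| ≤ e)
    (_ : |d'| ≤ e) (h1 : |a - a'| ≤ α) (h2 : |b - b'| ≤ η) (h3 : |c - c'| ≤ β)
    (h4 : |d - d'| ≤ η) :
    |a * b * c * d - a' * b' * c' * d'| ≤ K * e ^ 2 * (α + β) + 2 * K ^ 2 * e * η := by
  have hK : 0 ≤ K := (abs_nonneg _).trans ha
  have he : 0 ≤ e := (abs_nonneg _).trans hb
  have hα : 0 ≤ α := (abs_nonneg _).trans h1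
  have hη : 0 ≤ η := (abs_nonneg _).trans h2
  have hβ : 0 ≤ β := (abs_nonneg _).trans h3
  have e1 : a * b * c * d - a' * b' * c' * d' = (a - a') * b * c * d + a' * (b - b') * c * d
      + a' * b' * (c - c') * d + a' * b' * c' * (d - d') := by ring
  rw [e1]
  have t1 : |(a - a') * b * c * d| ≤ α * e * K * e := by
    rw [abs_mul, abs_mul, abs_mul]; gcongr
  have t2 : |a' * (b - b') * c * d| ≤ K * η * K * e := by
    rw [abs_mul, abs_mul, abs_mul]; gcongr
  have t3 : |a' * b' * (c - c') * d| ≤ K * e * β * e := by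
    rw [abs_mul, abs_mul, abs_mul]; gcongr
  have t4 : |a' * b' * c' * (d - d')| ≤ K * e * K * η := by
    rw [abs_mul, abs_mul, abs_mul]; gcongr
  calc _ ≤ |(a - a') * b * c * d| + |a' * (b - b') * c * d| + |a' * b' * (c - c') * d|
        + |a' * b' * c' * (d - d')| :=
        (abs_add_le _ _).trans (add_le_add_left ((abs_add_le _ _).trans
          (add_le_add_left (abs_add_le _ _) _)) _)
    _ ≤ α * e * K * e + K * η * K * e + K * e * β * e + K * e * K * η := by linarith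
    _ = K * e ^ 2 * (α + β) + 2 * K ^ 2 * e * η := by ring

theorem F4_sub {A h B A' h' B' : Matrix (Fin n) (Fin n) ℝ} {K e α η β : ℝ}
    (hA : ∀ i j, |A i j| ≤ K) (hA' : ∀ i j, |A' i j| ≤ K) (hh : ∀ i j, |h i j| ≤ e)
    (hh' : ∀ i j, |h' i j| ≤ e) (hB : ∀ i j, |B i j| ≤ K) (hB' : ∀ i j, |B' i j| ≤ K)
    (h1 : ∀ i j, |A i j - A' i j| ≤ α) (h2 : ∀ i j, |h i j - h' i j| ≤ η)
    (h3 : ∀ i j, |B i j - B' i j| ≤ β) :
    |F4 A h B - F4 A' h' B'| ≤
      (n : ℝ) ^ 2 * ((n : ℝ) ^ 2 * (K * e ^ 2 * (α + β) + 2 * K ^ 2 * e * η)) := by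
  unfold F4
  rw [← Finset.sum_sub_distrib]
  simp_rw [← Finset.sum_sub_distrib]
  refine abs_sum2_le fun i j => ?_
  simp_rw [Finset.sum_mul, ← Finset.sum_sub_distrib]
  refine abs_sum2_le fun k l => ?_
  exact prod4_sub (hA i k) (hA' i k) (hh k l) (hh' k l) (hB l j) (hB' l j) (hh i j) (hh' i j)
    (h1 i k) (h2 k l) (h3 l j) (h2 i j)

/-- derivative of `t ↦ log det (g + t h) - t tr(g⁻¹h)` -/
theorem hasDerivAt_Qr {lo hi : ℝ} (hlo : 0 < lo) {g h : Matrix (Fin n) (Fin n) ℝ}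
    (hg : Ell lo hi g) (hgh : Ell lo hi (g + h)) {t : ℝ} (ht0 : 0 ≤ t) (ht1 : t ≤ 1) :
    HasDerivWithinAt (fun s : ℝ => Real.log (g + s • h).det - s * ∑ i, ∑ j, g⁻¹ i j * h i j)
      (-(t * F4 (g + t • h)⁻¹ h g⁻¹)) univ t := by
  have hh : ∀ i j, h i j = h j i := fun i j => by
    have h1 := hgh.1 i j
    have h2 := hg.1 i j
    simp only [Matrix.add_apply] at h1
    linarith
  have hE := Ell_line hg hgh ht0 ht1
  have h1 := sm_hasDerivWithinAt_log_det_sum (g := fun s : ℝ => g + s • h) (g' := h) (S := univ)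
    (t := t) (fun i j => by
      have : HasDerivAt (fun s : ℝ => g i j + s * h i j) (h i j) t := by
        simpa using ((hasDerivAt_id t).mul_const (h i j)).const_add (g i j)
      exact this.hasDerivWithinAt) hh (hE.sm_det_pos hlo)
  have h2 : HasDerivWithinAt (fun s : ℝ => s * ∑ i, ∑ j, g⁻¹ i j * h i j)
      (∑ i, ∑ j, g⁻¹ i j * h i j) univ t := by
    have h0 : HasDerivAt (fun s : ℝ => s * ∑ i, ∑ j, g⁻¹ i j * h i j)
        (∑ i, ∑ j, g⁻¹ i j * h i j) t := by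
      simpa using (hasDerivAt_id t).mul_const (∑ i, ∑ j, g⁻¹ i j * h i j)
    exact h0.hasDerivWithinAt
  refine (h1.sub h2).congr_deriv ?_
  have h3 := inv_sub_inv (hE.sm_isUnit_det hlo) (hg.sm_isUnit_det hlo)
  have h4 : g - (g + t • h) = -(t • h) := by abel
  rw [h4] at h3
  rw [← Finset.sum_sub_distrib, F4, Finset.mul_sum, ← Finset.sum_neg_distrib]
  refine Finset.sum_congr rfl fun i _ => ?_
  rw [← Finset.sum_sub_distrib, Finset.mul_sum, ← Finset.sum_neg_distrib]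
  refine Finset.sum_congr rfl fun j _ => ?_
  have h5 : (g + t • h)⁻¹ i j - g⁻¹ i j = -(t * ∑ k, ∑ l, (g + t • h)⁻¹ i k * h k l * g⁻¹ l j) := by
    have h6 : (g + t • h)⁻¹ i j - g⁻¹ i j = ((g + t • h)⁻¹ * -(t • h) * g⁻¹) i j := by
      rw [← h3]; rfl
    rw [h6, mul3_entry, Finset.mul_sum, ← Finset.sum_neg_distrib]
    refine Finset.sum_congr rfl fun k _ => ?_
    rw [Finset.mul_sum, ← Finset.sum_neg_distrib]
    refine Finset.sum_congr rfl fun l _ => ?_
    simp only [Matrix.neg_apply, Matrix.smul_apply, smul_eq_mul]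
    ring
  rw [← sub_mul, h5]
  ring

/-- **(QB)** Lipschitz estimate of the second order remainder -/
theorem Qr_sub {lo hi : ℝ} (hlo : 0 < lo) {g h g' h' : Matrix (Fin n) (Fin n) ℝ}
    (hg : Ell lo hi g) (hgh : Ell lo hi (g + h)) (hg' : Ell lo hi g')
    (hgh' : Ell lo hi (g' + h')) {e η γ : ℝ} (he : ∀ i j, |h i j| ≤ e)
    (he' : ∀ i j, |h' i j| ≤ e) (hη : ∀ i j, |h i j - h' i j| ≤ η)
    (hγ : ∀ i j, |g i j - g' i j| ≤ γ) (he0 : 0 ≤ e) (hη0 : 0 ≤ η) (hγ0 : 0 ≤ γ) :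
    |Qr g h - Qr g' h'| ≤ (n : ℝ) ^ 4 * (1 / lo) ^ 2 * (2 * (n : ℝ) ^ 2 * (1 / lo) + 2)
      * (e * (η + e * (γ + η))) := by
  set D : ℝ → ℝ := fun s => (Real.log (g + s • h).det - s * ∑ i, ∑ j, g⁻¹ i j * h i j)
    - (Real.log (g' + s • h').det - s * ∑ i, ∑ j, g'⁻¹ i j * h' i j) with hD
  have hder : ∀ t ∈ Icc (0:ℝ) 1, HasDerivAt D
      (-(t * F4 (g + t • h)⁻¹ h g⁻¹) - -(t * F4 (g' + t • h')⁻¹ h' g'⁻¹)) t := by
    intro t ht
    have := (hasDerivAt_Qr hlo hg hgh ht.1 ht.2).sub (hasDerivAt_Qr hlo hg' hgh' ht.1 ht.2)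
    exact hasDerivWithinAt_univ.1 this
  have h01 : D 1 - D 0 = Qr g h - Qr g' h' := by
    simp only [hD, Qr, one_smul, zero_smul, add_zero]
    ring
  rw [← h01]
  have hK : 0 ≤ 1 / lo := by positivity
  have hn : (0:ℝ) ≤ n := Nat.cast_nonneg n
  have hbound : ∀ t ∈ Ico (0:ℝ) 1,
      ‖(-(t * F4 (g + t • h)⁻¹ h g⁻¹) - -(t * F4 (g' + t • h')⁻¹ h' g'⁻¹))‖ ≤
      (n : ℝ) ^ 4 * (1 / lo) ^ 2 * (2 * (n : ℝ) ^ 2 * (1 / lo) + 2)
      * (e * (η + e * (γ + η))) := by
    intro t ht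
    have hE := Ell_line hg hgh ht.1 ht.2.le
    have hE' := Ell_line hg' hgh' ht.1 ht.2.le
    have e1 : (-(t * F4 (g + t • h)⁻¹ h g⁻¹) - -(t * F4 (g' + t • h')⁻¹ h' g'⁻¹))
        = -(t * (F4 (g + t • h)⁻¹ h g⁻¹ - F4 (g' + t • h')⁻¹ h' g'⁻¹)) := by ring
    rw [e1, norm_neg, Real.norm_eq_abs, abs_mul, abs_of_nonneg ht.1]
    have hG : ∀ i j, |(g + t • h) i j - (g' + t • h') i j| ≤ γ + η := by
      intro i j
      have e2 : (g + t • h) i j - (g' + t • h') i j = (g i j - g' i j) + t * (h i j - h' i j) := by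
        simp only [Matrix.add_apply, Matrix.smul_apply, smul_eq_mul]; ring
      rw [e2]
      refine (abs_add_le _ _).trans (add_le_add (hγ i j) ?_)
      rw [abs_mul, abs_of_nonneg ht.1]
      calc t * |h i j - h' i j| ≤ 1 * η :=
            mul_le_mul ht.2.le (hη i j) (abs_nonneg _) zero_le_one
        _ = η := one_mul _
    have hF := F4_sub (K := 1 / lo) (e := e) (fun i j => hE.sm_abs_inv_le hlo i j)
      (fun i j => hE'.sm_abs_inv_le hlo i j) he he' (fun i j => hg.sm_abs_inv_le hlo i j)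
      (fun i j => hg'.sm_abs_inv_le hlo i j) (inv_entry_sub hlo hE hE' hG) hη
      (inv_entry_sub hlo hg hg' hγ)
    calc t * |F4 (g + t • h)⁻¹ h g⁻¹ - F4 (g' + t • h')⁻¹ h' g'⁻¹|
        ≤ 1 * ((n : ℝ) ^ 2 * ((n : ℝ) ^ 2 * (1 / lo * e ^ 2 *
          ((n : ℝ) ^ 2 * (1 / lo * (γ + η) * (1 / lo)) + (n : ℝ) ^ 2 * (1 / lo * γ * (1 / lo)))
            + 2 * (1 / lo) ^ 2 * e * η))) :=
          mul_le_mul ht.2.le hF (abs_nonneg _) zero_le_one
      _ = (n : ℝ) ^ 4 * (1 / lo) ^ 2 * ((n : ℝ) ^ 2 * (1 / lo) * (e * (e * (γ + η + γ)))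
            + 2 * (e * η)) := by ring
      _ ≤ (n : ℝ) ^ 4 * (1 / lo) ^ 2 * ((n : ℝ) ^ 2 * (1 / lo) * (e * (2 * (η + e * (γ + η))))
            + 2 * (e * (η + e * (γ + η)))) := by
          have hx : e * (γ + η + γ) ≤ 2 * (η + e * (γ + η)) := by
            nlinarith [mul_nonneg he0 hη0]
          have hy : η ≤ η + e * (γ + η) := by
            nlinarith [mul_nonneg he0 (add_nonneg hγ0 hη0)]
          gcongr
      _ = _ := by ring
  have := norm_image_sub_le_of_norm_deriv_le_segment' (f := D)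
    (fun t ht => (hder t ht).hasDerivWithinAt) hbound 1 (right_mem_Icc.2 zero_le_one)
  simpa using this

/-- the constant of (QB) -/
noncomputable def CQ (n : ℕ) (lo : ℝ) : ℝ :=
  (n : ℝ) ^ 4 * (1 / lo) ^ 2 * (2 * (n : ℝ) ^ 2 * (1 / lo) + 2)

theorem CQ_nonneg {lo : ℝ} (hlo : 0 < lo) : 0 ≤ CQ n lo := by unfold CQ; positivity

theorem Qr_zero (g : Matrix (Fin n) (Fin n) ℝ) : Qr g 0 = 0 := by simp [Qr]

/-- HB form of (QB) -/
theorem HB_Qr {a lo hi M X d : ℝ} (hlo : 0 < lo) {g h : E n → Matrix (Fin n) (Fin n) ℝ}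
    (hg : ∀ x, Ell lo hi (g x)) (hgh : ∀ x, Ell lo hi (g x + h x))
    (hgM : ∀ i j, HB a M (fun x => g x i j)) (hhX : ∀ i j, HB a X (fun x => h x i j))
    (hd : ∀ x i j, |h x i j| ≤ d) (hd1 : d ≤ 1) (hd0 : 0 ≤ d) (hM0 : 0 ≤ M) (hX0 : 0 ≤ X) :
    HB a (CQ n lo * (d * (X * (2 + M)))) (fun x => Qr (g x) (h x)) := by
  have hC : 0 ≤ CQ n lo := CQ_nonneg hlo
  set e := min d X with he
  have he0 : 0 ≤ e := le_min hd0 hX0
  have hed : e ≤ d := min_le_left _ _
  have heX : e ≤ X := min_le_right _ _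
  have hhe : ∀ x i j, |h x i j| ≤ e := fun x i j => le_min (hd x i j) ((hhX i j).1 x)
  constructor
  · intro x
    have h1 := Qr_sub hlo (hg x) (hgh x) (hg x) (h' := 0) (by simpa using hg x)
      (e := e) (η := e) (γ := 0) (hhe x) (fun i j => by simpa using he0)
      (fun i j => by simpa using hhe x i j) (fun i j => by simp) he0 he0 le_rfl
    rw [Qr_zero, sub_zero] at h1
    refine h1.trans (mul_le_mul_of_nonneg_left ?_ hC)
    calc e * (e + e * (0 + e)) ≤ d * (X + 1 * (0 + X)) := by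
          have : e * (0 + e) ≤ 1 * (0 + X) := by
            apply mul_le_mul (hed.trans hd1) (by linarith) (by linarith) zero_le_one
          exact mul_le_mul hed (add_le_add heX this) (by positivity) hd0
      _ ≤ d * (X * (2 + M)) := by
          refine mul_le_mul_of_nonneg_left ?_ hd0
          nlinarith [mul_nonneg hX0 hM0]
  · intro x y
    set r := ‖x - y‖ ^ a with hr
    have hr0 : 0 ≤ r := Real.rpow_nonneg (norm_nonneg _) _
    have h1 := Qr_sub hlo (hg x) (hgh x) (hg y) (hgh y)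
      (e := e) (η := X * r) (γ := M * r) (hhe x) (hhe y)
      (fun i j => (hhX i j).2 x y) (fun i j => (hgM i j).2 x y) he0 (mul_nonneg hX0 hr0)
      (mul_nonneg hM0 hr0)
    refine h1.trans ?_
    rw [mul_assoc (CQ n lo)]
    refine mul_le_mul_of_nonneg_left ?_ hC
    calc e * (X * r + e * (M * r + X * r)) = e * (X * r) + e * (e * (M * r)) + e * (e * (X * r)) := by
          ring
      _ ≤ d * (X * r) + d * (X * (M * r)) + d * (1 * (X * r)) := by
          have hMr : 0 ≤ M * r := mul_nonneg hM0 hr0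
          have hXr : 0 ≤ X * r := mul_nonneg hX0 hr0
          have he1 : e ≤ 1 := hed.trans hd1
          gcongr
      _ = d * (X * (2 + M)) * r := by ring

/-! ### the difference equation -/

theorem hasFDerivAt_dq {v : E n → ℝ} (hv : Differentiable ℝ v) (z x : E n) :
    HasFDerivAt (Boot.dq z v) (fderiv ℝ v (x + z) - fderiv ℝ v x) x := by
  have h1 : HasFDerivAt (fun y : E n => v (y + z)) (fderiv ℝ v (x + z)) x :=
    (hasFDerivAt_comp_add_right z).2 (hv (x + z)).hasFDerivAt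
  exact h1.sub (hv x).hasFDerivAt

theorem fderiv_dq {v : E n → ℝ} (hv : Differentiable ℝ v) (z x : E n) :
    fderiv ℝ (Boot.dq z v) x = fderiv ℝ v (x + z) - fderiv ℝ v x :=
  (hasFDerivAt_dq hv z x).fderiv

theorem contDiff_dq {k : ℕ∞ω} {v : E n → ℝ} (hv : ContDiff ℝ k v) (z : E n) :
    ContDiff ℝ k (Boot.dq z v) := by
  unfold Boot.dq
  exact (hv.comp (contDiff_id.add contDiff_const)).sub hv

theorem Hs_dq {v : E n → ℝ} (hv : ContDiff ℝ 2 v) (z x : E n) (i j : Fin n) :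
    Hs (Boot.dq z v) x i j = Hs v (x + z) i j - Hs v x i j := by
  have hd : Differentiable ℝ v := hv.differentiable (by norm_num)
  have hd1 : Differentiable ℝ (fderiv ℝ v) :=
    (hv.fderiv_right (m := 1) (by norm_num)).differentiable (by norm_num)
  have h0 : fderiv ℝ (Boot.dq z v) = fun y => fderiv ℝ v (y + z) - fderiv ℝ v y := by
    ext1 y; exact fderiv_dq hd z y
  have h1 : HasFDerivAt (fun y : E n => fderiv ℝ v (y + z))
      (fderiv ℝ (fderiv ℝ v) (x + z)) x :=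
    (hasFDerivAt_comp_add_right z).2 (hd1 (x + z)).hasFDerivAt
  have h2 : HasFDerivAt (fun y => fderiv ℝ v (y + z) - fderiv ℝ v y)
    (fderiv ℝ (fderiv ℝ v) (x + z) - fderiv ℝ (fderiv ℝ v) x) x :=
    h1.sub (hd1 x).hasFDerivAt
  unfold Hs
  rw [h0, HasFDerivAt.fderiv h2]
  simp

theorem gM_apply (v : E n → ℝ) (x : E n) (i j : Fin n) :
    gM v x i j = (1 : Matrix (Fin n) (Fin n) ℝ) i j + Hs v x i j := rfl

theorem LA_dq {v P : E n → ℝ} (hv : ContDiff ℝ 2 v)
    (hma : ∀ x, Real.log (gM v x).det = fderiv ℝ v x x - v x - P x) (z x : E n) :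
    LA (tauM v) (Boot.dq z v) x = (fderiv ℝ v (x + z) z - Boot.dq z v x) - Boot.dq z P x
      - Qr (gM v x) (gM v (x + z) - gM v x) := by
  have hd : Differentiable ℝ v := hv.differentiable (by norm_num)
  have h1 : ∑ i, ∑ j, tauM v x i j * Hs (Boot.dq z v) x i j
      = ∑ i, ∑ j, (gM v x)⁻¹ i j * (gM v (x + z) - gM v x) i j := by
    refine Finset.sum_congr rfl fun i _ => Finset.sum_congr rfl fun j _ => ?_
    rw [Hs_dq hv, Matrix.sub_apply, gM_apply, gM_apply, add_sub_add_left_eq_sub]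
    rfl
  unfold LA
  rw [h1, fderiv_dq hd, Qr, add_sub_cancel, hma (x + z), hma x]
  simp only [_root_.sub_apply, Boot.dq, map_add]
  ring

/-- second-order remainder -/
theorem HB_rem {a M : ℝ} {v : E n → ℝ} (hv : ContDiff ℝ 2 v) {z : E n}
    (hM : HB a M (fun x => fderiv ℝ (fderiv ℝ v) x z z)) :
    HB a M (fun x => fderiv ℝ v (x + z) z - Boot.dq z v x) := by
  have hd : Differentiable ℝ v := hv.differentiable (by norm_num)
  have hd1 : Differentiable ℝ (fderiv ℝ v) :=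
    (hv.fderiv_right (m := 1) (by norm_num)).differentiable (by norm_num)
  have hline : ∀ x : E n, ∀ t : ℝ, HasDerivAt (fun t : ℝ => x + t • z) z t := fun x t => by
    simpa using ((hasDerivAt_id t).smul_const z).const_add x
  have hl0 : ∀ x : E n, ∀ t : ℝ, HasDerivAt (fun t : ℝ => v (x + t • z))
      (fderiv ℝ v (x + t • z) z) t := fun x t =>
    (hd (x + t • z)).hasFDerivAt.comp_hasDerivAt t (hline x t)
  have hl : ∀ x : E n, ∀ t : ℝ, HasDerivAt (fun t : ℝ => fderiv ℝ v (x + t • z) z)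
      (fderiv ℝ (fderiv ℝ v) (x + t • z) z z) t := by
    intro x t
    have h4 : HasDerivAt (fun t : ℝ => fderiv ℝ v (x + t • z))
        (fderiv ℝ (fderiv ℝ v) (x + t • z) z) t :=
      (hd1 (x + t • z)).hasFDerivAt.comp_hasDerivAt t (hline x t)
    exact (h4.clm_apply (hasDerivAt_const t z)).congr_deriv (by simp)
  constructor
  · intro x
    obtain ⟨t, ht, h1⟩ := exists_hasDerivAt_eq_slope (fun t : ℝ => v (x + t • z))
      (fun t => fderiv ℝ v (x + t • z) z) zero_lt_one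
      (fun s _ => (hl0 x s).continuousAt.continuousWithinAt) (fun s _ => hl0 x s)
    simp only [one_smul, zero_smul, add_zero, sub_zero, div_one] at h1
    have h2 := Convex.norm_image_sub_le_of_norm_hasDerivWithin_le
      (f := fun t : ℝ => fderiv ℝ v (x + t • z) z)
      (f' := fun t => fderiv ℝ (fderiv ℝ v) (x + t • z) z z) (C := M)
      (fun s _ => (hl x s).hasDerivWithinAt) (fun s _ => hM.1 (x + s • z)) (convex_univ (𝕜 := ℝ))
      (mem_univ t) (mem_univ 1)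
    simp only [one_smul, Real.norm_eq_abs] at h2
    have hM0 : 0 ≤ M := (abs_nonneg _).trans (hM.1 0)
    have h3 : |1 - t| ≤ 1 := by
      rw [abs_of_pos (by linarith [ht.2])]; linarith [ht.1]
    show |fderiv ℝ v (x + z) z - Boot.dq z v x| ≤ M
    have h4 : Boot.dq z v x = fderiv ℝ v (x + t • z) z := h1.symm
    rw [h4]
    calc _ ≤ M * |1 - t| := h2
      _ ≤ M * 1 := mul_le_mul_of_nonneg_left h3 hM0
      _ = M := mul_one _
  · intro x y
    obtain ⟨t, ht, h1⟩ := exists_hasDerivAt_eq_slope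
      (fun t : ℝ => v (x + t • z) - v (y + t • z))
      (fun t => fderiv ℝ v (x + t • z) z - fderiv ℝ v (y + t • z) z) zero_lt_one
      (fun s _ => ((hl0 x s).sub (hl0 y s)).continuousAt.continuousWithinAt)
      (fun s _ => (hl0 x s).sub (hl0 y s))
    simp only [one_smul, zero_smul, add_zero, sub_zero, div_one] at h1
    have h2 := Convex.norm_image_sub_le_of_norm_hasDerivWithin_le
      (f := fun t : ℝ => fderiv ℝ v (x + t • z) z - fderiv ℝ v (y + t • z) z)
      (f' := fun t => fderiv ℝ (fderiv ℝ v) (x + t • z) z z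
        - fderiv ℝ (fderiv ℝ v) (y + t • z) z z) (C := M * ‖x - y‖ ^ a)
      (fun s _ => ((hl x s).sub (hl y s)).hasDerivWithinAt)
      (fun s _ => by simpa using hM.2 (x + s • z) (y + s • z)) (convex_univ (𝕜 := ℝ))
      (mem_univ t) (mem_univ 1)
    simp only [one_smul, Real.norm_eq_abs] at h2
    have hM0 : 0 ≤ M * ‖x - y‖ ^ a := (abs_nonneg _).trans (hM.2 x y)
    have h3 : |1 - t| ≤ 1 := by
      rw [abs_of_pos (by linarith [ht.2])]; linarith [ht.1]
    have h5 : (fderiv ℝ v (x + z) z - Boot.dq z v x) - (fderiv ℝ v (y + z) z - Boot.dq z v y)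
        = (fderiv ℝ v (x + z) z - fderiv ℝ v (y + z) z)
          - (fderiv ℝ v (x + t • z) z - fderiv ℝ v (y + t • z) z) := by
      rw [h1]; unfold Boot.dq; ring
    show |(fderiv ℝ v (x + z) z - Boot.dq z v x) - (fderiv ℝ v (y + z) z - Boot.dq z v y)| ≤ _
    rw [h5]
    calc _ ≤ M * ‖x - y‖ ^ a * |1 - t| := h2
      _ ≤ M * ‖x - y‖ ^ a * 1 := mul_le_mul_of_nonneg_left h3 hM0
      _ = _ := mul_one _

theorem D2_eq_sum (v : E n → ℝ) (x z : E n) :
    fderiv ℝ (fderiv ℝ v) x z z = ∑ i, ∑ j, (z i * z j) * Hs v x i j := by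
  have h1 : ∀ A : E n →L[ℝ] ℝ, A z = ∑ j, z j * A (ee j) := by
    intro A
    conv_lhs => rw [← Boot.sum_ee z]
    rw [map_sum]
    simp only [map_smul, smul_eq_mul]
  have h2 : fderiv ℝ (fderiv ℝ v) x z = ∑ i, z i • fderiv ℝ (fderiv ℝ v) x (ee i) := by
    conv_lhs => rw [← Boot.sum_ee z]
    rw [map_sum]
    simp only [map_smul]
  rw [h2, _root_.sum_apply]
  refine Finset.sum_congr rfl fun i _ => ?_
  rw [_root_.smul_apply, h1, smul_eq_mul, Finset.mul_sum]
  refine Finset.sum_congr rfl fun j _ => ?_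
  simp only [Hs]
  ring

theorem HB_D2 {a M : ℝ} {v : E n → ℝ} (hvM : ∀ i j, HB a M (fun x => Hs v x i j)) (z : E n) :
    HB a ((n : ℝ) ^ 2 * (‖z‖ ^ 2 * |M|)) (fun x => fderiv ℝ (fderiv ℝ v) x z z) := by
  have hz : ∀ i j, |z i * z j| ≤ ‖z‖ ^ 2 := fun i j => by
    rw [abs_mul, sq]
    exact mul_le_mul (Boot.abs_coord_le z i) (Boot.abs_coord_le z j) (abs_nonneg _) (norm_nonneg _)
  simp_rw [D2_eq_sum]
  constructor
  · intro x
    refine abs_sum2_le fun i j => ?_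
    rw [abs_mul]
    exact mul_le_mul (hz i j) (((hvM i j).1 x).trans (le_abs_self M)) (abs_nonneg _) (sq_nonneg _)
  · intro x y
    show |(∑ i, ∑ j, (z i * z j) * Hs v x i j) - ∑ i, ∑ j, (z i * z j) * Hs v y i j| ≤ _
    rw [← Finset.sum_sub_distrib]
    simp_rw [← Finset.sum_sub_distrib, ← mul_sub]
    rw [mul_assoc]
    refine abs_sum2_le fun i j => ?_
    rw [abs_mul, mul_assoc]
    refine mul_le_mul (hz i j) (((hvM i j).2 x y).trans ?_) (abs_nonneg _) (sq_nonneg _)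
    exact mul_le_mul_of_nonneg_right (le_abs_self M) (Real.rpow_nonneg (norm_nonneg _) _)

/-- a finite difference is controlled by the directional derivative -/
theorem HB_dq {a M : ℝ} {P : E n → ℝ} (hP : Differentiable ℝ P) {z : E n}
    (hM : HB a M (fun x => fderiv ℝ P x z)) : HB a M (Boot.dq z P) := by
  have hl0 : ∀ x : E n, ∀ t : ℝ, HasDerivAt (fun t : ℝ => P (x + t • z))
      (fderiv ℝ P (x + t • z) z) t := fun x t => by
    have h3 : HasDerivAt (fun t : ℝ => x + t • z) z t := by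
      simpa using ((hasDerivAt_id t).smul_const z).const_add x
    exact (hP (x + t • z)).hasFDerivAt.comp_hasDerivAt t h3
  constructor
  · intro x
    obtain ⟨t, ht, h1⟩ := exists_hasDerivAt_eq_slope (fun t : ℝ => P (x + t • z))
      (fun t => fderiv ℝ P (x + t • z) z) zero_lt_one
      (fun s _ => (hl0 x s).continuousAt.continuousWithinAt) (fun s _ => hl0 x s)
    simp only [one_smul, zero_smul, add_zero, sub_zero, div_one] at h1
    have h4 : Boot.dq z P x = fderiv ℝ P (x + t • z) z := h1.symm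
    rw [h4]
    exact hM.1 _
  · intro x y
    obtain ⟨t, ht, h1⟩ := exists_hasDerivAt_eq_slope
      (fun t : ℝ => P (x + t • z) - P (y + t • z))
      (fun t => fderiv ℝ P (x + t • z) z - fderiv ℝ P (y + t • z) z) zero_lt_one
      (fun s _ => ((hl0 x s).sub (hl0 y s)).continuousAt.continuousWithinAt)
      (fun s _ => (hl0 x s).sub (hl0 y s))
    simp only [one_smul, zero_smul, add_zero, sub_zero, div_one] at h1
    have h4 : Boot.dq z P x - Boot.dq z P y
        = fderiv ℝ P (x + t • z) z - fderiv ℝ P (y + t • z) z := by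
      rw [h1]; unfold Boot.dq; ring
    rw [h4]
    simpa using hM.2 (x + t • z) (y + t • z)

/-- local Lipschitz bound -/
theorem local_lip {v : E n → ℝ} (hv : ContDiff ℝ 1 v) (R : ℝ) :
    ∃ G : ℝ, 0 ≤ G ∧ ∀ z x : E n, ‖z‖ ≤ 1 → ‖x‖ ≤ R → |Boot.dq z v x| ≤ G * ‖z‖ := by
  have hc : Continuous (fderiv ℝ v) := hv.continuous_fderiv (by norm_num)
  have hK : IsCompact (Metric.closedBall (0 : E n) (|R| + 1)) := isCompact_closedBall _ _
  obtain ⟨G, hG⟩ := hK.exists_bound_of_continuousOn hc.continuousOn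
  have hG0 : 0 ≤ G := (norm_nonneg _).trans (hG 0 (Metric.mem_closedBall_self (by positivity)))
  refine ⟨G, hG0, fun z x hz hx => ?_⟩
  have h1 := Convex.norm_image_sub_le_of_norm_fderiv_le (𝕜 := ℝ) (f := v) (C := G)
    (s := Metric.closedBall (0 : E n) (|R| + 1)) (x := x) (y := x + z)
    (fun y _ => (hv.differentiable (by norm_num)) y) hG (convex_closedBall _ _)
    (by rw [mem_closedBall_zero_iff]; linarith [le_abs_self R])
    (by rw [mem_closedBall_zero_iff]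
        have := norm_add_le x z
        linarith [le_abs_self R])
  simpa [Boot.dq] using h1

/-- absorption -/
theorem absorb {a X0 A : ℝ} {F : Fin n → Fin n → E n → ℝ} (h0 : ∀ i j, HB a X0 (F i j))
    (step : ∀ X, (∀ i j, HB a X (F i j)) → ∀ i j, HB a (A + X / 2) (F i j)) :
    ∀ i j, HB a (2 * A) (F i j) := by
  have h1 : ∀ k : ℕ, ∀ i j, HB a (2 * A + (X0 - 2 * A) / 2 ^ k) (F i j) := by
    intro k
    induction k with
    | zero => simpa using h0
    | succ k ih =>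
      intro i j
      have h2 := step _ ih i j
      have e : A + (2 * A + (X0 - 2 * A) / 2 ^ k) / 2 = 2 * A + (X0 - 2 * A) / 2 ^ (k + 1) := by
        rw [pow_succ]; field_simp; ring
      rwa [e] at h2
  have h2 : Tendsto (fun k : ℕ => 2 * A + (X0 - 2 * A) / 2 ^ k) atTop (𝓝 (2 * A)) := by
    have h3 : Tendsto (fun k : ℕ => (X0 - 2 * A) * (1 / 2 : ℝ) ^ k) atTop (𝓝 ((X0 - 2 * A) * 0)) :=
      (tendsto_pow_atTop_nhds_zero_of_lt_one (by norm_num) (by norm_num)).const_mul _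
    have h4 : (fun k : ℕ => 2 * A + (X0 - 2 * A) / 2 ^ k)
        = fun k : ℕ => 2 * A + (X0 - 2 * A) * (1 / 2 : ℝ) ^ k := by
      funext k; rw [one_div, inv_pow]; rfl
    rw [h4]
    simpa using h3.const_add (2 * A)
  intro i j
  exact ⟨fun x => ge_of_tendsto h2 (Eventually.of_forall fun k => (h1 k i j).1 x),
    fun x y => ge_of_tendsto (h2.mul_const _) (Eventually.of_forall fun k => (h1 k i j).2 x y)⟩

/-- **nonlinear first step**: the second derivatives of a solution have bounded Hölder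
difference quotients (hypothesis `hB` = Schauder estimate (B) for the fixed `τ = tauM v`). -/
theorem nonlin_DQ {a lo hi M M1 : ℝ} (ha : 0 < a) (hlo : 0 < lo) {v P : E n → ℝ}
    (hv : ContDiff ℝ 2 v) (hvM : ∀ i j, HB a M (fun x => Hs v x i j))
    (hell : ∀ x, Ell lo hi (gM v x)) (hPd : Differentiable ℝ P)
    (hP : ∀ z, HB a (M1 * ‖z‖) (fun x => fderiv ℝ P x z))
    (hma : ∀ x, Real.log (gM v x).det = fderiv ℝ v x x - v x - P x)
    (hB : ∃ C R' : ℝ, 0 < C ∧ ∀ (h : E n → ℝ) (N S : ℝ), ContDiff ℝ 2 h →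
        (∃ B, ∀ i j, HB a B (fun x => Hs h x i j)) →
        HB a N (fun x => LA (tauM v) h x) → (∀ x, ‖x‖ ≤ R' → |h x| ≤ S) →
        ∀ i j, HB a (C * (N + S)) (fun x => Hs h x i j)) :
    ∃ N δ : ℝ, 0 < δ ∧ ∀ i j, Boot.DQ a N δ (fun x => Hs v x i j) := by
  rcases Nat.eq_zero_or_pos n with hn0 | hn0
  · subst hn0
    exact ⟨0, 1, one_pos, fun i => i.elim0⟩
  have hM0 : 0 ≤ M := HB.nonneg (hvM ⟨0, hn0⟩ ⟨0, hn0⟩)
  obtain ⟨C, R', hC, hB⟩ := hB
  obtain ⟨G, hG0, hG⟩ := local_lip (hv.of_le (by norm_num)) R'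
  have hQ0 : 0 ≤ CQ n lo := CQ_nonneg hlo
  set K : ℝ := 1 + M + 2 * (C * CQ n lo * M * (2 + (1 + M))) with hK
  have hK1 : 1 ≤ K := by
    rw [hK]
    have : 0 ≤ 2 * (C * CQ n lo * M * (2 + (1 + M))) := by positivity
    linarith
  have hK0 : 0 < K := by linarith
  set δ : ℝ := (1 / K) ^ (1 / a) with hδ
  have hδ0 : 0 < δ := Real.rpow_pos_of_pos (by positivity) _
  have hδ1 : δ ≤ 1 := by
    refine Real.rpow_le_one (by positivity) ?_ (by positivity)
    rw [div_le_one hK0]; exact hK1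
  have hδa : K * δ ^ a = 1 := by
    rw [hδ, ← Real.rpow_mul (by positivity), one_div_mul_cancel ha.ne', Real.rpow_one]
    field_simp
  set A0 : ℝ := C * ((n : ℝ) ^ 2 * M + M1 + G) with hA0
  refine ⟨2 * A0, δ, hδ0, ?_⟩
  have key : ∀ z : E n, ‖z‖ ≤ δ → ∀ i j, HB a (2 * (A0 * ‖z‖)) (fun x => Hs (Boot.dq z v) x i j) := by
    intro z hz
    have hz1 : ‖z‖ ≤ 1 := hz.trans hδ1
    have hKz : K * ‖z‖ ^ a ≤ 1 := by
      rw [← hδa]
      exact mul_le_mul_of_nonneg_left (Real.rpow_le_rpow (norm_nonneg _) hz ha.le) hK0.le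
    set d : ℝ := M * ‖z‖ ^ a with hd
    have hza : 0 ≤ ‖z‖ ^ a := Real.rpow_nonneg (norm_nonneg _) _
    have hd0 : 0 ≤ d := mul_nonneg hM0 hza
    have hd1 : d ≤ 1 := by
      refine le_trans (mul_le_mul_of_nonneg_right ?_ hza) hKz
      rw [hK]
      have : 0 ≤ 2 * (C * CQ n lo * M * (2 + (1 + M))) := by positivity
      linarith
    have hd2 : C * (CQ n lo * (d * (2 + (1 + M)))) ≤ 1 / 2 := by
      have h1 : 2 * (C * CQ n lo * M * (2 + (1 + M))) * ‖z‖ ^ a ≤ K * ‖z‖ ^ a := by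
        refine mul_le_mul_of_nonneg_right ?_ hza
        rw [hK]; linarith
      have h2 : 2 * (C * (CQ n lo * (d * (2 + (1 + M)))))
          = 2 * (C * CQ n lo * M * (2 + (1 + M))) * ‖z‖ ^ a := by rw [hd]; ring
      linarith
    have hw2 : ContDiff ℝ 2 (Boot.dq z v) := contDiff_dq hv z
    -- the equation
    have hLA : (fun x => LA (tauM v) (Boot.dq z v) x)
        = fun x => ((fderiv ℝ v (x + z) z - Boot.dq z v x) - Boot.dq z P x)
          - Qr (gM v x) (gM v (x + z) - gM v x) := by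
      funext x; exact LA_dq hv hma z x
    have hgdiff : ∀ x i j, (gM v (x + z) - gM v x) i j = Hs (Boot.dq z v) x i j := by
      intro x i j
      rw [Hs_dq hv, Matrix.sub_apply, gM_apply, gM_apply, add_sub_add_left_eq_sub]
    have hgM : ∀ i j, HB a (1 + M) (fun x => gM v x i j) := by
      intro i j
      have h1 : HB a 1 (fun _ : E n => (1 : Matrix (Fin n) (Fin n) ℝ) i j) := by
        refine HB.const ?_
        rw [Matrix.one_apply]
        split_ifs <;> simp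
      exact HB.add h1 (hvM i j)
    have hrem := HB_rem hv (HB_D2 (a := a) hvM z)
    have hPz := HB_dq hPd (hP z)
    have h0 : ∀ i j, HB a (2 * M) (fun x => Hs (Boot.dq z v) x i j) := by
      intro i j
      have h1 : (fun x => Hs (Boot.dq z v) x i j) = fun x => Hs v (x + z) i j - Hs v x i j := by
        funext x; exact Hs_dq hv z x i j
      rw [h1, two_mul]
      exact HB.sub (HB.comp_add (hvM i j) z) (hvM i j)
    refine absorb h0 fun X hX i j => ?_
    have hX0 : 0 ≤ X := HB.nonneg (hX ⟨0, hn0⟩ ⟨0, hn0⟩)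
    have hQ := HB_Qr (a := a) (M := 1 + M) (X := X) (d := d) hlo (g := fun x => gM v x)
      (h := fun x => gM v (x + z) - gM v x) hell
      (fun x => by rw [add_sub_cancel]; exact hell (x + z)) hgM
      (fun i j => by
        have h1 : (fun x => (gM v (x + z) - gM v x) i j) = fun x => Hs (Boot.dq z v) x i j := by
          funext x; exact hgdiff x i j
        rw [h1]; exact hX i j)
      (fun x i j => by
        rw [hgdiff, Hs_dq hv]
        have := (hvM i j).2 (x + z) x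
        simpa using this) hd1 hd0 (by linarith) hX0
    have hN := HB.sub (HB.sub hrem hPz) hQ
    rw [← hLA] at hN
    have hres := hB (Boot.dq z v) _ (G * ‖z‖) hw2 ⟨2 * M, h0⟩ hN
      (fun x hx => hG z x hz1 hx) i j
    refine HB.mono hres ?_
    have h5 : ‖z‖ ^ 2 ≤ ‖z‖ := by
      rw [sq]; exact mul_le_of_le_one_left (norm_nonneg _) hz1
    rw [abs_of_nonneg hM0]
    have h6 : (n : ℝ) ^ 2 * (‖z‖ ^ 2 * M) ≤ (n : ℝ) ^ 2 * M * ‖z‖ := by
      calc (n : ℝ) ^ 2 * (‖z‖ ^ 2 * M) ≤ (n : ℝ) ^ 2 * (‖z‖ * M) := by gcongr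
        _ = _ := by ring
    calc C * ((n : ℝ) ^ 2 * (‖z‖ ^ 2 * M) + M1 * ‖z‖
          + CQ n lo * (d * (X * (2 + (1 + M)))) + G * ‖z‖)
        ≤ C * ((n : ℝ) ^ 2 * M * ‖z‖ + M1 * ‖z‖
          + CQ n lo * (d * (X * (2 + (1 + M)))) + G * ‖z‖) := by gcongr
      _ = A0 * ‖z‖ + C * (CQ n lo * (d * (2 + (1 + M)))) * X := by rw [hA0]; ring
      _ ≤ A0 * ‖z‖ + 1 / 2 * X := by gcongr
      _ = A0 * ‖z‖ + X / 2 := by ring
  intro i j z hz
  have h1 := key z hz i j
  have h2 : (Boot.dq z fun x => Hs v x i j) = fun x => Hs (Boot.dq z v) x i j := by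
    funext x; rw [Hs_dq hv]; rfl
  rw [h2, mul_assoc]
  exact h1

/-- `C³` regularity from bounded Hölder difference quotients of the second derivatives -/
theorem C3_of_DQ {a : ℝ} (ha : 0 < a) {v : E n → ℝ} (hv : ContDiff ℝ 2 v)
    (h : ∃ N δ : ℝ, 0 < δ ∧ ∀ i j, Boot.DQ a N δ (fun x => Hs v x i j)) :
    ContDiff ℝ 3 v ∧ ∃ N : ℝ, ∀ i j, ContDiff ℝ 1 (fun x => Hs v x i j) ∧
      ∀ z, HB a (N * ‖z‖) (fun x => fderiv ℝ (fun y => Hs v y i j) x z) := by
  obtain ⟨N, δ, hδ, hD⟩ := h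
  have h1 : ∀ i j, ContDiff ℝ 1 (fun x => Hs v x i j) ∧
      ∀ z, HB a (N * ‖z‖) (fun x => fderiv ℝ (fun y => Hs v y i j) x z) := fun i j =>
    Boot.DQ.deriv ha hδ (hD i j)
  refine ⟨?_, N, h1⟩
  have hd1 : ∀ j, ContDiff ℝ 1 (Boot.pd j v) := fun j => Boot.contDiff_pd (m := 1) j (by
    rw [show (((1 : ℕ) : WithTop ℕ∞) + 1) = 2 by norm_num]; exact hv)
  have h2 : ∀ j, ContDiff ℝ 2 (Boot.pd j v) := by
    intro j
    have := Boot.contDiff_succ_of_pd (m := 1) ((hd1 j).differentiable (by norm_num))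
      (fun i => by
        have h3 : Boot.pd i (Boot.pd j v) = fun x => Hs v x i j := by
          funext x; exact Boot.pd_pd_eq hv i j x
        rw [h3]
        exact_mod_cast (h1 i j).1)
    norm_num at this
    exact this
  have := Boot.contDiff_succ_of_pd (m := 2) (hv.differentiable (by norm_num))
    (fun i => by exact_mod_cast h2 i)
  norm_num at this
  exact this

end Crest.Agent.R238.NL
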