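import Crest.Agent.R238.RegNL
import Crest.Agent.R238.EReg5

/-!
Row 238 (S0369), module H6: `NLStep` of helper978's `EReg5` from `RegNL` (helper190).
-/

set_option autoImplicit false

open MeasureTheory Set Filter
open scoped ContDiff Topology

namespace Crest.Agent.R238.NL

open Crest.Agent.R238

theorem tst_bound {n : ℕ} {a : ℝ} (ha : 0 < a) (ha1 : a < 1) {P : E n → ℝ} (hP : Tst P) (s : ℝ) :
    ∃ M1 : ℝ, ∀ z : E n, HB a (M1 * ‖z‖) (fun x => fderiv ℝ (fun y => s * P y) x z) := by
  have h1 : CK a 1 P := CK.of_tst ha.le ha1.le hP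
  choose M hM using h1.2.2
  refine ⟨∑ i, |s| * |M i|, fun z => ?_⟩
  have hd : Differentiable ℝ P := hP.smooth.differentiable (by simp)
  have e : (fun x => fderiv ℝ (fun y => s * P y) x z)
      = fun x => ∑ i, (s * z i) * fderiv ℝ P x (ee i) := by
    funext x
    rw [Boot.fderiv_eq_sum_pd]
    refine Finset.sum_congr rfl fun i _ => ?_
    unfold Boot.pd
    rw [fderiv_const_mul (hd x), _root_.smul_apply, smul_eq_mul]
    ring
  rw [e]
  have h2 : HB a (∑ i, |s * z i| * M i) (fun x => ∑ i, (s * z i) * fderiv ℝ P x (ee i)) :=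
    HB.sum Finset.univ (fun i _ => HB.const_mul (s * z i) (hM i))
  refine HB.mono h2 ?_
  rw [Finset.sum_mul]
  refine Finset.sum_le_sum fun i _ => ?_
  rw [abs_mul]
  have h3 := Boot.abs_coord_le z i
  calc |s| * |z i| * M i ≤ |s| * |z i| * |M i| :=
        mul_le_mul_of_nonneg_left (le_abs_self _) (by positivity)
    _ ≤ |s| * ‖z‖ * |M i| := by gcongr
    _ = |s| * |M i| * ‖z‖ := by ring

/-- the nonlinear step in the form of `EReg5` -/
theorem nlStep : EReg.NLStep := by
  intro n a lo hi ha ha1 hlo _ M P hP s v hv hvM hell hma hT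
  obtain ⟨M1, hM1⟩ := tst_bound ha ha1 hP s
  obtain ⟨C, R', hC⟩ := hT
  have hPd : Differentiable ℝ (fun y => s * P y) :=
    (hP.smooth.differentiable (by simp)).const_mul s
  have hDQ := nonlin_DQ (P := fun y => s * P y) ha hlo hv hvM hell hPd hM1
    (fun x => by
      have h1 := hma x
      have h2 : Real.log (gM v x).det = Real.log (gm v x).det := rfl
      rw [h2]
      linear_combination h1)
    ⟨max C 1, max R' 0, lt_of_lt_of_le one_pos (le_max_right _ _), fun h N S h2 hB hL hS i j => by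
      have hN : 0 ≤ N := HB.nonneg hL
      have hL' : HB a N (fun x => LA (tauf v) h x + 0 * h x) := by
        refine HB.congr hL fun x => ?_
        rw [zero_mul, add_zero]
        rfl
      have hS0 : 0 ≤ S := (abs_nonneg _).trans (hS 0 (by simp))
      have h5 := hC 0 (Or.inl rfl) h N S h2 hB hL'
        (fun x hx => hS x (hx.trans (le_max_left _ _))) i j
      exact HB.mono h5 (mul_le_mul_of_nonneg_right (le_max_left _ _) (add_nonneg hN hS0))⟩
  obtain ⟨-, N, hN⟩ := C3_of_DQ ha hv hDQ
  intro i j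
  refine ⟨⟨M, hvM i j⟩, (hN i j).1.differentiable (by simp), fun k => ?_⟩
  exact ⟨_, (hN i j).2 (ee k)⟩

end Crest.Agent.R238.NL
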