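import Crest.Agent.R238.HolDefs

set_option autoImplicit false

open MeasureTheory Set Filter
open scoped ContDiff Topology RealInnerProductSpace

namespace Crest.Agent.R238

variable {n : ℕ}

/-- Schauder estimate for `Δ - x·∇ + lam`. -/
def RepOne : Prop := ∀ (n : ℕ) (a : ℝ), 0 < a → a < 1 → ∃ C : ℝ, 0 < C ∧
  ∀ lam : ℝ, (lam = 0 ∨ lam = 1) → ∀ (g : E n → ℝ) (N : ℝ), ContDiff ℝ 2 g →
    (∃ B : ℝ, ∀ x, ‖fderiv ℝ (fderiv ℝ g) x‖ ≤ B) →
    HB a N (fun x => ∑ i, fderiv ℝ (fderiv ℝ g) x (ee i) (ee i) - fderiv ℝ g x x + lam * g x) →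
    ∀ h k : E n, HB a (C * N * ‖h‖ * ‖k‖) (fun x => fderiv ℝ (fderiv ℝ g) x h k)

namespace H229

/-- diagonal map -/
noncomputable def dg (c : Fin n → ℝ) : E n →L[ℝ] E n :=
  LinearMap.toContinuousLinearMap
    { toFun := fun z => WithLp.toLp 2 (fun i => c i * z i)
      map_add' := fun x y => by ext i; simp [mul_add]
      map_smul' := fun r x => by ext i; simp; ring }

theorem dg_apply (c : Fin n → ℝ) (z : E n) (i : Fin n) : dg c z i = c i * z i := rfl

theorem norm_dg_le {c : Fin n → ℝ} {M : ℝ} (h0 : ∀ i, 0 ≤ c i) (hM : ∀ i, c i ≤ M) (hM0 : 0 ≤ M)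
    (z : E n) : ‖dg c z‖ ≤ M * ‖z‖ := by
  rw [EuclideanSpace.norm_eq, EuclideanSpace.norm_eq]
  have h1 : M * √(∑ i, ‖z i‖ ^ 2) = √(∑ i, (M * ‖z i‖) ^ 2) := by
    simp only [mul_pow]
    rw [← Finset.mul_sum, Real.sqrt_mul (sq_nonneg M), Real.sqrt_sq hM0]
  rw [h1]
  apply Real.sqrt_le_sqrt
  refine Finset.sum_le_sum fun i _ => ?_
  rw [dg_apply, norm_mul, Real.norm_of_nonneg (h0 i)]
  have := h0 i
  have := hM i
  gcongr

theorem dg_dg (c d : Fin n → ℝ) (h : ∀ i, c i * d i = 1) (z : E n) : dg c (dg d z) = z := by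
  ext i
  rw [dg_apply, dg_apply, ← mul_assoc, h i, one_mul]

/-- factorisation of an elliptic matrix -/
theorem exists_factor {lo hi : ℝ} (hlo : 0 < lo) {A : Matrix (Fin n) (Fin n) ℝ}
    (hA : Ell lo hi A) : ∃ S T : E n →L[ℝ] E n, (∀ x, S (T x) = x) ∧ (∀ x, T (S x) = x) ∧
      (∀ x, ‖S x‖ ≤ √hi * ‖x‖) ∧ (∀ x, ‖T x‖ ≤ (√lo)⁻¹ * ‖x‖) ∧
      ∀ Φ : E n →L[ℝ] E n →L[ℝ] ℝ,
        ∑ i, Φ (S (ee i)) (S (ee i)) = ∑ i, ∑ j, A i j * Φ (ee i) (ee j) := by
  have hH : A.IsHermitian := by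
    ext i j
    rw [Matrix.conjTranspose_apply, star_trivial]
    exact hA.1 j i
  set b := hH.eigenvectorBasis with hb
  set l := hH.eigenvalues with hl
  have hev : ∀ j, A.mulVec ⇑(b j) = l j • ⇑(b j) := fun j => hH.mulVec_eigenvectorBasis j
  have hsum : ∀ j, ∑ i, (b j) i ^ 2 = 1 := by
    intro j
    have h1 : ‖b j‖ = 1 := b.orthonormal.1 j
    have h2 := EuclideanSpace.norm_sq_eq (b j)
    rw [h1] at h2
    simpa using h2.symm
  have hquad : ∀ j, ∑ i, ∑ k, A i k * (b j) i * (b j) k = l j := by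
    intro j
    have h1 : ∀ i, ∑ k, A i k * (b j) k = l j * (b j) i := by
      intro i
      have := congrFun (hev j) i
      simpa [Matrix.mulVec, dotProduct] using this
    calc ∑ i, ∑ k, A i k * (b j) i * (b j) k = ∑ i, (b j) i * ∑ k, A i k * (b j) k := by
          refine Finset.sum_congr rfl fun i _ => ?_
          rw [Finset.mul_sum]
          exact Finset.sum_congr rfl fun k _ => by ring
      _ = ∑ i, (b j) i * (l j * (b j) i) := by simp only [h1]
      _ = l j * ∑ i, (b j) i ^ 2 := by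
          rw [Finset.mul_sum]; exact Finset.sum_congr rfl fun k _ => by ring
      _ = l j := by rw [hsum, mul_one]
  have hlb : ∀ j, lo ≤ l j ∧ l j ≤ hi := by
    intro j
    have h1 := hA.2 (fun i => (b j) i)
    rw [hquad j, hsum j] at h1
    constructor <;> linarith [h1.1, h1.2]
  have hl0 : ∀ j, 0 < l j := fun j => hlo.trans_le (hlb j).1
  let S : E n →L[ℝ] E n := (b.repr.symm : E n →L[ℝ] E n).comp (dg fun i => √(l i))
  let T : E n →L[ℝ] E n := (dg fun i => (√(l i))⁻¹).comp (b.repr : E n →L[ℝ] E n)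
  refine ⟨S, T, fun x => ?_, fun x => ?_, fun x => ?_, fun x => ?_, fun Φ => ?_⟩
  · show b.repr.symm (dg (fun i => √(l i)) (dg (fun i => (√(l i))⁻¹) (b.repr x))) = x
    rw [dg_dg _ _ fun i => mul_inv_cancel₀ (Real.sqrt_pos.2 (hl0 i)).ne']
    exact b.repr.symm_apply_apply x
  · show dg (fun i => (√(l i))⁻¹) (b.repr (b.repr.symm (dg (fun i => √(l i)) x))) = x
    rw [b.repr.apply_symm_apply, dg_dg _ _ fun i => inv_mul_cancel₀ (Real.sqrt_pos.2 (hl0 i)).ne']
  · show ‖b.repr.symm (dg (fun i => √(l i)) x)‖ ≤ _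
    rw [LinearIsometryEquiv.norm_map]
    exact norm_dg_le (fun i => Real.sqrt_nonneg _) (fun i => Real.sqrt_le_sqrt (hlb i).2)
      (Real.sqrt_nonneg _) x
  · show ‖dg (fun i => (√(l i))⁻¹) (b.repr x)‖ ≤ _
    refine (norm_dg_le (M := (√lo)⁻¹) (fun i => inv_nonneg.2 (Real.sqrt_nonneg _)) (fun i => ?_)
      (inv_nonneg.2 (Real.sqrt_nonneg _)) _).trans_eq ?_
    · exact inv_anti₀ (Real.sqrt_pos.2 hlo) (Real.sqrt_le_sqrt (hlb i).1)
    · rw [LinearIsometryEquiv.norm_map]
  · have hS : ∀ i, S (ee i) = √(l i) • b i := by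
      intro i
      show b.repr.symm (dg (fun i => √(l i)) (ee i)) = _
      have h1 : dg (fun i => √(l i)) (ee i) = √(l i) • (ee i : E n) := by
        ext j
        rw [dg_apply]
        by_cases hij : j = i
        · subst hij; simp
        · simp [hij]
      rw [h1, map_smul, b.repr_symm_single]
    have hbe : ∀ i, (b i : E n) = ∑ k, (b i) k • (ee k : E n) := by
      intro i
      ext j
      simp [Finset.sum_apply, Pi.single_apply]
    have hpar : ∀ k m : Fin n, ∑ i, (b i) k * (b i) m = if k = m then 1 else 0 := by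
      intro k m
      have h1 := b.sum_inner_mul_inner (ee k) (ee m)
      rw [show (if k = m then (1 : ℝ) else 0) = if m = k then 1 else 0 from by
        simp only [eq_comm]]
      simpa [EuclideanSpace.inner_single_left, EuclideanSpace.inner_single_right] using h1
    have hAkl : ∀ k m : Fin n, ∑ i, l i * ((b i) k * (b i) m) = A k m := by
      intro k m
      have h1 : ∀ i, l i * (b i) k = ∑ q, A k q * (b i) q := by
        intro i
        have := congrFun (hev i) k
        simpa [Matrix.mulVec, dotProduct] using this.symm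
      calc ∑ i, l i * ((b i) k * (b i) m) = ∑ i, (∑ q, A k q * (b i) q) * (b i) m := by
            refine Finset.sum_congr rfl fun i _ => ?_
            rw [← h1]; ring
        _ = ∑ i, ∑ q, A k q * ((b i) q * (b i) m) := by
            refine Finset.sum_congr rfl fun i _ => ?_
            rw [Finset.sum_mul]
            exact Finset.sum_congr rfl fun q _ => by ring
        _ = ∑ q, A k q * ∑ i, (b i) q * (b i) m := by
            rw [Finset.sum_comm]
            exact Finset.sum_congr rfl fun q _ => by rw [Finset.mul_sum]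
        _ = A k m := by simp [hpar]
    calc ∑ i, Φ (S (ee i)) (S (ee i)) = ∑ i, l i * Φ (b i) (b i) := by
          refine Finset.sum_congr rfl fun i _ => ?_
          rw [hS i]
          simp only [map_smul, smul_apply, smul_eq_mul]
          rw [← mul_assoc, Real.mul_self_sqrt (hl0 i).le]
      _ = ∑ i, ∑ k, ∑ m, (l i * ((b i) k * (b i) m)) * Φ (ee k) (ee m) := by
          refine Finset.sum_congr rfl fun i _ => ?_
          have h1 : Φ (b i) (b i) = ∑ k, ∑ m, ((b i) k * (b i) m) * Φ (ee k) (ee m) := by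
            have h2 : Φ (b i) = ∑ k, (b i) k • Φ (ee k) := by
              conv_lhs => rw [hbe i]
              rw [map_sum]
              exact Finset.sum_congr rfl fun k _ => by rw [map_smul]
            have h3 : ∀ φ : E n →L[ℝ] ℝ, φ (b i) = ∑ m, (b i) m * φ (ee m) := by
              intro φ
              conv_lhs => rw [hbe i]
              rw [map_sum]
              exact Finset.sum_congr rfl fun k _ => by rw [map_smul, smul_eq_mul]
            rw [h3, h2]
            simp only [sum_apply, smul_apply, smul_eq_mul, Finset.mul_sum]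
            rw [Finset.sum_comm]
            exact Finset.sum_congr rfl fun k _ => Finset.sum_congr rfl fun m _ => by ring
          rw [h1, Finset.mul_sum]
          refine Finset.sum_congr rfl fun k _ => ?_
          rw [Finset.mul_sum]
          exact Finset.sum_congr rfl fun m _ => by ring
      _ = ∑ k, ∑ m, (∑ i, l i * ((b i) k * (b i) m)) * Φ (ee k) (ee m) := by
          rw [Finset.sum_comm]
          refine Finset.sum_congr rfl fun k _ => ?_
          rw [Finset.sum_comm]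
          exact Finset.sum_congr rfl fun m _ => by rw [Finset.sum_mul]
      _ = _ := by simp only [hAkl]


theorem contDiff_fderiv_one {g : E n → ℝ} (hg : ContDiff ℝ 2 g) : ContDiff ℝ 1 (fderiv ℝ g) :=
  hg.fderiv_right (m := 1) (by norm_num)

theorem fderiv_comp_lin {g : E n → ℝ} (hg : ContDiff ℝ 2 g) (S : E n →L[ℝ] E n) (y : E n) :
    fderiv ℝ (fun y => g (S y)) y = (fderiv ℝ g (S y)).comp S :=
  (((hg.differentiable (by norm_num)) (S y)).hasFDerivAt.comp y S.hasFDerivAt).fderiv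

theorem fderiv2_comp_lin {g : E n → ℝ} (hg : ContDiff ℝ 2 g) (S : E n →L[ℝ] E n) (y h k : E n) :
    fderiv ℝ (fderiv ℝ (fun y => g (S y))) y h k = fderiv ℝ (fderiv ℝ g) (S y) (S h) (S k) := by
  have h1 : fderiv ℝ (fun y => g (S y)) = fun y => (fderiv ℝ g (S y)).comp S := by
    funext y; exact fderiv_comp_lin hg S y
  rw [h1]
  have hd : Differentiable ℝ (fderiv ℝ g) := (contDiff_fderiv_one hg).differentiable (by norm_num)
  have h2 : HasFDerivAt (fun y => fderiv ℝ g (S y)) ((fderiv ℝ (fderiv ℝ g) (S y)).comp S) y :=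
    (hd (S y)).hasFDerivAt.comp y S.hasFDerivAt
  have h3 := h2.clm_comp (hasFDerivAt_const S y)
  rw [h3.fderiv]
  simp

/-- operator norm of a bilinear form from its entries -/
theorem norm_bilin_le {Φ : E n →L[ℝ] E n →L[ℝ] ℝ} {B : ℝ} (hB : ∀ i j, |Φ (ee i) (ee j)| ≤ B) :
    ‖Φ‖ ≤ ∑ _i : Fin n, ∑ _j : Fin n, |B| := by
  have hcoord : ∀ (x : E n) (i : Fin n), |x i| ≤ ‖x‖ := fun x i => by
    simpa using PiLp.norm_apply_le (p := 2) x i
  refine ContinuousLinearMap.opNorm_le_bound _ (by positivity) fun x => ?_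
  refine ContinuousLinearMap.opNorm_le_bound _ (by positivity) fun y => ?_
  have hex : ∀ x : E n, x = ∑ k, x k • (ee k : E n) := by
    intro x
    ext j
    simp [Finset.sum_apply, Pi.single_apply]
  have h2 : Φ x = ∑ k, x k • Φ (ee k) := by
    conv_lhs => rw [hex x]
    rw [map_sum]
    exact Finset.sum_congr rfl fun k _ => by rw [map_smul]
  have h3 : ∀ φ : E n →L[ℝ] ℝ, φ y = ∑ m, y m * φ (ee m) := by
    intro φ
    conv_lhs => rw [hex y]
    rw [map_sum]
    exact Finset.sum_congr rfl fun k _ => by rw [map_smul, smul_eq_mul]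
  have h4 : Φ x y = ∑ k, ∑ m, x k * y m * Φ (ee k) (ee m) := by
    rw [h3, h2]
    simp only [sum_apply, smul_apply, smul_eq_mul, Finset.mul_sum]
    rw [Finset.sum_comm]
    exact Finset.sum_congr rfl fun k _ => Finset.sum_congr rfl fun m _ => by ring
  rw [h4, Real.norm_eq_abs, Finset.sum_mul, Finset.sum_mul]
  refine (Finset.abs_sum_le_sum_abs _ _).trans (Finset.sum_le_sum fun i _ => ?_)
  rw [Finset.sum_mul, Finset.sum_mul]
  refine (Finset.abs_sum_le_sum_abs _ _).trans (Finset.sum_le_sum fun j _ => ?_)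
  rw [abs_mul, abs_mul]
  have h5 := (hB i j).trans (le_abs_self B)
  have h6 := hcoord x i
  have h7 := hcoord y j
  calc |x i| * |y j| * |Φ (ee i) (ee j)| ≤ ‖x‖ * ‖y‖ * |B| := by gcongr
    _ = |B| * ‖x‖ * ‖y‖ := by ring

end H229

open H229 in
theorem repStmt_of_one (h1 : RepOne) : RepStmt := by
  intro n a lo hi ha ha1 hlo hlohi
  obtain ⟨C, hC, hmain⟩ := h1 n a ha ha1
  have hhi : 0 < hi := hlo.trans_le hlohi
  set K : ℝ := max 1 (√hi ^ a) with hK
  set L : ℝ := (√lo)⁻¹ with hL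
  have hLpos : 0 < L := inv_pos.2 (Real.sqrt_pos.2 hlo)
  have hK1 : 1 ≤ K := le_max_left _ _
  set L1 : ℝ := max 1 (L ^ a) with hL1
  have hL11 : 1 ≤ L1 := le_max_left _ _
  refine ⟨C * K * L ^ 2 * L1, by positivity, fun A hA lam hlam g N hg ⟨B, hB⟩ hr i j => ?_⟩
  have hN : 0 ≤ N := (abs_nonneg _).trans (hr.1 0)
  obtain ⟨S, T, hST, hTS, hSn, hTn, hΦ⟩ := exists_factor hlo hA
  have hgS : ContDiff ℝ 2 (fun y => g (S y)) := hg.comp S.contDiff
  -- bounded second derivative
  have hB1 : ∀ x, ‖fderiv ℝ (fderiv ℝ g) x‖ ≤ ∑ _i : Fin n, ∑ _j : Fin n, |B| := fun x =>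
    norm_bilin_le fun i j => hB x i j
  have hB2 : ∃ B : ℝ, ∀ x, ‖fderiv ℝ (fderiv ℝ (fun y => g (S y))) x‖ ≤ B := by
    refine ⟨∑ _i : Fin n, ∑ _j : Fin n, |(∑ _i : Fin n, ∑ _j : Fin n, |B|) * ‖S‖ * ‖S‖|, fun x => ?_⟩
    refine norm_bilin_le fun i j => ?_
    rw [fderiv2_comp_lin hg, ← Real.norm_eq_abs]
    refine (ContinuousLinearMap.le_opNorm₂ _ _ _).trans ?_
    have e1 : ‖S (ee i)‖ ≤ ‖S‖ := by
      refine (S.le_opNorm _).trans_eq ?_
      simp
    have e2 : ‖S (ee j)‖ ≤ ‖S‖ := by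
      refine (S.le_opNorm _).trans_eq ?_
      simp
    have e3 := hB1 (S x)
    gcongr
  -- the transformed right hand side
  have hrS : HB a (K * N) (fun x => ∑ i, fderiv ℝ (fderiv ℝ (fun y => g (S y))) x (ee i) (ee i)
      - fderiv ℝ (fun y => g (S y)) x x + lam * g (S x)) := by
    have e1 : (fun x => ∑ i, fderiv ℝ (fderiv ℝ (fun y => g (S y))) x (ee i) (ee i)
        - fderiv ℝ (fun y => g (S y)) x x + lam * g (S x))
        = fun x => LA (fun _ => A) g (S x) + lam * g (S x) := by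
      funext x
      unfold LA Hs
      rw [fderiv_comp_lin hg]
      simp only [fderiv2_comp_lin hg]
      rw [hΦ (fderiv ℝ (fderiv ℝ g) (S x))]
      rfl
    rw [e1]
    refine ⟨fun x => (hr.1 (S x)).trans (le_mul_of_one_le_left hN hK1), fun x y => ?_⟩
    refine (hr.2 (S x) (S y)).trans ?_
    have e2 : ‖S x - S y‖ ≤ √hi * ‖x - y‖ := by rw [← map_sub]; exact hSn _
    calc N * ‖S x - S y‖ ^ a ≤ N * (√hi * ‖x - y‖) ^ a := by gcongr
      _ = N * (√hi ^ a * ‖x - y‖ ^ a) := by
          rw [Real.mul_rpow (Real.sqrt_nonneg _) (norm_nonneg _)]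
      _ ≤ N * (K * ‖x - y‖ ^ a) := by
          gcongr
          exact le_max_right _ _
      _ = K * N * ‖x - y‖ ^ a := by ring
  have hfin := hmain lam hlam (fun y => g (S y)) (K * N) hgS hB2 hrS (T (ee i)) (T (ee j))
  have e3 : ∀ x, fderiv ℝ (fderiv ℝ (fun y => g (S y))) (T x) (T (ee i)) (T (ee j)) = Hs g x i j := by
    intro x
    rw [fderiv2_comp_lin hg, hST, hST, hST]
    rfl
  have hTe : ∀ i : Fin n, ‖T (ee i)‖ ≤ L := fun i => by
    simpa using hTn (ee i)
  have hconst : C * (K * N) * ‖T (ee i)‖ * ‖T (ee j)‖ ≤ C * K * L ^ 2 * N := by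
    have e4 := hTe i
    have e5 := hTe j
    have : 0 ≤ C * (K * N) := by positivity
    calc C * (K * N) * ‖T (ee i)‖ * ‖T (ee j)‖ ≤ C * (K * N) * L * L := by gcongr
      _ = _ := by ring
  have hQ : 0 ≤ C * K * L ^ 2 * N := by positivity
  refine ⟨fun x => ?_, fun x y => ?_⟩
  · have := hfin.1 (T x)
    beta_reduce at this ⊢
    rw [e3] at this
    refine this.trans (hconst.trans ?_)
    calc C * K * L ^ 2 * N ≤ C * K * L ^ 2 * N * L1 := le_mul_of_one_le_right hQ hL11
      _ = _ := by ring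
  · have := hfin.2 (T x) (T y)
    beta_reduce at this ⊢
    rw [e3, e3] at this
    refine this.trans ?_
    have e2 : ‖T x - T y‖ ≤ L * ‖x - y‖ := by rw [← map_sub]; exact hTn _
    calc C * (K * N) * ‖T (ee i)‖ * ‖T (ee j)‖ * ‖T x - T y‖ ^ a
        ≤ C * K * L ^ 2 * N * (L * ‖x - y‖) ^ a := by gcongr
      _ = C * K * L ^ 2 * N * (L ^ a * ‖x - y‖ ^ a) := by
          rw [Real.mul_rpow hLpos.le (norm_nonneg _)]
      _ ≤ C * K * L ^ 2 * N * (L1 * ‖x - y‖ ^ a) := by
          gcongr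
          exact le_max_right _ _
      _ = _ := by ring

end Crest.Agent.R238
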