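import Crest.Agent.R238.CK
import Crest.Agent.R238.LimC2

/-!
Row 238, node H6, insurance copy (helper752), part b: linear step by difference quotients and
linear bootstrap.
-/

set_option autoImplicit false

open MeasureTheory Set Filter
open scoped ContDiff Topology

namespace Crest.Agent.R238.H752

open Crest.Agent.R238 LimC2

variable {n : ℕ}

/-- Schauder estimate for one fixed coefficient field (no zero order term) -/
def BE (a C R : ℝ) (τ : E n → Matrix (Fin n) (Fin n) ℝ) : Prop :=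
  ∀ (h : E n → ℝ) (N S : ℝ), ContDiff ℝ 2 h → (∃ B, ∀ i j, HB a B (fun x => Hs h x i j)) →
    HB a N (fun x => LA τ h x) → (∀ x, ‖x‖ ≤ R → |h x| ≤ S) →
    ∀ i j, HB a (C * (N + S)) (fun x => Hs h x i j)

theorem shift_hb {a M : ℝ} {f : E n → ℝ} (h : HB a M f) (z : E n) :
    HB a M (fun x => f (x + z)) :=
  ⟨fun x => h.1 _, fun x y => by have := h.2 (x + z) (y + z); simpa using this⟩

theorem sum_hb {a : ℝ} {ι : Type*} (s : Finset ι) {M : ι → ℝ} {f : ι → E n → ℝ}
    (h : ∀ i ∈ s, HB a (M i) (f i)) : HB a (∑ i ∈ s, M i) (fun x => ∑ i ∈ s, f i x) := by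
  classical
  induction s using Finset.induction_on with
  | empty =>
    refine ⟨fun x => by simp, fun x y => by simp⟩
  | insert i s hi ih =>
    simp only [Finset.sum_insert hi]
    exact CK.hb_add (h i (Finset.mem_insert_self _ _))
      (ih fun j hj => h j (Finset.mem_insert_of_mem hj))

/-- difference quotients of a `CK a 1` function -/
theorem hb_dq {a M : ℝ} {f : E n → ℝ} (hf : Differentiable ℝ f) {j : Fin n}
    (hM : HB a M (fun x => fderiv ℝ f x (ee j))) {t : ℝ} (ht : t ≠ 0) : HB a M (dq f j t) := by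
  have hd : ∀ x : E n, ∀ s : ℝ, HasDerivAt (fun s : ℝ => f (x + s • ee j))
      (fderiv ℝ f (x + s • ee j) (ee j)) s := by
    intro x s
    have h2 : HasDerivAt (fun t : ℝ => x + t • (ee j : E n)) (ee j) s := by
      simpa using ((hasDerivAt_id s).smul_const (ee j : E n)).const_add x
    exact (hf (x + s • ee j)).hasFDerivAt.comp_hasDerivAt s h2
  have hq : ∀ x : E n, dq f j t x = (f (x + t • ee j) - f (x + (0 : ℝ) • ee j)) / t := by
    intro x; simp [dq]
  refine ⟨fun x => ?_, fun x y => ?_⟩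
  · have h4 := (convex_uIcc (0 : ℝ) t).norm_image_sub_le_of_norm_hasDerivWithin_le
      (f := fun s : ℝ => f (x + s • ee j)) (C := M)
      (fun s _ => (hd x s).hasDerivWithinAt)
      (fun s _ => hM.1 (x + s • ee j)) left_mem_uIcc right_mem_uIcc
    rw [hq, abs_div, div_le_iff₀ (abs_pos.2 ht)]
    simpa using h4
  · have h4 := (convex_uIcc (0 : ℝ) t).norm_image_sub_le_of_norm_hasDerivWithin_le
      (f := fun s : ℝ => f (x + s • ee j) - f (y + s • ee j)) (C := M * ‖x - y‖ ^ a)
      (fun s _ => ((hd x s).sub (hd y s)).hasDerivWithinAt)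
      (fun s _ => by
        have := hM.2 (x + s • ee j) (y + s • ee j)
        simpa using this) left_mem_uIcc right_mem_uIcc
    rw [hq, hq, ← sub_div, abs_div, div_le_iff₀ (abs_pos.2 ht)]
    have e : f (x + t • ee j) - f (x + (0 : ℝ) • ee j) - (f (y + t • ee j) - f (y + (0 : ℝ) • ee j))
        = f (x + t • ee j) - f (y + t • ee j)
          - (f (x + (0 : ℝ) • ee j) - f (y + (0 : ℝ) • ee j)) := by ring
    rw [e]
    simpa using h4

/-- bounded second derivatives ⇒ the gradient is Lipschitz -/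
theorem grad_lip {h : E n → ℝ} (h2 : ContDiff ℝ 2 h) {K : ℝ}
    (hK : ∀ x, ‖fderiv ℝ (fderiv ℝ h) x‖ ≤ K) (x y : E n) :
    ‖fderiv ℝ h x - fderiv ℝ h y‖ ≤ K * ‖x - y‖ :=
  (convex_univ (𝕜 := ℝ) (E := E n)).norm_image_sub_le_of_norm_fderiv_le
    (f := fderiv ℝ h) (C := K)
    (fun z _ => (h2.fderiv_right (m := 1) (by norm_num)).differentiable (by norm_num) z)
    (fun z _ => hK z) (mem_univ y) (mem_univ x)

/-- `Dh(x+te)e - h_t(x)` is `O(t)` and Lipschitz -/
theorem hb_rem {a B : ℝ} (ha : 0 < a) (ha1 : a ≤ 1) {h : E n → ℝ} (h2 : ContDiff ℝ 2 h)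
    (hB : ∀ i j, HB a B (fun x => Hs h x i j)) (j : Fin n) :
    ∃ M : ℝ, ∀ t : ℝ, t ≠ 0 → |t| ≤ 1 →
      HB a M (fun x => fderiv ℝ h (x + t • ee j) (ee j) - dq h j t x) := by
  set K : ℝ := n * (n * |B|) with hK
  have hKb : ∀ x, ‖fderiv ℝ (fderiv ℝ h) x‖ ≤ K := fun x =>
    norm_hess_le (abs_nonneg B) fun p q => ((hB p q).1 x).trans (le_abs_self B)
  have hK0 : 0 ≤ K := by positivity
  have hlip := grad_lip h2 hKb
  have he : ‖(ee j : E n)‖ = 1 := by simp [ee]
  have hd : Differentiable ℝ h := h2.differentiable (by norm_num)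
  refine ⟨2 * (2 * K) + |2 * K|, fun t ht ht1 => ?_⟩
  -- derivative of the remainder
  have hder : ∀ x, fderiv ℝ (fun x => fderiv ℝ h (x + t • ee j) (ee j) - dq h j t x) x
      = (fderiv ℝ (fderiv ℝ h) (x + t • ee j)).flip (ee j)
        - t⁻¹ • (fderiv ℝ h (x + t • ee j) - fderiv ℝ h x) := by
    intro x
    have h1 : HasFDerivAt (fun y : E n => fderiv ℝ h (y + t • ee j))
        (fderiv ℝ (fderiv ℝ h) (x + t • ee j)) x := by
      have h2' : HasFDerivAt (fun y : E n => y + t • (ee j : E n))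
          (ContinuousLinearMap.id ℝ (E n)) x := (hasFDerivAt_id x).add_const _
      exact (((h2.fderiv_right (m := 1) (by norm_num)).differentiable (by norm_num))
        (x + t • ee j)).hasFDerivAt.comp x h2'
    have h3 := h1.clm_apply (hasFDerivAt_const (ee j : E n) x)
    have h4 : HasFDerivAt (dq h j t) (t⁻¹ • (fderiv ℝ h (x + t • ee j) - fderiv ℝ h x)) x := by
      rw [← fderiv_dq hd]
      exact ((dq_contDiff h2 j t).differentiable (by norm_num) x).hasFDerivAt
    rw [(h3.fun_sub h4).fderiv]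
    simp
  have hdiff : Differentiable ℝ (fun x => fderiv ℝ h (x + t • ee j) (ee j) - dq h j t x) := by
    have h5 : ContDiff ℝ 1 (fun x => fderiv ℝ h (x + t • ee j) (ee j)) :=
      ((h2.fderiv_right (m := 1) (by norm_num)).comp (contDiff_id.add contDiff_const)).clm_apply
        contDiff_const
    exact (h5.differentiable (by norm_num)).sub ((dq_contDiff h2 j t).differentiable (by norm_num))
  have hbd : ∀ x, |fderiv ℝ h (x + t • ee j) (ee j) - dq h j t x| ≤ 2 * K := by
    intro x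
    have h1 : |fderiv ℝ h (x + t • ee j) (ee j) - fderiv ℝ h x (ee j)| ≤ K := by
      rw [← sub_apply, ← Real.norm_eq_abs]
      refine (ContinuousLinearMap.le_opNorm _ _).trans ?_
      rw [he, mul_one]
      refine (hlip _ _).trans ?_
      rw [add_sub_cancel_left, norm_smul, he, mul_one, Real.norm_eq_abs]
      exact (mul_le_mul_of_nonneg_left ht1 hK0).trans (by rw [mul_one])
    have h2' : |dq h j t x - fderiv ℝ h x (ee j)| ≤ K := by
      have hds : ∀ s : ℝ, HasDerivAt (fun s : ℝ => h (x + s • ee j) - s * fderiv ℝ h x (ee j))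
          (fderiv ℝ h (x + s • ee j) (ee j) - 1 * fderiv ℝ h x (ee j)) s := by
        intro s
        have h2 : HasDerivAt (fun t : ℝ => x + t • (ee j : E n)) (ee j) s := by
          simpa using ((hasDerivAt_id s).smul_const (ee j : E n)).const_add x
        exact ((hd (x + s • ee j)).hasFDerivAt.comp_hasDerivAt s h2).sub
          ((hasDerivAt_id s).mul_const _)
      have h4 := (convex_uIcc (0 : ℝ) t).norm_image_sub_le_of_norm_hasDerivWithin_le
        (f := fun s : ℝ => h (x + s • ee j) - s * fderiv ℝ h x (ee j)) (C := K)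
        (fun s _ => (hds s).hasDerivWithinAt)
        (fun s hs => by
          have h3 : |s| ≤ 1 := by
            have := abs_sub_left_of_mem_uIcc hs
            rw [sub_zero, sub_zero] at this
            exact this.trans ht1
          rw [one_mul, ← sub_apply]
          refine (ContinuousLinearMap.le_opNorm _ _).trans ?_
          rw [he, mul_one]
          refine (hlip _ _).trans ?_
          rw [add_sub_cancel_left, norm_smul, he, mul_one, Real.norm_eq_abs]
          exact (mul_le_mul_of_nonneg_left h3 hK0).trans (by rw [mul_one]))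
        left_mem_uIcc right_mem_uIcc
      have h5 : dq h j t x - fderiv ℝ h x (ee j)
          = (h (x + t • ee j) - t * fderiv ℝ h x (ee j) - h x) / t := by
        unfold dq; field_simp; ring
      rw [h5, abs_div, div_le_iff₀ (abs_pos.2 ht)]
      simpa using h4
    have e : fderiv ℝ h (x + t • ee j) (ee j) - dq h j t x
        = (fderiv ℝ h (x + t • ee j) (ee j) - fderiv ℝ h x (ee j))
          - (dq h j t x - fderiv ℝ h x (ee j)) := by ring
    rw [e]
    exact (abs_sub _ _).trans (by linarith)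
  refine CK.hb_lip ha.le ha1 (M := 2 * K) (L := 2 * K) hbd fun x y => ?_
  · have := (convex_univ (𝕜 := ℝ) (E := E n)).norm_image_sub_le_of_norm_fderiv_le
      (f := fun x => fderiv ℝ h (x + t • ee j) (ee j) - dq h j t x) (C := 2 * K)
      (fun z _ => hdiff z) (fun z _ => ?_) (mem_univ y) (mem_univ x)
    · exact this
    · rw [hder]
      have h6 : ‖(fderiv ℝ (fderiv ℝ h) (z + t • ee j)).flip (ee j)‖ ≤ K := by
        refine (ContinuousLinearMap.le_opNorm _ _).trans ?_
        rw [he, mul_one, ContinuousLinearMap.opNorm_flip]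
        exact hKb _
      have h7 : ‖t⁻¹ • (fderiv ℝ h (z + t • ee j) - fderiv ℝ h z)‖ ≤ K := by
        rw [norm_smul, norm_inv, Real.norm_eq_abs, inv_mul_le_iff₀ (abs_pos.2 ht)]
        refine (hlip _ _).trans ?_
        rw [add_sub_cancel_left, norm_smul, he, mul_one, Real.norm_eq_abs, mul_comm]
      exact (norm_sub_le _ _).trans (by linarith)

/-- local bound for difference quotients -/
theorem dq_loc {h : E n → ℝ} (h1 : ContDiff ℝ 1 h) (R : ℝ) (j : Fin n) :
    ∃ S : ℝ, ∀ t : ℝ, t ≠ 0 → |t| ≤ 1 → ∀ x, ‖x‖ ≤ R → |dq h j t x| ≤ S := by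
  have hc : IsCompact (Metric.closedBall (0 : E n) (max R 0 + 1)) := isCompact_closedBall _ _
  have hcont : Continuous (fderiv ℝ h) := h1.continuous_fderiv (by norm_num)
  obtain ⟨S, hS⟩ := hc.exists_bound_of_continuousOn hcont.continuousOn
  refine ⟨S, fun t ht ht1 x hx => ?_⟩
  have he : ‖(ee j : E n)‖ = 1 := by simp [ee]
  have hm : ∀ s ∈ uIcc 0 t, ‖x + s • (ee j : E n)‖ ≤ max R 0 + 1 := by
    intro s hs
    have h3 : |s| ≤ 1 := by
      have := abs_sub_left_of_mem_uIcc hs
      rw [sub_zero, sub_zero] at this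
      exact this.trans ht1
    calc ‖x + s • (ee j : E n)‖ ≤ ‖x‖ + ‖s • (ee j : E n)‖ := norm_add_le _ _
      _ ≤ max R 0 + 1 := by
        rw [norm_smul, he, mul_one, Real.norm_eq_abs]
        exact add_le_add (hx.trans (le_max_left _ _)) h3
  have hd : ∀ s : ℝ, HasDerivAt (fun s : ℝ => h (x + s • ee j))
      (fderiv ℝ h (x + s • ee j) (ee j)) s := by
    intro s
    have h2 : HasDerivAt (fun t : ℝ => x + t • (ee j : E n)) (ee j) s := by
      simpa using ((hasDerivAt_id s).smul_const (ee j : E n)).const_add x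
    exact (h1.differentiable (by norm_num) (x + s • ee j)).hasFDerivAt.comp_hasDerivAt s h2
  have h4 := (convex_uIcc (0 : ℝ) t).norm_image_sub_le_of_norm_hasDerivWithin_le
      (f := fun s : ℝ => h (x + s • ee j)) (C := S)
      (fun s _ => (hd s).hasDerivWithinAt)
      (fun s hs => by
        refine (ContinuousLinearMap.le_opNorm _ _).trans ?_
        rw [he, mul_one]
        exact hS _ (mem_closedBall_zero_iff.2 (hm s hs))) left_mem_uIcc right_mem_uIcc
  unfold dq
  rw [abs_div, div_le_iff₀ (abs_pos.2 ht)]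
  simpa using h4

/-- the equation of the difference quotient -/
theorem LA_dq {τ : E n → Matrix (Fin n) (Fin n) ℝ} {h : E n → ℝ} (h2 : ContDiff ℝ 2 h) (e : Fin n)
    {t : ℝ} (ht : t ≠ 0) (x : E n) :
    LA τ (dq h e t) x = (LA τ h (x + t • ee e) - LA τ h x) / t
      - ∑ i, ∑ j, dq (fun y => τ y i j) e t x * Hs h (x + t • ee e) i j
      + fderiv ℝ h (x + t • ee e) (ee e) := by
  unfold LA
  rw [fderiv_dq (h2.differentiable (by norm_num))]
  simp only [Hs_dq h2, map_add, map_smul, smul_eq_mul, smul_apply, sub_apply, dq]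
  have e1 : ∀ i j, τ x i j * ((Hs h (x + t • ee e) i j - Hs h x i j) / t)
      = (τ (x + t • ee e) i j * Hs h (x + t • ee e) i j - τ x i j * Hs h x i j) / t
        - (τ (x + t • ee e) i j - τ x i j) / t * Hs h (x + t • ee e) i j := by
    intro i j; field_simp; ring
  simp only [e1, Finset.sum_sub_distrib, ← Finset.sum_div]
  field_simp
  ring

/-- **linear step** -/
theorem lin_step {a C R : ℝ} (ha : 0 < a) (ha1 : a ≤ 1) {τ : E n → Matrix (Fin n) (Fin n) ℝ}
    (hBE : BE a C R τ) (hτ : ∀ i j, CK a 1 (fun x => τ x i j)) {h f : E n → ℝ}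
    (h2 : ContDiff ℝ 2 h) (hH : ∃ B, ∀ i j, HB a B (fun x => Hs h x i j)) (hf : CK a 1 f)
    {lam : ℝ} (hl : lam = 1 ∨ lam = 0 ∧ ∀ i, ∃ M, HB a M (fun x => fderiv ℝ h x (ee i)))
    (heq : ∀ x, LA τ h x + lam * h x = f x) (e : Fin n) :
    ContDiff ℝ 2 (fun x => fderiv ℝ h x (ee e)) ∧
      ∃ B, ∀ i j, HB a B (fun x => Hs (fun x => fderiv ℝ h x (ee e)) x i j) := by
  obtain ⟨B, hB⟩ := hH
  obtain ⟨Mf, hMf⟩ := hf.der e |>.hb
  choose Mτ hMτ using fun i j => (hτ i j).der e |>.hb
  -- the zero order remainder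
  have hrem : ∃ M : ℝ, ∀ t : ℝ, t ≠ 0 → |t| ≤ 1 →
      HB a M (fun x => fderiv ℝ h (x + t • ee e) (ee e) - lam * dq h e t x) := by
    rcases hl with h1 | ⟨h0, h1⟩
    · obtain ⟨M, hM⟩ := hb_rem ha ha1 h2 hB e
      refine ⟨M, fun t ht ht1 => ?_⟩
      simpa [h1] using hM t ht ht1
    · obtain ⟨M, hM⟩ := h1 e
      refine ⟨M, fun t _ _ => ?_⟩
      have := shift_hb hM (t • ee e)
      simpa [h0] using this
  obtain ⟨Mr, hMr⟩ := hrem
  obtain ⟨S, hS⟩ := dq_loc (h2.of_le (by norm_num)) R e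
  set N : ℝ := Mf + (∑ i, ∑ j, 2 * Mτ i j * B) + Mr with hN
  have key : ∀ t : ℝ, t ≠ 0 → |t| ≤ 1 →
      ∀ i j, HB a (C * (N + S)) (fun x => Hs (dq h e t) x i j) := by
    intro t ht ht1
    refine hBE (dq h e t) N S (dq_contDiff h2 e t) ?_ ?_ (hS t ht ht1)
    · refine ⟨(B + B) * |t|⁻¹, fun i j => ?_⟩
      have h3 := CK.hb_add (shift_hb (hB i j) (t • ee e)) (CK.hb_neg (hB i j))
      refine ⟨fun x => ?_, fun x y => ?_⟩
      · show |Hs (dq h e t) x i j| ≤ _
        rw [Hs_dq h2, abs_div, div_eq_mul_inv]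
        exact mul_le_mul_of_nonneg_right (h3.1 x) (by positivity)
      · show |Hs (dq h e t) x i j - Hs (dq h e t) y i j| ≤ _
        rw [Hs_dq h2, Hs_dq h2, ← sub_div, abs_div, div_eq_mul_inv, mul_right_comm]
        refine mul_le_mul_of_nonneg_right ?_ (by positivity)
        exact h3.2 x y
    · have e1 : (fun x => LA τ (dq h e t) x) = fun x =>
          (dq f e t x + (-∑ i, ∑ j, dq (fun y => τ y i j) e t x * Hs h (x + t • ee e) i j))
            + (fderiv ℝ h (x + t • ee e) (ee e) - lam * dq h e t x) := by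
        funext x
        rw [LA_dq h2 e ht x]
        have e2 : (LA τ h (x + t • ee e) - LA τ h x) / t = dq f e t x - lam * dq h e t x := by
          unfold dq
          rw [← heq, ← heq]
          field_simp
          ring
        rw [e2]
        ring
      rw [e1]
      refine CK.hb_add (CK.hb_add (hb_dq hf.diff hMf ht) (CK.hb_neg ?_)) (hMr t ht ht1)
      refine sum_hb _ fun i _ => sum_hb _ fun j _ => ?_
      exact CK.hb_mul (hb_dq (hτ i j).diff (hMτ i j) ht) (shift_hb (hB i j) (t • ee e))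
  have hev : ∀ᶠ t in 𝓝[≠] (0 : ℝ), ∀ p q, HB a (C * (N + S)) (fun x => Hs (dq h e t) x p q) := by
    have h5 : ∀ᶠ t in 𝓝[≠] (0 : ℝ), |t| ≤ 1 := by
      have : ∀ᶠ t in 𝓝 (0 : ℝ), |t| ≤ 1 := by
        have h6 : Continuous fun t : ℝ => |t| := continuous_abs
        have h7 := (h6.tendsto 0).eventually_lt_const (u := 1) (by simp)
        exact h7.mono fun t ht => ht.le
      exact this.filter_mono nhdsWithin_le_nhds
    filter_upwards [h5, self_mem_nhdsWithin] with t ht1 ht
    exact key t ht ht1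
  have hfin := diffQuot h2 e ha hev
  exact ⟨hfin.1, _, hfin.2.1⟩

theorem contDiff_three {h : E n → ℝ} (h2 : ContDiff ℝ 2 h)
    (he : ∀ e : Fin n, ContDiff ℝ 2 (fun x => fderiv ℝ h x (ee e))) : ContDiff ℝ 3 h := by
  have h1 : ContDiff ℝ ((2 : ℕ) + 1) h :=
    contDiff_succ_of_partials (h2.differentiable (by norm_num)) fun i => by exact_mod_cast he i
  exact_mod_cast h1

theorem diff_Hs {h : E n → ℝ} (h3 : ContDiff ℝ 3 h) (i j : Fin n) :
    Differentiable ℝ (fun x => Hs h x i j) := by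
  have h1 : ContDiff ℝ 1 (fderiv ℝ (fderiv ℝ h)) :=
    (h3.fderiv_right (m := 2) (by norm_num)).fderiv_right (m := 1) (by norm_num)
  exact ((h1.clm_apply contDiff_const).clm_apply contDiff_const).differentiable (by norm_num)

/-- derivative of `LA τ h` -/
theorem fderiv_LA {τ : E n → Matrix (Fin n) (Fin n) ℝ} (hτ : ∀ i j, Differentiable ℝ fun x => τ x i j)
    {h : E n → ℝ} (h3 : ContDiff ℝ 3 h) (e : Fin n) (x : E n) :
    fderiv ℝ (fun x => LA τ h x) x (ee e) = LA τ (fun x => fderiv ℝ h x (ee e)) x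
      + ∑ i, ∑ j, fderiv ℝ (fun y => τ y i j) x (ee e) * Hs h x i j - fderiv ℝ h x (ee e) := by
  have h2 : ContDiff ℝ 2 h := h3.of_le (by norm_num)
  have hdd : Differentiable ℝ (fderiv ℝ h) :=
    (h2.fderiv_right (m := 1) (by norm_num)).differentiable (by norm_num)
  have hs1 : ∀ i j, HasFDerivAt (fun x => τ x i j * Hs h x i j)
      (τ x i j • fderiv ℝ (fun x => Hs h x i j) x + Hs h x i j • fderiv ℝ (fun y => τ y i j) x) x :=
    fun i j => (hτ i j x).hasFDerivAt.mul ((diff_Hs h3 i j) x).hasFDerivAt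
  have hs2 : HasFDerivAt (fun x => ∑ i, ∑ j, τ x i j * Hs h x i j)
      (∑ i, ∑ j, (τ x i j • fderiv ℝ (fun x => Hs h x i j) x
        + Hs h x i j • fderiv ℝ (fun y => τ y i j) x)) x :=
    HasFDerivAt.fun_sum fun i _ => HasFDerivAt.fun_sum fun j _ => hs1 i j
  have hs3 : HasFDerivAt (fun x : E n => fderiv ℝ h x x) _ x :=
    (hdd x).hasFDerivAt.clm_apply (hasFDerivAt_id x)
  have hs4 := (hs2.fun_sub hs3).fderiv
  have e0 : (fun x => LA τ h x) = fun x => ∑ i, ∑ j, τ x i j * Hs h x i j - fderiv ℝ h x x := rfl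
  rw [e0, hs4]
  unfold LA
  have hsy : fderiv ℝ (fderiv ℝ h) x (ee e) x = fderiv ℝ (fun x => fderiv ℝ h x (ee e)) x x := by
    have h5 : HasFDerivAt (fun y => fderiv ℝ h y (ee e)) _ x :=
      (hdd x).hasFDerivAt.clm_apply (hasFDerivAt_const (ee e : E n) x)
    rw [h5.fderiv]
    have := (h2.contDiffAt (x := x)).isSymmSndFDerivAt (by simp) (ee e) x
    simpa using this
  simp only [sub_apply, sum_apply, add_apply, smul_apply, smul_eq_mul, fderiv_Hs h3,
    ContinuousLinearMap.flip_apply, ContinuousLinearMap.coe_comp, Function.comp_apply,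
    Finset.sum_add_distrib, ContinuousLinearMap.coe_id', id_eq, hsy]
  have e1 : ∀ i j, Hs h x i j * fderiv ℝ (fun y => τ y i j) x (ee e)
      = fderiv ℝ (fun y => τ y i j) x (ee e) * Hs h x i j := fun i j => mul_comm _ _
  simp only [e1]
  ring

/-- the partial derivatives of a function with Hessian in `CK a k` -/
theorem CK_partial {a : ℝ} {h : E n → ℝ} (h2 : ContDiff ℝ 2 h) {k : ℕ}
    (hH : ∀ i j, CK a k (fun x => Hs h x i j)) (e : Fin n)
    (hb : ∃ M, HB a M (fun x => fderiv ℝ h x (ee e))) : CK a k (fun x => fderiv ℝ h x (ee e)) := by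
  cases k with
  | zero => exact hb
  | succ k =>
    refine ⟨hb, ?_, fun i => ?_⟩
    · exact ((h2.fderiv_right (m := 1) (by norm_num)).clm_apply contDiff_const).differentiable
        (by norm_num)
    · refine (hH i e).pred.congr fun x => ?_
      exact Hs_eq h2 x i e

/-- Hessian in `CK a (k+1)` from the Hessians of the partial derivatives -/
theorem CK_Hs_succ {a : ℝ} {h : E n → ℝ} (h3 : ContDiff ℝ 3 h) {k : ℕ}
    (hb : ∀ i j, ∃ M, HB a M (fun x => Hs h x i j))
    (hH : ∀ e i j, CK a k (fun x => Hs (fun x => fderiv ℝ h x (ee e)) x i j)) (i j : Fin n) :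
    CK a (k + 1) (fun x => Hs h x i j) := by
  refine ⟨hb i j, diff_Hs h3 i j, fun e => ?_⟩
  exact (hH e i j).congr fun x => (fderiv_Hs h3 x e i j).symm

theorem hb_partial2 {a B : ℝ} {h : E n → ℝ} (h2 : ContDiff ℝ 2 h) {i e : Fin n}
    (hB : HB a B (fun x => Hs h x i e)) :
    HB a B (fun x => fderiv ℝ (fun y => fderiv ℝ h y (ee e)) x (ee i)) := by
  have e1 : (fun x => fderiv ℝ (fun y => fderiv ℝ h y (ee e)) x (ee i)) = fun x => Hs h x i e :=
    funext fun x => (Hs_eq h2 x i e).symm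
  rw [e1]; exact hB

/-- linear bootstrap without zero order term -/
theorem lin0 {a C R : ℝ} (ha : 0 < a) (ha1 : a ≤ 1) {τ : E n → Matrix (Fin n) (Fin n) ℝ}
    (hBE : BE a C R τ) (k : ℕ) : ∀ (h f : E n → ℝ), (∀ i j, CK a k (fun x => τ x i j)) →
      CK a k f → ContDiff ℝ 2 h → (∃ B, ∀ i j, HB a B (fun x => Hs h x i j)) →
      (∀ i, ∃ M, HB a M (fun x => fderiv ℝ h x (ee i))) → (∀ x, LA τ h x = f x) →
      ∀ i j, CK a k (fun x => Hs h x i j) := by
  induction k with
  | zero => intro h f _ _ _ hH _ _ i j; obtain ⟨B, hB⟩ := hH; exact ⟨B, hB i j⟩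
  | succ k ih =>
    intro h f hτ hf h2 hH hg heq
    have hτk : ∀ i j, CK a k (fun x => τ x i j) := fun i j => (hτ i j).pred
    have hHk := ih h f hτk hf.pred h2 hH hg heq
    have hst := lin_step ha ha1 hBE (fun i j => (hτ i j).mono (by omega)) h2 hH
      (hf.mono (by omega)) (lam := 0) (Or.inr ⟨rfl, hg⟩) (fun x => by rw [heq x]; ring)
    have h3 : ContDiff ℝ 3 h := contDiff_three h2 fun e => (hst e).1
    obtain ⟨B, hB⟩ := hH
    refine CK_Hs_succ h3 (fun i j => ⟨B, hB i j⟩) fun e => ?_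
    have hgk : CK a k (fun x => fderiv ℝ h x (ee e)) := CK_partial h2 hHk e (hg e)
    refine ih (fun x => fderiv ℝ h x (ee e)) (fun x => fderiv ℝ f x (ee e)
      - ∑ i, ∑ j, fderiv ℝ (fun y => τ y i j) x (ee e) * Hs h x i j + fderiv ℝ h x (ee e))
      hτk ?_ (hst e).1 (hst e).2 (fun i => ⟨B, ?_⟩) fun x => ?_
    · refine ((hf.der e).sub ?_).add hgk
      exact CK.sum _ fun i _ => CK.sum _ fun j _ => ((hτ i j).der e).mul (hHk i j)
    · exact hb_partial2 h2 (hB i e)
    · have h6 := fderiv_LA (fun i j => (hτ i j).diff) h3 e x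
      have h7 : (fun x => LA τ h x) = f := funext heq
      rw [h7] at h6
      linarith

/-- linear bootstrap with zero order term -/
theorem lin1 {a C R : ℝ} (ha : 0 < a) (ha1 : a ≤ 1) {τ : E n → Matrix (Fin n) (Fin n) ℝ}
    (hBE : BE a C R τ) (k : ℕ) : ∀ (h f : E n → ℝ), (∀ i j, CK a k (fun x => τ x i j)) →
      CK a k f → ContDiff ℝ 2 h → (∃ B, ∀ i j, HB a B (fun x => Hs h x i j)) →
      (∀ x, LA τ h x + h x = f x) → ∀ i j, CK a k (fun x => Hs h x i j) := by
  induction k with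
  | zero => intro h f _ _ _ hH _ i j; obtain ⟨B, hB⟩ := hH; exact ⟨B, hB i j⟩
  | succ k ih =>
    intro h f hτ hf h2 hH heq
    have hτk : ∀ i j, CK a k (fun x => τ x i j) := fun i j => (hτ i j).pred
    have hHk := ih h f hτk hf.pred h2 hH heq
    have hst := lin_step ha ha1 hBE (fun i j => (hτ i j).mono (by omega)) h2 hH
      (hf.mono (by omega)) (lam := 1) (Or.inl rfl) (fun x => by rw [one_mul, heq x])
    have h3 : ContDiff ℝ 3 h := contDiff_three h2 fun e => (hst e).1
    obtain ⟨B, hB⟩ := hH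
    refine CK_Hs_succ h3 (fun i j => ⟨B, hB i j⟩) fun e => ?_
    refine lin0 ha ha1 hBE k (fun x => fderiv ℝ h x (ee e)) (fun x => fderiv ℝ f x (ee e)
      - ∑ i, ∑ j, fderiv ℝ (fun y => τ y i j) x (ee e) * Hs h x i j)
      hτk ?_ (hst e).1 (hst e).2 (fun i => ⟨B, ?_⟩) fun x => ?_
    · refine (hf.der e).sub ?_
      exact CK.sum _ fun i _ => CK.sum _ fun j _ => ((hτ i j).der e).mul (hHk i j)
    · exact hb_partial2 h2 (hB i e)
    · have h6 := fderiv_LA (fun i j => (hτ i j).diff) h3 e x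
      have h7 : (fun x => LA τ h x) = fun x => f x - h x :=
        funext fun x => by rw [← heq x]; ring
      have h8 : fderiv ℝ (fun x => f x - h x) x = fderiv ℝ f x - fderiv ℝ h x :=
        fderiv_fun_sub (hf.diff x) (h2.differentiable (by norm_num) x)
      rw [h7, h8, sub_apply] at h6
      linarith

end Crest.Agent.R238.H752
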