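import Crest.Agent.R238.S752b
import Crest.Agent.R238.EReg3
import Crest.Agent.R238.StepMat
import Crest.Agent.R238.TauExt
import Crest.Agent.R238.AprDefs
import Crest.Agent.R238.ExiDefs

/-!
Row 238, node H6, insurance copy (helper752), part c: nonlinear first step, regularity of
solutions of the Monge-Ampere equation, `RegStmt` and `IsoStmt` from `Apr.SchStmt`.
-/

set_option autoImplicit false

open MeasureTheory Set Filter
open scoped ContDiff Topology

namespace Crest.Agent.R238.H752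

open Crest.Agent.R238 LimC2

variable {n : ℕ}

/-- entries of a product -/
theorem mul_entry_le {X Y : Matrix (Fin n) (Fin n) ℝ} {x y : ℝ} (hx : 0 ≤ x)
    (hX : ∀ i j, |X i j| ≤ x) (hY : ∀ i j, |Y i j| ≤ y) (i j : Fin n) :
    |(X * Y) i j| ≤ n * (x * y) := by
  rw [Matrix.mul_apply]
  refine (Finset.abs_sum_le_sum_abs _ _).trans ?_
  calc ∑ k, |X i k * Y k j| ≤ ∑ _k : Fin n, x * y := by
        refine Finset.sum_le_sum fun k _ => ?_
        rw [abs_mul]
        exact mul_le_mul (hX i k) (hY k j) (abs_nonneg _) hx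
    _ = n * (x * y) := by simp

/-- the remainder of `log det` along difference quotients -/
theorem hb_qL {a M Mτ : ℝ} (ha : 0 < a) {v : E n → ℝ} (hv : ContDiff ℝ 2 v)
    (hM : ∀ i j, HB a M (fun x => Hs v x i j)) {τ : E n → Matrix (Fin n) (Fin n) ℝ}
    (hMτ : ∀ i j, HB a Mτ (fun x => τ x i j)) (e : Fin n) :
    ∃ K t₁ : ℝ, 0 ≤ K ∧ 0 < t₁ ∧ ∀ t : ℝ, t ≠ 0 → |t| ≤ t₁ → ∀ B : ℝ,
      (∀ i j, HB a B (fun x => Hs (dq v e t) x i j)) →
      HB a (K * |t| ^ a * B) (fun x => EReg.qL (τ x * (gm v (x + t • ee e) - gm v x)) / t) := by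
  obtain ⟨K, r₀, hK, hr₀, hq⟩ := EReg.qL_lip n
  rcases Nat.eq_zero_or_pos n with hn | hn
  · subst hn
    refine ⟨0, 1, le_rfl, one_pos, fun t ht ht1 B _ => ?_⟩
    have h0 : ∀ X : Matrix (Fin 0) (Fin 0) ℝ, EReg.qL X = 0 := fun X => by simp [EReg.qL]
    simp only [h0, zero_div, zero_mul]
    refine ⟨fun x => by simp, fun x y => by simp⟩
  have i0 : Fin n := ⟨0, hn⟩
  have hM0 : 0 ≤ M := (abs_nonneg _).trans ((hM i0 i0).1 0)
  have hMτ0 : 0 ≤ Mτ := (abs_nonneg _).trans ((hMτ i0 i0).1 0)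
  -- `d(t) = n Mτ M |t|^a`
  have hcont : Tendsto (fun t : ℝ => n * (Mτ * (M * |t| ^ a))) (𝓝 0) (𝓝 0) := by
    have h1 : Continuous fun t : ℝ => n * (Mτ * (M * |t| ^ a)) :=
      continuous_const.mul (continuous_const.mul (continuous_const.mul
        (continuous_abs.rpow_const fun _ => Or.inr ha.le)))
    have h2 := h1.tendsto 0
    simpa [Real.zero_rpow ha.ne'] using h2
  obtain ⟨t₂, ht₂, hball⟩ := Metric.eventually_nhds_iff.1 (hcont.eventually_lt_const hr₀)
  refine ⟨K * (n * (Mτ * M)) * (2 * (n * Mτ)), t₂ / 2, by positivity, by positivity, ?_⟩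
  intro t ht ht1 B hB
  have hB0 : 0 ≤ B := (abs_nonneg _).trans ((hB i0 i0).1 0)
  have htp : 0 < |t| := abs_pos.2 ht
  have he : ‖(ee e : E n)‖ = 1 := by simp [ee]
  set D : E n → Matrix (Fin n) (Fin n) ℝ := fun x => gm v (x + t • ee e) - gm v x with hD
  have hDe : ∀ x i j, D x i j = t * Hs (dq v e t) x i j := by
    intro x i j
    rw [Hs_dq hv, mul_div_cancel₀ _ ht]
    simp only [hD, Matrix.sub_apply, gm, Matrix.add_apply, Matrix.of_apply]
    ring
  have hD1 : ∀ x i j, |D x i j| ≤ M * |t| ^ a := by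
    intro x i j
    have h1 := (hM i j).2 (x + t • ee e) x
    rw [add_sub_cancel_left, norm_smul, he, mul_one, Real.norm_eq_abs] at h1
    simp only [hD, Matrix.sub_apply, gm, Matrix.add_apply, Matrix.of_apply]
    calc _ = |Hs v (x + t • ee e) i j - Hs v x i j| := by ring_nf
      _ ≤ _ := h1
  have hD2 : ∀ x i j, |D x i j| ≤ |t| * B := by
    intro x i j
    rw [hDe, abs_mul]
    exact mul_le_mul_of_nonneg_left ((hB i j).1 x) htp.le
  have hD3 : ∀ x y i j, |D x i j - D y i j| ≤ |t| * B * ‖x - y‖ ^ a := by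
    intro x y i j
    rw [hDe, hDe, ← mul_sub, abs_mul, mul_assoc]
    exact mul_le_mul_of_nonneg_left ((hB i j).2 x y) htp.le
  set d : ℝ := n * (Mτ * (M * |t| ^ a)) with hd
  have hd0 : 0 ≤ d := by positivity
  have hdr : d ≤ r₀ := by
    have := hball (y := t) (by rw [Real.dist_eq, sub_zero]; linarith)
    exact this.le
  have hX1 : ∀ x i j, |(τ x * D x) i j| ≤ d := fun x i j =>
    mul_entry_le hMτ0 (fun i j => (hMτ i j).1 x) (fun i j => hD1 x i j) i j
  have hX2 : ∀ x i j, |(τ x * D x) i j| ≤ 2 * (n * Mτ) * (|t| * B) := fun x i j => by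
    refine (mul_entry_le hMτ0 (fun i j => (hMτ i j).1 x) (fun i j => hD2 x i j) i j).trans ?_
    have : 0 ≤ n * (Mτ * (|t| * B)) := by positivity
    nlinarith
  have hX3 : ∀ x y i j, |(τ x * D x) i j - (τ y * D y) i j|
      ≤ 2 * (n * Mτ) * (|t| * B) * ‖x - y‖ ^ a := by
    intro x y i j
    have hp : 0 ≤ ‖x - y‖ ^ a := Real.rpow_nonneg (norm_nonneg _) a
    have e1 : (τ x * D x) i j - (τ y * D y) i j
        = (τ x * (D x - D y)) i j + ((τ x - τ y) * D y) i j := by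
      rw [mul_sub (τ x) (D x) (D y), sub_mul (τ x) (τ y) (D y), Matrix.sub_apply,
        Matrix.sub_apply]; ring
    rw [e1]
    have h1 := mul_entry_le (X := τ x) (Y := D x - D y) (y := |t| * B * ‖x - y‖ ^ a) hMτ0
      (fun i j => (hMτ i j).1 x) (fun i j => by rw [Matrix.sub_apply]; exact hD3 x y i j) i j
    have h2 := mul_entry_le (X := τ x - τ y) (Y := D y) (x := Mτ * ‖x - y‖ ^ a) (y := |t| * B)
      (by positivity) (fun i j => by rw [Matrix.sub_apply]; exact (hMτ i j).2 x y)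
      (fun i j => hD2 y i j) i j
    refine (abs_add_le _ _).trans ?_
    calc _ ≤ n * (Mτ * (|t| * B * ‖x - y‖ ^ a)) + n * (Mτ * ‖x - y‖ ^ a * (|t| * B)) :=
          add_le_add h1 h2
      _ = _ := by ring
  have hfin : ∀ c : ℝ, K * d * (2 * (n * Mτ) * (|t| * B) * c) / |t|
      = K * (n * (Mτ * M)) * (2 * (n * Mτ)) * |t| ^ a * B * c := by
    intro c
    rw [hd]; field_simp
  refine ⟨fun x => ?_, fun x y => ?_⟩
  · have h1 := hq (τ x * D x) 0 d (2 * (n * Mτ) * (|t| * B)) hd0 hdr (by positivity) (hX1 x)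
      (fun i j => by simpa using hd0) (fun i j => by simpa using hX2 x i j)
    have h2 : EReg.qL (0 : Matrix (Fin n) (Fin n) ℝ) = 0 := by simp [EReg.qL]
    rw [h2, sub_zero] at h1
    show |EReg.qL (τ x * D x) / t| ≤ _
    rw [abs_div]
    have h3 := hfin 1
    rw [mul_one, mul_one] at h3
    rw [← h3]
    exact div_le_div_of_nonneg_right h1 htp.le
  · have h1 := hq (τ x * D x) (τ y * D y) d (2 * (n * Mτ) * (|t| * B) * ‖x - y‖ ^ a) hd0 hdr
      (by positivity) (hX1 x) (hX1 y) (hX3 x y)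
    show |EReg.qL (τ x * D x) / t - EReg.qL (τ y * D y) / t| ≤ _
    rw [← sub_div, abs_div, ← hfin]
    exact div_le_div_of_nonneg_right h1 htp.le

/-- improvement of a bound by iteration -/
theorem hb_iter {a W B : ℝ} {ι : Type*} {F : ι → E n → ℝ}
    (h0 : ∀ i, HB a B (F i))
    (hs : ∀ B', (∀ i, HB a B' (F i)) → ∀ i, HB a (W + B' / 2) (F i)) (i : ι) :
    HB a (2 * W) (F i) := by
  have key : ∀ m : ℕ, ∀ i, HB a (2 * W + (B - 2 * W) / 2 ^ m) (F i) := by
    intro m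
    induction m with
    | zero => intro i; simpa using h0 i
    | succ m ih =>
      intro i
      have h1 := hs _ ih i
      have e : W + (2 * W + (B - 2 * W) / 2 ^ m) / 2 = 2 * W + (B - 2 * W) / 2 ^ (m + 1) := by
        rw [pow_succ]; field_simp; ring
      rwa [e] at h1
  have hlim : Tendsto (fun m : ℕ => 2 * W + (B - 2 * W) / 2 ^ m) atTop (𝓝 (2 * W)) := by
    have h1 : Tendsto (fun m : ℕ => 2 * W + (B - 2 * W) * (1 / 2 : ℝ) ^ m) atTop
        (𝓝 (2 * W + (B - 2 * W) * 0)) :=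
      ((tendsto_pow_atTop_nhds_zero_of_lt_one (by norm_num) (by norm_num)).const_mul _).const_add _
    rw [mul_zero, add_zero] at h1
    refine h1.congr fun m => ?_
    rw [one_div, inv_pow]; rfl
  refine ⟨fun x => ge_of_tendsto hlim (Eventually.of_forall fun m => (key m i).1 x),
    fun x y => ge_of_tendsto (hlim.mul_const _) (Eventually.of_forall fun m => (key m i).2 x y)⟩

/-- the difference quotient of the Monge-Ampere equation -/
theorem MA_dq {lo hi : ℝ} (hlo : 0 < lo) {P v : E n → ℝ} {s : ℝ} (hv : ContDiff ℝ 2 v)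
    (hE : ∀ x, Ell lo hi (gm v x)) (hMA : MAeq P s v) (e : Fin n) {t : ℝ} (ht : t ≠ 0) (x : E n) :
    LA (tauf v) (dq v e t) x = (-s * dq P e t x
      + (fderiv ℝ v (x + t • ee e) (ee e) - dq v e t x))
      + -(EReg.qL (tauf v x * (gm v (x + t • ee e) - gm v x)) / t) := by
  have hg : ∀ y, 0 < (gm v y).det := fun y => (hE y).sm_det_pos hlo
  have h1 := EReg.log_det_add (g := gm v x) (h := gm v (x + t • ee e) - gm v x) (hg x)
    (by rw [add_sub_cancel]; exact hg _)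
  rw [add_sub_cancel] at h1
  have h2 : ((gm v x)⁻¹ * (gm v (x + t • ee e) - gm v x)).trace
      = t * ∑ i, ∑ j, tauf v x i j * Hs (dq v e t) x i j := by
    simp only [Matrix.trace, Matrix.diag_apply, Matrix.mul_apply, Finset.mul_sum]
    refine Finset.sum_congr rfl fun i _ => Finset.sum_congr rfl fun j _ => ?_
    have h3 : (gm v (x + t • ee e) - gm v x) j i = t * Hs (dq v e t) x j i := by
      rw [Hs_dq hv, mul_div_cancel₀ _ ht]
      simp only [Matrix.sub_apply, gm, Matrix.add_apply, Matrix.of_apply]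
      ring
    rw [h3, LimC2.Hs_symm (dq_contDiff hv e t)]
    unfold tauf; ring
  rw [h2] at h1
  have m1 := hMA (x + t • ee e)
  have m2 := hMA x
  have h4 : fderiv ℝ (dq v e t) x x
      = t⁻¹ * (fderiv ℝ v (x + t • ee e) x - fderiv ℝ v x x) := by
    rw [fderiv_dq (hv.differentiable (by norm_num))]
    simp
  have m3 : fderiv ℝ v (x + t • ee e) (x + t • ee e) = fderiv ℝ v (x + t • ee e) x
      + t * fderiv ℝ v (x + t • ee e) (ee e) := by
    rw [map_add, map_smul, smul_eq_mul]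
  rw [m3] at m1
  show (∑ i, ∑ j, tauf v x i j * Hs (dq v e t) x i j) - fderiv ℝ (dq v e t) x x = _
  rw [h4]
  have h5 : (∑ i, ∑ j, tauf v x i j * Hs (dq v e t) x i j)
      = (Real.log (gm v (x + t • ee e)).det - Real.log (gm v x).det
        - EReg.qL ((gm v x)⁻¹ * (gm v (x + t • ee e) - gm v x))) / t := by
    rw [h1]; field_simp; ring
  have h6 : Real.log (gm v (x + t • ee e)).det = -s * P (x + t • ee e)
      + (fderiv ℝ v (x + t • ee e) x + t * fderiv ℝ v (x + t • ee e) (ee e))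
      - v (x + t • ee e) := by linarith
  have h7 : Real.log (gm v x).det = -s * P x + fderiv ℝ v x x - v x := by linarith
  rw [h5, h6, h7]
  unfold dq tauf
  field_simp
  ring

/-- **nonlinear first step** -/
theorem nl_step {a C R M lo hi : ℝ} (ha : 0 < a) (ha1 : a < 1) (hlo : 0 < lo) (hlohi : lo ≤ hi)
    {P v : E n → ℝ} {s : ℝ} (hP : Tst P) (hv : ContDiff ℝ 2 v)
    (hM : ∀ i j, HB a M (fun x => Hs v x i j))
    (hE : ∀ x, Ell lo hi (gm v x)) (hMA : MAeq P s v) (hC : 0 < C)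
    (hBE : BE a C R (tauf v)) (e : Fin n) :
    ContDiff ℝ 2 (fun x => fderiv ℝ v x (ee e)) ∧
      ∃ B, ∀ i j, HB a B (fun x => Hs (fun x => fderiv ℝ v x (ee e)) x i j) := by
  have hτ := TauExt.hb_tauf hlo hlohi hE hM
  obtain ⟨K, t₁, hK, ht₁, hq⟩ := hb_qL ha hv hM hτ e
  have hPc : CK a 1 P := CK.of_tst ha.le ha1.le hP
  obtain ⟨MP, hMP⟩ := (hPc.der e).hb
  obtain ⟨Mr, hMr⟩ := hb_rem ha ha1.le hv hM e
  obtain ⟨S, hS⟩ := dq_loc (hv.of_le (by norm_num)) R e
  set N0 : ℝ := |s| * MP + Mr with hN0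
  -- smallness of `K |t|^a`
  have hcont : Tendsto (fun t : ℝ => C * (K * |t| ^ a)) (𝓝 0) (𝓝 0) := by
    have h1 : Continuous fun t : ℝ => C * (K * |t| ^ a) :=
      continuous_const.mul (continuous_const.mul (continuous_abs.rpow_const fun _ => Or.inr ha.le))
    have h2 := h1.tendsto 0
    simpa [Real.zero_rpow ha.ne'] using h2
  have hsm : ∀ᶠ t in 𝓝[≠] (0 : ℝ), t ≠ 0 ∧ |t| ≤ 1 ∧ |t| ≤ t₁ ∧ C * (K * |t| ^ a) ≤ 1 / 2 := by
    have ha0 : Tendsto (fun t : ℝ => |t|) (𝓝 0) (𝓝 0) := by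
      simpa using (continuous_abs (G := ℝ)).tendsto 0
    have h5 : ∀ᶠ t in 𝓝 (0 : ℝ), |t| ≤ 1 ∧ |t| ≤ t₁ ∧ C * (K * |t| ^ a) ≤ 1 / 2 := by
      filter_upwards [ha0.eventually_lt_const one_pos, ha0.eventually_lt_const ht₁,
        hcont.eventually_lt_const (by norm_num : (0 : ℝ) < 1 / 2)] with t p1 p2 p3
      exact ⟨p1.le, p2.le, p3.le⟩
    filter_upwards [h5.filter_mono nhdsWithin_le_nhds, self_mem_nhdsWithin] with t p1 p2
    exact ⟨p2, p1⟩
  have hev : ∀ᶠ t in 𝓝[≠] (0 : ℝ), ∀ p q,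
      HB a (2 * (C * (N0 + S))) (fun x => Hs (dq v e t) x p q) := by
    filter_upwards [hsm] with t ⟨ht, ht1, ht2, ht3⟩ p q
    refine hb_iter (ι := Fin n × Fin n) (F := fun p x => Hs (dq v e t) x p.1 p.2)
      (B := (M + M) * |t|⁻¹) (fun p => ?_) (fun B' hB' p => ?_) (p, q)
    · have h3 := CK.hb_add (shift_hb (hM p.1 p.2) (t • ee e)) (CK.hb_neg (hM p.1 p.2))
      refine ⟨fun x => ?_, fun x y => ?_⟩
      · show |Hs (dq v e t) x p.1 p.2| ≤ _
        rw [Hs_dq hv, abs_div, div_eq_mul_inv]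
        exact mul_le_mul_of_nonneg_right (h3.1 x) (by positivity)
      · show |Hs (dq v e t) x p.1 p.2 - Hs (dq v e t) y p.1 p.2| ≤ _
        rw [Hs_dq hv, Hs_dq hv, ← sub_div, abs_div, div_eq_mul_inv, mul_right_comm]
        refine mul_le_mul_of_nonneg_right ?_ (by positivity)
        exact h3.2 x y
    · have hB0 : 0 ≤ B' := (abs_nonneg _).trans ((hB' p).1 0)
      have h4 := hBE (dq v e t) (N0 + K * |t| ^ a * B') S (dq_contDiff hv e t)
        ⟨B', fun i j => hB' (i, j)⟩ ?_ (hS t ht ht1) p.1 p.2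
      · refine CK.hb_mono h4 ?_
        have h5 : C * (K * |t| ^ a) * B' ≤ 1 / 2 * B' := mul_le_mul_of_nonneg_right ht3 hB0
        nlinarith
      · have e1 : (fun x => LA (tauf v) (dq v e t) x) = fun x => (-s * dq P e t x
            + (fderiv ℝ v (x + t • ee e) (ee e) - dq v e t x))
            + -(EReg.qL (tauf v x * (gm v (x + t • ee e) - gm v x)) / t) :=
          funext fun x => MA_dq hlo hv hE hMA e ht x
        rw [e1]
        refine CK.hb_add (CK.hb_add ?_ (hMr t ht ht1))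
          (CK.hb_neg (hq t ht ht2 B' fun i j => hB' (i, j)))
        have h6 := hb_dq hPc.diff hMP ht
        refine ⟨fun x => ?_, fun x y => ?_⟩
        · rw [abs_mul, abs_neg]
          exact mul_le_mul_of_nonneg_left (h6.1 x) (abs_nonneg s)
        · rw [← mul_sub, abs_mul, abs_neg, mul_assoc]
          exact mul_le_mul_of_nonneg_left (h6.2 x y) (abs_nonneg s)
  have hfin := diffQuot hv e ha hev
  exact ⟨hfin.1, _, hfin.2.1⟩

/-- derivative of the Monge-Ampere equation -/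
theorem MA_deriv {lo hi : ℝ} (hlo : 0 < lo) {P v : E n → ℝ} {s : ℝ} (hP : Differentiable ℝ P)
    (h3 : ContDiff ℝ 3 v) (hE : ∀ x, Ell lo hi (gm v x)) (hMA : MAeq P s v) (e : Fin n) (x : E n) :
    LA (tauf v) (fun x => fderiv ℝ v x (ee e)) x = -s * fderiv ℝ P x (ee e) := by
  have hv : ContDiff ℝ 2 v := h3.of_le (by norm_num)
  have hd : Differentiable ℝ v := hv.differentiable (by norm_num)
  have hdd : Differentiable ℝ (fderiv ℝ v) :=
    (hv.fderiv_right (m := 1) (by norm_num)).differentiable (by norm_num)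
  have hl : HasDerivAt (fun t : ℝ => x + t • (ee e : E n)) (ee e) 0 := by
    simpa using ((hasDerivAt_id (0 : ℝ)).smul_const (ee e : E n)).const_add x
  have hx0 : x + (0 : ℝ) • (ee e : E n) = x := by simp
  have comp : ∀ {F : E n → ℝ}, DifferentiableAt ℝ F x →
      HasDerivAt (fun t : ℝ => F (x + t • ee e)) (fderiv ℝ F x (ee e)) 0 := by
    intro F hF
    have h1 : HasFDerivAt F (fderiv ℝ F x) (x + (0 : ℝ) • (ee e : E n)) := by
      rw [hx0]; exact hF.hasFDerivAt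
    exact h1.comp_hasDerivAt 0 hl
  -- log det
  have hld : HasDerivAt (fun t : ℝ => Real.log (gm v (x + t • ee e)).det)
      (∑ i, ∑ j, (gm v (x + (0 : ℝ) • ee e))⁻¹ i j
        * Hs (fun x => fderiv ℝ v x (ee e)) x i j) 0 := by
    rw [← hasDerivWithinAt_univ]
    refine sm_hasDerivWithinAt_log_det_sum (g := fun t : ℝ => gm v (x + t • ee e))
      (g' := fun i j => Hs (fun x => fderiv ℝ v x (ee e)) x i j) (fun i j => ?_) (fun i j => ?_)
      ((hE _).sm_det_pos hlo)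
    · rw [hasDerivWithinAt_univ]
      have h4 := comp ((diff_Hs h3 i j) x)
      rw [fderiv_Hs h3] at h4
      have h5 : (fun t : ℝ => gm v (x + t • ee e) i j)
          = fun t : ℝ => (1 : Matrix (Fin n) (Fin n) ℝ) i j + Hs v (x + t • ee e) i j := by
        funext t; simp [gm]
      rw [h5]
      exact h4.const_add _
    · exact LimC2.Hs_symm ((h3.fderiv_right (m := 2) (by norm_num)).clm_apply contDiff_const) x i j
  rw [hx0] at hld
  -- the other terms
  have hxv : HasDerivAt (fun t : ℝ => fderiv ℝ v (x + t • ee e) (x + t • ee e))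
      (fderiv ℝ (fun x => fderiv ℝ v x (ee e)) x x + fderiv ℝ v x (ee e)) 0 := by
    have h6 : DifferentiableAt ℝ (fun y => fderiv ℝ v y y) x :=
      (hdd x).clm_apply differentiableAt_id
    have h7 := comp h6
    have h8 : HasFDerivAt (fun y : E n => fderiv ℝ v y y) _ x :=
      (hdd x).hasFDerivAt.clm_apply (hasFDerivAt_id x)
    rw [h8.fderiv] at h7
    have hsy : fderiv ℝ (fderiv ℝ v) x (ee e) x = fderiv ℝ (fun x => fderiv ℝ v x (ee e)) x x := by
      have h5 : HasFDerivAt (fun y => fderiv ℝ v y (ee e)) _ x :=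
        (hdd x).hasFDerivAt.clm_apply (hasFDerivAt_const (ee e : E n) x)
      rw [h5.fderiv]
      have := (hv.contDiffAt (x := x)).isSymmSndFDerivAt (by simp) (ee e) x
      simpa using this
    rw [← hsy]
    convert h7 using 1
    simp [add_comm]
  have hvv := comp (hd x)
  have hPP := (comp (hP x)).const_mul (-s)
  have hsum := (hld.fun_sub hxv).fun_add hvv
  have heq : (fun t : ℝ => Real.log (gm v (x + t • ee e)).det
      - fderiv ℝ v (x + t • ee e) (x + t • ee e) + v (x + t • ee e))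
      = fun t : ℝ => -s * P (x + t • ee e) := funext fun t => hMA _
  rw [heq] at hsum
  have h9 := hsum.unique hPP
  unfold LA tauf
  linarith

/-- **regularity** -/
theorem nice_of_MA {a C R M lo hi : ℝ} (ha : 0 < a) (ha1 : a < 1) (hlo : 0 < lo)
    (hlohi : lo ≤ hi) {P v : E n → ℝ} {s : ℝ} (hP : Tst P) (hv : ContDiff ℝ 2 v)
    (hM : ∀ i j, HB a M (fun x => Hs v x i j))
    (hE : ∀ x, Ell lo hi (gm v x)) (hMA : MAeq P s v) (hC : 0 < C)
    (hBE : BE a C R (tauf v)) : Nice v := by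
  have hst := nl_step ha ha1 hlo hlohi hP hv hM hE hMA hC hBE
  have h3 : ContDiff ℝ 3 v := contDiff_three hv fun e => (hst e).1
  have hPd : Differentiable ℝ P := hP.smooth.differentiable (by simp)
  have key : ∀ k i j, CK a (k + 1) (fun x => Hs v x i j) := by
    intro k
    induction k with
    | zero =>
      intro i j
      exact CK_Hs_succ h3 (fun i j => ⟨M, hM i j⟩) (fun e i j => by
        obtain ⟨B, hB⟩ := (hst e).2
        exact ⟨B, hB i j⟩) i j
    | succ k ih =>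
      intro i j
      have hτ := CK_tauf' ih hlo hE
      refine CK_Hs_succ h3 (fun i j => ⟨M, hM i j⟩) (fun e => ?_) i j
      refine lin0 ha ha1.le hBE (k + 1) (fun x => fderiv ℝ v x (ee e))
        (fun x => -s * fderiv ℝ P x (ee e)) hτ ?_ (hst e).1 (hst e).2
        (fun i => ⟨M, hb_partial2 hv (hM i e)⟩) (MA_deriv hlo hPd h3 hE hMA e)
      have hPk : CK a (k + 1 + 1) P := CK.of_tst ha.le ha1.le hP
      exact (hPk.der e).const_mul (-s)
  refine nice_of_CK ha hv fun k i j => (key k i j).mono (by omega)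

theorem far_tauf {a ε R lo hi : ℝ} {n : ℕ} (hlo : 0 < lo) (hlohi : lo ≤ hi) {v : E n → ℝ}
    (hE : ∀ x, Ell lo hi (gm v x)) (hx : ExtS a ε R v) {ε' : ℝ}
    (h1 : n * lo⁻¹ * ε ≤ ε') (h2 : (n : ℝ) ^ 2 * lo⁻¹ ^ 2 * ε ≤ ε') :
    Apr.Far a ε' R (tauf v) := by
  intro x y hxR hyR i j
  refine ⟨(TauExt.ext_tauf_sup hlo hlohi (hE x) (hx.1 x hxR) i j).trans h1, ?_⟩
  refine (TauExt.ext_tauf_hol hlo hlohi (hE x) (hE y) (hx.2 x y hxR hyR) i j).trans ?_
  rw [← mul_assoc]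
  exact mul_le_mul_of_nonneg_right h2 (Real.rpow_nonneg (norm_nonneg _) _)

theorem exists_eps (n : ℕ) {lo ε₀ : ℝ} (hlo : 0 < lo) (hε : 0 < ε₀) : ∃ ε₁ : ℝ, 0 < ε₁ ∧
    n * lo⁻¹ * ε₁ ≤ ε₀ ∧ (n : ℝ) ^ 2 * lo⁻¹ ^ 2 * ε₁ ≤ ε₀ := by
  set c : ℝ := n * lo⁻¹ + (n : ℝ) ^ 2 * lo⁻¹ ^ 2 + 1 with hc
  have h1 : 0 ≤ n * lo⁻¹ := by positivity
  have h2 : 0 ≤ (n : ℝ) ^ 2 * lo⁻¹ ^ 2 := by positivity
  have hc0 : 0 < c := by positivity
  refine ⟨ε₀ / c, by positivity, ?_, ?_⟩
  · rw [← mul_div_assoc, div_le_iff₀ hc0, mul_comm]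
    exact mul_le_mul_of_nonneg_left (by linarith) hε.le
  · rw [← mul_div_assoc, div_le_iff₀ hc0, mul_comm]
    exact mul_le_mul_of_nonneg_left (by linarith) hε.le

/-- `BE` from the Schauder estimate -/
theorem exists_BE (hS : Apr.SchStmt) (n : ℕ) {a lo hi : ℝ} (ha : 0 < a) (ha1 : a < 1)
    (hlo : 0 < lo) (hlohi : lo ≤ hi) : ∃ ε₁ : ℝ, 0 < ε₁ ∧ ∀ (M R : ℝ) (v : E n → ℝ),
      (∀ i j, HB a M (fun x => Hs v x i j)) → (∀ x, Ell lo hi (gm v x)) → ExtS a ε₁ R v →
      ∃ C R' : ℝ, 0 < C ∧ BE a C R' (tauf v) := by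
  have hi0 : 0 < hi := hlo.trans_le hlohi
  obtain ⟨ε₀, hε₀, H⟩ := hS n a hi⁻¹ lo⁻¹ ha ha1 (inv_pos.2 hi0) (inv_anti₀ hlo hlohi)
  obtain ⟨ε₁, hε₁, e1, e2⟩ := exists_eps n hlo hε₀
  refine ⟨ε₁, hε₁, fun M R v hM hE hx => ?_⟩
  obtain ⟨C, R', hC, HH⟩ := H ((n : ℝ) ^ 2 * lo⁻¹ ^ 2 * M + lo⁻¹) R
  refine ⟨C, R', hC, fun h N S h2 hB hN hS' => ?_⟩
  refine HH (tauf v) (fun x => TauExt.ell_tauf hlo hlohi (hE x)) (TauExt.hb_tauf hlo hlohi hE hM)
    (far_tauf hlo hlohi hE hx e1 e2) 0 (Or.inl rfl) h N S h2 hB ?_ hS'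
  simpa using hN

theorem regStmt (hS : Apr.SchStmt) : RegStmt := by
  intro n a lo hi ha ha1 hlo hlohi
  obtain ⟨ε₁, hε₁, H⟩ := exists_BE hS n ha ha1 hlo hlohi
  refine ⟨ε₁, hε₁, fun M R P hP s v hv hE hMA hx => ?_⟩
  obtain ⟨C, R', hC, hBE⟩ := H M R v hv.hb hE hx
  exact nice_of_MA ha ha1 hlo hlohi hP hv.c2 hv.hb hE hMA hC hBE

theorem isoStmt (hS : Apr.SchStmt) : IsoStmt := by
  intro n a ha ha1 v hv hev hE hx hsrj ψ hψ hψe
  obtain ⟨lo, hi, hlo, hE⟩ := hE
  have hlohi : lo ≤ max lo hi := le_max_left _ _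
  have hE' : ∀ x, Ell lo (max lo hi) (gm v x) := fun x => ⟨(hE x).1, fun z =>
    ⟨((hE x).2 z).1, ((hE x).2 z).2.trans (mul_le_mul_of_nonneg_right (le_max_right _ _)
      (Finset.sum_nonneg fun i _ => sq_nonneg _))⟩⟩
  obtain ⟨ε₁, hε₁, H⟩ := exists_BE hS n ha ha1 hlo hlohi
  obtain ⟨R, hR⟩ := hx ε₁ hε₁
  have hck : ∀ k i j, CK a k (fun x => Hs v x i j) := fun k i j => CK_of_nice ha.le ha1.le hv k i j
  choose M hM using fun i j => (hck 0 i j).hb
  have hM0 : ∀ i j, 0 ≤ M i j := fun i j => (abs_nonneg _).trans ((hM i j).1 0)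
  have hMM : ∀ i j, HB a (∑ i, ∑ j, M i j) (fun x => Hs v x i j) := fun i j =>
    CK.hb_mono (hM i j) ((Finset.single_le_sum (f := fun j => M i j) (fun j _ => hM0 i j)
      (Finset.mem_univ j)).trans (Finset.single_le_sum (f := fun i => ∑ j, M i j)
        (fun i _ => Finset.sum_nonneg fun j _ => hM0 i j) (Finset.mem_univ i)))
  obtain ⟨C, R', hC, hBE⟩ := H _ R v hMM hE' hR
  have hψc : ∀ k, CK a k ψ := fun k => CK.of_tst ha.le ha1.le hψ
  obtain ⟨N, hN⟩ := (hψc 0).hb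
  obtain ⟨h, ⟨B, hB⟩, heq⟩ := hsrj ψ N hN hψe
  refine ⟨h, ?_, hB.even, fun x => heq x⟩
  refine nice_of_CK ha hB.c2 fun k i j => ?_
  exact lin1 ha ha1.le hBE k h ψ (CK_tauf' (hck k) hlo hE') (hψc k) hB.c2 ⟨B, hB.hb⟩ heq i j

end Crest.Agent.R238.H752
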