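import Mathlib

/-!
Row 238, module H3 (B): Schauder a priori estimate by freezing and absorption.
File 1: bounded Hölder functions, localized products, interpolation.
-/

namespace Crest.Agent.R238.Sch

open Set Metric

/-- bounded `a`-Hölder function with constant `M` (both for the sup and the seminorm). -/
structure HB {X F : Type*} [NormedAddCommGroup X] [NormedAddCommGroup F]
    (a M : ℝ) (r : X → F) : Prop where
  bdd : ∀ x, ‖r x‖ ≤ M
  hol : ∀ x y, ‖r x - r y‖ ≤ M * ‖x - y‖ ^ a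

section basics

variable {X F : Type*} [NormedAddCommGroup X] [NormedAddCommGroup F] {a M N : ℝ} {r s : X → F}

theorem HB.nonneg (h : HB a M r) : 0 ≤ M := (norm_nonneg _).trans (h.bdd 0)

theorem HB.mono (h : HB a M r) (hMN : M ≤ N) : HB a N r where
  bdd x := (h.bdd x).trans hMN
  hol x y := (h.hol x y).trans (mul_le_mul_of_nonneg_right hMN (Real.rpow_nonneg (norm_nonneg _) _))

theorem HB.add (h : HB a M r) (k : HB a N s) : HB a (M + N) (fun x => r x + s x) where
  bdd x := (norm_add_le _ _).trans (add_le_add (h.bdd x) (k.bdd x))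
  hol x y := by
    have : r x + s x - (r y + s y) = (r x - r y) + (s x - s y) := by abel
    rw [this, add_mul]
    exact (norm_add_le _ _).trans (add_le_add (h.hol x y) (k.hol x y))

theorem HB.neg (h : HB a M r) : HB a M (fun x => - r x) where
  bdd x := by rw [norm_neg]; exact h.bdd x
  hol x y := by
    have : - r x - - r y = - (r x - r y) := by abel
    rw [this, norm_neg]; exact h.hol x y

theorem HB.sub (h : HB a M r) (k : HB a N s) : HB a (M + N) (fun x => r x - s x) := by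
  simpa [sub_eq_add_neg] using h.add k.neg

theorem HB.zero (hM : 0 ≤ M) : HB a M (fun _ : X => (0 : F)) where
  bdd x := by simpa using hM
  hol x y := by simpa using mul_nonneg hM (Real.rpow_nonneg (norm_nonneg _) _)

theorem HB.const (c : F) : HB a ‖c‖ (fun _ : X => c) where
  bdd x := le_rfl
  hol x y := by simpa using mul_nonneg (norm_nonneg c) (Real.rpow_nonneg (norm_nonneg (x - y)) a)

theorem HB.sum {ι : Type*} (t : Finset ι) {C : ι → ℝ} {f : ι → X → F}
    (h : ∀ i ∈ t, HB a (C i) (f i)) : HB a (∑ i ∈ t, C i) (fun x => ∑ i ∈ t, f i x) := by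
  classical
  induction t using Finset.induction_on with
  | empty => simpa using HB.zero (X := X) (F := F) (a := a) le_rfl
  | insert i t hi ih =>
    have h1 := (h i (Finset.mem_insert_self _ _)).add
      (ih (fun j hj => h j (Finset.mem_insert_of_mem hj)))
    simpa [Finset.sum_insert hi] using h1

/-- translation -/
theorem HB.trans (h : HB a M r) (c : X) : HB a M (fun x => r (x - c)) where
  bdd x := h.bdd _
  hol x y := by simpa using h.hol (x - c) (y - c)

/-- The estimate passes to the limit in the constant. -/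
theorem HB.of_forall_lt (h : ∀ ε > 0, HB a (M + ε) r) : HB a M r where
  bdd x := le_of_forall_pos_le_add (fun ε hε => (h ε hε).bdd x)
  hol x y := by
    set t := ‖x - y‖ ^ a with ht
    have ht0 : 0 ≤ t := Real.rpow_nonneg (norm_nonneg _) _
    refine le_of_forall_pos_le_add (fun ε hε => ?_)
    have h1 := (h (ε / (t + 1)) (by positivity)).hol x y
    rw [← ht] at h1
    refine h1.trans ?_
    rw [add_mul]
    gcongr
    rw [div_mul_eq_mul_div, div_le_iff₀ (by positivity)]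
    nlinarith

/-- absorption -/
theorem HB.absorb {B V : ℝ} (h0 : HB a V r) (hB : ∀ W, HB a W r → HB a (B + W / 2) r) :
    HB a (2 * B) r := by
  have hV : 0 ≤ V := h0.nonneg
  have hit : ∀ k : ℕ, HB a (2 * B * (1 - (1 / 2) ^ k) + V * (1 / 2) ^ k) r := by
    intro k
    induction k with
    | zero => simpa using h0
    | succ k ih =>
      have := hB _ ih
      refine this.mono (le_of_eq ?_)
      rw [pow_succ]; ring
  have hB0 : 0 ≤ 2 * B := by
    by_contra hneg
    push Not at hneg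
    have hpow : Filter.Tendsto (fun k : ℕ => 2 * B * (1 - (1 / 2 : ℝ) ^ k) + V * (1 / 2) ^ k)
        Filter.atTop (nhds (2 * B * (1 - 0) + V * 0)) := by
      have h := tendsto_pow_atTop_nhds_zero_of_lt_one (r := (1 / 2 : ℝ)) (by norm_num) (by norm_num)
      exact ((tendsto_const_nhds.sub h).const_mul _).add (h.const_mul _)
    have h1 : (0 : ℝ) ≤ 2 * B * (1 - 0) + V * 0 :=
      ge_of_tendsto' hpow (fun k => (hit k).nonneg)
    linarith
  refine HB.of_forall_lt (fun ε hε => ?_)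
  obtain ⟨k, hk⟩ := exists_pow_lt_of_lt_one (show 0 < ε / (V + 1) by positivity)
    (show (1 / 2 : ℝ) < 1 by norm_num)
  refine (hit k).mono ?_
  have hk0 : (0 : ℝ) ≤ (1 / 2) ^ k := by positivity
  have h2 : V * (1 / 2) ^ k ≤ ε := by
    have : (1 / 2 : ℝ) ^ k * (V + 1) < ε := (lt_div_iff₀ (by positivity)).1 hk
    nlinarith
  nlinarith

end basics

section products

variable {X : Type*} [NormedAddCommGroup X] {a : ℝ}

/-- localized product: `u` is globally Hölder and vanishes outside `s`, `v` is controlled on `s`. -/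
theorem HB.localMul {u v : X → ℝ} {s : Set X} {U0 U1 V0 V1 W : ℝ}
    (hu : ∀ x, x ∉ s → u x = 0) (hu0 : ∀ x ∈ s, ‖u x‖ ≤ U0)
    (hu1 : ∀ x y, ‖u x - u y‖ ≤ U1 * ‖x - y‖ ^ a)
    (hv0 : ∀ x ∈ s, ‖v x‖ ≤ V0) (hv1 : ∀ x ∈ s, ∀ y ∈ s, ‖v x - v y‖ ≤ V1 * ‖x - y‖ ^ a)
    (hU0 : 0 ≤ U0) (hU1 : 0 ≤ U1) (hV0 : 0 ≤ V0) (hV1 : 0 ≤ V1)
    (hW : U0 * V0 ≤ W) (hW' : U1 * V0 + U0 * V1 ≤ W) :
    HB a W (fun x => u x * v x) where
  bdd x := by
    by_cases hx : x ∈ s
    · rw [norm_mul]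
      exact (mul_le_mul (hu0 x hx) (hv0 x hx) (norm_nonneg _) hU0).trans hW
    · rw [hu x hx]; simp; exact (mul_nonneg hU0 hV0).trans hW
  hol x y := by
    have hp : 0 ≤ ‖x - y‖ ^ a := Real.rpow_nonneg (norm_nonneg _) _
    have key : ‖u x * v x - u y * v y‖ ≤ (U1 * V0 + U0 * V1) * ‖x - y‖ ^ a := by
      by_cases hx : x ∈ s
      · by_cases hy : y ∈ s
        · have : u x * v x - u y * v y = (u x - u y) * v x + u y * (v x - v y) := by ring
          rw [this]
          refine (norm_add_le _ _).trans ?_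
          rw [norm_mul, norm_mul, add_mul]
          refine add_le_add ?_ ?_
          · calc ‖u x - u y‖ * ‖v x‖ ≤ (U1 * ‖x - y‖ ^ a) * V0 :=
                  mul_le_mul (hu1 x y) (hv0 x hx) (norm_nonneg _) (mul_nonneg hU1 hp)
              _ = U1 * V0 * ‖x - y‖ ^ a := by ring
          · calc ‖u y‖ * ‖v x - v y‖ ≤ U0 * (V1 * ‖x - y‖ ^ a) :=
                  mul_le_mul (hu0 y hy) (hv1 x hx y hy) (norm_nonneg _) hU0
              _ = U0 * V1 * ‖x - y‖ ^ a := by ring
        · have : u x * v x - u y * v y = (u x - u y) * v x := by rw [hu y hy]; ring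
          rw [this, norm_mul, add_mul]
          have h1 : ‖u x - u y‖ * ‖v x‖ ≤ (U1 * ‖x - y‖ ^ a) * V0 :=
            mul_le_mul (hu1 x y) (hv0 x hx) (norm_nonneg _) (mul_nonneg hU1 hp)
          have h2 : 0 ≤ U0 * V1 * ‖x - y‖ ^ a := by positivity
          nlinarith
      · by_cases hy : y ∈ s
        · have : u x * v x - u y * v y = (u x - u y) * v y := by rw [hu x hx]; ring
          rw [this, norm_mul, add_mul]
          have h1 : ‖u x - u y‖ * ‖v y‖ ≤ (U1 * ‖x - y‖ ^ a) * V0 :=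
            mul_le_mul (hu1 x y) (hv0 y hy) (norm_nonneg _) (mul_nonneg hU1 hp)
          have h2 : 0 ≤ U0 * V1 * ‖x - y‖ ^ a := by positivity
          nlinarith
        · rw [hu x hx, hu y hy]; simp; positivity
    exact key.trans (mul_le_mul_of_nonneg_right hW' hp)

/-- global product -/
theorem HB.mul {u v : X → ℝ} {M N : ℝ} (hu : HB a M u) (hv : HB a N v) :
    HB a (2 * (M * N)) (fun x => u x * v x) := by
  have hM := hu.nonneg
  have hN := hv.nonneg
  refine HB.localMul (s := univ) (U0 := M) (U1 := M) (V0 := N) (V1 := N)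
    (by simp) (fun x _ => hu.bdd x) hu.hol (fun x _ => hv.bdd x) (fun x _ y _ => hv.hol x y)
    hM hM hN hN ?_ ?_ <;> nlinarith [mul_nonneg hM hN]

end products

section interp

variable {n : ℕ}

/-- second derivative as a bilinear form -/
noncomputable def D2 (h : EuclideanSpace ℝ (Fin n) → ℝ) (x : EuclideanSpace ℝ (Fin n)) :
    EuclideanSpace ℝ (Fin n) →L[ℝ] EuclideanSpace ℝ (Fin n) →L[ℝ] ℝ :=
  fderiv ℝ (fderiv ℝ h) x

local notation "E" => EuclideanSpace ℝ (Fin n)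

theorem opNorm_le_of_sphere {G : Type*} [NormedAddCommGroup G] [NormedSpace ℝ G]
    (L : E →L[ℝ] G) {δ C : ℝ} (hδ : 0 < δ) (hC : 0 ≤ C)
    (h : ∀ e, ‖e‖ = δ → ‖L e‖ ≤ C) : ‖L‖ ≤ C / δ := by
  refine L.opNorm_le_bound (by positivity) (fun v => ?_)
  by_cases hv : v = 0
  · simp [hv]
  · have hv' : 0 < ‖v‖ := norm_pos_iff.2 hv
    have h1 := h ((δ / ‖v‖) • v) (by
      rw [norm_smul, Real.norm_of_nonneg (by positivity)]; field_simp)
    rw [map_smul, norm_smul, Real.norm_of_nonneg (by positivity)] at h1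
    have : ‖L v‖ = (‖v‖ / δ) * (δ / ‖v‖ * ‖L v‖) := by field_simp
    rw [this]
    calc (‖v‖ / δ) * (δ / ‖v‖ * ‖L v‖) ≤ (‖v‖ / δ) * C := by gcongr
      _ = C / δ * ‖v‖ := by ring

/-- `‖Dh(y)‖ ≤ 2H/δ + Wδ` if `|h| ≤ H`, `‖D²h‖ ≤ W` on `closedBall y δ`. -/
theorem norm_fderiv_le {h : E → ℝ} (hh : ContDiff ℝ 2 h) {y : E} {δ H W : ℝ} (hδ : 0 < δ)
    (hH : ∀ z ∈ closedBall y δ, |h z| ≤ H) (hW : ∀ z ∈ closedBall y δ, ‖D2 h z‖ ≤ W) :
    ‖fderiv ℝ h y‖ ≤ 2 * H / δ + W * δ := by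
  have hd : Differentiable ℝ h := hh.differentiable (by norm_num)
  have hd1 : Differentiable ℝ (fderiv ℝ h) :=
    (hh.fderiv_right (m := 1) (by norm_num)).differentiable (by norm_num)
  have hy : y ∈ closedBall y δ := mem_closedBall_self hδ.le
  have hW0 : 0 ≤ W := le_trans (norm_nonneg (D2 h y)) (hW y hy)
  have hH0 : 0 ≤ H := (abs_nonneg _).trans (hH y hy)
  have h1 : ∀ z ∈ closedBall y δ, ‖fderiv ℝ h z - fderiv ℝ h y‖ ≤ W * δ := by
    intro z hz
    have := (convex_closedBall y δ).norm_image_sub_le_of_norm_fderiv_le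
      (f := fderiv ℝ h) (C := W) (fun w _ => hd1 w) (fun w hw => hW w hw) hy hz
    refine this.trans ?_
    gcongr
    simpa [dist_eq_norm] using hz
  have h2 : ∀ z ∈ closedBall y δ, ‖h z - h y - fderiv ℝ h y (z - y)‖ ≤ W * δ * ‖z - y‖ := by
    intro z hz
    exact (convex_closedBall y δ).norm_image_sub_le_of_norm_fderiv_le'
      (f := h) (C := W * δ) (fun w _ => hd w) (fun w hw => h1 w hw) hy hz
  have h3 : ‖fderiv ℝ h y‖ ≤ (2 * H + W * δ * δ) / δ := by
    refine opNorm_le_of_sphere _ hδ (by positivity) (fun e he => ?_)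
    have hz : y + e ∈ closedBall y δ := by simp [he]
    have h4 := h2 _ hz
    rw [add_sub_cancel_left, he] at h4
    have h5 := hH _ hz
    have h6 := hH _ hy
    have h7 : fderiv ℝ h y e = (h (y + e) - h y) - (h (y + e) - h y - fderiv ℝ h y e) := by ring
    rw [h7]
    refine (norm_sub_le _ _).trans ?_
    refine add_le_add ?_ h4
    rw [Real.norm_eq_abs]
    refine (abs_sub _ _).trans ?_
    linarith
  refine h3.trans (le_of_eq ?_)
  field_simp

/-- `‖D²h(x)‖ ≤ 4 δ^a V + 32 H / δ²` if `|h| ≤ H` on `closedBall x (2δ)`. -/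
theorem norm_D2_le {h : E → ℝ} (hh : ContDiff ℝ 2 h) {x : E} {a δ H V : ℝ} (ha : 0 ≤ a)
    (ha1 : a ≤ 1) (hδ : 0 < δ) (hV0 : 0 ≤ V)
    (hV : ∀ y z, ‖D2 h y - D2 h z‖ ≤ V * ‖y - z‖ ^ a)
    (hH : ∀ z ∈ closedBall x (2 * δ), |h z| ≤ H) :
    ‖D2 h x‖ ≤ 4 * (δ ^ a * V) + 32 * H / δ ^ 2 := by
  have hd1 : Differentiable ℝ (fderiv ℝ h) :=
    (hh.fderiv_right (m := 1) (by norm_num)).differentiable (by norm_num)
  have hx : x ∈ closedBall x δ := mem_closedBall_self hδ.le
  have hH0 : 0 ≤ H := (abs_nonneg _).trans (hH x (mem_closedBall_self (by positivity)))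
  have hδa : 0 ≤ δ ^ a := by positivity
  set W := ‖D2 h x‖ + 2 * (δ ^ a * V) with hWdef
  have hW : ∀ z ∈ closedBall x (2 * δ), ‖D2 h z‖ ≤ W := by
    intro z hz
    have h1 := hV z x
    have h2 : ‖D2 h z‖ ≤ ‖D2 h x‖ + ‖D2 h z - D2 h x‖ := by
      have := norm_sub_norm_le (D2 h z) (D2 h x)
      linarith
    have h3 : ‖z - x‖ ^ a ≤ 2 * δ ^ a := by
      have : ‖z - x‖ ≤ 2 * δ := by simpa [dist_eq_norm] using hz
      calc ‖z - x‖ ^ a ≤ (2 * δ) ^ a := Real.rpow_le_rpow (norm_nonneg _) this ha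
        _ = 2 ^ a * δ ^ a := Real.mul_rpow (by norm_num) hδ.le
        _ ≤ 2 ^ (1 : ℝ) * δ ^ a := by
            gcongr
            norm_num
        _ = 2 * δ ^ a := by norm_num
    have h4 : V * ‖z - x‖ ^ a ≤ V * (2 * δ ^ a) := mul_le_mul_of_nonneg_left h3 hV0
    rw [hWdef]; linarith
  have hδ4 : 0 < δ / 4 := by positivity
  have hG : ∀ y ∈ closedBall x δ, ‖fderiv ℝ h y‖ ≤ 2 * H / (δ / 4) + W * (δ / 4) := by
    intro y hy
    have hsub : closedBall y (δ / 4) ⊆ closedBall x (2 * δ) := by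
      refine closedBall_subset_closedBall' ?_
      have : dist y x ≤ δ := hy
      linarith
    exact norm_fderiv_le hh hδ4 (fun z hz => hH z (hsub hz)) (fun z hz => hW z (hsub hz))
  have h2 : ∀ z ∈ closedBall x δ, ‖fderiv ℝ h z - fderiv ℝ h x - D2 h x (z - x)‖
      ≤ V * δ ^ a * ‖z - x‖ := by
    intro z hz
    refine (convex_closedBall x δ).norm_image_sub_le_of_norm_fderiv_le'
      (f := fderiv ℝ h) (C := V * δ ^ a) (fun w _ => hd1 w) (fun w hw => ?_) hx hz
    refine (hV w x).trans ?_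
    gcongr
    simpa [dist_eq_norm] using hw
  have h3 : ‖D2 h x‖ ≤ (2 * (2 * H / (δ / 4) + W * (δ / 4)) + V * δ ^ a * δ) / δ := by
    have hW0 : 0 ≤ W := by positivity
    refine opNorm_le_of_sphere _ hδ (by positivity) (fun e he => ?_)
    have hz : x + e ∈ closedBall x δ := by simp [he]
    have h4 := h2 _ hz
    rw [add_sub_cancel_left, he] at h4
    have h5 := hG _ hz
    have h6 := hG _ hx
    have h7 : D2 h x e = (fderiv ℝ h (x + e) - fderiv ℝ h x)
      - (fderiv ℝ h (x + e) - fderiv ℝ h x - D2 h x e) := by abel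
    rw [h7]
    refine (norm_sub_le _ _).trans ?_
    refine add_le_add ?_ h4
    refine (norm_sub_le _ _).trans ?_
    linarith
  have h4 : (2 * (2 * H / (δ / 4) + W * (δ / 4)) + V * δ ^ a * δ) / δ
      = 16 * H / δ ^ 2 + W / 2 + V * δ ^ a := by
    field_simp; ring
  rw [h4] at h3
  have h5 : 32 * H / δ ^ 2 = 2 * (16 * H / δ ^ 2) := by ring
  rw [h5]
  rw [hWdef] at h3
  nlinarith

/-- lower-order control of `h` on `s` -/
structure LB (a Q : ℝ) (s : Set E) (h : E → ℝ) : Prop where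
  h0 : ∀ x ∈ s, |h x| ≤ Q
  h1 : ∀ x ∈ s, ∀ y ∈ s, |h x - h y| ≤ Q * ‖x - y‖ ^ a
  d0 : ∀ x ∈ s, ‖fderiv ℝ h x‖ ≤ Q
  d1 : ∀ x ∈ s, ∀ y ∈ s, ‖fderiv ℝ h x - fderiv ℝ h y‖ ≤ Q * ‖x - y‖ ^ a

theorem le_rpow_of_le {t r a : ℝ} (ht : 0 ≤ t) (htr : t ≤ 2 * r) (ha : 0 < a) (ha1 : a ≤ 1) :
    t ≤ (1 + 2 * r) * t ^ a := by
  have hr : 0 ≤ r := by linarith
  have hta : 0 ≤ t ^ a := Real.rpow_nonneg ht _
  rcases le_total t 1 with h | h
  · have h1 : t ≤ t ^ a := by
      rcases ht.eq_or_lt with h0 | h0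
      · rw [← h0]; exact Real.rpow_nonneg le_rfl _
      · calc t = t ^ (1 : ℝ) := (Real.rpow_one t).symm
          _ ≤ t ^ a := Real.rpow_le_rpow_of_exponent_ge h0 h ha1
    nlinarith
  · have h1 : 1 ≤ t ^ a := Real.one_le_rpow h ha.le
    nlinarith

theorem exists_rpow_le {a κ : ℝ} (ha : 0 < a) (hκ : 0 < κ) :
    ∃ δ : ℝ, 0 < δ ∧ δ ≤ 1 ∧ δ ^ a ≤ κ := by
  refine ⟨(min κ 1) ^ (1 / a), Real.rpow_pos_of_pos (by positivity) _,
    Real.rpow_le_one (by positivity) (min_le_right _ _) (by positivity), ?_⟩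
  rw [← Real.rpow_mul (by positivity)]
  rw [one_div, inv_mul_cancel₀ ha.ne', Real.rpow_one]
  exact min_le_left _ _

theorem interp {a r ε : ℝ} (ha : 0 < a) (ha1 : a ≤ 1) (hr : 0 ≤ r) (hε : 0 < ε) :
    ∃ C : ℝ, 0 ≤ C ∧ ∀ (h : E → ℝ) (V H : ℝ) (c : E), ContDiff ℝ 2 h → HB a V (D2 h) →
      (∀ z ∈ closedBall c (r + 3 / 2), |h z| ≤ H) →
      LB a (ε * V + C * H) (closedBall c r) h ∧
        ∀ x ∈ closedBall c r, ‖D2 h x‖ ≤ ε * V + C * H := by
  obtain ⟨d, hd0, hd1, hd⟩ := exists_rpow_le (κ := ε / (4 * (1 + 2 * r))) ha (by positivity)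
  set δ : ℝ := d / 2 with hδdef
  have hδ : 0 < δ := by positivity
  have hδ2 : δ ≤ 1 / 2 := by rw [hδdef]; linarith
  have hδa : δ ^ a * (4 * (1 + 2 * r)) ≤ ε := by
    have h1 : δ ^ a ≤ d ^ a := Real.rpow_le_rpow hδ.le (by rw [hδdef]; linarith) ha.le
    have h2 : δ ^ a ≤ ε / (4 * (1 + 2 * r)) := h1.trans hd
    rwa [le_div_iff₀ (by positivity)] at h2
  refine ⟨(1 + 2 * r) * (34 / δ ^ 2) + 1, by positivity, fun h V H c hh hVh hH => ?_⟩
  have hV : 0 ≤ V := hVh.nonneg
  have hH0 : 0 ≤ H := (abs_nonneg _).trans (hH c (mem_closedBall_self (by positivity)))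
  have hδap : 0 ≤ δ ^ a := by positivity
  set P := 4 * (δ ^ a * V) + 34 * H / δ ^ 2 with hP
  have hP0 : 0 ≤ P := by positivity
  have hQ : (1 + 2 * r) * P + H ≤ ε * V + ((1 + 2 * r) * (34 / δ ^ 2) + 1) * H := by
    have h1 : δ ^ a * (4 * (1 + 2 * r)) * V ≤ ε * V := by gcongr
    have h2 : (1 + 2 * r) * (34 * H / δ ^ 2) = (1 + 2 * r) * (34 / δ ^ 2) * H := by ring
    rw [hP]
    nlinarith
  have hPQ : P ≤ ε * V + ((1 + 2 * r) * (34 / δ ^ 2) + 1) * H := by
    refine le_trans ?_ hQ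
    nlinarith [mul_nonneg hr hP0]
  set Q := ε * V + ((1 + 2 * r) * (34 / δ ^ 2) + 1) * H with hQdef
  have hsub : ∀ y ∈ closedBall c (r + δ), closedBall y (2 * δ) ⊆ closedBall c (r + 3 / 2) := by
    intro y hy
    refine closedBall_subset_closedBall' ?_
    have : dist y c ≤ r + δ := hy
    linarith
  have hD2 : ∀ y ∈ closedBall c (r + δ), ‖D2 h y‖ ≤ 4 * (δ ^ a * V) + 32 * H / δ ^ 2 :=
    fun y hy => norm_D2_le hh ha.le ha1 hδ hV hVh.hol (fun z hz => hH z (hsub y hy hz))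
  have hsub1 : ∀ y ∈ closedBall c r, closedBall y δ ⊆ closedBall c (r + δ) := by
    intro y hy
    refine closedBall_subset_closedBall' ?_
    have : dist y c ≤ r := hy
    linarith
  have hrr : closedBall c r ⊆ closedBall c (r + 3 / 2) :=
    closedBall_subset_closedBall (by linarith)
  have hD2' : ∀ y ∈ closedBall c r, ‖D2 h y‖ ≤ P := by
    intro y hy
    refine (hD2 y (hsub1 y hy (mem_closedBall_self hδ.le))).trans ?_
    rw [hP]
    gcongr
    norm_num
  have hD1 : ∀ y ∈ closedBall c r, ‖fderiv ℝ h y‖ ≤ P := by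
    intro y hy
    have h1 := norm_fderiv_le hh hδ (y := y) (H := H)
      (W := 4 * (δ ^ a * V) + 32 * H / δ ^ 2)
      (fun z hz => hH z (closedBall_subset_closedBall (by linarith) (hsub1 y hy hz)))
      (fun z hz => hD2 z (hsub1 y hy hz))
    refine h1.trans ?_
    have h2 : (4 * (δ ^ a * V) + 32 * H / δ ^ 2) * δ
        ≤ 4 * (δ ^ a * V) + 32 * H / δ ^ 2 := mul_le_of_le_one_right (by positivity) (by linarith)
    have h3 : 2 * H / δ ≤ 2 * H / δ ^ 2 := by
      gcongr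
      nlinarith
    have h4 : 34 * H / δ ^ 2 = 2 * H / δ ^ 2 + 32 * H / δ ^ 2 := by ring
    rw [hP, h4]
    linarith
  have hd : Differentiable ℝ h := hh.differentiable (by norm_num)
  have hd1 : Differentiable ℝ (fderiv ℝ h) :=
    (hh.fderiv_right (m := 1) (by norm_num)).differentiable (by norm_num)
  have hxy : ∀ x ∈ closedBall c r, ∀ y ∈ closedBall c r, ‖x - y‖ ≤ 2 * r := by
    intro x hx y hy
    have := dist_triangle_right x y c
    rw [dist_eq_norm] at this
    have h1 : dist x c ≤ r := hx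
    have h2 : dist y c ≤ r := hy
    linarith
  refine ⟨⟨fun x hx => ?_, fun x hx y hy => ?_, fun x hx => (hD1 x hx).trans hPQ,
    fun x hx y hy => ?_⟩, fun x hx => (hD2' x hx).trans hPQ⟩
  · refine (hH x (hrr hx)).trans ?_
    refine le_trans ?_ hQ
    have : 0 ≤ (1 + 2 * r) * P := by positivity
    linarith
  · have h1 := (convex_closedBall c r).norm_image_sub_le_of_norm_fderiv_le
      (f := h) (C := P) (fun w _ => hd w) (fun w hw => hD1 w hw) hy hx
    rw [Real.norm_eq_abs] at h1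
    refine h1.trans ?_
    have h2 := le_rpow_of_le (norm_nonneg (x - y)) (hxy x hx y hy) ha ha1
    calc P * ‖x - y‖ ≤ P * ((1 + 2 * r) * ‖x - y‖ ^ a) := by gcongr
      _ = (1 + 2 * r) * P * ‖x - y‖ ^ a := by ring
      _ ≤ Q * ‖x - y‖ ^ a := by
          gcongr
          linarith
  · have h1 := (convex_closedBall c r).norm_image_sub_le_of_norm_fderiv_le
      (f := fderiv ℝ h) (C := P) (fun w _ => hd1 w) (fun w hw => hD2' w hw) hy hx
    refine h1.trans ?_
    have h2 := le_rpow_of_le (norm_nonneg (x - y)) (hxy x hx y hy) ha ha1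
    calc P * ‖x - y‖ ≤ P * ((1 + 2 * r) * ‖x - y‖ ^ a) := by gcongr
      _ = (1 + 2 * r) * P * ‖x - y‖ ^ a := by ring
      _ ≤ Q * ‖x - y‖ ^ a := by
          gcongr
          linarith

end interp

end Crest.Agent.R238.Sch
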