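import Crest.Agent.R238.HolDefs

/-!
Row 238, node H3 = (B), insurance copy (helper138). Part a: Hölder calculus on sets, Leibniz
rule for `Hs`, interpolation.
-/

set_option autoImplicit false

open MeasureTheory Set Filter
open scoped ContDiff Topology

namespace Crest.Agent.R238.Sch138

open Crest.Agent.R238

variable {n : ℕ} {a : ℝ}

/-- on `K`: `|g| ≤ s` and `g` is `a`-Hölder with constant `k`. -/
def HSon (a : ℝ) (K : Set (E n)) (s k : ℝ) (g : E n → ℝ) : Prop :=
  (∀ x ∈ K, |g x| ≤ s) ∧ ∀ x ∈ K, ∀ y ∈ K, |g x - g y| ≤ k * ‖x - y‖ ^ a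

theorem HSon.hb {s k M : ℝ} {g : E n → ℝ} (h : HSon a univ s k g) (hs : s ≤ M) (hk : k ≤ M) :
    HB a M g :=
  ⟨fun x => (h.1 x (mem_univ x)).trans hs, fun x y =>
    (h.2 x (mem_univ x) y (mem_univ y)).trans
      (mul_le_mul_of_nonneg_right hk (Real.rpow_nonneg (norm_nonneg _) a))⟩

theorem HSon.of_hb {M : ℝ} {g : E n → ℝ} (h : HB a M g) (K : Set (E n)) : HSon a K M M g :=
  ⟨fun x _ => h.1 x, fun x _ y _ => h.2 x y⟩

theorem HSon.mono {K : Set (E n)} {s k s' k' : ℝ} {g : E n → ℝ} (h : HSon a K s k g)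
    (hs : s ≤ s') (hk : k ≤ k') : HSon a K s' k' g :=
  ⟨fun x hx => (h.1 x hx).trans hs, fun x hx y hy =>
    (h.2 x hx y hy).trans (mul_le_mul_of_nonneg_right hk (Real.rpow_nonneg (norm_nonneg _) a))⟩

theorem HSon.subset {K K' : Set (E n)} {s k : ℝ} {g : E n → ℝ} (h : HSon a K s k g)
    (hK : K' ⊆ K) : HSon a K' s k g :=
  ⟨fun x hx => h.1 x (hK hx), fun x hx y hy => h.2 x (hK hx) y (hK hy)⟩

theorem HSon.add {K : Set (E n)} {s k s' k' : ℝ} {g g' : E n → ℝ} (h : HSon a K s k g)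
    (h' : HSon a K s' k' g') : HSon a K (s + s') (k + k') (fun x => g x + g' x) := by
  refine ⟨fun x hx => (abs_add_le _ _).trans (add_le_add (h.1 x hx) (h'.1 x hx)),
    fun x hx y hy => ?_⟩
  have e : g x + g' x - (g y + g' y) = (g x - g y) + (g' x - g' y) := by ring
  rw [e, add_mul]
  exact (abs_add_le _ _).trans (add_le_add (h.2 x hx y hy) (h'.2 x hx y hy))

theorem HSon.neg {K : Set (E n)} {s k : ℝ} {g : E n → ℝ} (h : HSon a K s k g) :
    HSon a K s k (fun x => -g x) := by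
  refine ⟨fun x hx => by rw [abs_neg]; exact h.1 x hx, fun x hx y hy => ?_⟩
  have e : -g x - -g y = -(g x - g y) := by ring
  rw [e, abs_neg]
  exact h.2 x hx y hy

theorem HSon.sub {K : Set (E n)} {s k s' k' : ℝ} {g g' : E n → ℝ} (h : HSon a K s k g)
    (h' : HSon a K s' k' g') : HSon a K (s + s') (k + k') (fun x => g x - g' x) := by
  have := h.add h'.neg
  simpa [sub_eq_add_neg] using this

theorem HSon.const_mul {K : Set (E n)} {s k : ℝ} {g : E n → ℝ} (h : HSon a K s k g) (c : ℝ) :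
    HSon a K (|c| * s) (|c| * k) (fun x => c * g x) := by
  refine ⟨fun x hx => by rw [abs_mul]; exact mul_le_mul_of_nonneg_left (h.1 x hx) (abs_nonneg _),
    fun x hx y hy => ?_⟩
  have e : c * g x - c * g y = c * (g x - g y) := by ring
  rw [e, abs_mul, mul_assoc]
  exact mul_le_mul_of_nonneg_left (h.2 x hx y hy) (abs_nonneg _)

theorem HSon.sum {K : Set (E n)} {ι : Type} (t : Finset ι) {s k : ι → ℝ} {g : ι → E n → ℝ}
    (h : ∀ i ∈ t, HSon a K (s i) (k i) (g i)) :
    HSon a K (∑ i ∈ t, s i) (∑ i ∈ t, k i) (fun x => ∑ i ∈ t, g i x) := by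
  refine ⟨fun x hx => (Finset.abs_sum_le_sum_abs _ _).trans
    (Finset.sum_le_sum fun i hi => (h i hi).1 x hx), fun x hx y hy => ?_⟩
  rw [← Finset.sum_sub_distrib, Finset.sum_mul]
  exact (Finset.abs_sum_le_sum_abs _ _).trans
    (Finset.sum_le_sum fun i hi => (h i hi).2 x hx y hy)

/-- product, the second factor being controlled only on the support `K` of the first one -/
theorem HSon.mul_on {K : Set (E n)} {s k s' k' : ℝ} {g g' : E n → ℝ} (h : HSon a univ s k g)
    (h0 : ∀ x, x ∉ K → g x = 0) (h' : HSon a K s' k' g') (hs : 0 ≤ s) (hk : 0 ≤ k)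
    (hs' : 0 ≤ s') (hk' : 0 ≤ k') :
    HSon a univ (s * s') (s * k' + k * s') (fun x => g x * g' x) := by
  have hr : ∀ x y : E n, 0 ≤ ‖x - y‖ ^ a := fun x y => Real.rpow_nonneg (norm_nonneg _) a
  refine ⟨fun x _ => ?_, fun x _ y _ => ?_⟩
  · by_cases hx : x ∈ K
    · rw [abs_mul]
      exact mul_le_mul (h.1 x (mem_univ x)) (h'.1 x hx) (abs_nonneg _) hs
    · show |g x * g' x| ≤ _
      rw [h0 x hx, zero_mul, abs_zero]; positivity
  · have key : ∀ x y : E n, x ∈ K → y ∉ K →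
        |g x * g' x - g y * g' y| ≤ (s * k' + k * s') * ‖x - y‖ ^ a := by
      intro x y hx hy
      have h1 := h.2 x (mem_univ x) y (mem_univ y)
      rw [h0 y hy, sub_zero] at h1
      rw [h0 y hy, zero_mul, sub_zero, abs_mul]
      have h2 := h'.1 x hx
      calc |g x| * |g' x| ≤ (k * ‖x - y‖ ^ a) * s' :=
            mul_le_mul h1 h2 (abs_nonneg _) (mul_nonneg hk (hr x y))
        _ = (k * s') * ‖x - y‖ ^ a := by ring
        _ ≤ _ := mul_le_mul_of_nonneg_right (by nlinarith [mul_nonneg hs hk']) (hr x y)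
    by_cases hx : x ∈ K
    · by_cases hy : y ∈ K
      · have e : g x * g' x - g y * g' y = g x * (g' x - g' y) + (g x - g y) * g' y := by ring
        rw [e, add_mul]
        refine (abs_add_le _ _).trans (add_le_add ?_ ?_)
        · rw [abs_mul, mul_assoc]
          exact mul_le_mul (h.1 x (mem_univ x)) (h'.2 x hx y hy) (abs_nonneg _) hs
        · rw [abs_mul]
          calc |g x - g y| * |g' y| ≤ (k * ‖x - y‖ ^ a) * s' :=
                mul_le_mul (h.2 x (mem_univ x) y (mem_univ y)) (h'.1 y hy) (abs_nonneg _)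
                  (mul_nonneg hk (hr x y))
            _ = _ := by ring
      · exact key x y hx hy
    · by_cases hy : y ∈ K
      · have := key y x hy hx
        rw [abs_sub_comm, norm_sub_rev] at this
        exact this
      · show |g x * g' x - g y * g' y| ≤ _
        rw [h0 x hx, h0 y hy, zero_mul, zero_mul, sub_zero, abs_zero]
        exact mul_nonneg (by positivity) (hr x y)

/-- bounded and Lipschitz implies Hölder -/
theorem HSon.of_lip {K : Set (E n)} {s L : ℝ} {g : E n → ℝ} (ha : 0 < a) (ha1 : a < 1)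
    (h0 : ∀ x ∈ K, |g x| ≤ s) (h1 : ∀ x ∈ K, ∀ y ∈ K, |g x - g y| ≤ L * ‖x - y‖) (hL : 0 ≤ L)
    (hs : 0 ≤ s) : HSon a K s (2 * s + L) g := by
  refine ⟨h0, fun x hx y hy => ?_⟩
  have hd := norm_nonneg (x - y)
  by_cases hxy : ‖x - y‖ ≤ 1
  · have h2 : ‖x - y‖ ≤ ‖x - y‖ ^ a := by
      rcases hd.lt_or_eq with h | h
      · calc ‖x - y‖ = ‖x - y‖ ^ (1 : ℝ) := (Real.rpow_one _).symm
          _ ≤ ‖x - y‖ ^ a := Real.rpow_le_rpow_of_exponent_ge h hxy ha1.le
      · rw [← h]; exact Real.rpow_nonneg le_rfl a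
    calc |g x - g y| ≤ L * ‖x - y‖ := h1 x hx y hy
      _ ≤ L * ‖x - y‖ ^ a := mul_le_mul_of_nonneg_left h2 hL
      _ ≤ _ := mul_le_mul_of_nonneg_right (by linarith) (Real.rpow_nonneg hd a)
  · have h2 : 1 ≤ ‖x - y‖ ^ a := Real.one_le_rpow (not_le.1 hxy).le ha.le
    have h3 : |g x - g y| ≤ 2 * s := by
      have := abs_sub (g x) (g y)
      have hx' := h0 x hx
      have hy' := h0 y hy
      linarith
    nlinarith [mul_nonneg hs (Real.rpow_nonneg hd a), mul_nonneg hL (Real.rpow_nonneg hd a)]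

/-- from a derivative bound on a convex set -/
theorem HSon.of_deriv {K : Set (E n)} {s L : ℝ} {g : E n → ℝ} (ha : 0 < a) (ha1 : a < 1)
    (hK : Convex ℝ K) (hg : Differentiable ℝ g) (h0 : ∀ x ∈ K, |g x| ≤ s)
    (h1 : ∀ x ∈ K, ‖fderiv ℝ g x‖ ≤ L) (hL : 0 ≤ L) (hs : 0 ≤ s) :
    HSon a K s (2 * s + L) g := by
  refine HSon.of_lip ha ha1 h0 (fun x hx y hy => ?_) hL hs
  have := hK.norm_image_sub_le_of_norm_fderiv_le (fun z _ => hg z) h1 hy hx
  simpa [Real.norm_eq_abs] using this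

/-- norm of a functional by its coordinates -/
theorem norm_le_sum (l : E n →L[ℝ] ℝ) : ‖l‖ ≤ ∑ i, |l (ee i)| := by
  refine ContinuousLinearMap.opNorm_le_bound _ (Finset.sum_nonneg fun i _ => abs_nonneg _)
    fun v => ?_
  have hv : v = ∑ i, v i • (ee i : E n) := by
    ext j
    simp [Pi.single_apply]
  have e : l v = ∑ i, v i * l (ee i) := by
    conv_lhs => rw [hv]
    simp [map_sum]
  rw [e, Real.norm_eq_abs, Finset.sum_mul]
  refine (Finset.abs_sum_le_sum_abs _ _).trans (Finset.sum_le_sum fun i _ => ?_)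
  rw [abs_mul, mul_comm]
  refine mul_le_mul_of_nonneg_left ?_ (abs_nonneg _)
  have := PiLp.norm_apply_le v i
  simpa [Real.norm_eq_abs] using this

/-! ### Leibniz -/

theorem differentiable_fderiv {f : E n → ℝ} (hf : ContDiff ℝ 2 f) :
    Differentiable ℝ (fderiv ℝ f) :=
  (hf.fderiv_right (m := 1) (by norm_num)).differentiable (by norm_num)

theorem fderiv_mul' {f g : E n → ℝ} (hf : ContDiff ℝ 2 f) (hg : ContDiff ℝ 2 g) (x : E n) :
    fderiv ℝ (fun y => f y * g y) x = f x • fderiv ℝ g x + g x • fderiv ℝ f x :=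
  fderiv_fun_mul (hf.differentiable (by norm_num) x) (hg.differentiable (by norm_num) x)

theorem Hs_mul {f g : E n → ℝ} (hf : ContDiff ℝ 2 f) (hg : ContDiff ℝ 2 g) (x : E n)
    (i j : Fin n) :
    Hs (fun y => f y * g y) x i j = f x * Hs g x i j + fderiv ℝ f x (ee i) * fderiv ℝ g x (ee j)
      + fderiv ℝ f x (ee j) * fderiv ℝ g x (ee i) + Hs f x i j * g x := by
  have e : fderiv ℝ (fun y => f y * g y) =
      fun y => f y • fderiv ℝ g y + g y • fderiv ℝ f y := by
    ext1 y; exact fderiv_mul' hf hg y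
  have hf1 := hf.differentiable (by norm_num) x
  have hg1 := hg.differentiable (by norm_num) x
  have hf2 := differentiable_fderiv hf x
  have hg2 := differentiable_fderiv hg x
  unfold Hs
  rw [e, fderiv_fun_add (hf1.fun_smul hg2) (hg1.fun_smul hf2), fderiv_fun_smul hf1 hg2,
    fderiv_fun_smul hg1 hf2]
  simp
  ring

theorem contDiff_mul {f g : E n → ℝ} (hf : ContDiff ℝ 2 f) (hg : ContDiff ℝ 2 g) :
    ContDiff ℝ 2 (fun y => f y * g y) := hf.mul hg

/-- the localized equation -/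
theorem LA_mul {χ h : E n → ℝ} (hχ : ContDiff ℝ 2 χ) (hh : ContDiff ℝ 2 h)
    (A : E n → Matrix (Fin n) (Fin n) ℝ) (A0 : Matrix (Fin n) (Fin n) ℝ)
    (hsym : ∀ i j, A0 i j = A0 j i) (lam : ℝ) (x : E n) :
    LA (fun _ => A0) (fun y => χ y * h y) x + lam * (χ x * h x) =
      χ x * (LA A h x + lam * h x) + ∑ i, ∑ j, χ x * (A0 i j - A x i j) * Hs h x i j
        + ∑ i, ∑ j, fderiv ℝ χ x (ee i) * (2 * A0 i j * fderiv ℝ h x (ee j))
        + (∑ i, ∑ j, A0 i j * Hs χ x i j - fderiv ℝ χ x x) * h x := by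
  have e1 : ∀ i j, A0 i j * Hs (fun y => χ y * h y) x i j =
      χ x * (A x i j * Hs h x i j) + χ x * (A0 i j - A x i j) * Hs h x i j
      + fderiv ℝ χ x (ee i) * (A0 i j * fderiv ℝ h x (ee j))
      + fderiv ℝ χ x (ee j) * (A0 j i * fderiv ℝ h x (ee i))
      + A0 i j * Hs χ x i j * h x := by
    intro i j
    rw [Hs_mul hχ hh, ← hsym i j]; ring
  have e2 : ∑ i, ∑ j, fderiv ℝ χ x (ee j) * (A0 j i * fderiv ℝ h x (ee i)) =
      ∑ i, ∑ j, fderiv ℝ χ x (ee i) * (A0 i j * fderiv ℝ h x (ee j)) := Finset.sum_comm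
  have e3 : ∑ i, ∑ j, fderiv ℝ χ x (ee i) * (2 * A0 i j * fderiv ℝ h x (ee j)) =
      2 * ∑ i, ∑ j, fderiv ℝ χ x (ee i) * (A0 i j * fderiv ℝ h x (ee j)) := by
    simp only [Finset.mul_sum]
    exact Finset.sum_congr rfl fun i _ => Finset.sum_congr rfl fun j _ => by ring
  unfold LA
  simp only [e1, Finset.sum_add_distrib]
  rw [e2, e3, fderiv_mul' hχ hh]
  simp only [← Finset.mul_sum, ← Finset.sum_mul, add_apply,
    smul_apply, smul_eq_mul]
  ring

/-! ### interpolation -/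

theorem mvt {f f' : ℝ → ℝ} {t C : ℝ} (ht : 0 ≤ t) (hf : ∀ s, HasDerivAt f (f' s) s)
    (hb : ∀ s ∈ Icc 0 t, |f' s| ≤ C) : |f t - f 0| ≤ C * t := by
  have := norm_image_sub_le_of_norm_deriv_le_segment' (f := f) (f' := f') (a := 0) (b := t)
    (C := C) (fun x _ => (hf x).hasDerivWithinAt)
    (fun x hx => by rw [Real.norm_eq_abs]; exact hb x (Ico_subset_Icc_self hx)) t
    (right_mem_Icc.2 ht)
  simpa [Real.norm_eq_abs] using this

theorem hasDerivAt_line (x u : E n) (s : ℝ) : HasDerivAt (fun s : ℝ => x + s • u) u s := by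
  simpa using ((hasDerivAt_id s).smul_const u).const_add x

theorem hasDerivAt_dir {h : E n → ℝ} (hh : ContDiff ℝ 2 h) (x u v : E n) (s : ℝ) :
    HasDerivAt (fun s : ℝ => fderiv ℝ h (x + s • u) v)
      (fderiv ℝ (fderiv ℝ h) (x + s • u) u v) s := by
  have h1 : HasFDerivAt (fderiv ℝ h) (fderiv ℝ (fderiv ℝ h) (x + s • u)) (x + s • u) :=
    (differentiable_fderiv hh _).hasFDerivAt
  have h2 := h1.comp_hasDerivAt s (hasDerivAt_line x u s)
  have h3 := h2.clm_apply (hasDerivAt_const s v)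
  simpa using h3

theorem hasDerivAt_val {h : E n → ℝ} (hh : ContDiff ℝ 2 h) (x u : E n) (s : ℝ) :
    HasDerivAt (fun s : ℝ => h (x + s • u)) (fderiv ℝ h (x + s • u) u) s :=
  ((hh.differentiable (by norm_num) _).hasFDerivAt).comp_hasDerivAt s (hasDerivAt_line x u s)

theorem norm_ee (i : Fin n) : ‖(ee i : E n)‖ = 1 := by simp

theorem norm_smul_ee {s t : ℝ} (hs : s ∈ Icc 0 t) (i : Fin n) : ‖s • (ee i : E n)‖ ≤ t := by
  rw [norm_smul, norm_ee, mul_one, Real.norm_eq_abs, abs_of_nonneg hs.1]; exact hs.2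

theorem int2 (ha : 0 < a) (ha1 : a < 1) {h : E n → ℝ} (hh : ContDiff ℝ 2 h) {M S r t : ℝ}
    (hM : ∀ i j, HB a M (fun x => Hs h x i j)) (hM0 : 0 ≤ M)
    (hS : ∀ x : E n, ‖x‖ ≤ r + 1 → |h x| ≤ S) (ht : 0 < t) (ht1 : t ≤ 1 / 2)
    {x : E n} (hx : ‖x‖ ≤ r) (i j : Fin n) :
    |Hs h x i j| ≤ 4 * S / t ^ 2 + 2 * M * t ^ a := by
  set u : E n := ee i with hu
  set v : E n := ee j with hv
  set c : ℝ := Hs h x i j with hc
  have hta : 0 ≤ t ^ a := Real.rpow_nonneg ht.le a
  have hMt : 0 ≤ 2 * M * t ^ a := by positivity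
  -- first MVT
  have h1 : ∀ s' ∈ Icc 0 t,
      |fderiv ℝ h (x + s' • v + t • u) v - fderiv ℝ h (x + s' • v) v - t * c|
        ≤ (2 * M * t ^ a) * t := by
    intro s' hs'
    have := mvt (f := fun s : ℝ => fderiv ℝ h ((x + s' • v) + s • u) v - s * c)
      (f' := fun s => fderiv ℝ (fderiv ℝ h) ((x + s' • v) + s • u) u v - c) (t := t)
      (C := 2 * M * t ^ a) ht.le
      (fun s => by
        have h2 := (hasDerivAt_dir hh (x + s' • v) u v s).fun_sub ((hasDerivAt_id' s).mul_const c)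
        simpa using h2)
      (fun s hs => by
        have h3 := (hM i j).2 ((x + s' • v) + s • u) x
        have h4 : ‖(x + s' • v) + s • u - x‖ ≤ 2 * t := by
          have e : (x + s' • v) + s • u - x = s' • v + s • u := by abel
          rw [e]
          refine (norm_add_le _ _).trans ?_
          have := norm_smul_ee (n := n) hs' j
          have := norm_smul_ee (n := n) hs i
          linarith
        have h5 : ‖(x + s' • v) + s • u - x‖ ^ a ≤ 2 * t ^ a := by
          refine (Real.rpow_le_rpow (norm_nonneg _) h4 ha.le).trans ?_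
          rw [Real.mul_rpow (by norm_num) ht.le]
          refine mul_le_mul_of_nonneg_right ?_ hta
          calc (2 : ℝ) ^ a ≤ 2 ^ (1 : ℝ) := Real.rpow_le_rpow_of_exponent_le (by norm_num) ha1.le
            _ = 2 := Real.rpow_one _
        calc |Hs h ((x + s' • v) + s • u) i j - c|
            ≤ M * ‖(x + s' • v) + s • u - x‖ ^ a := h3
          _ ≤ M * (2 * t ^ a) := mul_le_mul_of_nonneg_left h5 hM0
          _ = _ := by ring)
    have e : fderiv ℝ h (x + s' • v + t • u) v - t * c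
        - (fderiv ℝ h (x + s' • v + (0 : ℝ) • u) v - 0 * c)
        = fderiv ℝ h (x + s' • v + t • u) v - fderiv ℝ h (x + s' • v) v - t * c := by
      rw [zero_smul, add_zero]; ring
    rw [← e]; exact this
  have h2 := mvt (f := fun s' : ℝ => h ((x + t • u) + s' • v) - h (x + s' • v) - s' * (t * c))
      (f' := fun s' => fderiv ℝ h ((x + t • u) + s' • v) v - fderiv ℝ h (x + s' • v) v - t * c)
      (t := t) (C := (2 * M * t ^ a) * t) ht.le
      (fun s => by
        have h2 := ((hasDerivAt_val hh (x + t • u) v s).fun_sub (hasDerivAt_val hh x v s)).fun_sub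
          ((hasDerivAt_id' s).mul_const (t * c))
        simpa using h2)
      (fun s hs => by
        have := h1 s hs
        have e : x + s • v + t • u = (x + t • u) + s • v := by abel
        rw [e] at this; exact this)
  simp only [zero_smul, add_zero, zero_mul, sub_zero] at h2
  have b : ∀ y : E n, ‖y‖ ≤ 2 * t → |h (x + y)| ≤ S := fun y hy => by
    refine hS _ ((norm_add_le _ _).trans ?_)
    linarith
  have n1 : ‖t • u‖ ≤ t := norm_smul_ee (n := n) ⟨ht.le, le_rfl⟩ i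
  have n2 : ‖t • v‖ ≤ t := norm_smul_ee (n := n) ⟨ht.le, le_rfl⟩ j
  have b1 := b (t • u + t • v) ((norm_add_le _ _).trans (by linarith))
  have b2 := b (t • u) (by linarith)
  have b3 := b (t • v) (by linarith)
  have b4 := b 0 (by simp; exact ht.le)
  rw [← add_assoc] at b1
  rw [add_zero] at b4
  have h3 : t ^ 2 * |c| ≤ 4 * S + (2 * M * t ^ a) * t ^ 2 := by
    have e : t ^ 2 * |c| = |t * (t * c)| := by
      rw [abs_mul, abs_mul, abs_of_pos ht]; ring
    rw [e]
    rw [abs_le] at h2 b1 b2 b3 b4 ⊢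
    constructor <;> nlinarith [h2.1, h2.2, b1.1, b1.2, b2.1, b2.2, b3.1, b3.2, b4.1, b4.2]
  have ht2 : 0 < t ^ 2 := by positivity
  have h4 : |c| ≤ (4 * S + (2 * M * t ^ a) * t ^ 2) / t ^ 2 := by
    rw [le_div_iff₀ ht2]; linarith
  calc |c| ≤ _ := h4
    _ = _ := by field_simp

theorem int1 {h : E n → ℝ} (hh : ContDiff ℝ 2 h) {M S r t : ℝ}
    (hM : ∀ x i j, |Hs h x i j| ≤ M)
    (hS : ∀ x : E n, ‖x‖ ≤ r + 1 → |h x| ≤ S) (ht : 0 < t) (ht1 : t ≤ 1 / 2)
    {x : E n} (hx : ‖x‖ ≤ r) (j : Fin n) :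
    |fderiv ℝ h x (ee j)| ≤ 2 * S / t + M * t := by
  set v : E n := ee j with hv
  have hM0 : 0 ≤ M := (abs_nonneg _).trans (hM 0 j j)
  have h1 : ∀ s ∈ Icc 0 t, |fderiv ℝ h (x + s • v) v - fderiv ℝ h x v| ≤ M * t := by
    intro s hs
    have := mvt (f := fun s : ℝ => fderiv ℝ h (x + s • v) v)
      (f' := fun s => fderiv ℝ (fderiv ℝ h) (x + s • v) v v) (t := s) (C := M) hs.1
      (fun s => hasDerivAt_dir hh x v v s) (fun s _ => hM _ j j)
    simp only [zero_smul, add_zero] at this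
    exact this.trans (mul_le_mul_of_nonneg_left hs.2 hM0)
  have h2 := mvt (f := fun s : ℝ => h (x + s • v) - s * fderiv ℝ h x v)
    (f' := fun s => fderiv ℝ h (x + s • v) v - fderiv ℝ h x v) (t := t) (C := M * t) ht.le
    (fun s => by
      have h2 := (hasDerivAt_val hh x v s).fun_sub ((hasDerivAt_id' s).mul_const (fderiv ℝ h x v))
      simpa using h2) h1
  simp only [zero_smul, add_zero, zero_mul, sub_zero] at h2
  have n2 : ‖t • v‖ ≤ t := norm_smul_ee (n := n) ⟨ht.le, le_rfl⟩ j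
  have b3 : |h (x + t • v)| ≤ S := hS _ ((norm_add_le _ _).trans (by linarith))
  have b4 : |h x| ≤ S := hS _ (by linarith)
  have h3 : t * |fderiv ℝ h x v| ≤ 2 * S + M * t * t := by
    have e : t * |fderiv ℝ h x v| = |t * fderiv ℝ h x v| := by rw [abs_mul, abs_of_pos ht]
    rw [e]
    rw [abs_le] at h2 b3 b4 ⊢
    constructor <;> nlinarith [h2.1, h2.2, b3.1, b3.2, b4.1, b4.2]
  have h4 : |fderiv ℝ h x v| ≤ (2 * S + M * t * t) / t := by
    rw [le_div_iff₀ ht]; linarith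
  calc |fderiv ℝ h x v| ≤ _ := h4
    _ = _ := by field_simp

end Crest.Agent.R238.Sch138
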