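import Crest.Agent.R238.Sch1

/-!
Row 238, module H3 (B): Schauder a priori estimate by freezing and absorption.
File 2: cutoff calculus and the cut-off estimate.
-/

namespace Crest.Agent.R238.Sch

open Set Metric

variable {n : ℕ}

local notation "E" => EuclideanSpace ℝ (Fin n)

/-- standard basis vector -/
noncomputable def ee (i : Fin n) : EuclideanSpace ℝ (Fin n) := EuclideanSpace.single i 1

theorem norm_ee (i : Fin n) : ‖(ee i : E)‖ = 1 := by simp [ee]

/-- the operator `∑ τ_ij D²h_ij - x·∇h + λ h` -/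
noncomputable def Lop (τ : EuclideanSpace ℝ (Fin n) → Matrix (Fin n) (Fin n) ℝ) (lam : ℝ)
    (h : EuclideanSpace ℝ (Fin n) → ℝ) (x : EuclideanSpace ℝ (Fin n)) : ℝ :=
  (∑ i, ∑ j, τ x i j * D2 h x (ee i) (ee j)) - fderiv ℝ h x x + lam * h x

theorem sum_ee (v : E) : v = ∑ i, v i • (ee i : E) := by
  ext j
  simp only [ee, WithLp.ofLp_sum, WithLp.ofLp_smul, Finset.sum_apply, Pi.smul_apply, smul_eq_mul]
  simp

theorem norm_bilin_le (B : E →L[ℝ] E →L[ℝ] ℝ) : ‖B‖ ≤ ∑ i, ∑ j, ‖B (ee i) (ee j)‖ := by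
  refine ContinuousLinearMap.opNorm_le_bound₂ _ (by positivity) (fun v w => ?_)
  have e : B v w = ∑ i, ∑ j, v i * w j * B (ee i) (ee j) := by
    conv_lhs => rw [sum_ee v, sum_ee w]
    simp only [map_sum, map_smul, sum_apply, smul_apply, smul_eq_mul, Finset.mul_sum]
    rw [Finset.sum_comm]
    refine Finset.sum_congr rfl fun i _ => Finset.sum_congr rfl fun j _ => by ring
  rw [e, Finset.sum_mul, Finset.sum_mul]
  refine (norm_sum_le _ _).trans (Finset.sum_le_sum fun i _ => ?_)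
  rw [Finset.sum_mul, Finset.sum_mul]
  refine (norm_sum_le _ _).trans (Finset.sum_le_sum fun j _ => ?_)
  rw [norm_mul, norm_mul]
  have h1 : ‖v i‖ ≤ ‖v‖ := PiLp.norm_apply_le v i
  have h2 : ‖w j‖ ≤ ‖w‖ := PiLp.norm_apply_le w j
  calc ‖v i‖ * ‖w j‖ * ‖B (ee i) (ee j)‖ ≤ ‖v‖ * ‖w‖ * ‖B (ee i) (ee j)‖ := by gcongr
    _ = ‖B (ee i) (ee j)‖ * ‖v‖ * ‖w‖ := by ring

theorem norm_entry_le (B : E →L[ℝ] E →L[ℝ] ℝ) (i j : Fin n) : ‖B (ee i) (ee j)‖ ≤ ‖B‖ := by
  have := B.le_opNorm₂ (ee i) (ee j)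
  simpa [norm_ee] using this

theorem HB.entry {X : Type*} [NormedAddCommGroup X] {a M : ℝ} {B : X → E →L[ℝ] E →L[ℝ] ℝ}
    (h : HB a M B) (i j : Fin n) : HB a M (fun x => B x (ee i) (ee j)) where
  bdd x := (norm_entry_le _ i j).trans (h.bdd x)
  hol x y := by
    have := norm_entry_le (B x - B y) i j
    simp only [sub_apply] at this
    exact this.trans (h.hol x y)

theorem HB.of_entry {X : Type*} [NormedAddCommGroup X] {a M : ℝ} {B : X → E →L[ℝ] E →L[ℝ] ℝ}
    (h : ∀ i j, HB a M (fun x => B x (ee i) (ee j))) : HB a ((n : ℝ) ^ 2 * M) B where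
  bdd x := by
    refine (norm_bilin_le (B x)).trans ?_
    refine (Finset.sum_le_sum fun i _ => Finset.sum_le_sum fun j _ => (h i j).bdd x).trans ?_
    simp [Finset.sum_const]
    apply le_of_eq; ring
  hol x y := by
    refine (norm_bilin_le (B x - B y)).trans ?_
    refine (Finset.sum_le_sum fun i _ => Finset.sum_le_sum fun j _ =>
      (show ‖(B x - B y) (ee i) (ee j)‖ ≤ M * ‖x - y‖ ^ a from ?_)).trans ?_
    · simp only [sub_apply]; exact (h i j).hol x y
    · simp [Finset.sum_const]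
      apply le_of_eq; ring

theorem HB.vec {X : Type*} [NormedAddCommGroup X] {a M : ℝ} {B : X → E →L[ℝ] ℝ}
    (h : HB a M B) (i : Fin n) : HB a M (fun x => B x (ee i)) where
  bdd x := by
    have := (B x).le_opNorm (ee i)
    rw [norm_ee, mul_one] at this
    exact this.trans (h.bdd x)
  hol x y := by
    have := (B x - B y).le_opNorm (ee i)
    rw [norm_ee, mul_one] at this
    simp only [sub_apply] at this
    exact this.trans (h.hol x y)

/-- product rule for the gradient -/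
theorem fderiv_prod {χ h : E → ℝ} (hχ : Differentiable ℝ χ) (hh : Differentiable ℝ h) :
    fderiv ℝ (fun x => χ x * h x) = fun x => χ x • fderiv ℝ h x + h x • fderiv ℝ χ x := by
  funext x
  exact fderiv_fun_mul (hχ x) (hh x)

/-- product rule for the Hessian -/
theorem D2_prod {χ h : E → ℝ} (hχ : ContDiff ℝ 2 χ) (hh : ContDiff ℝ 2 h) (x v w : E) :
    D2 (fun x => χ x * h x) x v w = χ x * D2 h x v w + fderiv ℝ χ x v * fderiv ℝ h x w
      + fderiv ℝ h x v * fderiv ℝ χ x w + h x * D2 χ x v w := by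
  have hχ0 : Differentiable ℝ χ := hχ.differentiable (by norm_num)
  have hh0 : Differentiable ℝ h := hh.differentiable (by norm_num)
  have hχ1 : Differentiable ℝ (fderiv ℝ χ) :=
    (hχ.fderiv_right (m := 1) (by norm_num)).differentiable (by norm_num)
  have hh1 : Differentiable ℝ (fderiv ℝ h) :=
    (hh.fderiv_right (m := 1) (by norm_num)).differentiable (by norm_num)
  unfold D2
  rw [fderiv_prod hχ0 hh0]
  have e1 : fderiv ℝ (fun x => χ x • fderiv ℝ h x) x
      = χ x • fderiv ℝ (fderiv ℝ h) x + (fderiv ℝ χ x).smulRight (fderiv ℝ h x) :=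
    fderiv_fun_smul (hχ0 x) (hh1 x)
  have e2 : fderiv ℝ (fun x => h x • fderiv ℝ χ x) x
      = h x • fderiv ℝ (fderiv ℝ χ) x + (fderiv ℝ h x).smulRight (fderiv ℝ χ x) :=
    fderiv_fun_smul (hh0 x) (hχ1 x)
  have e3 : fderiv ℝ (fun x => χ x • fderiv ℝ h x + h x • fderiv ℝ χ x) x
      = fderiv ℝ (fun x => χ x • fderiv ℝ h x) x + fderiv ℝ (fun x => h x • fderiv ℝ χ x) x :=
    fderiv_fun_add (f := fun x => χ x • fderiv ℝ h x) (g := fun x => h x • fderiv ℝ χ x)
      ((hχ0 x).smul (hh1 x)) ((hh0 x).smul (hχ1 x))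
  rw [e3, e1, e2]
  simp only [add_apply, smul_apply, ContinuousLinearMap.smulRight_apply, smul_eq_mul]
  ring

/-- cutoff data -/
structure Cut (a X : ℝ) (χ : EuclideanSpace ℝ (Fin n) → ℝ) : Prop where
  sm : ContDiff ℝ 2 χ
  c0 : HB a X χ
  c1 : HB a X (fderiv ℝ χ)
  c2 : HB a X (D2 χ)
  cx : HB a X (fun x => fderiv ℝ χ x x)

theorem HB.of_compactSupport {F : Type*} [NormedAddCommGroup F] [NormedSpace ℝ F] {f : E → F}
    {a : ℝ} (ha : 0 < a) (ha1 : a ≤ 1) (hf : ContDiff ℝ 1 f) (hc : HasCompactSupport f) :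
    ∃ X, HB a X f := by
  obtain ⟨B0, hB0⟩ := hc.exists_bound_of_continuous hf.continuous
  obtain ⟨B1, hB1⟩ := (hc.fderiv ℝ).exists_bound_of_continuous (hf.continuous_fderiv (by norm_num))
  have h0 : 0 ≤ B0 := (norm_nonneg _).trans (hB0 0)
  have h1 : 0 ≤ B1 := le_trans (norm_nonneg (fderiv ℝ f 0)) (hB1 0)
  refine ⟨2 * B0 + B1, fun x => (hB0 x).trans (by linarith), fun x y => ?_⟩
  have hlip : ‖f x - f y‖ ≤ B1 * ‖x - y‖ :=
    (convex_univ : Convex ℝ (univ : Set E)).norm_image_sub_le_of_norm_fderiv_le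
      (fun w _ => (hf.differentiable (by norm_num)) w) (fun w _ => hB1 w) (mem_univ y) (mem_univ x)
  have hb : ‖f x - f y‖ ≤ 2 * B0 := by
    have := norm_sub_le (f x) (f y)
    linarith [hB0 x, hB0 y]
  have hp : 0 ≤ ‖x - y‖ ^ a := Real.rpow_nonneg (norm_nonneg _) _
  rcases le_total ‖x - y‖ 1 with h | h
  · have h2 : ‖x - y‖ ≤ ‖x - y‖ ^ a := by
      rcases (norm_nonneg (x - y)).eq_or_lt with h0' | h0'
      · rw [← h0']; exact Real.rpow_nonneg le_rfl _
      · calc ‖x - y‖ = ‖x - y‖ ^ (1 : ℝ) := (Real.rpow_one _).symm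
          _ ≤ ‖x - y‖ ^ a := Real.rpow_le_rpow_of_exponent_ge h0' h ha1
    nlinarith [mul_nonneg h0 hp, mul_le_mul_of_nonneg_left h2 h1]
  · have h2 : 1 ≤ ‖x - y‖ ^ a := Real.one_le_rpow h ha.le
    nlinarith [mul_nonneg h1 hp]


theorem Cut.of_compactSupport {ψ : E → ℝ} {a : ℝ} (ha : 0 < a) (ha1 : a ≤ 1)
    (hf : ContDiff ℝ 3 ψ) (hc : HasCompactSupport ψ) : ∃ X, Cut a X ψ := by
  have hd1 : ContDiff ℝ 2 (fderiv ℝ ψ) := hf.fderiv_right (by norm_num)
  have hd2 : ContDiff ℝ 1 (D2 ψ) := hd1.fderiv_right (by norm_num)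
  obtain ⟨X0, h0⟩ := HB.of_compactSupport ha ha1 (hf.of_le (by norm_num)) hc
  obtain ⟨X1, h1⟩ := HB.of_compactSupport ha ha1 (hd1.of_le (by norm_num)) (hc.fderiv ℝ)
  obtain ⟨X2, h2⟩ := HB.of_compactSupport ha ha1 hd2 ((hc.fderiv ℝ).fderiv ℝ)
  obtain ⟨X3, h3⟩ := HB.of_compactSupport (f := fun x => fderiv ℝ ψ x x) ha ha1
    ((hd1.of_le (by norm_num)).clm_apply contDiff_id) (by
      refine (hc.fderiv ℝ).mono ?_
      intro x hx
      simp only [Function.mem_support] at hx ⊢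
      intro h
      exact hx (by rw [h]; rfl))
  have p0 := h0.nonneg
  have p1 := h1.nonneg
  have p2 := h2.nonneg
  have p3 := h3.nonneg
  exact ⟨X0 + X1 + X2 + X3, hf.of_le (by norm_num), h0.mono (by linarith), h1.mono (by linarith),
    h2.mono (by linarith), h3.mono (by linarith)⟩

theorem fderiv_trans {F : Type*} [NormedAddCommGroup F] [NormedSpace ℝ F] (ψ : E → F) (c : E) :
    fderiv ℝ (fun y => ψ (y - c)) = fun x => fderiv ℝ ψ (x - c) := by
  funext x
  exact fderiv_comp_sub c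

theorem D2_trans (ψ : E → ℝ) (c : E) : D2 (fun y => ψ (y - c)) = fun x => D2 ψ (x - c) := by
  unfold D2
  rw [fderiv_trans ψ c]
  exact fderiv_trans (fderiv ℝ ψ) c

theorem Cut.trans {ψ : E → ℝ} {a X R : ℝ} (h : Cut a X ψ) {c : E} (hc : ‖c‖ ≤ R) :
    Cut a (X + R * X) (fun x => ψ (x - c)) := by
  have hX := h.c0.nonneg
  have hR : 0 ≤ R := (norm_nonneg _).trans hc
  have hRX : 0 ≤ R * X := mul_nonneg hR hX
  refine ⟨h.sm.comp (contDiff_id.sub contDiff_const), (h.c0.trans c).mono (by linarith), ?_, ?_, ?_⟩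
  · rw [fderiv_trans]; exact (h.c1.trans c).mono (by linarith)
  · rw [D2_trans]; exact (h.c2.trans c).mono (by linarith)
  · rw [fderiv_trans]
    have e : (fun x => fderiv ℝ ψ (x - c) x)
        = fun x => fderiv ℝ ψ (x - c) (x - c) + fderiv ℝ ψ (x - c) c := by
      funext x
      rw [← map_add, sub_add_cancel]
    have e' : (fun x => (fun x => fderiv ℝ ψ (x - c)) x x)
        = fun x => fderiv ℝ ψ (x - c) (x - c) + fderiv ℝ ψ (x - c) c := e
    rw [e']
    have h1 : HB a (R * X) (fun x => fderiv ℝ ψ x c) :=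
      ⟨fun x => by
        refine ((fderiv ℝ ψ x).le_opNorm c).trans ?_
        rw [mul_comm]
        exact mul_le_mul hc (h.c1.bdd x) (norm_nonneg _) hR,
      fun x y => by
        have h2 := (fderiv ℝ ψ x - fderiv ℝ ψ y).le_opNorm c
        simp only [sub_apply] at h2
        refine h2.trans ?_
        rw [mul_comm, mul_assoc]
        exact mul_le_mul hc (h.c1.hol x y) (norm_nonneg _) hR⟩
    exact (h.cx.trans c).add (h1.trans c)

theorem Cut.oneSub {ψ : E → ℝ} {a X : ℝ} (h : Cut a X ψ) : Cut a (1 + X) (fun x => 1 - ψ x) := by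
  have hX := h.c0.nonneg
  have e1 : fderiv ℝ (fun x => 1 - ψ x) = fun x => - fderiv ℝ ψ x := by
    funext x; exact fderiv_const_sub 1
  have e2 : D2 (fun x => 1 - ψ x) = fun x => - D2 ψ x := by
    unfold D2
    rw [e1]
    funext x; exact fderiv_fun_neg
  refine ⟨contDiff_const.sub h.sm, ?_, ?_, ?_, ?_⟩
  · have := (HB.const (X := E) (a := a) (1 : ℝ)).sub h.c0
    simpa using this
  · rw [e1]; exact h.c1.neg.mono (by linarith)
  · rw [e2]; exact h.c2.neg.mono (by linarith)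
  · rw [e1]
    have := h.cx.neg.mono (show X ≤ 1 + X by linarith)
    simpa using this

/-- Hypothesis (A) for one matrix `A` and one `lam`. -/
def SA (a C0 lam : ℝ) (A : Matrix (Fin n) (Fin n) ℝ) : Prop :=
  ∀ (g : EuclideanSpace ℝ (Fin n) → ℝ) (N : ℝ), ContDiff ℝ 2 g → (∃ C, ∀ x, ‖D2 g x‖ ≤ C) →
    HB a N (Lop (fun _ => A) lam g) → HB a (C0 * N) (D2 g)

/-- the equation for the cut-off function -/
theorem Lop_cut {τ : E → Matrix (Fin n) (Fin n) ℝ} {lam : ℝ} {χ h : E → ℝ}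
    (hχ : ContDiff ℝ 2 χ) (hh : ContDiff ℝ 2 h) (A : Matrix (Fin n) (Fin n) ℝ) (x : E) :
    Lop (fun _ => A) lam (fun x => χ x * h x) x
      = (∑ i, ∑ j, D2 (fun x => χ x * h x) x (ee i) (ee j) * (A i j - τ x i j))
        + (χ x * Lop τ lam h x
          + (∑ i, ∑ j, (fderiv ℝ χ x (ee i) * (τ x i j * fderiv ℝ h x (ee j))
              + fderiv ℝ χ x (ee j) * (τ x i j * fderiv ℝ h x (ee i))
              + D2 χ x (ee i) (ee j) * (τ x i j * h x)))
          - fderiv ℝ χ x x * h x) := by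
  have hχ0 : Differentiable ℝ χ := hχ.differentiable (by norm_num)
  have hh0 : Differentiable ℝ h := hh.differentiable (by norm_num)
  have e1 : (∑ i, ∑ j, A i j * D2 (fun x => χ x * h x) x (ee i) (ee j))
      = (∑ i, ∑ j, D2 (fun x => χ x * h x) x (ee i) (ee j) * (A i j - τ x i j))
        + ∑ i, ∑ j, τ x i j * D2 (fun x => χ x * h x) x (ee i) (ee j) := by
    rw [← Finset.sum_add_distrib]
    refine Finset.sum_congr rfl fun i _ => ?_
    rw [← Finset.sum_add_distrib]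
    refine Finset.sum_congr rfl fun j _ => ?_
    ring
  have e2 : (∑ i, ∑ j, τ x i j * D2 (fun x => χ x * h x) x (ee i) (ee j))
      = χ x * (∑ i, ∑ j, τ x i j * D2 h x (ee i) (ee j))
        + (∑ i, ∑ j, (fderiv ℝ χ x (ee i) * (τ x i j * fderiv ℝ h x (ee j))
              + fderiv ℝ χ x (ee j) * (τ x i j * fderiv ℝ h x (ee i))
              + D2 χ x (ee i) (ee j) * (τ x i j * h x))) := by
    rw [Finset.mul_sum, ← Finset.sum_add_distrib]
    refine Finset.sum_congr rfl fun i _ => ?_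
    rw [Finset.mul_sum, ← Finset.sum_add_distrib]
    refine Finset.sum_congr rfl fun j _ => ?_
    rw [D2_prod hχ hh]
    ring
  unfold Lop
  rw [e1, e2, fderiv_prod hχ0 hh0]
  simp only [add_apply, smul_apply, smul_eq_mul]
  ring

end Crest.Agent.R238.Sch
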