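import Crest.Agent.R238.Sch2

/-!
Row 238, module H3 (B): Schauder a priori estimate by freezing and absorption.
File 3: the cut-off estimate.
-/

namespace Crest.Agent.R238.Sch

open Set Metric

variable {n : ℕ}

local notation "E" => EuclideanSpace ℝ (Fin n)

theorem prodOn {X : Type*} [NormedAddCommGroup X] {a M Q : ℝ} {s : Set X} {u v : X → ℝ}
    (hu : HB a M u) (v0 : ∀ x ∈ s, ‖v x‖ ≤ Q)
    (v1 : ∀ x ∈ s, ∀ y ∈ s, ‖v x - v y‖ ≤ Q * ‖x - y‖ ^ a) :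
    ∀ x ∈ s, ∀ y ∈ s, ‖u x * v x - u y * v y‖ ≤ 2 * (M * Q) * ‖x - y‖ ^ a := by
  intro x hx y hy
  have hM := hu.nonneg
  have hQ : 0 ≤ Q := (norm_nonneg _).trans (v0 x hx)
  have hp : 0 ≤ ‖x - y‖ ^ a := Real.rpow_nonneg (norm_nonneg _) _
  have : u x * v x - u y * v y = (u x - u y) * v x + u y * (v x - v y) := by ring
  rw [this]
  refine (norm_add_le _ _).trans ?_
  rw [norm_mul, norm_mul]
  have h1 : ‖u x - u y‖ * ‖v x‖ ≤ (M * ‖x - y‖ ^ a) * Q :=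
    mul_le_mul (hu.hol x y) (v0 x hx) (norm_nonneg _) (mul_nonneg hM hp)
  have h2 : ‖u y‖ * ‖v x - v y‖ ≤ M * (Q * ‖x - y‖ ^ a) :=
    mul_le_mul (hu.bdd y) (v1 x hx y hy) (norm_nonneg _) hM
  linarith

/-- `u` cutoff-like, `w` coefficient, `v` lower order -/
theorem triple {X : Type*} [NormedAddCommGroup X] {a U M Q : ℝ} {s : Set X} {u w v : X → ℝ}
    (hu : HB a U u) (hus : ∀ x, x ∉ s → u x = 0) (hw : HB a M w) (hQ : 0 ≤ Q)
    (v0 : ∀ x ∈ s, ‖v x‖ ≤ Q)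
    (v1 : ∀ x ∈ s, ∀ y ∈ s, ‖v x - v y‖ ≤ Q * ‖x - y‖ ^ a) :
    HB a (3 * (U * (M * Q))) (fun x => u x * (w x * v x)) := by
  have hU := hu.nonneg
  have hM := hw.nonneg
  have hMQ := mul_nonneg hM hQ
  have hUMQ := mul_nonneg hU hMQ
  refine HB.localMul (s := s) (U0 := U) (U1 := U) (V0 := M * Q) (V1 := 2 * (M * Q))
    hus (fun x _ => hu.bdd x) hu.hol (fun x hx => ?_) (prodOn hw v0 v1) hU hU hMQ
    (by linarith) (by linarith) (by linarith)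
  rw [norm_mul]
  exact mul_le_mul (hw.bdd x) (v0 x hx) (norm_nonneg _) hM

theorem double {X : Type*} [NormedAddCommGroup X] {a U Q : ℝ} {s : Set X} {u v : X → ℝ}
    (hu : HB a U u) (hus : ∀ x, x ∉ s → u x = 0) (hQ : 0 ≤ Q)
    (v0 : ∀ x ∈ s, ‖v x‖ ≤ Q)
    (v1 : ∀ x ∈ s, ∀ y ∈ s, ‖v x - v y‖ ≤ Q * ‖x - y‖ ^ a) :
    HB a (2 * (U * Q)) (fun x => u x * v x) := by
  have hU := hu.nonneg
  have hUQ := mul_nonneg hU hQ
  exact HB.localMul (s := s) (U0 := U) (U1 := U) (V0 := Q) (V1 := Q)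
    hus (fun x _ => hu.bdd x) hu.hol v0 v1 hU hU hQ hQ (by linarith) (by linarith)

theorem HB.sum_sq {X : Type*} [NormedAddCommGroup X] {a M : ℝ} {f : Fin n → Fin n → X → ℝ}
    (h : ∀ i j, HB a M (f i j)) : HB a ((n : ℝ) ^ 2 * M) (fun x => ∑ i, ∑ j, f i j x) := by
  have h1 : HB a (∑ _i : Fin n, ∑ _j : Fin n, M) (fun x => ∑ i, ∑ j, f i j x) :=
    HB.sum (f := fun i x => ∑ j, f i j x) _ (fun i _ => HB.sum _ (fun j _ => h i j))
  refine h1.mono (le_of_eq ?_)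
  simp [Finset.sum_const]
  ring

theorem lb_vec {a Q : ℝ} {s : Set E} {h : E → ℝ} (hL : LB a Q s h) (i : Fin n) :
    (∀ x ∈ s, ‖fderiv ℝ h x (ee i)‖ ≤ Q) ∧
    (∀ x ∈ s, ∀ y ∈ s, ‖fderiv ℝ h x (ee i) - fderiv ℝ h y (ee i)‖ ≤ Q * ‖x - y‖ ^ a) := by
  refine ⟨fun x hx => ?_, fun x hx y hy => ?_⟩
  · have := (fderiv ℝ h x).le_opNorm (ee i)
    rw [norm_ee, mul_one] at this
    exact this.trans (hL.d0 x hx)
  · have := (fderiv ℝ h x - fderiv ℝ h y).le_opNorm (ee i)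
    rw [norm_ee, mul_one] at this
    simp only [sub_apply] at this
    exact this.trans (hL.d1 x hx y hy)

/-- bound of the lower order right-hand side -/
theorem lower_HB {a X M N Q : ℝ} {s : Set E} {χ h f : E → ℝ}
    {τ : E → Matrix (Fin n) (Fin n) ℝ} (hχ : Cut a X χ)
    (hs1 : ∀ x, x ∉ s → fderiv ℝ χ x = 0) (hs2 : ∀ x, x ∉ s → D2 χ x = 0)
    (hτ : ∀ i j, HB a M (fun x => τ x i j)) (hL : LB a Q s h) (hQ : 0 ≤ Q) (hf : HB a N f) :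
    HB a (2 * (X * N) + (n : ℝ) ^ 2 * (9 * (X * (M * Q))) + 2 * (X * Q))
      (fun x => χ x * f x
          + (∑ i, ∑ j, (fderiv ℝ χ x (ee i) * (τ x i j * fderiv ℝ h x (ee j))
              + fderiv ℝ χ x (ee j) * (τ x i j * fderiv ℝ h x (ee i))
              + D2 χ x (ee i) (ee j) * (τ x i j * h x)))
          - fderiv ℝ χ x x * h x) := by
  refine HB.sub (HB.add (hχ.c0.mul hf) (HB.sum_sq fun i j => ?_)) ?_
  · have e : 9 * (X * (M * Q)) = 3 * (X * (M * Q)) + 3 * (X * (M * Q)) + 3 * (X * (M * Q)) := by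
      ring
    rw [e]
    refine ((triple (s := s) (hχ.c1.vec i) ?_ (hτ i j) hQ (lb_vec hL j).1 (lb_vec hL j).2).add
      (triple (s := s) (hχ.c1.vec j) ?_ (hτ i j) hQ (lb_vec hL i).1 (lb_vec hL i).2)).add
      (triple (s := s) (hχ.c2.entry i j) ?_ (hτ i j) hQ (fun x hx => hL.h0 x hx)
        (fun x hx y hy => hL.h1 x hx y hy))
    · intro x hx; rw [hs1 x hx]; rfl
    · intro x hx; rw [hs1 x hx]; rfl
    · intro x hx; rw [hs2 x hx]; rfl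
  · refine double (s := s) hχ.cx ?_ hQ (fun x hx => hL.h0 x hx)
        (fun x hx y hy => hL.h1 x hx y hy)
    intro x hx; rw [hs1 x hx]; rfl

/-- qualitative bound of `D²(χh)` -/
theorem cut_qual {a X Q V : ℝ} {s : Set E} {χ h : E → ℝ} (hχ : Cut a X χ)
    (hs1 : ∀ x, x ∉ s → fderiv ℝ χ x = 0) (hs2 : ∀ x, x ∉ s → D2 χ x = 0)
    (hh : ContDiff ℝ 2 h) (hV : HB a V (D2 h)) (hL : LB a Q s h) (hQ : 0 ≤ Q) :
    ∃ W, HB a W (D2 (fun x => χ x * h x)) := by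
  refine ⟨_, HB.of_entry (M := 2 * (X * V) + 2 * (X * Q) + 2 * (X * Q) + 2 * (X * Q))
    fun i j => ?_⟩
  have e : (fun x => D2 (fun x => χ x * h x) x (ee i) (ee j))
      = fun x => χ x * D2 h x (ee i) (ee j) + fderiv ℝ χ x (ee i) * fderiv ℝ h x (ee j)
      + fderiv ℝ χ x (ee j) * fderiv ℝ h x (ee i) + D2 χ x (ee i) (ee j) * h x := by
    funext x
    rw [D2_prod hχ.sm hh]
    ring
  rw [e]
  refine (((hχ.c0.mul (hV.entry i j)).add
    (double (s := s) (hχ.c1.vec i) ?_ hQ (lb_vec hL j).1 (lb_vec hL j).2)).add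
    (double (s := s) (hχ.c1.vec j) ?_ hQ (lb_vec hL i).1 (lb_vec hL i).2)).add
    (double (s := s) (hχ.c2.entry i j) ?_ hQ (fun x hx => hL.h0 x hx)
        (fun x hx y hy => hL.h1 x hx y hy))
  · intro x hx; rw [hs1 x hx]; rfl
  · intro x hx; rw [hs1 x hx]; rfl
  · intro x hx; rw [hs2 x hx]; rfl

/-- The cut-off estimate. -/
theorem cut_est {a X M N Q C0 lam V : ℝ} (hC0 : 0 < C0) {A : Matrix (Fin n) (Fin n) ℝ}
    {τ : E → Matrix (Fin n) (Fin n) ℝ} {s : Set E} {χ h : E → ℝ}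
    (hA : SA a C0 lam A) (hχ : Cut a X χ)
    (hs1 : ∀ x, x ∉ s → fderiv ℝ χ x = 0) (hs2 : ∀ x, x ∉ s → D2 χ x = 0)
    (hτ : ∀ i j, HB a M (fun x => τ x i j)) (hh : ContDiff ℝ 2 h) (hV : HB a V (D2 h))
    (hL : LB a Q s h) (hQ : 0 ≤ Q) (hf : HB a N (Lop τ lam h))
    (habs : ∀ W, HB a W (D2 (fun x => χ x * h x)) →
      HB a (W / (2 * C0)) (fun x => ∑ i, ∑ j,
        D2 (fun x => χ x * h x) x (ee i) (ee j) * (A i j - τ x i j))) :
    HB a (2 * (C0 * (2 * (X * N) + (n : ℝ) ^ 2 * (9 * (X * (M * Q))) + 2 * (X * Q))))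
      (D2 (fun x => χ x * h x)) := by
  obtain ⟨V0, hV0⟩ := cut_qual hχ hs1 hs2 hh hV hL hQ
  refine HB.absorb hV0 (fun W hW => ?_)
  have h1 := (habs W hW).add (lower_HB hχ hs1 hs2 hτ hL hQ hf)
  have h2 : HB a (W / (2 * C0) + (2 * (X * N) + (n : ℝ) ^ 2 * (9 * (X * (M * Q))) + 2 * (X * Q)))
      (Lop (fun _ => A) lam (fun x => χ x * h x)) := by
    have e : Lop (fun _ => A) lam (fun x => χ x * h x) = _ :=
      funext (fun x => Lop_cut (τ := τ) (lam := lam) hχ.sm hh A x)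
    rw [e]
    exact h1
  have h3 := hA _ _ (hχ.sm.mul hh) ⟨V0, hV0.bdd⟩ h2
  refine h3.mono (le_of_eq ?_)
  field_simp
  ring

end Crest.Agent.R238.Sch
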