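import Crest.Agent.R238.Sch4

/-!
Row 238, module H3 (B): entry form of the a priori Schauder estimate.
-/

namespace Crest.Agent.R238.Sch

open Set Metric

variable {n : ℕ}

local notation "E" => EuclideanSpace ℝ (Fin n)

/-- admissible (symmetric, elliptic) matrices -/
def Adm (lo hi : ℝ) (A : Matrix (Fin n) (Fin n) ℝ) : Prop :=
  (∀ i j, A i j = A j i) ∧
    ∀ v : Fin n → ℝ, lo * ∑ i, v i ^ 2 ≤ ∑ i, ∑ j, A i j * v i * v j ∧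
      ∑ i, ∑ j, A i j * v i * v j ≤ hi * ∑ i, v i ^ 2

theorem adm_one {lo hi : ℝ} (hlo : lo ≤ 1) (hhi : 1 ≤ hi) :
    Adm lo hi (1 : Matrix (Fin n) (Fin n) ℝ) := by
  refine ⟨fun i j => ?_, fun v => ?_⟩
  · simp [Matrix.one_apply, eq_comm]
  · have e : ∑ i, ∑ j, (1 : Matrix (Fin n) (Fin n) ℝ) i j * v i * v j = ∑ i, v i ^ 2 := by
      refine Finset.sum_congr rfl fun i _ => ?_
      simp only [Matrix.one_apply, ite_mul, one_mul, zero_mul, Finset.sum_ite_eq,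
        Finset.mem_univ, if_true]
      ring
    have h0 : 0 ≤ ∑ i, v i ^ 2 := Finset.sum_nonneg fun i _ => sq_nonneg _
    rw [e]
    constructor <;> nlinarith

/-- Hypothesis (A) in entry form, uniformly over the admissible constant matrices. -/
def AHyp (n : ℕ) (a lo hi lam C0 : ℝ) : Prop :=
  ∀ A : Matrix (Fin n) (Fin n) ℝ, Adm lo hi A →
    ∀ g : EuclideanSpace ℝ (Fin n) → ℝ, ContDiff ℝ 2 g →
      (∃ B, ∀ x i j, |D2 g x (ee i) (ee j)| ≤ B) → ∀ N : ℝ, 0 ≤ N →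
      (∀ x, |Lop (fun _ => A) lam g x| ≤ N) →
      (∀ x y, |Lop (fun _ => A) lam g x - Lop (fun _ => A) lam g y| ≤ N * ‖x - y‖ ^ a) →
      ∀ i j, (∀ x, |D2 g x (ee i) (ee j)| ≤ C0 * N) ∧
        ∀ x y, |D2 g x (ee i) (ee j) - D2 g y (ee i) (ee j)| ≤ C0 * N * ‖x - y‖ ^ a

theorem AHyp.sa {a lo hi lam C0 : ℝ} (hC0 : 0 ≤ C0) (h : AHyp n a lo hi lam C0)
    (A : Matrix (Fin n) (Fin n) ℝ) (hA : Adm lo hi A) :
    SA a ((n : ℝ) ^ 2 * C0 + 1) lam A := by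
  intro g N hg hB hN
  obtain ⟨C, hC⟩ := hB
  have h1 := h A hA g hg ⟨C, fun x i j => (norm_entry_le _ i j).trans (hC x)⟩ N hN.nonneg
    hN.bdd hN.hol
  have h2 : HB a ((n : ℝ) ^ 2 * (C0 * N)) (D2 g) :=
    HB.of_entry (fun i j => ⟨(h1 i j).1, (h1 i j).2⟩)
  refine h2.mono ?_
  have := hN.nonneg
  nlinarith

/-- (B) in entry form. -/
theorem schauder_B_entry {a lo hi lam C0 : ℝ} (ha : 0 < a) (ha1 : a < 1) (hlo : lo ≤ 1)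
    (hhi : 1 ≤ hi) (hC0 : 0 ≤ C0) (hA : AHyp n a lo hi lam C0) :
    ∃ eps0 : ℝ, 0 < eps0 ∧ ∀ M R : ℝ, 0 ≤ M → 0 < R → ∃ C : ℝ, 0 ≤ C ∧
      ∀ (τ : E → Matrix (Fin n) (Fin n) ℝ) (h : E → ℝ) (N S : ℝ),
        (∀ x, Adm lo hi (τ x)) →
        (∀ i j x, |τ x i j| ≤ M) → (∀ i j x y, |τ x i j - τ y i j| ≤ M * ‖x - y‖ ^ a) →
        (∀ i j x, R ≤ ‖x‖ → |τ x i j - (1 : Matrix (Fin n) (Fin n) ℝ) i j| ≤ eps0) →
        (∀ i j x y, R ≤ ‖x‖ → R ≤ ‖y‖ → |τ x i j - τ y i j| ≤ eps0 * ‖x - y‖ ^ a) →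
        ContDiff ℝ 2 h →
        (∃ V, ∀ i j, (∀ x, |D2 h x (ee i) (ee j)| ≤ V) ∧
          ∀ x y, |D2 h x (ee i) (ee j) - D2 h y (ee i) (ee j)| ≤ V * ‖x - y‖ ^ a) →
        (∀ x, |Lop τ lam h x| ≤ N) →
        (∀ x y, |Lop τ lam h x - Lop τ lam h y| ≤ N * ‖x - y‖ ^ a) →
        (∀ x, ‖x‖ ≤ 3 * R + 3 → |h x| ≤ S) →
        (∀ x, ‖D2 h x‖ ≤ C * (N + S)) ∧
        (∀ x y, ‖D2 h x - D2 h y‖ ≤ C * (N + S) * ‖x - y‖ ^ a) ∧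
        ∀ i j, (∀ x, |D2 h x (ee i) (ee j)| ≤ C * (N + S)) ∧
          ∀ x y, |D2 h x (ee i) (ee j) - D2 h y (ee i) (ee j)| ≤ C * (N + S) * ‖x - y‖ ^ a := by
  obtain ⟨eps0, heps0, H⟩ := schauder_B (n := n) (a := a) (C0 := (n : ℝ) ^ 2 * C0 + 1) (lam := lam)
    ha ha1 (by positivity) (Adm lo hi) (adm_one hlo hhi) (fun A hAA => hA.sa hC0 A hAA)
  refine ⟨eps0, heps0, fun M R hM hR => ?_⟩
  obtain ⟨C, hC, H1⟩ := H M R hM hR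
  refine ⟨C, hC, fun τ h N S hAdm hτ0 hτ1 hf0 hf1 hh hV hN0 hN1 hS => ?_⟩
  obtain ⟨V, hV⟩ := hV
  have h1 := H1 τ h N S _ hAdm (fun i j => ⟨hτ0 i j, hτ1 i j⟩) hf0 hf1 hh
    (HB.of_entry (fun i j => ⟨(hV i j).1, (hV i j).2⟩)) ⟨hN0, hN1⟩ hS
  exact ⟨h1.bdd, h1.hol, fun i j => ⟨(h1.entry i j).bdd, (h1.entry i j).hol⟩⟩

end Crest.Agent.R238.Sch
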