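import Crest.Agent.R238.HolDefs

/-!
Row 238, node H3 (Schauder a priori estimate (B) of note 13508), helper452's part:
generic lemmas on `HB`: algebra, product with a factor small only on the support of the other
factor, absorption, cut-off functions, far estimate.
-/

set_option autoImplicit false

open MeasureTheory Set Filter
open scoped ContDiff Topology

namespace Crest.Agent.R238.SF

open Crest.Agent.R238

variable {n : ℕ}

/-! ### algebra of `HB` -/

theorem hb_nonneg {a M : ℝ} {f : E n → ℝ} (h : HB a M f) : 0 ≤ M :=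
  (abs_nonneg _).trans (h.1 0)

theorem hb_mono {a M M' : ℝ} {f : E n → ℝ} (h : HB a M f) (hM : M ≤ M') : HB a M' f :=
  ⟨fun x => (h.1 x).trans hM, fun x y => (h.2 x y).trans
    (mul_le_mul_of_nonneg_right hM (Real.rpow_nonneg (norm_nonneg _) a))⟩

theorem hb_add {a M N : ℝ} {f g : E n → ℝ} (hf : HB a M f) (hg : HB a N g) :
    HB a (M + N) (fun x => f x + g x) := by
  refine ⟨fun x => (abs_add_le _ _).trans (add_le_add (hf.1 x) (hg.1 x)), fun x y => ?_⟩
  have h1 : f x + g x - (f y + g y) = (f x - f y) + (g x - g y) := by ring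
  rw [h1, add_mul]
  exact (abs_add_le _ _).trans (add_le_add (hf.2 x y) (hg.2 x y))

theorem hb_neg {a M : ℝ} {f : E n → ℝ} (hf : HB a M f) : HB a M (fun x => - f x) := by
  refine ⟨fun x => by rw [abs_neg]; exact hf.1 x, fun x y => ?_⟩
  have h1 : - f x - - f y = -(f x - f y) := by ring
  rw [h1, abs_neg]; exact hf.2 x y

theorem hb_sub {a M N : ℝ} {f g : E n → ℝ} (hf : HB a M f) (hg : HB a N g) :
    HB a (M + N) (fun x => f x - g x) := by
  have := hb_add hf (hb_neg hg)
  simpa [sub_eq_add_neg] using this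

theorem hb_cmul {a M : ℝ} {f : E n → ℝ} (c : ℝ) (hf : HB a M f) :
    HB a (|c| * M) (fun x => c * f x) := by
  refine ⟨fun x => by rw [abs_mul]; exact mul_le_mul_of_nonneg_left (hf.1 x) (abs_nonneg c),
    fun x y => ?_⟩
  have h1 : c * f x - c * f y = c * (f x - f y) := by ring
  rw [h1, abs_mul, mul_assoc]; exact mul_le_mul_of_nonneg_left (hf.2 x y) (abs_nonneg c)

theorem hb_mul {a M N : ℝ} {f g : E n → ℝ} (hf : HB a M f) (hg : HB a N g) :
    HB a (2 * (M * N)) (fun x => f x * g x) := by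
  have hM := hb_nonneg hf
  have hN := hb_nonneg hg
  refine ⟨fun x => ?_, fun x y => ?_⟩
  · rw [abs_mul]
    have : |f x| * |g x| ≤ M * N := mul_le_mul (hf.1 x) (hg.1 x) (abs_nonneg _) hM
    nlinarith [mul_nonneg hM hN]
  · have h1 : f x * g x - f y * g y = f x * (g x - g y) + (f x - f y) * g y := by ring
    rw [h1]
    have hr := Real.rpow_nonneg (norm_nonneg (x - y)) a
    have h2 : |f x * (g x - g y)| ≤ M * (N * ‖x - y‖ ^ a) := by
      rw [abs_mul]; exact mul_le_mul (hf.1 x) (hg.2 x y) (abs_nonneg _) hM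
    have h3 : |(f x - f y) * g y| ≤ (M * ‖x - y‖ ^ a) * N := by
      rw [abs_mul]; exact mul_le_mul (hf.2 x y) (hg.1 y) (abs_nonneg _) (mul_nonneg hM hr)
    have := abs_add_le (f x * (g x - g y)) ((f x - f y) * g y)
    linarith

theorem hb_zero {a : ℝ} : HB a 0 (fun _ : E n => (0 : ℝ)) :=
  ⟨fun _ => by simp, fun x y => by simp⟩

theorem hb_const {a : ℝ} (c : ℝ) : HB a |c| (fun _ : E n => c) :=
  ⟨fun _ => le_rfl, fun x y => by
    simp only [sub_self, abs_zero]
    exact mul_nonneg (abs_nonneg _) (Real.rpow_nonneg (norm_nonneg _) a)⟩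

theorem hb_sum {a : ℝ} {ι : Type*} (s : Finset ι) {M : ι → ℝ} {f : ι → E n → ℝ}
    (h : ∀ i ∈ s, HB a (M i) (f i)) : HB a (∑ i ∈ s, M i) (fun x => ∑ i ∈ s, f i x) := by
  classical
  induction s using Finset.induction_on with
  | empty => simpa using hb_zero (n := n) (a := a)
  | insert b s hb ih =>
    have h1 := hb_add (h b (Finset.mem_insert_self b s))
      (ih fun i hi => h i (Finset.mem_insert_of_mem hi))
    simpa [Finset.sum_insert hb] using h1

theorem hb_sumc {a : ℝ} {ι : Type*} [Fintype ι] {M : ℝ} {f : ι → E n → ℝ}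
    (h : ∀ i, HB a M (f i)) : HB a (Fintype.card ι * M) (fun x => ∑ i, f i x) := by
  have := hb_sum (n := n) Finset.univ (M := fun _ => M) (f := f) (fun i _ => h i)
  simpa using this

theorem hb_sum2c {a : ℝ} {M : ℝ} {f : Fin n → Fin n → E n → ℝ}
    (h : ∀ i j, HB a M (f i j)) :
    HB a ((n : ℝ) ^ 2 * M) (fun x => ∑ i, ∑ j, f i j x) := by
  have := hb_sumc (n := n) (f := fun i x => ∑ j, f i j x) (M := (n : ℝ) * M)
    (fun i => by simpa using hb_sumc (n := n) (f := f i) (h i))
  have h2 : (Fintype.card (Fin n) : ℝ) * ((n : ℝ) * M) = (n : ℝ) ^ 2 * M := by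
    rw [Fintype.card_fin]; ring
  rwa [h2] at this

/-- closedness of the class in the constant -/
theorem hb_lim {a M : ℝ} {f : E n → ℝ} (h : ∀ d : ℝ, 0 < d → HB a (M + d) f) :
    HB a M f := by
  refine ⟨fun x => le_of_forall_pos_le_add fun d hd => (h d hd).1 x, fun x y => ?_⟩
  have hr := Real.rpow_nonneg (norm_nonneg (x - y)) a
  refine le_of_forall_pos_le_add fun d hd => ?_
  have h1 := (h (d / (‖x - y‖ ^ a + 1)) (by positivity)).2 x y
  have h2 : d / (‖x - y‖ ^ a + 1) * ‖x - y‖ ^ a ≤ d := by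
    rw [div_mul_eq_mul_div, div_le_iff₀ (by positivity)]
    nlinarith
  nlinarith

/-- absorption of the top norm -/
theorem absorb {a : ℝ} {ι : Type*} {F : ι → E n → ℝ} {M : ℝ} (hM : 0 ≤ M)
    (h0 : ∃ K, ∀ i, HB a K (F i))
    (step : ∀ K, 0 ≤ K → (∀ i, HB a K (F i)) → ∀ i, HB a (M + K / 2) (F i)) :
    ∀ i, HB a (2 * M) (F i) := by
  obtain ⟨K0, hK0⟩ := h0
  have key : ∀ k : ℕ, ∀ i, HB a (2 * M + |K0| / 2 ^ k) (F i) := by
    intro k
    induction k with
    | zero =>
      intro i
      refine hb_mono (hK0 i) ?_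
      have := le_abs_self K0
      simp only [pow_zero, div_one]
      linarith
    | succ k ih =>
      intro i
      have hnn : 0 ≤ 2 * M + |K0| / 2 ^ k := by positivity
      refine hb_mono (step _ hnn ih i) ?_
      rw [pow_succ]
      have : |K0| / (2 ^ k * 2) = |K0| / 2 ^ k / 2 := by rw [div_div]
      rw [this]
      linarith
  intro i
  refine hb_lim fun d hd => ?_
  obtain ⟨k, hk⟩ := exists_nat_gt (|K0| / d)
  have hk2 : |K0| / 2 ^ k ≤ d := by
    rw [div_le_iff₀ (by positivity)]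
    have h1 : |K0| < k * d := by rwa [div_lt_iff₀ hd] at hk
    have h2 : (k : ℝ) ≤ 2 ^ k := by
      exact_mod_cast (Nat.lt_two_pow_self).le
    nlinarith
  exact hb_mono (key k i) (by linarith)

/-- local class -/
def HBon (a M : ℝ) (S : Set (E n)) (f : E n → ℝ) : Prop :=
  (∀ x ∈ S, |f x| ≤ M) ∧ ∀ x ∈ S, ∀ y ∈ S, |f x - f y| ≤ M * ‖x - y‖ ^ a

theorem hb_on {a M : ℝ} {f : E n → ℝ} (h : HB a M f) (S : Set (E n)) : HBon a M S f :=
  ⟨fun x _ => h.1 x, fun x _ y _ => h.2 x y⟩

/-- product where one factor is controlled only on a set carrying the other factor -/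
theorem HBon.mul {a e K : ℝ} {S : Set (E n)} {B F : E n → ℝ} (he : 0 ≤ e)
    (hB : HBon a e S B) (hF : HB a K F) (h0 : ∀ x ∉ S, F x = 0) :
    HB a (2 * (e * K)) (fun x => B x * F x) := by
  have hK := hb_nonneg hF
  have heK := mul_nonneg he hK
  refine ⟨fun x => ?_, fun x y => ?_⟩
  · by_cases hx : x ∈ S
    · rw [abs_mul]
      have : |B x| * |F x| ≤ e * K := mul_le_mul (hB.1 x hx) (hF.1 x) (abs_nonneg _) he
      linarith
    · simp only [h0 x hx, mul_zero, abs_zero]; linarith
  · have hr := Real.rpow_nonneg (norm_nonneg (x - y)) a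
    have hr2 : 0 ≤ e * K * ‖x - y‖ ^ a := mul_nonneg heK hr
    by_cases hx : x ∈ S
    · by_cases hy : y ∈ S
      · have h1 : B x * F x - B y * F y = B x * (F x - F y) + (B x - B y) * F y := by ring
        rw [h1]
        have h2 : |B x * (F x - F y)| ≤ e * (K * ‖x - y‖ ^ a) := by
          rw [abs_mul]; exact mul_le_mul (hB.1 x hx) (hF.2 x y) (abs_nonneg _) he
        have h3 : |(B x - B y) * F y| ≤ (e * ‖x - y‖ ^ a) * K := by
          rw [abs_mul]; exact mul_le_mul (hB.2 x hx y hy) (hF.1 y) (abs_nonneg _)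
            (mul_nonneg he hr)
        have := abs_add_le (B x * (F x - F y)) ((B x - B y) * F y)
        linarith
      · have h1 : B x * F x - B y * F y = B x * (F x - F y) := by rw [h0 y hy]; ring
        rw [h1]
        have h2 : |B x * (F x - F y)| ≤ e * (K * ‖x - y‖ ^ a) := by
          rw [abs_mul]; exact mul_le_mul (hB.1 x hx) (hF.2 x y) (abs_nonneg _) he
        linarith
    · by_cases hy : y ∈ S
      · have h1 : B x * F x - B y * F y = B y * (F x - F y) := by rw [h0 x hx]; ring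
        rw [h1]
        have h2 : |B y * (F x - F y)| ≤ e * (K * ‖x - y‖ ^ a) := by
          rw [abs_mul]; exact mul_le_mul (hB.1 y hy) (hF.2 x y) (abs_nonneg _) he
        linarith
      · have h1 : B x * F x - B y * F y = 0 := by rw [h0 x hx, h0 y hy]; ring
        rw [h1, abs_zero]
        linarith

end Crest.Agent.R238.SF
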