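/-
Row 238, module H3 (Schauder estimate by cutoffs), part SchInt (helper839): interpolation.
* `norm_fderiv_sub_le`, `taylor_one` : Lipschitz gradient, Taylor estimate
* `grad_int`     : `‖∇h‖ ≤ ε sup|D²h| + K sup|h|` on balls
* `hb_cut_fun`   : `HB a (ε B + K m) (φ h)`
* `hb_cut_grad`  : `HB a (ε B + K m) (φ ∂ᵢh)`
for `φ` bounded, Lipschitz, supported in a ball.
-/
import Crest.Agent.R238.HolDefs

set_option autoImplicit false
open MeasureTheory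

namespace Crest.Agent.R238.SchI

variable {n : ℕ}

/-- operator norm of the second derivative from the entries of the Hessian -/
lemma norm_fderiv2_le {h : E n → ℝ} {B : ℝ} (hB : ∀ x i j, |Hs h x i j| ≤ B) (hB0 : 0 ≤ B) (x : E n) :
    ‖fderiv ℝ (fderiv ℝ h) x‖ ≤ (n : ℝ) ^ 2 * B := by
  have hexp : ∀ v : E n, v = ∑ i, v i • (EuclideanSpace.single i (1:ℝ) : E n) := fun v => by
    have := (EuclideanSpace.basisFun (Fin n) ℝ).sum_repr v
    simpa using this.symm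
  refine ContinuousLinearMap.opNorm_le_bound _ (by positivity) fun v => ?_
  refine ContinuousLinearMap.opNorm_le_bound _ (by positivity) fun w => ?_
  have e1 : fderiv ℝ (fderiv ℝ h) x v w = ∑ i, ∑ j, v i * w j * Hs h x i j := by
    conv_lhs => rw [hexp v, hexp w]
    simp only [map_sum, map_smul, _root_.sum_apply, _root_.smul_apply,
      smul_eq_mul, Hs, ee]
    rw [Finset.sum_comm]
    refine Finset.sum_congr rfl fun i _ => ?_
    rw [Finset.mul_sum]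
    refine Finset.sum_congr rfl fun j _ => ?_
    ring
  rw [e1, Real.norm_eq_abs]
  calc |∑ i, ∑ j, v i * w j * Hs h x i j| ≤ ∑ i, ∑ j, |v i * w j * Hs h x i j| := by
        refine (Finset.abs_sum_le_sum_abs _ _).trans (Finset.sum_le_sum fun i _ => ?_)
        exact Finset.abs_sum_le_sum_abs _ _
    _ ≤ ∑ _i : Fin n, ∑ _j : Fin n, ‖v‖ * ‖w‖ * B := by
        refine Finset.sum_le_sum fun i _ => Finset.sum_le_sum fun j _ => ?_
        rw [abs_mul, abs_mul]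
        have h1 : |v i| ≤ ‖v‖ := PiLp.norm_apply_le v i
        have h2 : |w j| ≤ ‖w‖ := PiLp.norm_apply_le w j
        exact mul_le_mul (mul_le_mul h1 h2 (abs_nonneg _) (norm_nonneg _)) (hB x i j) (abs_nonneg _)
          (by positivity)
    _ = (n : ℝ) ^ 2 * B * ‖v‖ * ‖w‖ := by
        simp; ring

lemma norm_fderiv_sub_le {h : E n → ℝ} {B : ℝ} (hh : ContDiff ℝ 2 h)
    (hB : ∀ x i j, |Hs h x i j| ≤ B) (hB0 : 0 ≤ B) (x y : E n) :
    ‖fderiv ℝ h y - fderiv ℝ h x‖ ≤ (n : ℝ) ^ 2 * B * ‖y - x‖ := by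
  have hd : Differentiable ℝ (fderiv ℝ h) :=
    (hh.fderiv_right (m := 1) (by norm_num)).differentiable (by norm_num)
  exact convex_univ.norm_image_sub_le_of_norm_fderiv_le (fun z _ => hd z)
    (fun z _ => norm_fderiv2_le hB hB0 z) (Set.mem_univ _) (Set.mem_univ _)

/-- first order Taylor estimate -/
lemma taylor_one {h : E n → ℝ} {B : ℝ} (hh : ContDiff ℝ 2 h)
    (hB : ∀ x i j, |Hs h x i j| ≤ B) (hB0 : 0 ≤ B) (x z : E n) :
    |h (x + z) - h x - fderiv ℝ h x z| ≤ (n : ℝ) ^ 2 * B * ‖z‖ ^ 2 := by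
  have hd : Differentiable ℝ h := hh.differentiable (by norm_num)
  have key := (convex_closedBall x ‖z‖).norm_image_sub_le_of_norm_fderiv_le' (f := h)
    (φ := fderiv ℝ h x) (C := (n : ℝ) ^ 2 * B * ‖z‖) (x := x) (y := x + z)
    (fun y _ => hd y) (fun y hy => ?_) (Metric.mem_closedBall_self (norm_nonneg _))
    (by simp)
  · rw [add_sub_cancel_left, Real.norm_eq_abs] at key
    calc _ ≤ _ := key
      _ = _ := by ring
  · refine (norm_fderiv_sub_le hh hB hB0 x y).trans ?_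
    rw [Metric.mem_closedBall, dist_eq_norm] at hy
    exact mul_le_mul_of_nonneg_left hy (by positivity)

/-- pointwise gradient bound at scale `r ∈ (0,1]` -/
lemma grad_scale {h : E n → ℝ} {B m ρ : ℝ} (hh : ContDiff ℝ 2 h)
    (hB : ∀ x i j, |Hs h x i j| ≤ B) (hB0 : 0 ≤ B)
    (hm : ∀ x : E n, ‖x‖ ≤ ρ + 1 → |h x| ≤ m) {r : ℝ} (hr0 : 0 < r) (hr1 : r ≤ 1)
    {x : E n} (hx : ‖x‖ ≤ ρ) :
    ‖fderiv ℝ h x‖ ≤ (n : ℝ) ^ 2 * B * r + 2 * m / r := by
  have hm0 : 0 ≤ m := (abs_nonneg _).trans (hm x (by linarith))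
  refine ContinuousLinearMap.opNorm_le_bound _ (by positivity) fun v => ?_
  by_cases hv : v = 0
  · subst hv; simp
  have hvn : 0 < ‖v‖ := norm_pos_iff.2 hv
  set z : E n := (r / ‖v‖) • v with hz
  have hzn : ‖z‖ = r := by
    rw [hz, norm_smul, Real.norm_of_nonneg (by positivity)]
    field_simp
  have h1 := taylor_one hh hB hB0 x z
  have h2 := hm x (by linarith)
  have h3 := hm (x + z) ((norm_add_le _ _).trans (by linarith))
  have h4 : |fderiv ℝ h x z| ≤ (n : ℝ) ^ 2 * B * r ^ 2 + 2 * m := by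
    rw [hzn] at h1
    rw [abs_le] at h1 h2 h3 ⊢
    constructor <;> linarith [h1.1, h1.2, h2.1, h2.2, h3.1, h3.2]
  have h5 : fderiv ℝ h x z = (r / ‖v‖) * fderiv ℝ h x v := by
    rw [hz, map_smul, smul_eq_mul]
  rw [h5, abs_mul, abs_of_pos (by positivity)] at h4
  rw [Real.norm_eq_abs]
  have h6 : |fderiv ℝ h x v| = (r / ‖v‖ * |fderiv ℝ h x v|) * (‖v‖ / r) := by
    field_simp
  rw [h6]
  calc _ ≤ ((n : ℝ) ^ 2 * B * r ^ 2 + 2 * m) * (‖v‖ / r) :=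
        mul_le_mul_of_nonneg_right h4 (by positivity)
    _ = ((n : ℝ) ^ 2 * B * r + 2 * m / r) * ‖v‖ := by
        field_simp

/-- (S1) interpolation of the gradient. -/
theorem grad_int (n : ℕ) (ρ ε : ℝ) (hε : 0 < ε) : ∃ K : ℝ, 0 ≤ K ∧ ∀ h : E n → ℝ,
    ContDiff ℝ 2 h → ∀ B m : ℝ, 0 ≤ B → (∀ x i j, |Hs h x i j| ≤ B) →
    (∀ x : E n, ‖x‖ ≤ ρ + 1 → |h x| ≤ m) →
    ∀ x : E n, ‖x‖ ≤ ρ → ‖fderiv ℝ h x‖ ≤ ε * B + K * m := by
  set r : ℝ := min 1 (ε / ((n : ℝ) ^ 2 + 1)) with hr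
  have hr0 : 0 < r := lt_min one_pos (by positivity)
  have hr1 : r ≤ 1 := min_le_left _ _
  have hr2 : (n : ℝ) ^ 2 * r ≤ ε := by
    have h1 : r ≤ ε / ((n : ℝ) ^ 2 + 1) := min_le_right _ _
    have h2 : (0:ℝ) < (n : ℝ) ^ 2 + 1 := by positivity
    rw [le_div_iff₀ h2] at h1
    nlinarith
  refine ⟨2 / r, by positivity, fun h hh B m hB0 hB hm x hx => ?_⟩
  refine (grad_scale hh hB hB0 hm hr0 hr1 hx).trans ?_
  have h1 : (n : ℝ) ^ 2 * B * r ≤ ε * B := by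
    calc (n : ℝ) ^ 2 * B * r = ((n : ℝ) ^ 2 * r) * B := by ring
      _ ≤ ε * B := mul_le_mul_of_nonneg_right hr2 hB0
  have h2 : 2 * m / r = 2 / r * m := by ring
  linarith

/-- Hölder bound of a Lipschitz function with a sup bound. -/
lemma holder_of_lip {f : E n → ℝ} {a S L t : ℝ} (ha0 : 0 < a) (ha1 : a < 1)
    (ht : 0 < t) (hS : ∀ x, |f x| ≤ S) (hL : ∀ x y, |f x - f y| ≤ L * ‖x - y‖) (x y : E n) :
    |f x - f y| ≤ (L * t ^ (1 - a) + 2 * S * t ^ (-a)) * ‖x - y‖ ^ a := by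
  have hS0 : 0 ≤ S := (abs_nonneg _).trans (hS x)
  have hL0 : 0 ≤ L * ‖x - y‖ := (abs_nonneg _).trans (hL x y)
  have hp : 0 ≤ ‖x - y‖ ^ a := Real.rpow_nonneg (norm_nonneg _) a
  by_cases hxy : x = y
  · subst hxy
    simp [Real.zero_rpow ha0.ne']
  have hn : 0 < ‖x - y‖ := norm_pos_iff.2 (sub_ne_zero.2 hxy)
  have hL1 : 0 ≤ L := by
    by_contra hneg
    push Not at hneg
    nlinarith
  have ht1 : 0 < t ^ (1 - a) := Real.rpow_pos_of_pos ht _
  have ht2 : 0 < t ^ (-a) := Real.rpow_pos_of_pos ht _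
  rcases le_or_gt ‖x - y‖ t with hle | hgt
  · have h1 : ‖x - y‖ = ‖x - y‖ ^ (1 - a) * ‖x - y‖ ^ a := by
      rw [← Real.rpow_add hn]; simp
    have h2 : ‖x - y‖ ^ (1 - a) ≤ t ^ (1 - a) :=
      Real.rpow_le_rpow hn.le hle (by linarith)
    calc |f x - f y| ≤ L * ‖x - y‖ := hL x y
      _ = L * ‖x - y‖ ^ (1 - a) * ‖x - y‖ ^ a := by
          conv_lhs => rw [h1]
          ring
      _ ≤ L * t ^ (1 - a) * ‖x - y‖ ^ a :=
          mul_le_mul_of_nonneg_right (mul_le_mul_of_nonneg_left h2 hL1) hp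
      _ ≤ _ := by
          refine mul_le_mul_of_nonneg_right ?_ hp
          have : 0 ≤ 2 * S * t ^ (-a) := by positivity
          linarith
  · have h1 : |f x - f y| ≤ 2 * S := by
      have h2 := hS x
      have h3 := hS y
      rw [abs_le] at h2 h3 ⊢
      constructor <;> linarith [h2.1, h2.2, h3.1, h3.2]
    have h4 : 1 ≤ t ^ (-a) * ‖x - y‖ ^ a := by
      rw [Real.rpow_neg ht.le, inv_mul_eq_div, le_div_iff₀ (Real.rpow_pos_of_pos ht a), one_mul]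
      exact Real.rpow_le_rpow ht.le hgt.le ha0.le
    calc |f x - f y| ≤ 2 * S * 1 := by linarith
      _ ≤ 2 * S * (t ^ (-a) * ‖x - y‖ ^ a) := mul_le_mul_of_nonneg_left h4 (by linarith)
      _ = 2 * S * t ^ (-a) * ‖x - y‖ ^ a := by ring
      _ ≤ _ := by
          refine mul_le_mul_of_nonneg_right ?_ hp
          have : 0 ≤ L * t ^ (1 - a) := by positivity
          linarith

/-- The common step: a function `φ g` where `g` is bounded by `S₁` and `L₁`-Lipschitz on the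
ball of radius `ρ + 1`. -/
lemma cut_lip {φ g : E n → ℝ} {ρ P S L : ℝ} (hP0 : 0 ≤ P) (hφ : ∀ x, |φ x| ≤ P)
    (hφL : ∀ x y, |φ x - φ y| ≤ P * ‖x - y‖) (hsupp : ∀ x : E n, ρ < ‖x‖ → φ x = 0)
    (hS0 : 0 ≤ S) (hS : ∀ x : E n, ‖x‖ ≤ ρ → |g x| ≤ S)
    (hL0 : 0 ≤ L) (hL : ∀ x y : E n, ‖x‖ ≤ ρ → ‖y‖ ≤ ρ → |g x - g y| ≤ L * ‖x - y‖) :
    (∀ x, |φ x * g x| ≤ P * S) ∧
      ∀ x y, |φ x * g x - φ y * g y| ≤ (P * S + P * L) * ‖x - y‖ := by
  constructor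
  · intro x
    rcases le_or_gt ‖x‖ ρ with h | h
    · rw [abs_mul]
      exact mul_le_mul (hφ x) (hS x h) (abs_nonneg _) hP0
    · rw [hsupp x h]; simp; positivity
  · intro x y
    have hPS : 0 ≤ P * S := by positivity
    have hPL : 0 ≤ P * L := by positivity
    have hn : 0 ≤ ‖x - y‖ := norm_nonneg _
    rcases le_or_gt ‖x‖ ρ with hx | hx <;> rcases le_or_gt ‖y‖ ρ with hy | hy
    · have e : φ x * g x - φ y * g y = (φ x - φ y) * g x + φ y * (g x - g y) := by ring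
      rw [e]
      calc _ ≤ |(φ x - φ y) * g x| + |φ y * (g x - g y)| := abs_add_le _ _
        _ ≤ (P * ‖x - y‖) * S + P * (L * ‖x - y‖) := by
            rw [abs_mul, abs_mul]
            exact add_le_add
              (mul_le_mul (hφL x y) (hS x hx) (abs_nonneg _) (by positivity))
              (mul_le_mul (hφ y) (hL x y hx hy) (abs_nonneg _) hP0)
        _ = _ := by ring
    · have e : φ x * g x - φ y * g y = (φ x - φ y) * g x := by rw [hsupp y hy]; ring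
      rw [e, abs_mul]
      calc _ ≤ (P * ‖x - y‖) * S := mul_le_mul (hφL x y) (hS x hx) (abs_nonneg _) (by positivity)
        _ ≤ _ := by nlinarith [mul_nonneg hPL hn]
    · have e : φ x * g x - φ y * g y = (φ x - φ y) * g y := by rw [hsupp x hx]; ring
      rw [e, abs_mul]
      calc _ ≤ (P * ‖x - y‖) * S := mul_le_mul (hφL x y) (hS y hy) (abs_nonneg _) (by positivity)
        _ ≤ _ := by nlinarith [mul_nonneg hPL hn]
    · rw [hsupp x hx, hsupp y hy]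
      simp
      positivity

/-- abstract interpolation: from `S ≤ δ B + K₀ m` (for every δ) and `L ≤ c B + ...` -/
lemma exists_scale (a P c ε : ℝ) (ha0 : 0 < a) (ha1 : a < 1) (hP : 0 ≤ P) (hc : 0 ≤ c)
    (hε : 0 < ε) : ∃ t δ : ℝ, 0 < t ∧ t ≤ 1 ∧ 0 < δ ∧ P * c * t ^ (1 - a) ≤ ε / 2 ∧
      P * δ * (1 + t ^ (1 - a) + 2 * t ^ (-a)) ≤ ε / 2 := by
  -- choose t
  obtain ⟨t, ht0, ht1, ht2⟩ : ∃ t : ℝ, 0 < t ∧ t ≤ 1 ∧ P * c * t ^ (1 - a) ≤ ε / 2 := by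
    set u : ℝ := min 1 (ε / 2 / (P * c + 1)) with hu
    have hu0 : 0 < u := lt_min one_pos (by positivity)
    refine ⟨u ^ (1 / (1 - a)), Real.rpow_pos_of_pos hu0 _,
      Real.rpow_le_one hu0.le (min_le_left _ _) (by
        have : 0 < 1 - a := by linarith
        positivity), ?_⟩
    rw [← Real.rpow_mul hu0.le, one_div, inv_mul_cancel₀ (by linarith), Real.rpow_one]
    have h1 : u ≤ ε / 2 / (P * c + 1) := min_le_right _ _
    have h2 : 0 < P * c + 1 := by positivity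
    rw [le_div_iff₀ h2] at h1
    nlinarith [mul_nonneg hP hc]
  have hq : 0 < 1 + t ^ (1 - a) + 2 * t ^ (-a) := by
    have := Real.rpow_pos_of_pos ht0 (1 - a)
    have := Real.rpow_pos_of_pos ht0 (-a)
    positivity
  set q : ℝ := 1 + t ^ (1 - a) + 2 * t ^ (-a) with hqdef
  refine ⟨t, ε / 2 / ((P + 1) * q), ht0, ht1, by positivity, ht2, ?_⟩
  have h1 : P * (ε / 2 / ((P + 1) * q)) * q = P / (P + 1) * (ε / 2) := by
    field_simp
  rw [h1]
  have h2 : P / (P + 1) ≤ 1 := by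
    rw [div_le_one (by positivity)]; linarith
  nlinarith

/-- from `HB`-data with a Lipschitz bound -/
lemma hb_of_lip {f : E n → ℝ} {a S L t M : ℝ} (ha0 : 0 < a) (ha1 : a < 1) (ht : 0 < t)
    (hS : ∀ x, |f x| ≤ S) (hL : ∀ x y, |f x - f y| ≤ L * ‖x - y‖)
    (h1 : S ≤ M) (h2 : L * t ^ (1 - a) + 2 * S * t ^ (-a) ≤ M) : HB a M f :=
  ⟨fun x => (hS x).trans h1, fun x y => (holder_of_lip ha0 ha1 ht hS hL x y).trans
    (mul_le_mul_of_nonneg_right h2 (Real.rpow_nonneg (norm_nonneg _) a))⟩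

/-- (S2)/(S3) in a common form: `g` with `|g| ≤ δ B + K m` and Lipschitz constant
`c B + K' m` on the ball. -/
lemma cut_common (a ρ P c ε : ℝ) (ha0 : 0 < a) (ha1 : a < 1) (hP : 0 ≤ P) (hc : 0 ≤ c)
    (hε : 0 < ε) : ∃ δ t : ℝ, 0 < δ ∧ 0 < t ∧ ∀ K0 : ℝ, 0 ≤ K0 → ∃ K : ℝ, 0 ≤ K ∧
      ∀ (g φ : E n → ℝ) (B m : ℝ), 0 ≤ B → 0 ≤ m →
      (∀ x : E n, ‖x‖ ≤ ρ → |g x| ≤ δ * B + K0 * m) →
      (∀ x y : E n, ‖x‖ ≤ ρ → ‖y‖ ≤ ρ → |g x - g y| ≤ (c * B + K0 * m) * ‖x - y‖) →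
      (∀ x, |φ x| ≤ P) → (∀ x y, |φ x - φ y| ≤ P * ‖x - y‖) →
      (∀ x : E n, ρ < ‖x‖ → φ x = 0) → HB a (ε * B + K * m) (fun x => φ x * g x) := by
  obtain ⟨t, δ, ht0, ht1, hδ, h1, h2⟩ := exists_scale a P c ε ha0 ha1 hP hc hε
  have hA : 0 < t ^ (1 - a) := Real.rpow_pos_of_pos ht0 _
  have hB' : 0 < t ^ (-a) := Real.rpow_pos_of_pos ht0 _
  set A : ℝ := t ^ (1 - a) with hAd
  set D : ℝ := t ^ (-a) with hDd
  refine ⟨δ, t, hδ, ht0, fun K0 hK0 => ⟨P * K0 * (1 + 2 * A + 2 * D), by positivity, ?_⟩⟩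
  intro g φ B m hB0 hm0 hg hgL hφ hφL hsupp
  obtain ⟨k1, k2⟩ := cut_lip hP hφ hφL hsupp (S := δ * B + K0 * m) (by positivity) hg
    (L := c * B + K0 * m) (by positivity) hgL
  refine hb_of_lip ha0 ha1 ht0 k1 k2 ?_ ?_
  · -- P (δ B + K0 m) ≤ ε B + K m
    have e1 : P * δ ≤ ε := by
      have : P * δ * 1 ≤ P * δ * (1 + A + 2 * D) :=
        mul_le_mul_of_nonneg_left (by linarith) (by positivity)
      linarith
    have e2 : P * K0 * m ≤ P * K0 * (1 + 2 * A + 2 * D) * m := by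
      refine mul_le_mul_of_nonneg_right ?_ hm0
      have : P * K0 * 1 ≤ P * K0 * (1 + 2 * A + 2 * D) :=
        mul_le_mul_of_nonneg_left (by linarith) (by positivity)
      linarith
    have e3 : P * δ * B ≤ ε * B := mul_le_mul_of_nonneg_right e1 hB0
    calc P * (δ * B + K0 * m) = P * δ * B + P * K0 * m := by ring
      _ ≤ _ := add_le_add e3 e2
  · rw [← hAd, ← hDd]
    have e1 : (P * (δ * B + K0 * m) + P * (c * B + K0 * m)) * A + 2 * (P * (δ * B + K0 * m)) * D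
        = (P * δ * (A + 2 * D) + P * c * A) * B + P * K0 * (2 * A + 2 * D) * m := by ring
    rw [e1]
    have e2 : P * δ * (A + 2 * D) + P * c * A ≤ ε := by
      have : P * δ * (A + 2 * D) ≤ P * δ * (1 + A + 2 * D) :=
        mul_le_mul_of_nonneg_left (by linarith) (by positivity)
      linarith
    have e3 : P * K0 * (2 * A + 2 * D) * m ≤ P * K0 * (1 + 2 * A + 2 * D) * m :=
      mul_le_mul_of_nonneg_right (mul_le_mul_of_nonneg_left (by linarith) (by positivity)) hm0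
    exact add_le_add (mul_le_mul_of_nonneg_right e2 hB0) e3

/-- (S3) `φ ∂ᵢh` for a cutoff `φ`. -/
theorem hb_cut_grad (n : ℕ) (a ρ P ε : ℝ) (ha0 : 0 < a) (ha1 : a < 1) (hε : 0 < ε) :
    ∃ K : ℝ, 0 ≤ K ∧ ∀ h : E n → ℝ, ContDiff ℝ 2 h → ∀ B m : ℝ, 0 ≤ B →
    (∀ x i j, |Hs h x i j| ≤ B) → (∀ x : E n, ‖x‖ ≤ ρ + 1 → |h x| ≤ m) → 0 ≤ m →
    ∀ φ : E n → ℝ, (∀ x, |φ x| ≤ P) → (∀ x y, |φ x - φ y| ≤ P * ‖x - y‖) →
    (∀ x : E n, ρ < ‖x‖ → φ x = 0) →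
    ∀ i, HB a (ε * B + K * m) (fun x => φ x * fderiv ℝ h x (ee i)) := by
  rcases lt_or_ge P 0 with hP | hP
  · refine ⟨0, le_rfl, fun h _ B m _ _ _ _ φ hφ => ?_⟩
    exact absurd ((abs_nonneg _).trans (hφ 0)) (not_le.2 hP)
  obtain ⟨δ, t, hδ, ht, H⟩ := cut_common (n := n) a ρ P ((n : ℝ) ^ 2) ε ha0 ha1 hP
    (by positivity) hε
  obtain ⟨K1, hK1, hgr⟩ := grad_int n ρ δ hδ
  obtain ⟨K, hK, HK⟩ := H K1 hK1
  refine ⟨K, hK, fun h hh B m hB0 hB hm hm0 φ hφ hφL hsupp i => ?_⟩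
  have hei : ‖(ee i : E n)‖ = 1 := by simp [ee]
  refine HK (fun x => fderiv ℝ h x (ee i)) φ B m hB0 hm0 (fun x hx => ?_) (fun x y _ _ => ?_)
    hφ hφL hsupp
  · have h1 := (fderiv ℝ h x).le_opNorm (ee i)
    rw [hei, mul_one, Real.norm_eq_abs] at h1
    exact h1.trans (hgr h hh B m hB0 hB hm x hx)
  · have h1 := (fderiv ℝ h x - fderiv ℝ h y).le_opNorm (ee i)
    rw [hei, mul_one, Real.norm_eq_abs] at h1
    have h2 := norm_fderiv_sub_le hh hB hB0 y x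
    have h3 : 0 ≤ K1 * m * ‖x - y‖ := by positivity
    calc |fderiv ℝ h x (ee i) - fderiv ℝ h y (ee i)| ≤ _ := h1
      _ ≤ (n : ℝ) ^ 2 * B * ‖x - y‖ := h2
      _ ≤ _ := by nlinarith

/-- (S2) `φ h` for a cutoff `φ`. -/
theorem hb_cut_fun (n : ℕ) (a ρ P ε : ℝ) (ha0 : 0 < a) (ha1 : a < 1) (hε : 0 < ε) :
    ∃ K : ℝ, 0 ≤ K ∧ ∀ h : E n → ℝ, ContDiff ℝ 2 h → ∀ B m : ℝ, 0 ≤ B →
    (∀ x i j, |Hs h x i j| ≤ B) → (∀ x : E n, ‖x‖ ≤ ρ + 1 → |h x| ≤ m) → 0 ≤ m →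
    ∀ φ : E n → ℝ, (∀ x, |φ x| ≤ P) → (∀ x y, |φ x - φ y| ≤ P * ‖x - y‖) →
    (∀ x : E n, ρ < ‖x‖ → φ x = 0) → HB a (ε * B + K * m) (fun x => φ x * h x) := by
  rcases lt_or_ge P 0 with hP | hP
  · refine ⟨0, le_rfl, fun h _ B m _ _ _ _ φ hφ => ?_⟩
    exact absurd ((abs_nonneg _).trans (hφ 0)) (not_le.2 hP)
  obtain ⟨δ, t, hδ, ht, H⟩ := cut_common (n := n) a ρ P 1 ε ha0 ha1 hP zero_le_one hε
  obtain ⟨K1, hK1, hgr⟩ := grad_int n ρ 1 one_pos
  obtain ⟨K, hK, HK⟩ := H (K1 + 1) (by positivity)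
  refine ⟨K, hK, fun h hh B m hB0 hB hm hm0 φ hφ hφL hsupp => ?_⟩
  refine HK h φ B m hB0 hm0 (fun x hx => ?_) (fun x y hx hy => ?_) hφ hφL hsupp
  · have h1 := hm x (by linarith)
    have h2 : 0 ≤ δ * B := by positivity
    have h3 : 0 ≤ K1 * m := by positivity
    nlinarith
  · have hd : Differentiable ℝ h := hh.differentiable (by norm_num)
    have h1 := (convex_closedBall (0 : E n) ρ).norm_image_sub_le_of_norm_fderiv_le (f := h)
      (C := 1 * B + K1 * m) (x := y) (y := x) (fun z _ => hd z) (fun z hz => ?_)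
      (by simpa using hy) (by simpa using hx)
    · rw [Real.norm_eq_abs] at h1
      refine h1.trans ?_
      refine mul_le_mul_of_nonneg_right ?_ (norm_nonneg _)
      linarith
    · rw [Metric.mem_closedBall, dist_zero_right] at hz
      exact hgr h hh B m hB0 hB hm z hz

end Crest.Agent.R238.SchI
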