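/-
Row 238, module H3 (Schauder estimate by cutoffs), part SchIntOn (helper839):
interpolation on balls in the form `HBon` of helper452.
-/
import Crest.Agent.R238.SchInt
import Crest.Agent.R238.SchFar

set_option autoImplicit false
open MeasureTheory

namespace Crest.Agent.R238.SchI

variable {n : ℕ}

/-- Hölder bound of a Lipschitz function with a sup bound, on a set. -/
lemma holder_of_lip_on {f : E n → ℝ} {D : Set (E n)} {a S L t : ℝ} (ha0 : 0 < a) (ha1 : a < 1)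
    (ht : 0 < t) (hL1 : 0 ≤ L) (hS : ∀ x ∈ D, |f x| ≤ S)
    (hL : ∀ x ∈ D, ∀ y ∈ D, |f x - f y| ≤ L * ‖x - y‖) :
    ∀ x ∈ D, ∀ y ∈ D, |f x - f y| ≤ (L * t ^ (1 - a) + 2 * S * t ^ (-a)) * ‖x - y‖ ^ a := by
  intro x hx y hy
  have hS0 : 0 ≤ S := (abs_nonneg _).trans (hS x hx)
  have hp : 0 ≤ ‖x - y‖ ^ a := Real.rpow_nonneg (norm_nonneg _) a
  by_cases hxy : x = y
  · subst hxy
    simp [Real.zero_rpow ha0.ne']
  have hn : 0 < ‖x - y‖ := norm_pos_iff.2 (sub_ne_zero.2 hxy)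
  have ht1 : 0 < t ^ (1 - a) := Real.rpow_pos_of_pos ht _
  have ht2 : 0 < t ^ (-a) := Real.rpow_pos_of_pos ht _
  rcases le_or_gt ‖x - y‖ t with hle | hgt
  · have h1 : ‖x - y‖ = ‖x - y‖ ^ (1 - a) * ‖x - y‖ ^ a := by
      rw [← Real.rpow_add hn]; simp
    have h2 : ‖x - y‖ ^ (1 - a) ≤ t ^ (1 - a) :=
      Real.rpow_le_rpow hn.le hle (by linarith)
    calc |f x - f y| ≤ L * ‖x - y‖ := hL x hx y hy
      _ = L * ‖x - y‖ ^ (1 - a) * ‖x - y‖ ^ a := by
          conv_lhs => rw [h1]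
          ring
      _ ≤ L * t ^ (1 - a) * ‖x - y‖ ^ a :=
          mul_le_mul_of_nonneg_right (mul_le_mul_of_nonneg_left h2 hL1) hp
      _ ≤ _ := by
          refine mul_le_mul_of_nonneg_right ?_ hp
          have : 0 ≤ 2 * S * t ^ (-a) := by positivity
          linarith
  · have h1 : |f x - f y| ≤ 2 * S := by
      have h2 := hS x hx
      have h3 := hS y hy
      rw [abs_le] at h2 h3 ⊢
      constructor <;> linarith [h2.1, h2.2, h3.1, h3.2]
    have h4 : 1 ≤ t ^ (-a) * ‖x - y‖ ^ a := by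
      rw [Real.rpow_neg ht.le, inv_mul_eq_div, le_div_iff₀ (Real.rpow_pos_of_pos ht a), one_mul]
      exact Real.rpow_le_rpow ht.le hgt.le ha0.le
    calc |f x - f y| ≤ 2 * S * 1 := by linarith
      _ ≤ 2 * S * (t ^ (-a) * ‖x - y‖ ^ a) := mul_le_mul_of_nonneg_left h4 (by linarith)
      _ = 2 * S * t ^ (-a) * ‖x - y‖ ^ a := by ring
      _ ≤ _ := by
          refine mul_le_mul_of_nonneg_right ?_ hp
          have : 0 ≤ L * t ^ (1 - a) := by positivity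
          linarith

/-- common step: `|g| ≤ δ B + K₀ m` and Lipschitz constant `c B + K₀ m` on `D` give
`HBon a (ε B + K m) D g`. -/
lemma on_common (a c ε : ℝ) (ha0 : 0 < a) (ha1 : a < 1) (hc : 0 ≤ c) (hε : 0 < ε) :
    ∃ δ : ℝ, 0 < δ ∧ ∀ K0 : ℝ, 0 ≤ K0 → ∃ K : ℝ, 0 ≤ K ∧
      ∀ (D : Set (E n)) (g : E n → ℝ) (B m : ℝ), 0 ≤ B → 0 ≤ m →
      (∀ x ∈ D, |g x| ≤ δ * B + K0 * m) →
      (∀ x ∈ D, ∀ y ∈ D, |g x - g y| ≤ (c * B + K0 * m) * ‖x - y‖) →
      SF.HBon a (ε * B + K * m) D g := by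
  obtain ⟨t, δ, ht0, ht1, hδ, h1, h2⟩ := exists_scale a 1 c ε ha0 ha1 zero_le_one hc hε
  rw [one_mul] at h1 h2
  have hA : 0 < t ^ (1 - a) := Real.rpow_pos_of_pos ht0 _
  have hB' : 0 < t ^ (-a) := Real.rpow_pos_of_pos ht0 _
  refine ⟨δ, hδ, fun K0 hK0 => ⟨K0 * (1 + t ^ (1 - a) + 2 * t ^ (-a)), by positivity, ?_⟩⟩
  intro D g B m hB0 hm0 hg hgL
  have hK0m : 0 ≤ K0 * m := by positivity
  set A : ℝ := t ^ (1 - a) with hAd
  set G : ℝ := t ^ (-a) with hGd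
  have hδ1 : δ ≤ ε := by nlinarith [mul_pos hδ hA, mul_pos hδ hB']
  refine ⟨fun x hx => (hg x hx).trans ?_, fun x hx y hy => ?_⟩
  · have e1 : δ * B ≤ ε * B := mul_le_mul_of_nonneg_right hδ1 hB0
    have e2 : K0 * m ≤ K0 * (1 + A + 2 * G) * m := by
      have : K0 * m * 1 ≤ K0 * m * (1 + A + 2 * G) :=
        mul_le_mul_of_nonneg_left (by linarith) hK0m
      linarith [this]
    linarith
  · have h3 := holder_of_lip_on (D := D) (f := g) ha0 ha1 ht0 (L := c * B + K0 * m)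
      (by positivity) hg hgL x hx y hy
    refine h3.trans (mul_le_mul_of_nonneg_right ?_ (Real.rpow_nonneg (norm_nonneg _) a))
    have e1 : (c * B + K0 * m) * A + 2 * (δ * B + K0 * m) * G
        = (c * A + δ * (2 * G)) * B + K0 * m * (A + 2 * G) := by ring
    rw [← hAd, ← hGd, e1]
    have e2 : c * A + δ * (2 * G) ≤ ε := by
      have : δ * (2 * G) ≤ δ * (1 + A + 2 * G) :=
        mul_le_mul_of_nonneg_left (by linarith) hδ.le
      linarith
    have e3 : K0 * m * (A + 2 * G) ≤ K0 * (1 + A + 2 * G) * m := by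
      have : K0 * m * (A + 2 * G) ≤ K0 * m * (1 + A + 2 * G) :=
        mul_le_mul_of_nonneg_left (by linarith) hK0m
      linarith [this]
    exact add_le_add (mul_le_mul_of_nonneg_right e2 hB0) e3

/-- **Interpolation on balls** (`HBon` form). -/
theorem interp_on (n : ℕ) (a ρ ε : ℝ) (ha0 : 0 < a) (ha1 : a < 1) (hε : 0 < ε) :
    ∃ K : ℝ, 0 ≤ K ∧ ∀ h : E n → ℝ, ContDiff ℝ 2 h → ∀ B m : ℝ, 0 ≤ B → 0 ≤ m →
    (∀ x i j, |Hs h x i j| ≤ B) → (∀ x : E n, ‖x‖ ≤ ρ + 1 → |h x| ≤ m) →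
    SF.HBon a (ε * B + K * m) (Metric.closedBall 0 ρ) h ∧
      ∀ i, SF.HBon a (ε * B + K * m) (Metric.closedBall 0 ρ)
        (fun x => fderiv ℝ h x (ee i)) := by
  obtain ⟨δ1, hδ1, H1⟩ := on_common (n := n) a 1 ε ha0 ha1 zero_le_one hε
  obtain ⟨δ2, hδ2, H2⟩ := on_common (n := n) a ((n : ℝ) ^ 2) ε ha0 ha1 (by positivity) hε
  obtain ⟨K1, hK1, hgr1⟩ := grad_int n ρ 1 one_pos
  obtain ⟨K2, hK2, hgr2⟩ := grad_int n ρ δ2 hδ2
  obtain ⟨K3, hK3, HK3⟩ := H1 (K1 + 1) (by positivity)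
  obtain ⟨K4, hK4, HK4⟩ := H2 K2 hK2
  refine ⟨max K3 K4, le_max_of_le_left hK3, fun h hh B m hB0 hm0 hB hm => ?_⟩
  have mono : ∀ {K : ℝ} {g : E n → ℝ}, K ≤ max K3 K4 →
      SF.HBon a (ε * B + K * m) (Metric.closedBall 0 ρ) g →
      SF.HBon a (ε * B + max K3 K4 * m) (Metric.closedBall 0 ρ) g := by
    intro K g hK hg
    have e : ε * B + K * m ≤ ε * B + max K3 K4 * m := by
      have := mul_le_mul_of_nonneg_right hK hm0
      linarith
    exact ⟨fun x hx => (hg.1 x hx).trans e, fun x hx y hy => (hg.2 x hx y hy).trans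
      (mul_le_mul_of_nonneg_right e (Real.rpow_nonneg (norm_nonneg _) a))⟩
  refine ⟨mono (le_max_left _ _) (HK3 _ h B m hB0 hm0 (fun x hx => ?_) fun x hx y hy => ?_),
    fun i => mono (le_max_right _ _) (HK4 _ _ B m hB0 hm0 (fun x hx => ?_) fun x hx y hy => ?_)⟩
  · rw [Metric.mem_closedBall, dist_zero_right] at hx
    have h1 := hm x (by linarith)
    have h2 : 0 ≤ δ1 * B := by positivity
    have h3 : 0 ≤ K1 * m := by positivity
    nlinarith
  · have hd : Differentiable ℝ h := hh.differentiable (by norm_num)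
    have h1 := (convex_closedBall (0 : E n) ρ).norm_image_sub_le_of_norm_fderiv_le (f := h)
      (C := 1 * B + K1 * m) (x := y) (y := x) (fun z _ => hd z) (fun z hz => ?_) hy hx
    · rw [Real.norm_eq_abs] at h1
      refine h1.trans ?_
      refine mul_le_mul_of_nonneg_right ?_ (norm_nonneg _)
      linarith
    · rw [Metric.mem_closedBall, dist_zero_right] at hz
      exact hgr1 h hh B m hB0 hB hm z hz
  · rw [Metric.mem_closedBall, dist_zero_right] at hx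
    have hei : ‖(ee i : E n)‖ = 1 := by simp [ee]
    have h1 := (fderiv ℝ h x).le_opNorm (ee i)
    rw [hei, mul_one, Real.norm_eq_abs] at h1
    exact h1.trans (hgr2 h hh B m hB0 hB hm x hx)
  · have hei : ‖(ee i : E n)‖ = 1 := by simp [ee]
    have h1 := (fderiv ℝ h x - fderiv ℝ h y).le_opNorm (ee i)
    rw [hei, mul_one, Real.norm_eq_abs] at h1
    have h2 := norm_fderiv_sub_le hh hB hB0 y x
    have h3 : 0 ≤ K2 * m * ‖x - y‖ := by positivity
    calc |fderiv ℝ h x (ee i) - fderiv ℝ h y (ee i)| ≤ _ := h1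
      _ ≤ (n : ℝ) ^ 2 * B * ‖x - y‖ := h2
      _ ≤ _ := by nlinarith

end Crest.Agent.R238.SchI
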