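import Crest.Agent.R238.SchMain
import Crest.Agent.R238.SchIntOn
import Crest.Agent.R238.AprDefs

/-!
Row 238, node H3: `RepStmt → Apr.SchStmt` (helper452).
-/

set_option autoImplicit false

open Set Filter Metric
open scoped ContDiff Topology

namespace Crest.Agent.R238

/-- interpolation on balls (helper839) -/
theorem SF.intOn_all (n : ℕ) (a ρ ε : ℝ) (ha : 0 < a) (ha1 : a < 1) (hε : 0 < ε) :
    SF.IntOn n a ρ ε := SchI.interp_on n a ρ ε ha ha1 hε

/-- **(B)** from (A) -/
theorem SF.schStmt_of_rep (hRep : RepStmt) : SF.SchStmt :=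
  SF.schauder hRep SF.intOn_all

/-- **(B)** in the frozen form of the a priori node -/
theorem Apr.schStmt_of_rep (hRep : RepStmt) : Apr.SchStmt := by
  intro n a lo hi ha ha1 hlo hlohi
  obtain ⟨e0, he0, H⟩ := SF.schStmt_of_rep hRep n a ha ha1
  refine ⟨e0, he0, fun M R => ?_⟩
  obtain ⟨C, hC, HC⟩ := H lo hi M (max R 1) hlo hlohi (le_max_right _ _)
  refine ⟨C, 2 * max R 1 + 3, hC, ?_⟩
  intro τ hell hτ hfar lam hlam h N S hh hfin hN hS
  refine HC τ hell hτ (fun i j => ⟨fun x hx => ?_, fun x hx y hy => ?_⟩) lam hlam h N S hh hfin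
    hN hS
  · have hx' : R ≤ ‖x‖ := (le_max_left _ _).trans hx
    exact (hfar x x hx' hx' i j).1
  · have hx' : R ≤ ‖x‖ := (le_max_left _ _).trans hx
    have hy' : R ≤ ‖y‖ := (le_max_left _ _).trans hy
    have h1 := (hfar x y hx' hy' i j).2
    have h2 : τ x i j - (1 : Matrix (Fin n) (Fin n) ℝ) i j
        - (τ y i j - (1 : Matrix (Fin n) (Fin n) ℝ) i j) = τ x i j - τ y i j := by ring
    show |_ - _| ≤ _
    rw [h2]; exact h1

end Crest.Agent.R238
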