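import Crest.Agent.R238.SchCut

/-!
Row 238, node H3, helper452's part 3: cut-off families, error terms (far and local), covering.
-/

set_option autoImplicit false

open MeasureTheory Set Filter Metric
open scoped ContDiff Topology

namespace Crest.Agent.R238.SF

open Crest.Agent.R238

variable {n : ℕ}

/-! ### from Lipschitz to Hölder -/

theorem le_rpow_of_le_one {a t : ℝ} (ha : a ≤ 1) (ht0 : 0 ≤ t) (ht : t ≤ 1) : t ≤ t ^ a := by
  rcases eq_or_lt_of_le ht0 with h | h
  · rw [← h]; exact Real.rpow_nonneg le_rfl a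
  · calc t = t ^ (1 : ℝ) := (Real.rpow_one t).symm
      _ ≤ t ^ a := Real.rpow_le_rpow_of_exponent_ge h ht ha

theorem hb_of_lip {a M L : ℝ} (ha0 : 0 ≤ a) (ha : a ≤ 1) {f : E n → ℝ} (hM : ∀ x, |f x| ≤ M)
    (hL0 : 0 ≤ L) (hL : ∀ x y, |f x - f y| ≤ L * ‖x - y‖) : HB a (2 * M + L) f := by
  have hM0 : 0 ≤ M := (abs_nonneg _).trans (hM 0)
  refine ⟨fun x => (hM x).trans (by linarith), fun x y => ?_⟩
  have hr := Real.rpow_nonneg (norm_nonneg (x - y)) a
  rcases le_total ‖x - y‖ 1 with h | h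
  · have h1 := le_rpow_of_le_one ha (norm_nonneg _) h
    have h2 := hL x y
    nlinarith
  · have h1 : 1 ≤ ‖x - y‖ ^ a := Real.one_le_rpow h ha0
    have h2 : |f x - f y| ≤ 2 * M := by
      have := abs_sub (f x) (f y)
      have h3 := hM x
      have h4 := hM y
      linarith
    nlinarith

theorem hb_of_c1 {a : ℝ} (ha0 : 0 ≤ a) (ha : a ≤ 1) {f : E n → ℝ} (hf : ContDiff ℝ 1 f)
    (hc : HasCompactSupport f) : ∃ X, HB a X f := by
  obtain ⟨M, hM⟩ := hc.exists_bound_of_continuous hf.continuous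
  obtain ⟨L, hL⟩ := (hc.fderiv (𝕜 := ℝ)).exists_bound_of_continuous
    (hf.continuous_fderiv (by norm_num))
  have hL0 : 0 ≤ L := (norm_nonneg _).trans (hL 0)
  refine ⟨_, hb_of_lip ha0 ha (M := M) (L := L) (fun x => hM x) hL0 fun x y => ?_⟩
  have h1 := Convex.norm_image_sub_le_of_norm_fderiv_le (𝕜 := ℝ) (f := f) (s := univ) (x := y)
    (y := x) (C := L) (fun z _ => hf.differentiable (by norm_num) z) (fun z _ => hL z)
    convex_univ (mem_univ _) (mem_univ _)
  simpa [Real.norm_eq_abs] using h1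

/-! ### locality of derivatives -/

theorem Hs_congr {f g : E n → ℝ} {x : E n} (h : f =ᶠ[𝓝 x] g) (i j : Fin n) :
    Hs f x i j = Hs g x i j := by
  have h1 : fderiv ℝ f =ᶠ[𝓝 x] fderiv ℝ g := h.fderiv
  unfold Hs
  rw [h1.fderiv_eq]

theorem Hs_zero_of {f : E n → ℝ} {x : E n} (h : f =ᶠ[𝓝 x] fun _ => (0 : ℝ)) (i j : Fin n) :
    Hs f x i j = 0 := by
  rw [Hs_congr h]
  unfold Hs
  have : fderiv ℝ (fun _ : E n => (0 : ℝ)) = fun _ => 0 := by
    funext y; simp
  rw [this]; simp

/-! ### cut-off functions -/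

/-- a fixed smooth cut-off at scale `ρ`: `1` on `closedBall 0 ρ`, `0` outside `ball 0 (2ρ)` -/
theorem exists_cut {a : ℝ} (ha0 : 0 ≤ a) (ha : a ≤ 1) (ρ : ℝ) (hρ : 0 < ρ) :
    ∃ (X : ℝ) (χ : E n → ℝ), 0 ≤ X ∧ Cut a X (closedBall 0 (2 * ρ)) χ ∧
      (∀ x, ‖x‖ ≤ ρ → χ x = 1) ∧ (∀ x, 2 * ρ ≤ ‖x‖ → χ x = 0) := by
  let b : ContDiffBump (0 : E n) := ⟨ρ, 2 * ρ, hρ, by linarith⟩
  have hs : ContDiff ℝ ∞ (b : E n → ℝ) := b.contDiff
  have hc : HasCompactSupport (b : E n → ℝ) := b.hasCompactSupport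
  have hf1 : ContDiff ℝ ∞ (fderiv ℝ (b : E n → ℝ)) := hs.fderiv_right (by simp)
  have hf2 : ContDiff ℝ ∞ (fderiv ℝ (fderiv ℝ (b : E n → ℝ))) := hf1.fderiv_right (by simp)
  have hc1 : HasCompactSupport (fderiv ℝ (b : E n → ℝ)) := hc.fderiv (𝕜 := ℝ)
  have hc2 : HasCompactSupport (fderiv ℝ (fderiv ℝ (b : E n → ℝ))) := hc1.fderiv (𝕜 := ℝ)
  obtain ⟨X0, h0⟩ := hb_of_c1 ha0 ha (hs.of_le (by simp) : ContDiff ℝ 1 (b : E n → ℝ)) hc
  have h1 : ∀ i : Fin n, ∃ X, HB a X (fun x => dd (b : E n → ℝ) x i) := fun i => by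
    refine hb_of_c1 ha0 ha ?_ ?_
    · exact ((hf1.of_le (by simp) : ContDiff ℝ 1 _)).clm_apply contDiff_const
    · refine hc1.mono ?_
      intro x hx
      simp only [Function.mem_support] at hx ⊢
      intro h; apply hx; simp [dd, h]
  have h2 : ∀ i j : Fin n, ∃ X, HB a X (fun x => Hs (b : E n → ℝ) x i j) := fun i j => by
    refine hb_of_c1 ha0 ha ?_ ?_
    · exact (((hf2.of_le (by simp) : ContDiff ℝ 1 _)).clm_apply contDiff_const).clm_apply
        contDiff_const
    · refine hc2.mono ?_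
      intro x hx
      simp only [Function.mem_support] at hx ⊢
      intro h; apply hx; simp [Hs, h]
  have h3 : ∃ X, HB a X (fun x => fderiv ℝ (b : E n → ℝ) x x) := by
    refine hb_of_c1 ha0 ha ?_ ?_
    · exact ((hf1.of_le (by simp) : ContDiff ℝ 1 _)).clm_apply contDiff_id
    · refine hc1.mono ?_
      intro x hx
      simp only [Function.mem_support] at hx ⊢
      intro h; apply hx; simp [h]
  choose X1 h1 using h1
  choose X2 h2 using h2
  obtain ⟨X3, h3⟩ := h3
  have p0 := hb_nonneg h0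
  have p1 := fun i => hb_nonneg (h1 i)
  have p2 := fun i j => hb_nonneg (h2 i j)
  have p3 := hb_nonneg h3
  have q1 : 0 ≤ ∑ i, X1 i := Finset.sum_nonneg fun i _ => p1 i
  have q2 : 0 ≤ ∑ i, ∑ j, X2 i j := Finset.sum_nonneg fun i _ => Finset.sum_nonneg fun j _ => p2 i j
  have r1 : ∀ i, X1 i ≤ ∑ i, X1 i := fun i =>
    Finset.single_le_sum (f := X1) (fun i _ => p1 i) (Finset.mem_univ i)
  have r2 : ∀ i j, X2 i j ≤ ∑ i, ∑ j, X2 i j := fun i j =>
    (Finset.single_le_sum (f := fun j => X2 i j) (fun j _ => p2 i j) (Finset.mem_univ j)).trans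
      (Finset.single_le_sum (f := fun i => ∑ j, X2 i j)
        (fun i _ => Finset.sum_nonneg fun j _ => p2 i j) (Finset.mem_univ i))
  have out : ∀ x ∉ closedBall (0 : E n) (2 * ρ), (b : E n → ℝ) =ᶠ[𝓝 x] fun _ => 0 := by
    intro x hx
    have ho : IsOpen (closedBall (0 : E n) (2 * ρ))ᶜ := isClosed_closedBall.isOpen_compl
    filter_upwards [ho.mem_nhds hx] with y hy
    apply b.zero_of_le_dist
    simp only [mem_compl_iff, mem_closedBall, not_le] at hy
    exact hy.le
  refine ⟨X0 + (∑ i, X1 i) + (∑ i, ∑ j, X2 i j) + X3, b, by positivity, ?_, ?_, ?_⟩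
  · refine ⟨(by exact_mod_cast contDiff_infty.1 hs 2), hb_mono h0 (by linarith), fun i => hb_mono (h1 i) ?_, fun i j =>
      hb_mono (h2 i j) ?_, hb_mono h3 (by linarith), fun x hx => ?_, fun x hx i j => ?_⟩
    · have := r1 i; linarith
    · have := r2 i j; linarith
    · rw [(out x hx).fderiv_eq]; simp
    · exact Hs_zero_of (out x hx) i j
  · intro x hx
    exact b.one_of_mem_closedBall (by simpa [mem_closedBall, dist_eq_norm] using hx)
  · intro x hx
    exact b.zero_of_le_dist (by simpa [dist_eq_norm] using hx)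

theorem fderiv_translate (f : E n → ℝ) (z : E n) :
    fderiv ℝ (fun x => f (x - z)) = fun x => fderiv ℝ f (x - z) := by
  funext x
  exact fderiv_comp_sub z

theorem Hs_translate (f : E n → ℝ) (z x : E n) (i j : Fin n) :
    Hs (fun x => f (x - z)) x i j = Hs f (x - z) i j := by
  unfold Hs
  rw [fderiv_translate]
  have h := congrFun (show fderiv ℝ (fun x => fderiv ℝ f (x - z)) = fun x =>
    fderiv ℝ (fderiv ℝ f) (x - z) from by
      funext y
      exact fderiv_comp_sub z) x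
  rw [h]

theorem hb_translate {a M : ℝ} {f : E n → ℝ} (h : HB a M f) (z : E n) :
    HB a M (fun x => f (x - z)) := by
  refine ⟨fun x => h.1 _, fun x y => ?_⟩
  have := h.2 (x - z) (y - z)
  have h1 : x - z - (y - z) = x - y := by abel
  rwa [h1] at this

theorem sum_ee (z : E n) : z = ∑ i, z i • ee i := by
  ext j
  simp [Finset.sum_apply, Pi.single_apply]

theorem Cut.translate {a X r : ℝ} {χ : E n → ℝ} (h : Cut a X (closedBall 0 r) χ) (z : E n)
    {Rz : ℝ} (hz : ‖z‖ ≤ Rz) :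
    Cut a ((1 + n * Rz) * X) (closedBall z r) (fun x => χ (x - z)) := by
  have hX := hb_nonneg h.h0
  have hR : 0 ≤ Rz := (norm_nonneg _).trans hz
  have hle : X ≤ (1 + n * Rz) * X := by
    have : 0 ≤ n * Rz * X := by positivity
    nlinarith
  have hsub : ∀ x, x ∉ closedBall z r → x - z ∉ closedBall (0 : E n) r := by
    intro x hx
    simpa [mem_closedBall, dist_eq_norm] using hx
  refine ⟨h.c2.comp (contDiff_id.sub contDiff_const), hb_mono (hb_translate h.h0 z) hle,
    fun i => ?_, fun i j => ?_, ?_, fun x hx => ?_, fun x hx i j => ?_⟩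
  · have h1 : (fun x => dd (fun x => χ (x - z)) x i) = fun x => dd χ (x - z) i := by
      funext x
      show fderiv ℝ (fun x => χ (x - z)) x (ee i) = _
      rw [fderiv_translate]
    rw [h1]
    exact hb_mono (hb_translate (h.h1 i) z) hle
  · have h1 : (fun x => Hs (fun x => χ (x - z)) x i j) = fun x => Hs χ (x - z) i j := by
      funext x; exact Hs_translate χ z x i j
    rw [h1]
    exact hb_mono (hb_translate (h.h2 i j) z) hle
  · have h1 : (fun x => fderiv ℝ (fun x => χ (x - z)) x x) = fun x =>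
        fderiv ℝ χ (x - z) (x - z) + ∑ i, z i * dd χ (x - z) i := by
      funext x
      rw [fderiv_translate]
      have h2 : fderiv ℝ χ (x - z) x = fderiv ℝ χ (x - z) (x - z) + fderiv ℝ χ (x - z) z := by
        rw [← map_add]; congr 1; abel
      show fderiv ℝ χ (x - z) x = _
      rw [h2]
      congr 1
      have h5 : ∀ l : E n →L[ℝ] ℝ, l z = ∑ i, z i * l (ee i) := by
        intro l
        conv_lhs => rw [sum_ee z]
        rw [map_sum]
        simp only [map_smul, smul_eq_mul]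
      exact h5 _
    rw [h1]
    have h2 : HB a (∑ _i : Fin n, Rz * X) (fun x => ∑ i, z i * dd χ (x - z) i) := by
      refine hb_sum _ fun i _ => ?_
      refine hb_mono (hb_cmul (z i) (hb_translate (h.h1 i) z)) ?_
      have h3 : |z i| ≤ Rz := (PiLp.norm_apply_le z i).trans hz
      exact mul_le_mul_of_nonneg_right h3 hX
    have h4 := hb_add (hb_translate h.h3 z) h2
    refine hb_mono h4 (le_of_eq ?_)
    simp only [Finset.sum_const, Finset.card_univ, Fintype.card_fin, nsmul_eq_mul]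
    ring
  · rw [fderiv_translate]
    exact h.s1 _ (hsub x hx)
  · rw [Hs_translate]
    exact h.s2 _ (hsub x hx) i j

theorem Cut.one_sub {a X : ℝ} {S : Set (E n)} {χ : E n → ℝ} (h : Cut a X S χ) :
    Cut a (1 + X) S (fun x => 1 - χ x) := by
  have hX := hb_nonneg h.h0
  have f1 : fderiv ℝ (fun x => 1 - χ x) = fun x => - fderiv ℝ χ x := by
    funext x
    rw [fderiv_const_sub]
  have f2 : ∀ x i j, Hs (fun x => 1 - χ x) x i j = - Hs χ x i j := by
    intro x i j
    unfold Hs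
    rw [f1]
    rw [fderiv_fun_neg]
    simp
  refine ⟨contDiff_const.sub h.c2, ?_, fun i => ?_, fun i j => ?_, ?_, fun x hx => ?_,
    fun x hx i j => ?_⟩
  · have := hb_sub (hb_const (n := n) (a := a) (1 : ℝ)) h.h0
    simpa using this
  · have h1 : (fun x => dd (fun x => 1 - χ x) x i) = fun x => - dd χ x i := by
      funext x
      show fderiv ℝ (fun x => 1 - χ x) x (ee i) = _
      rw [f1]; simp
    rw [h1]; exact hb_mono (hb_neg (h.h1 i)) (by linarith)
  · have h1 : (fun x => Hs (fun x => 1 - χ x) x i j) = fun x => - Hs χ x i j := by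
      funext x; exact f2 x i j
    rw [h1]; exact hb_mono (hb_neg (h.h2 i j)) (by linarith)
  · have h1 : (fun x => fderiv ℝ (fun x => 1 - χ x) x x) = fun x => - fderiv ℝ χ x x := by
      funext x; rw [f1]; simp
    rw [h1]; exact hb_mono (hb_neg h.h3) (by linarith)
  · rw [f1]; show - fderiv ℝ χ x = 0
    rw [h.s1 x hx]; simp
  · rw [f2, h.s2 x hx]; simp

end Crest.Agent.R238.SF
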