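import Crest.Agent.R238.SchFar

/-!
Row 238, node H3, helper452's part 2: derivatives of `χ h`, the commutator identity and its
Hölder estimate (`cut_comm`), for arbitrary cut-off `χ` and frozen matrix `A0`.
-/

set_option autoImplicit false

open MeasureTheory Set Filter
open scoped ContDiff Topology

namespace Crest.Agent.R238.SF

open Crest.Agent.R238

variable {n : ℕ}

/-- first partial derivative -/
noncomputable abbrev dd (f : E n → ℝ) (x : E n) (i : Fin n) : ℝ := fderiv ℝ f x (ee i)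

theorem diff_of_c2 {f : E n → ℝ} (hf : ContDiff ℝ 2 f) : Differentiable ℝ f :=
  hf.differentiable (by norm_num)

theorem diff_fderiv_of_c2 {f : E n → ℝ} (hf : ContDiff ℝ 2 f) :
    Differentiable ℝ (fderiv ℝ f) :=
  (hf.fderiv_right (m := 1) (by norm_num)).differentiable (by norm_num)

theorem fderiv_mul_eq {χ h : E n → ℝ} (hχ : ContDiff ℝ 2 χ) (hh : ContDiff ℝ 2 h) :
    fderiv ℝ (fun x => χ x * h x) = fun x => χ x • fderiv ℝ h x + h x • fderiv ℝ χ x := by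
  funext x
  exact fderiv_fun_mul (diff_of_c2 hχ x) (diff_of_c2 hh x)

theorem fderiv_mul_apply {χ h : E n → ℝ} (hχ : ContDiff ℝ 2 χ) (hh : ContDiff ℝ 2 h) (x u : E n) :
    fderiv ℝ (fun x => χ x * h x) x u = χ x * fderiv ℝ h x u + h x * fderiv ℝ χ x u := by
  rw [fderiv_mul_eq hχ hh]
  simp

theorem fderiv2_mul_apply {χ h : E n → ℝ} (hχ : ContDiff ℝ 2 χ) (hh : ContDiff ℝ 2 h)
    (x u w : E n) :
    fderiv ℝ (fderiv ℝ (fun x => χ x * h x)) x u w =
      χ x * fderiv ℝ (fderiv ℝ h) x u w + fderiv ℝ χ x u * fderiv ℝ h x w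
        + fderiv ℝ h x u * fderiv ℝ χ x w + h x * fderiv ℝ (fderiv ℝ χ) x u w := by
  rw [fderiv_mul_eq hχ hh]
  have h1 : HasFDerivAt (fun x => χ x • fderiv ℝ h x)
      (χ x • fderiv ℝ (fderiv ℝ h) x + (fderiv ℝ χ x).smulRight (fderiv ℝ h x)) x :=
    (diff_of_c2 hχ x).hasFDerivAt.smul (diff_fderiv_of_c2 hh x).hasFDerivAt
  have h2 : HasFDerivAt (fun x => h x • fderiv ℝ χ x)
      (h x • fderiv ℝ (fderiv ℝ χ) x + (fderiv ℝ h x).smulRight (fderiv ℝ χ x)) x :=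
    (diff_of_c2 hh x).hasFDerivAt.smul (diff_fderiv_of_c2 hχ x).hasFDerivAt
  rw [(h1.fun_add h2).fderiv]
  simp only [ContinuousLinearMap.add_apply, ContinuousLinearMap.smul_apply,
    ContinuousLinearMap.smulRight_apply, smul_eq_mul]
  ring

theorem Hs_mul {χ h : E n → ℝ} (hχ : ContDiff ℝ 2 χ) (hh : ContDiff ℝ 2 h) (x : E n)
    (i j : Fin n) :
    Hs (fun x => χ x * h x) x i j =
      χ x * Hs h x i j + dd χ x i * dd h x j + dd h x i * dd χ x j + h x * Hs χ x i j :=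
  fderiv2_mul_apply hχ hh x (ee i) (ee j)

/-- the commutator identity -/
theorem LA_mul {χ h : E n → ℝ} (hχ : ContDiff ℝ 2 χ) (hh : ContDiff ℝ 2 h)
    (τ : E n → Matrix (Fin n) (Fin n) ℝ) (A0 : Matrix (Fin n) (Fin n) ℝ) (lam : ℝ) (x : E n) :
    LA (fun _ => A0) (fun x => χ x * h x) x + lam * (χ x * h x) =
      χ x * (LA τ h x + lam * h x)
        + (∑ i, ∑ j, τ x i j * (h x * Hs χ x i j)) - h x * fderiv ℝ χ x x
        + (∑ i, ∑ j, τ x i j * (dd h x j * dd χ x i))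
        + (∑ i, ∑ j, τ x i j * (dd h x i * dd χ x j))
        + ∑ i, ∑ j, (A0 i j - τ x i j) * Hs (fun x => χ x * h x) x i j := by
  unfold LA
  rw [fderiv_mul_apply hχ hh]
  have h1 : ∑ i, ∑ j, A0 i j * Hs (fun x => χ x * h x) x i j
      = (∑ i, ∑ j, (A0 i j - τ x i j) * Hs (fun x => χ x * h x) x i j)
        + ∑ i, ∑ j, τ x i j * Hs (fun x => χ x * h x) x i j := by
    rw [← Finset.sum_add_distrib]
    refine Finset.sum_congr rfl fun i _ => ?_
    rw [← Finset.sum_add_distrib]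
    refine Finset.sum_congr rfl fun j _ => ?_
    ring
  have h2 : ∑ i, ∑ j, τ x i j * Hs (fun x => χ x * h x) x i j
      = χ x * (∑ i, ∑ j, τ x i j * Hs h x i j)
        + (∑ i, ∑ j, τ x i j * (dd h x j * dd χ x i))
        + (∑ i, ∑ j, τ x i j * (dd h x i * dd χ x j))
        + (∑ i, ∑ j, τ x i j * (h x * Hs χ x i j)) := by
    simp only [Finset.mul_sum]
    simp only [← Finset.sum_add_distrib]
    refine Finset.sum_congr rfl fun i _ => ?_
    refine Finset.sum_congr rfl fun j _ => ?_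
    rw [Hs_mul hχ hh]
    ring
  rw [h1, h2]
  ring

/-- data of a cut-off function: all norms bounded by `X`, derivatives vanish outside `S` -/
structure Cut (a X : ℝ) (S : Set (E n)) (χ : E n → ℝ) : Prop where
  c2 : ContDiff ℝ 2 χ
  h0 : HB a X χ
  h1 : ∀ i, HB a X (fun x => dd χ x i)
  h2 : ∀ i j, HB a X (fun x => Hs χ x i j)
  h3 : HB a X (fun x => fderiv ℝ χ x x)
  s1 : ∀ x ∉ S, fderiv ℝ χ x = 0
  s2 : ∀ x ∉ S, ∀ i j, Hs χ x i j = 0

/-- Hölder bound of the commutator -/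
theorem cut_comm {a N X T Q Er lam : ℝ} {S : Set (E n)} {χ h : E n → ℝ}
    {τ : E n → Matrix (Fin n) (Fin n) ℝ} {A0 : Matrix (Fin n) (Fin n) ℝ}
    (hQ : 0 ≤ Q) (hχ : Cut a X S χ) (hh : ContDiff ℝ 2 h)
    (hf : HB a N (fun x => LA τ h x + lam * h x))
    (hτ : ∀ i j, HB a T (fun x => τ x i j))
    (hQ0 : HBon a Q S h) (hQ1 : ∀ j, HBon a Q S (fun x => dd h x j))
    (hEr : HB a Er
      (fun x => ∑ i, ∑ j, (A0 i j - τ x i j) * Hs (fun x => χ x * h x) x i j)) :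
    HB a (2 * (X * N) + 2 * (Q * X) * (6 * (n : ℝ) ^ 2 * T + 1) + Er)
      (fun x => LA (fun _ => A0) (fun x => χ x * h x) x + lam * (χ x * h x)) := by
  have e1 : (fun x => LA (fun _ => A0) (fun x => χ x * h x) x + lam * (χ x * h x)) =
      fun x => χ x * (LA τ h x + lam * h x)
        + (∑ i, ∑ j, τ x i j * (h x * Hs χ x i j)) - h x * fderiv ℝ χ x x
        + (∑ i, ∑ j, τ x i j * (dd h x j * dd χ x i))
        + (∑ i, ∑ j, τ x i j * (dd h x i * dd χ x j))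
        + ∑ i, ∑ j, (A0 i j - τ x i j) * Hs (fun x => χ x * h x) x i j :=
    funext fun x => LA_mul hχ.c2 hh τ A0 lam x
  rw [e1]
  have t1 : HB a (2 * (X * N)) (fun x => χ x * (LA τ h x + lam * h x)) := hb_mul hχ.h0 hf
  have t2 : HB a ((n : ℝ) ^ 2 * (2 * (T * (2 * (Q * X)))))
      (fun x => ∑ i, ∑ j, τ x i j * (h x * Hs χ x i j)) :=
    hb_sum2c fun i j => hb_mul (hτ i j) (HBon.mul hQ hQ0 (hχ.h2 i j) fun x hx => hχ.s2 x hx i j)
  have t3 : HB a (2 * (Q * X)) (fun x => h x * fderiv ℝ χ x x) :=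
    HBon.mul hQ hQ0 hχ.h3 fun x hx => by rw [hχ.s1 x hx]; simp
  have t4 : HB a ((n : ℝ) ^ 2 * (2 * (T * (2 * (Q * X)))))
      (fun x => ∑ i, ∑ j, τ x i j * (dd h x j * dd χ x i)) :=
    hb_sum2c fun i j => hb_mul (hτ i j) (HBon.mul hQ (hQ1 j) (hχ.h1 i) fun x hx => by
      show fderiv ℝ χ x (ee i) = 0
      rw [hχ.s1 x hx]; simp)
  have t5 : HB a ((n : ℝ) ^ 2 * (2 * (T * (2 * (Q * X)))))
      (fun x => ∑ i, ∑ j, τ x i j * (dd h x i * dd χ x j)) :=
    hb_sum2c fun i j => hb_mul (hτ i j) (HBon.mul hQ (hQ1 i) (hχ.h1 j) fun x hx => by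
      show fderiv ℝ χ x (ee j) = 0
      rw [hχ.s1 x hx]; simp)
  refine hb_mono (hb_add (hb_add (hb_add (hb_sub (hb_add t1 t2) t3) t4) t5) hEr) (le_of_eq ?_)
  ring

/-- qualitative bound of `D²(χ h)` -/
theorem cut_fin {a X Q K0 : ℝ} {S : Set (E n)} {χ h : E n → ℝ}
    (hQ : 0 ≤ Q) (hχ : Cut a X S χ) (hh : ContDiff ℝ 2 h)
    (hK : ∀ i j, HB a K0 (fun x => Hs h x i j))
    (hQ0 : HBon a Q S h) (hQ1 : ∀ j, HBon a Q S (fun x => dd h x j)) (i j : Fin n) :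
    HB a (2 * (X * K0) + 6 * (Q * X)) (fun x => Hs (fun x => χ x * h x) x i j) := by
  have e1 : (fun x => Hs (fun x => χ x * h x) x i j) = fun x =>
      χ x * Hs h x i j + dd h x j * dd χ x i + dd h x i * dd χ x j + h x * Hs χ x i j := by
    funext x
    rw [Hs_mul hχ.c2 hh]
    ring
  rw [e1]
  have t1 : HB a (2 * (X * K0)) (fun x => χ x * Hs h x i j) := hb_mul hχ.h0 (hK i j)
  have t2 : HB a (2 * (Q * X)) (fun x => dd h x j * dd χ x i) :=
    HBon.mul hQ (hQ1 j) (hχ.h1 i) fun x hx => by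
      show fderiv ℝ χ x (ee i) = 0
      rw [hχ.s1 x hx]; simp
  have t3 : HB a (2 * (Q * X)) (fun x => dd h x i * dd χ x j) :=
    HBon.mul hQ (hQ1 i) (hχ.h1 j) fun x hx => by
      show fderiv ℝ χ x (ee j) = 0
      rw [hχ.s1 x hx]; simp
  have t4 : HB a (2 * (Q * X)) (fun x => h x * Hs χ x i j) :=
    HBon.mul hQ hQ0 (hχ.h2 i j) fun x hx => hχ.s2 x hx i j
  refine hb_mono (hb_add (hb_add (hb_add t1 t2) t3) t4) (le_of_eq ?_)
  ring

/-- constant-coefficient estimate (A) for the matrix `A0`, with constant `C` -/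
def AEst (a C lam : ℝ) (A0 : Matrix (Fin n) (Fin n) ℝ) : Prop :=
  ∀ (g : E n → ℝ) (N : ℝ), ContDiff ℝ 2 g → (∃ B : ℝ, ∀ x i j, |Hs g x i j| ≤ B) →
    HB a N (fun x => LA (fun _ => A0) g x + lam * g x) → ∀ i j, HB a (C * N) (fun x => Hs g x i j)

/-- **cut-off estimate with absorption**: if the frozen error is at most half of the norm of
`D²(χ h)`, it is absorbed. -/
theorem cut_absorb {a C N X T Q K0 lam θ : ℝ} {S : Set (E n)} {χ h : E n → ℝ}
    {τ : E n → Matrix (Fin n) (Fin n) ℝ} {A0 : Matrix (Fin n) (Fin n) ℝ}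
    (hC : 0 < C) (hA : AEst a C lam A0)
    (hQ : 0 ≤ Q) (hT : 0 ≤ T) (hχ : Cut a X S χ) (hh : ContDiff ℝ 2 h)
    (hK : ∀ i j, HB a K0 (fun x => Hs h x i j))
    (hf : HB a N (fun x => LA τ h x + lam * h x))
    (hτ : ∀ i j, HB a T (fun x => τ x i j))
    (hQ0 : HBon a Q S h) (hQ1 : ∀ j, HBon a Q S (fun x => dd h x j))
    (hEr : ∀ K, 0 ≤ K → (∀ i j, HB a K (fun x => Hs (fun x => χ x * h x) x i j)) →
      HB a (θ * K)
        (fun x => ∑ i, ∑ j, (A0 i j - τ x i j) * Hs (fun x => χ x * h x) x i j))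
    (hθ : C * θ ≤ 1 / 2) (i j : Fin n) :
    HB a (4 * C * (X * N + Q * X * (6 * (n : ℝ) ^ 2 * T + 1)))
      (fun x => Hs (fun x => χ x * h x) x i j) := by
  have hX := hb_nonneg hχ.h0
  have hN := hb_nonneg hf
  have hM : 0 ≤ C * (2 * (X * N) + 2 * (Q * X) * (6 * (n : ℝ) ^ 2 * T + 1)) := by positivity
  have key := absorb (F := fun (p : Fin n × Fin n) x => Hs (fun x => χ x * h x) x p.1 p.2) hM
    ⟨_, fun p => cut_fin hQ hχ hh hK hQ0 hQ1 p.1 p.2⟩ (fun K hK0 hKK p => by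
      have hKK' : ∀ i j, HB a K (fun x => Hs (fun x => χ x * h x) x i j) :=
        fun i j => hKK (i, j)
      have h1 := cut_comm hQ hχ hh hf hτ hQ0 hQ1 (hEr K hK0 hKK')
      have h2 := hA (fun x => χ x * h x) _ (hχ.c2.mul hh) ⟨K, fun x i j => (hKK' i j).1 x⟩ h1
        p.1 p.2
      refine hb_mono h2 ?_
      have h3 : C * (θ * K) ≤ 1 / 2 * K := by
        rw [← mul_assoc]; exact mul_le_mul_of_nonneg_right hθ hK0
      nlinarith)
  refine hb_mono (key (i, j)) (le_of_eq ?_)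
  ring

end Crest.Agent.R238.SF
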