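import Crest.Agent.R238.SchBall

/-!
Row 238, node H3, helper452's part 4: far and local error terms, covering lemma.
-/

set_option autoImplicit false

open MeasureTheory Set Filter Metric
open scoped ContDiff Topology

namespace Crest.Agent.R238.SF

open Crest.Agent.R238

variable {n : ℕ}

theorem HBon.mono {a M M' : ℝ} {S S' : Set (E n)} {f : E n → ℝ} (h : HBon a M S f) (hM : M ≤ M')
    (hS : S' ⊆ S) : HBon a M' S' f :=
  ⟨fun x hx => (h.1 x (hS hx)).trans hM, fun x hx y hy => (h.2 x (hS hx) y (hS hy)).trans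
    (mul_le_mul_of_nonneg_right hM (Real.rpow_nonneg (norm_nonneg _) a))⟩

/-- error term from entrywise products -/
theorem err_sum {a K θ : ℝ} {A0 : Matrix (Fin n) (Fin n) ℝ} {τ : E n → Matrix (Fin n) (Fin n) ℝ}
    {F : Fin n → Fin n → E n → ℝ}
    (h : ∀ i j, HB a (θ * K) (fun x => (A0 i j - τ x i j) * F i j x)) :
    HB a ((n : ℝ) ^ 2 * θ * K) (fun x => ∑ i, ∑ j, (A0 i j - τ x i j) * F i j x) := by
  refine hb_mono (hb_sum2c h) (le_of_eq ?_)
  ring

/-- far error -/
theorem far_err {a e : ℝ} {S : Set (E n)} {A0 : Matrix (Fin n) (Fin n) ℝ}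
    {τ : E n → Matrix (Fin n) (Fin n) ℝ} (he : 0 ≤ e)
    (hS : ∀ i j, HBon a e S (fun x => A0 i j - τ x i j)) {g : E n → ℝ}
    (hg : ∀ x ∉ S, ∀ i j, Hs g x i j = 0) (K : ℝ)
    (hK : ∀ i j, HB a K (fun x => Hs g x i j)) :
    HB a ((n : ℝ) ^ 2 * (2 * e) * K) (fun x => ∑ i, ∑ j, (A0 i j - τ x i j) * Hs g x i j) :=
  err_sum (F := fun i j x => Hs g x i j) fun i j =>
    hb_mono (HBon.mul he (hS i j) (hK i j) fun x hx => hg x hx i j) (le_of_eq (by ring))

/-- the sup of a Hölder function vanishing outside a small ball -/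
theorem sup_small {a K r : ℝ} (ha0 : 0 ≤ a) (hr : 0 < r) (i0 : Fin n) {F : E n → ℝ}
    {z : E n} (hF : HB a K F) (h0 : ∀ x ∉ closedBall z r, F x = 0) (x : E n)
    (hx : x ∈ closedBall z r) : |F x| ≤ K * (3 * r) ^ a := by
  set y : E n := z + (2 * r) • ee i0 with hy
  have h1 : ‖y - z‖ = 2 * r := by
    rw [hy, add_sub_cancel_left, norm_smul]
    simp [abs_of_pos hr]
  have h2 : y ∉ closedBall z r := by
    rw [mem_closedBall, dist_eq_norm, h1]; linarith
  have h3 := hF.2 x y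
  rw [h0 y h2, sub_zero] at h3
  have h4 : ‖x - y‖ ≤ 3 * r := by
    have h5 : x - y = (x - z) - (y - z) := by abel
    have h6 : ‖x - z‖ ≤ r := by rwa [mem_closedBall, dist_eq_norm] at hx
    rw [h5]
    have := norm_sub_le (x - z) (y - z)
    linarith
  exact h3.trans (mul_le_mul_of_nonneg_left (Real.rpow_le_rpow (norm_nonneg _) h4 ha0)
    (hb_nonneg hF))

/-- product with a factor vanishing at the centre of a small ball -/
theorem loc_prod {a K T r : ℝ} (ha0 : 0 ≤ a) (hr : 0 < r) (hr1 : 3 * r ≤ 1) (hT : 0 ≤ T)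
    (i0 : Fin n) {B F : E n → ℝ} {z : E n} (hF : HB a K F) (h0 : ∀ x ∉ closedBall z r, F x = 0)
    (hB0 : B z = 0) (hB : ∀ x y, |B x - B y| ≤ T * ‖x - y‖ ^ a) :
    HB a (2 * (T * (3 * r) ^ a) * K) (fun x => B x * F x) := by
  have hK := hb_nonneg hF
  set q : ℝ := (3 * r) ^ a with hq
  have hq0 : 0 ≤ q := Real.rpow_nonneg (by linarith) a
  have hq1 : q ≤ 1 := Real.rpow_le_one (by linarith) hr1 ha0
  have hra : r ^ a ≤ q := Real.rpow_le_rpow hr.le (by linarith) ha0
  have hBz : ∀ x ∈ closedBall z r, |B x| ≤ T * q := by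
    intro x hx
    have h1 := hB x z
    rw [hB0, sub_zero] at h1
    have h2 : ‖x - z‖ ≤ r := by rwa [mem_closedBall, dist_eq_norm] at hx
    have h3 : ‖x - z‖ ^ a ≤ q := (Real.rpow_le_rpow (norm_nonneg _) h2 ha0).trans hra
    exact h1.trans (mul_le_mul_of_nonneg_left h3 hT)
  have hFz := sup_small ha0 hr i0 hF h0
  have hTq : 0 ≤ T * q := mul_nonneg hT hq0
  refine ⟨fun x => ?_, fun x y => ?_⟩
  · by_cases hx : x ∈ closedBall z r
    · show |B x * F x| ≤ _
      rw [abs_mul]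
      have : |B x| * |F x| ≤ (T * q) * K := mul_le_mul (hBz x hx) (hF.1 x) (abs_nonneg _) hTq
      nlinarith [mul_nonneg hTq hK]
    · simp only [h0 x hx, mul_zero, abs_zero]; positivity
  · have hr' := Real.rpow_nonneg (norm_nonneg (x - y)) a
    have hr2 : 0 ≤ T * q * K * ‖x - y‖ ^ a := mul_nonneg (mul_nonneg hTq hK) hr'
    show |B x * F x - B y * F y| ≤ _
    by_cases hx : x ∈ closedBall z r
    · have h2 : |B x * (F x - F y)| ≤ (T * q) * (K * ‖x - y‖ ^ a) := by
        rw [abs_mul]; exact mul_le_mul (hBz x hx) (hF.2 x y) (abs_nonneg _) hTq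
      by_cases hy : y ∈ closedBall z r
      · have h1 : B x * F x - B y * F y = B x * (F x - F y) + (B x - B y) * F y := by ring
        rw [h1]
        have h3 : |(B x - B y) * F y| ≤ (T * ‖x - y‖ ^ a) * (K * q) := by
          rw [abs_mul]; exact mul_le_mul (hB x y) (hFz y hy) (abs_nonneg _)
            (mul_nonneg hT hr')
        have := abs_add_le (B x * (F x - F y)) ((B x - B y) * F y)
        nlinarith
      · have h1 : B x * F x - B y * F y = B x * (F x - F y) := by rw [h0 y hy]; ring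
        rw [h1]
        nlinarith
    · by_cases hy : y ∈ closedBall z r
      · have h1 : B x * F x - B y * F y = B y * (F x - F y) := by rw [h0 x hx]; ring
        rw [h1]
        have h2 : |B y * (F x - F y)| ≤ (T * q) * (K * ‖x - y‖ ^ a) := by
          rw [abs_mul]; exact mul_le_mul (hBz y hy) (hF.2 x y) (abs_nonneg _) hTq
        nlinarith
      · have h1 : B x * F x - B y * F y = 0 := by rw [h0 x hx, h0 y hy]; ring
        rw [h1, abs_zero]
        nlinarith

/-- local error -/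
theorem loc_err {a T r : ℝ} (ha0 : 0 ≤ a) (hr : 0 < r) (hr1 : 3 * r ≤ 1) (hT : 0 ≤ T)
    (i0 : Fin n) {τ : E n → Matrix (Fin n) (Fin n) ℝ} {z : E n}
    (hτ : ∀ i j, HB a T (fun x => τ x i j)) {g : E n → ℝ}
    (hg : ∀ x ∉ closedBall z r, ∀ i j, Hs g x i j = 0) (K : ℝ)
    (hK : ∀ i j, HB a K (fun x => Hs g x i j)) :
    HB a ((n : ℝ) ^ 2 * (2 * (T * (3 * r) ^ a)) * K)
      (fun x => ∑ i, ∑ j, (τ z i j - τ x i j) * Hs g x i j) :=
  err_sum (F := fun i j x => Hs g x i j) fun i j =>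
    loc_prod (B := fun x => τ z i j - τ x i j) ha0 hr hr1 hT i0 (hK i j)
      (fun x hx => hg x hx i j) (by simp) fun x y => by
        have h1 : τ z i j - τ x i j - (τ z i j - τ y i j) = -(τ x i j - τ y i j) := by ring
        rw [h1, abs_neg]; exact (hτ i j).2 x y

/-- covering lemma -/
theorem hb_of_cover {a K δ : ℝ} (ha0 : 0 ≤ a) (hδ : 0 < δ) (hK : 0 ≤ K) {f : E n → ℝ}
    (h : ∀ x, ∃ g : E n → ℝ, HB a K g ∧ ∀ y ∈ closedBall x δ, f y = g y) :
    HB a ((1 + 2 / δ ^ a) * K) f := by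
  have hd : 0 < δ ^ a := Real.rpow_pos_of_pos hδ a
  have hsup : ∀ x, |f x| ≤ K := by
    intro x
    obtain ⟨g, hg, hfg⟩ := h x
    rw [hfg x (mem_closedBall_self hδ.le)]; exact hg.1 x
  have hq : 0 ≤ 2 / δ ^ a * K := by positivity
  refine ⟨fun x => (hsup x).trans (by nlinarith), fun x y => ?_⟩
  have hr := Real.rpow_nonneg (norm_nonneg (x - y)) a
  rcases le_total ‖x - y‖ δ with hxy | hxy
  · obtain ⟨g, hg, hfg⟩ := h x
    have hy : y ∈ closedBall x δ := by
      rw [mem_closedBall, dist_eq_norm, norm_sub_rev]; exact hxy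
    rw [hfg x (mem_closedBall_self hδ.le), hfg y hy]
    have := hg.2 x y
    nlinarith [mul_nonneg hq hr]
  · have h1 : δ ^ a ≤ ‖x - y‖ ^ a := Real.rpow_le_rpow hδ.le hxy ha0
    have h2 : |f x - f y| ≤ 2 * K := by
      have h3 := abs_sub (f x) (f y)
      have h4 := hsup x
      have h5 := hsup y
      linarith
    have h3 : 2 * K ≤ 2 / δ ^ a * K * ‖x - y‖ ^ a := by
      have h4 : 2 / δ ^ a * K * δ ^ a = 2 * K := by field_simp
      rw [← h4]
      exact mul_le_mul_of_nonneg_left h1 hq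
    have h4 : 0 ≤ K * ‖x - y‖ ^ a := mul_nonneg hK hr
    nlinarith

end Crest.Agent.R238.SF
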