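import Crest.Agent.R238.Sch4
import Crest.Agent.R238.AEstF
import Crest.Agent.R238.AprDefs

/-!
Row 238, module H3 (B): the frozen statement `Apr.SchStmt` from `Sch.schauder_B` and `repStmt`.
-/

set_option autoImplicit false

open Set Filter

namespace Crest.Agent.R238.Sch

open Crest.Agent.R238

variable {n : ℕ}

theorem ee_eq (i : Fin n) : (Sch.ee i : EuclideanSpace ℝ (Fin n)) = EuclideanSpace.single i 1 := rfl

theorem Hs_eq (h : R238.E n → ℝ) (x : R238.E n) (i j : Fin n) :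
    Hs h x i j = D2 h x (Sch.ee i) (Sch.ee j) := rfl

theorem Lop_eq (τ : R238.E n → Matrix (Fin n) (Fin n) ℝ) (lam : ℝ) (h : R238.E n → ℝ) :
    Lop τ lam h = fun x => LA τ h x + lam * h x := rfl

theorem hb_iff {a M : ℝ} {f : R238.E n → ℝ} : Sch.HB a M f ↔ R238.HB a M f :=
  ⟨fun h => ⟨h.bdd, h.hol⟩, fun h => ⟨h.1, h.2⟩⟩

theorem ell_one' {lo hi : ℝ} (hlo : lo ≤ 1) (hhi : 1 ≤ hi) :
    Ell lo hi (1 : Matrix (Fin n) (Fin n) ℝ) := by
  refine ⟨fun i j => ?_, fun v => ?_⟩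
  · simp [Matrix.one_apply, eq_comm]
  · have e : ∑ i, ∑ j, (1 : Matrix (Fin n) (Fin n) ℝ) i j * v i * v j = ∑ i, v i ^ 2 := by
      refine Finset.sum_congr rfl fun i _ => ?_
      simp only [Matrix.one_apply, ite_mul, one_mul, zero_mul, Finset.sum_ite_eq,
        Finset.mem_univ, if_true]
      ring
    have h0 : 0 ≤ ∑ i, v i ^ 2 := Finset.sum_nonneg fun i _ => sq_nonneg _
    rw [e]
    constructor <;> nlinarith

theorem ell_mono {lo hi lo' hi' : ℝ} (hlo : lo' ≤ lo) (hhi : hi ≤ hi')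
    {A : Matrix (Fin n) (Fin n) ℝ} (h : Ell lo hi A) : Ell lo' hi' A := by
  refine ⟨h.1, fun z => ?_⟩
  have h0 : 0 ≤ ∑ i, z i ^ 2 := Finset.sum_nonneg fun i _ => sq_nonneg _
  exact ⟨(mul_le_mul_of_nonneg_right hlo h0).trans (h.2 z).1,
    (h.2 z).2.trans (mul_le_mul_of_nonneg_right hhi h0)⟩

theorem sa_of_rep {a lo hi C lam : ℝ} (hC : 0 < C) (hlam : lam = 0 ∨ lam = 1)
    (hR : ∀ A : Matrix (Fin n) (Fin n) ℝ, Ell lo hi A →
      ∀ lam : ℝ, (lam = 0 ∨ lam = 1) → ∀ (g : R238.E n → ℝ) (N : ℝ), ContDiff ℝ 2 g →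
      (∃ B : ℝ, ∀ x i j, |Hs g x i j| ≤ B) →
      R238.HB a N (fun x => LA (fun _ => A) g x + lam * g x) →
      ∀ i j, R238.HB a (C * N) (fun x => Hs g x i j))
    (A : Matrix (Fin n) (Fin n) ℝ) (hA : Ell lo hi A) :
    SA a ((n : ℝ) ^ 2 * C + 1) lam A := by
  intro g N hg hB hN
  obtain ⟨B, hB⟩ := hB
  have h1 := hR A hA lam hlam g N hg ⟨B, fun x i j => (norm_entry_le _ i j).trans (hB x)⟩
    (hb_iff.1 hN)
  have h2 : Sch.HB a ((n : ℝ) ^ 2 * (C * N)) (D2 g) :=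
    HB.of_entry (fun i j => hb_iff.2 (h1 i j))
  refine h2.mono ?_
  have := hN.nonneg
  nlinarith

/-- (B), one `lam`. -/
theorem sch_lam (n : ℕ) {a lo hi lam : ℝ} (ha : 0 < a) (ha1 : a < 1) (hlo : 0 < lo)
    (hlohi : lo ≤ hi) (hlam : lam = 0 ∨ lam = 1) :
    ∃ ε₀ : ℝ, 0 < ε₀ ∧ ∀ M R : ℝ, ∃ C : ℝ, 0 < C ∧
    ∀ τ : R238.E n → Matrix (Fin n) (Fin n) ℝ, (∀ x, Ell lo hi (τ x)) →
      (∀ i j, R238.HB a M (fun x => τ x i j)) → (∀ ε ≤ ε₀, Apr.Far a ε R τ →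
       ∀ (h : R238.E n → ℝ) (N S : ℝ), ContDiff ℝ 2 h →
        (∃ B, ∀ i j, R238.HB a B (fun x => Hs h x i j)) →
        R238.HB a N (fun x => LA τ h x + lam * h x) →
        (∀ x, ‖x‖ ≤ 3 * (max R 1) + 3 → |h x| ≤ S) →
        ∀ i j, R238.HB a (C * (N + S)) (fun x => Hs h x i j)) := by
  obtain ⟨C0, hC0, hR⟩ := AEst.repStmt n a (min lo 1) (max hi 1) ha ha1 (by positivity)
    ((min_le_left _ _).trans (hlohi.trans (le_max_left _ _)))
  obtain ⟨ε₀, hε₀, H⟩ := schauder_B (n := n) (a := a) (C0 := (n : ℝ) ^ 2 * C0 + 1) (lam := lam)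
    ha ha1 (by positivity) (Ell (min lo 1) (max hi 1))
    (ell_one' (min_le_right _ _) (le_max_right _ _)) (fun A hA => sa_of_rep hC0 hlam hR A hA)
  refine ⟨ε₀, hε₀, fun M R => ?_⟩
  obtain ⟨C, hC, H1⟩ := H (max M 0) (max R 1) (le_max_right _ _)
    (lt_of_lt_of_le one_pos (le_max_right _ _))
  refine ⟨C + 1, by linarith, fun τ hell hτ ε hε hfar h N S hh hB hN hS i j => ?_⟩
  obtain ⟨V, hV⟩ := hB
  have hS0 : 0 ≤ S := (abs_nonneg _).trans (hS 0 (by simp; positivity))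
  have hN0 : 0 ≤ N := (abs_nonneg _).trans (hN.1 0)
  have h1 := H1 τ h N S _ (fun x => ell_mono (min_le_left _ _) (le_max_left _ _) (hell x))
    (fun i j => (hb_iff.2 (hτ i j)).mono (le_max_left _ _))
    (fun i j x hx => ((hfar x x ((le_max_left _ _).trans hx) ((le_max_left _ _).trans hx) i j).1).trans
      hε)
    (fun i j x y hx hy => ((hfar x y ((le_max_left _ _).trans hx)
      ((le_max_left _ _).trans hy) i j).2).trans
      (mul_le_mul_of_nonneg_right hε (Real.rpow_nonneg (norm_nonneg _) _)))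
    hh (HB.of_entry (fun i j => hb_iff.2 (hV i j))) (by rw [Lop_eq]; exact hb_iff.2 hN) hS
  exact hb_iff.1 ((h1.entry i j).mono (by nlinarith))

/-- **(B)**: the variable coefficient Schauder estimate, frozen form. -/
theorem schStmt : Apr.SchStmt := by
  intro n a lo hi ha ha1 hlo hlohi
  obtain ⟨e0, he0, H0⟩ := sch_lam n ha ha1 hlo hlohi (lam := 0) (Or.inl rfl)
  obtain ⟨e1, he1, H1⟩ := sch_lam n ha ha1 hlo hlohi (lam := 1) (Or.inr rfl)
  refine ⟨min e0 e1, by positivity, fun M R => ?_⟩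
  obtain ⟨C0, hC0, K0⟩ := H0 M R
  obtain ⟨C1, hC1, K1⟩ := H1 M R
  refine ⟨C0 + C1, 3 * (max R 1) + 3, by positivity, ?_⟩
  intro τ hell hτ hfar lam hlam h N S hh hB hN hS i j
  have hS0 : 0 ≤ S := (abs_nonneg _).trans (hS 0 (by simp; positivity))
  have hN0 : 0 ≤ N := (abs_nonneg _).trans (hN.1 0)
  rcases hlam with rfl | rfl
  · have := K0 τ hell hτ _ (min_le_left _ _) hfar h N S hh hB hN hS i j
    exact hb_iff.1 ((hb_iff.2 this).mono (by nlinarith))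
  · have := K1 τ hell hτ _ (min_le_right _ _) hfar h N S hh hB hN hS i j
    exact hb_iff.1 ((hb_iff.2 this).mono (by nlinarith))

end Crest.Agent.R238.Sch
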