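import Crest.Agent.R238.SchErr

/-!
Row 238, node H3, helper452's part 5: the Schauder a priori estimate (B) from (A) = `RepStmt`
and the interpolation inequality on balls.
-/

set_option autoImplicit false

open MeasureTheory Set Filter Metric
open scoped ContDiff Topology

namespace Crest.Agent.R238.SF

open Crest.Agent.R238

variable {n : ℕ}

/-- interpolation on a ball -/
def IntOn (n : ℕ) (a ρ ε : ℝ) : Prop := ∃ K : ℝ, 0 ≤ K ∧ ∀ h : E n → ℝ, ContDiff ℝ 2 h →
  ∀ B m : ℝ, 0 ≤ B → 0 ≤ m → (∀ x i j, |Hs h x i j| ≤ B) → (∀ x, ‖x‖ ≤ ρ + 1 → |h x| ≤ m) →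
    HBon a (ε * B + K * m) (closedBall 0 ρ) h ∧
      ∀ i, HBon a (ε * B + K * m) (closedBall 0 ρ) (fun x => fderiv ℝ h x (ee i))

/-- **(B)**: the Schauder a priori estimate. -/
def SchStmt : Prop := ∀ (n : ℕ) (a : ℝ), 0 < a → a < 1 → ∃ e0 : ℝ, 0 < e0 ∧
  ∀ lo hi T R : ℝ, 0 < lo → lo ≤ hi → 1 ≤ R → ∃ C : ℝ, 0 < C ∧
    ∀ τ : E n → Matrix (Fin n) (Fin n) ℝ, (∀ x, Ell lo hi (τ x)) →
      (∀ i j, HB a T (fun x => τ x i j)) →
      (∀ i j, HBon a e0 {x | R ≤ ‖x‖}
        (fun x => τ x i j - (1 : Matrix (Fin n) (Fin n) ℝ) i j)) →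
      ∀ lam : ℝ, (lam = 0 ∨ lam = 1) → ∀ (h : E n → ℝ) (N m : ℝ), ContDiff ℝ 2 h →
        (∃ K, ∀ i j, HB a K (fun x => Hs h x i j)) →
        HB a N (fun x => LA τ h x + lam * h x) → (∀ x, ‖x‖ ≤ 2 * R + 3 → |h x| ≤ m) →
        ∀ i j, HB a (C * (N + m)) (fun x => Hs h x i j)

theorem Cut.mono {a X X' : ℝ} {S S' : Set (E n)} {χ : E n → ℝ} (h : Cut a X S χ) (hX : X ≤ X')
    (hS : S ⊆ S') : Cut a X' S' χ :=
  ⟨h.c2, hb_mono h.h0 hX, fun i => hb_mono (h.h1 i) hX, fun i j => hb_mono (h.h2 i j) hX,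
    hb_mono h.h3 hX, fun x hx => h.s1 x fun hx' => hx (hS hx'),
    fun x hx => h.s2 x fun hx' => hx (hS hx')⟩

theorem exists_small {a q : ℝ} (ha : 0 < a) (hq : 0 < q) : ∃ s : ℝ, 0 < s ∧ s ≤ 1 ∧ s ^ a ≤ q := by
  refine ⟨min 1 (q ^ (1 / a)), lt_min one_pos (Real.rpow_pos_of_pos hq _), min_le_left _ _, ?_⟩
  calc (min 1 (q ^ (1 / a))) ^ a ≤ (q ^ (1 / a)) ^ a :=
        Real.rpow_le_rpow (le_min zero_le_one (Real.rpow_nonneg hq.le _)) (min_le_right _ _) ha.le
    _ = q := by rw [← Real.rpow_mul hq.le, one_div_mul_cancel ha.ne', Real.rpow_one]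

theorem ell_one : Ell 1 1 (1 : Matrix (Fin n) (Fin n) ℝ) := by
  refine ⟨fun i j => by simp [Matrix.one_apply, eq_comm], fun z => ?_⟩
  have h : ∑ i, ∑ j, (1 : Matrix (Fin n) (Fin n) ℝ) i j * z i * z j = ∑ i, z i ^ 2 := by
    refine Finset.sum_congr rfl fun i _ => ?_
    rw [Finset.sum_eq_single i]
    · simp [sq]
    · intro j _ hj; simp [Matrix.one_apply_ne' hj]
    · simp
  rw [h]; constructor <;> simp

/-- far piece -/
theorem far_piece {a C N X T Q K0 lam e R : ℝ} {χ h : E n → ℝ}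
    {τ : E n → Matrix (Fin n) (Fin n) ℝ} {S : Set (E n)}
    (hC : 0 < C) (hA : AEst a C lam (1 : Matrix (Fin n) (Fin n) ℝ))
    (hQ : 0 ≤ Q) (hT : 0 ≤ T) (he : 0 ≤ e) (hχ : Cut a X S (fun x => 1 - χ x))
    (hχ1 : ∀ x, ‖x‖ ≤ R → χ x = 1)
    (hh : ContDiff ℝ 2 h)
    (hK : ∀ i j, HB a K0 (fun x => Hs h x i j))
    (hf : HB a N (fun x => LA τ h x + lam * h x))
    (hτ : ∀ i j, HB a T (fun x => τ x i j))
    (hfar : ∀ i j, HBon a e {x | R ≤ ‖x‖}
        (fun x => τ x i j - (1 : Matrix (Fin n) (Fin n) ℝ) i j))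
    (hQ0 : HBon a Q S h) (hQ1 : ∀ j, HBon a Q S (fun x => dd h x j))
    (hθ : C * ((n : ℝ) ^ 2 * (2 * e)) ≤ 1 / 2) (i j : Fin n) :
    HB a (4 * C * (X * N + Q * X * (6 * (n : ℝ) ^ 2 * T + 1)))
      (fun x => Hs (fun x => (1 - χ x) * h x) x i j) := by
  refine cut_absorb (χ := fun x => 1 - χ x) hC hA hQ hT hχ hh hK hf hτ hQ0 hQ1
    (fun K _ hKK => ?_) hθ i j
  refine far_err (S := {x | R ≤ ‖x‖}) he (fun i j => ?_) (fun x hx i j => ?_) K hKK
  · refine ⟨fun x hx => ?_, fun x hx y hy => ?_⟩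
    · rw [abs_sub_comm]; exact (hfar i j).1 x hx
    · have h1 := (hfar i j).2 x hx y hy
      rw [abs_sub_comm] at h1
      refine le_trans (le_of_eq ?_) h1
      congr 1; ring
  · have ho : IsOpen {y : E n | ‖y‖ < R} := isOpen_lt continuous_norm continuous_const
    have hx' : x ∈ {y : E n | ‖y‖ < R} := by
      simpa [not_le] using hx
    refine Hs_zero_of ?_ i j
    filter_upwards [ho.mem_nhds hx'] with y hy
    rw [hχ1 y (le_of_lt hy)]; ring

/-- local piece -/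
theorem loc_piece {a C N X T Q K0 lam r : ℝ} {χ h : E n → ℝ} {z : E n}
    {τ : E n → Matrix (Fin n) (Fin n) ℝ} {S : Set (E n)} (ha0 : 0 ≤ a) (hr : 0 < r)
    (hr1 : 3 * r ≤ 1)
    (hC : 0 < C) (hA : AEst a C lam (τ z))
    (hQ : 0 ≤ Q) (hT : 0 ≤ T) (hχ : Cut a X S (fun x => χ (x - z)))
    (hχ0 : ∀ x, r ≤ ‖x‖ → χ x = 0)
    (hh : ContDiff ℝ 2 h)
    (hK : ∀ i j, HB a K0 (fun x => Hs h x i j))
    (hf : HB a N (fun x => LA τ h x + lam * h x))
    (hτ : ∀ i j, HB a T (fun x => τ x i j))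
    (hQ0 : HBon a Q S h) (hQ1 : ∀ j, HBon a Q S (fun x => dd h x j))
    (hθ : C * ((n : ℝ) ^ 2 * (2 * (T * (3 * r) ^ a))) ≤ 1 / 2) (i j : Fin n) :
    HB a (4 * C * (X * N + Q * X * (6 * (n : ℝ) ^ 2 * T + 1)))
      (fun x => Hs (fun x => χ (x - z) * h x) x i j) := by
  refine cut_absorb (χ := fun x => χ (x - z)) hC hA hQ hT hχ hh hK hf hτ hQ0 hQ1
    (fun K _ hKK => ?_) hθ i j
  refine loc_err ha0 hr hr1 hT i hτ (fun x hx i j => ?_) K hKK
  have ho : IsOpen (closedBall z r)ᶜ := isClosed_closedBall.isOpen_compl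
  refine Hs_zero_of ?_ i j
  filter_upwards [ho.mem_nhds hx] with y hy
  have h1 : r ≤ ‖y - z‖ := by
    simp only [mem_compl_iff, mem_closedBall, dist_eq_norm, not_le] at hy
    exact hy.le
  rw [hχ0 _ h1]; ring

/-- **(B)** from (A) and interpolation -/
theorem schauder (hRep : RepStmt)
    (hInt : ∀ (n : ℕ) (a ρ ε : ℝ), 0 < a → a < 1 → 0 < ε → IntOn n a ρ ε) : SchStmt := by
  intro n a ha0 ha1
  obtain ⟨C1, hC1, hA1⟩ := hRep n a 1 1 ha0 ha1 one_pos le_rfl
  have hn2 : (0 : ℝ) ≤ (n : ℝ) ^ 2 := by positivity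
  refine ⟨1 / (4 * ((n : ℝ) ^ 2 + 1) * C1), by positivity, ?_⟩
  intro lo hi T R hlo hlohi hR
  obtain ⟨C2, hC2, hA2⟩ := hRep n a lo hi ha0 ha1 hlo hlohi
  set e0 : ℝ := 1 / (4 * ((n : ℝ) ^ 2 + 1) * C1) with he0
  have he0pos : 0 < e0 := by rw [he0]; positivity
  set T' : ℝ := |T| with hT'
  have hT'0 : 0 ≤ T' := abs_nonneg T
  -- the local scale
  obtain ⟨s, hs0, hs1, hsq⟩ := exists_small (a := a) (q := 1 / (4 * ((n : ℝ) ^ 2 + 1) * C2 * (T' + 1)))
    ha0 (by positivity)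
  set r : ℝ := s / 3 with hr
  have hr0 : 0 < r := by rw [hr]; positivity
  have h3r : 3 * r = s := by rw [hr]; ring
  have hr3 : r ≤ 1 / 3 := by rw [hr]; linarith
  -- cut-offs
  obtain ⟨Xf, χf, hXf, hcf, hf1, hf0⟩ := exists_cut (n := n) ha0.le ha1.le R (by linarith)
  obtain ⟨Xl, χl, hXl, hcl, hl1, hl0⟩ := exists_cut (n := n) ha0.le ha1.le (r / 2) (by linarith)
  have h2r : 2 * (r / 2) = r := by ring
  rw [h2r] at hcl hl0
  set X : ℝ := (1 + Xf) + (1 + n * (2 * R + 1)) * Xl with hX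
  have hnR : 0 ≤ (1 + n * (2 * R + 1)) * Xl := by positivity
  have hX0 : 0 ≤ X := by rw [hX]; linarith
  set δ : ℝ := r / 4 with hδ
  have hδ0 : 0 < δ := by rw [hδ]; positivity
  have hδa : 0 < δ ^ a := Real.rpow_pos_of_pos hδ0 a
  set A : ℝ := (1 + 2 / δ ^ a) * (4 * (C1 + C2) * X) with hA
  have hA0 : 0 ≤ A := by rw [hA]; positivity
  set B : ℝ := A * (6 * (n : ℝ) ^ 2 * T' + 1) with hB
  have hB0 : 0 ≤ B := by rw [hB]; positivity
  obtain ⟨Kε, hKε, hI⟩ := hInt n a (2 * R + 2) (1 / (2 * (B + 1))) ha0 ha1 (by positivity)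
  refine ⟨2 * (A + B * Kε) + 1, by positivity, ?_⟩
  intro τ hEll hτ hfar lam hlam h N m hh hfin hN hm i j
  have hm0 : 0 ≤ m := (abs_nonneg _).trans (hm 0 (by simp; linarith))
  have hN0 := hb_nonneg hN
  have hTT : ∀ i j, HB a T' (fun x => τ x i j) := fun i j => hb_mono (hτ i j) (le_abs_self T)
  have key := absorb (F := fun (p : Fin n × Fin n) x => Hs h x p.1 p.2)
    (M := A * N + B * Kε * m) (by positivity)
    (by obtain ⟨K, hK⟩ := hfin; exact ⟨K, fun p => hK p.1 p.2⟩) (fun K hK0 hKK p => by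
      have hK : ∀ i j, HB a K (fun x => Hs h x i j) := fun i j => hKK (i, j)
      obtain ⟨hQ0, hQ1⟩ := hI h hh K m hK0 hm0 (fun x i j => (hK i j).1 x)
        (fun x hx => hm x (by linarith))
      set Q : ℝ := 1 / (2 * (B + 1)) * K + Kε * m with hQ
      have hQnn : 0 ≤ Q := by rw [hQ]; positivity
      -- far piece
      have hfarp : ∀ i j, HB a (4 * (C1 + C2) * (X * N + Q * X * (6 * (n : ℝ) ^ 2 * T' + 1)))
          (fun x => Hs (fun x => (1 - χf x) * h x) x i j) := by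
        intro i j
        have hcut : Cut a X (closedBall 0 (2 * R + 2)) (fun x => 1 - χf x) :=
          hcf.one_sub.mono (by rw [hX]; linarith) (closedBall_subset_closedBall (by linarith))
        have hAE : AEst a C1 lam (1 : Matrix (Fin n) (Fin n) ℝ) := fun g N' hg hb hh' =>
          hA1 1 ell_one lam hlam g N' hg hb hh'
        have hθ : C1 * ((n : ℝ) ^ 2 * (2 * e0)) ≤ 1 / 2 := by
          have h1 : C1 * ((n : ℝ) ^ 2 * (2 * e0)) = (n : ℝ) ^ 2 / (2 * ((n : ℝ) ^ 2 + 1)) := by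
            rw [he0]; field_simp; ring
          rw [h1, div_le_div_iff₀ (by positivity) (by positivity)]
          linarith
        refine hb_mono (far_piece hC1 hAE hQnn hT'0 he0pos.le hcut hf1 hh hK hN hTT hfar hQ0 hQ1
          hθ i j) ?_
        have : 0 ≤ X * N + Q * X * (6 * (n : ℝ) ^ 2 * T' + 1) := by positivity
        exact mul_le_mul_of_nonneg_right (by linarith) this
      -- local piece
      have hlocp : ∀ z : E n, ‖z‖ ≤ 2 * R + 1 → ∀ i j,
          HB a (4 * (C1 + C2) * (X * N + Q * X * (6 * (n : ℝ) ^ 2 * T' + 1)))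
          (fun x => Hs (fun x => χl (x - z) * h x) x i j) := by
        intro z hz i j
        have hcut : Cut a X (closedBall 0 (2 * R + 2)) (fun x => χl (x - z)) :=
          (hcl.translate z hz).mono (by rw [hX]; linarith) (by
            intro x hx
            rw [mem_closedBall, dist_eq_norm] at hx
            rw [mem_closedBall, dist_zero_right]
            have := norm_le_norm_add_norm_sub z x
            rw [norm_sub_rev] at this
            linarith)
        have hAE : AEst a C2 lam (τ z) := fun g N' hg hb hh' =>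
          hA2 (τ z) (hEll z) lam hlam g N' hg hb hh'
        have hθ : C2 * ((n : ℝ) ^ 2 * (2 * (T' * (3 * r) ^ a))) ≤ 1 / 2 := by
          rw [h3r]
          have h1 : C2 * ((n : ℝ) ^ 2 * (2 * (T' * s ^ a))) ≤
              C2 * ((n : ℝ) ^ 2 * (2 * (T' * (1 / (4 * ((n : ℝ) ^ 2 + 1) * C2 * (T' + 1)))))) := by
            gcongr
          refine h1.trans ?_
          have h2 : C2 * ((n : ℝ) ^ 2 * (2 * (T' * (1 / (4 * ((n : ℝ) ^ 2 + 1) * C2 * (T' + 1))))))
              = ((n : ℝ) ^ 2 * T') / (2 * (((n : ℝ) ^ 2 + 1) * (T' + 1))) := by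
            field_simp; ring
          rw [h2, div_le_div_iff₀ (by positivity) (by positivity)]
          have h7 := mul_nonneg hn2 hT'0
          have h8 : (n : ℝ) ^ 2 * T' * 2 ≤ 1 * (2 * (((n : ℝ) ^ 2 + 1) * (T' + 1))) := by
            have h9 : 1 * (2 * (((n : ℝ) ^ 2 + 1) * (T' + 1))) =
              (n : ℝ) ^ 2 * T' * 2 + 2 * (n : ℝ) ^ 2 + 2 * T' + 2 := by ring
            rw [h9]; linarith
          exact h8
        refine hb_mono (loc_piece ha0.le hr0 (by linarith) hC2 hAE hQnn hT'0 hcut hl0 hh hK hN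
          hTT hQ0 hQ1 hθ i j) ?_
        have : 0 ≤ X * N + Q * X * (6 * (n : ℝ) ^ 2 * T' + 1) := by positivity
        exact mul_le_mul_of_nonneg_right (by linarith) this
      have hD0 : 0 ≤ 4 * (C1 + C2) * (X * N + Q * X * (6 * (n : ℝ) ^ 2 * T' + 1)) := by
        positivity
      have hcov := hb_of_cover ha0.le hδ0 hD0 (f := fun x => Hs h x p.1 p.2) (fun x => by
        by_cases hx : ‖x‖ ≤ 2 * R + 1
        · refine ⟨_, hlocp x hx p.1 p.2, fun y hy => ?_⟩
          refine Hs_congr ?_ p.1 p.2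
          have ho : IsOpen (ball x (r / 2)) := isOpen_ball
          have hy' : y ∈ ball x (r / 2) := by
            rw [mem_ball]; rw [mem_closedBall] at hy
            rw [hδ] at hy; linarith
          filter_upwards [ho.mem_nhds hy'] with w hw
          rw [mem_ball, dist_eq_norm] at hw
          rw [hl1 _ hw.le, one_mul]
        · refine ⟨_, hfarp p.1 p.2, fun y hy => ?_⟩
          refine Hs_congr ?_ p.1 p.2
          have ho : IsOpen {w : E n | 2 * R < ‖w‖} := isOpen_lt continuous_const continuous_norm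
          have hy' : y ∈ {w : E n | 2 * R < ‖w‖} := by
            rw [mem_closedBall, dist_eq_norm] at hy
            have h1 := norm_sub_norm_le x y
            rw [norm_sub_rev] at h1
            push Not at hx
            show 2 * R < ‖y‖
            rw [hδ] at hy; linarith
          filter_upwards [ho.mem_nhds hy'] with w hw
          rw [hf0 w (le_of_lt hw)]; ring)
      refine hb_mono hcov ?_
      have e1 : (1 + 2 / δ ^ a) * (4 * (C1 + C2) * (X * N + Q * X * (6 * (n : ℝ) ^ 2 * T' + 1)))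
          = A * N + B * Q := by
        rw [hB, hA]; ring
      rw [e1, hQ]
      have e2 : B * (1 / (2 * (B + 1)) * K) ≤ K / 2 := by
        have h1 : B * (1 / (2 * (B + 1)) * K) = (B / (B + 1)) * (K / 2) := by
          field_simp
        rw [h1]
        have h2 : B / (B + 1) ≤ 1 := by
          rw [div_le_one (by linarith)]; linarith
        have h3 : 0 ≤ K / 2 := by linarith
        exact (mul_le_mul_of_nonneg_right h2 h3).trans (by rw [one_mul])
      have e3 : B * (1 / (2 * (B + 1)) * K + Kε * m) = B * (1 / (2 * (B + 1)) * K) + B * Kε * m := by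
        ring
      rw [e3]
      linarith)
  refine hb_mono (key (i, j)) ?_
  have h1 : 0 ≤ A * m := mul_nonneg hA0 hm0
  have h2 : 0 ≤ B * Kε * N := by positivity
  have h3 : (2 * (A + B * Kε) + 1) * (N + m) =
    2 * (A * N + B * Kε * m) + 2 * (A * m) + 2 * (B * Kε * N) + N + m := by ring
  rw [h3]; linarith

end Crest.Agent.R238.SF
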