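import Crest.Agent.R238.SoftDefs

/-! Row 238, (R3): `LocalIneq n → LocEps n` (truncation of the potential to `|x|²/2 + b`
outside a ball, then dominated convergence). (helper492) -/

set_option autoImplicit false
open scoped ContDiff Topology
open Set Filter MeasureTheory

noncomputable section

namespace Crest.Agent.R238.Soft

/-! ### the smooth convex ramp -/

/-- primitive of the smooth step -/
def ramp (t : ℝ) : ℝ := ∫ s in (0:ℝ)..t, Real.smoothTransition s

theorem hasDerivAt_ramp (t : ℝ) : HasDerivAt ramp (Real.smoothTransition t) t :=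
  intervalIntegral.integral_hasDerivAt_right
    (Real.smoothTransition.continuous.intervalIntegrable _ _)
    (Real.smoothTransition.continuous.stronglyMeasurableAtFilter _ _)
    Real.smoothTransition.continuous.continuousAt

theorem deriv_ramp : deriv ramp = Real.smoothTransition :=
  funext fun t => (hasDerivAt_ramp t).deriv

theorem ramp_contDiff : ContDiff ℝ ∞ ramp := by
  rw [contDiff_infty_iff_deriv]
  exact ⟨fun t => (hasDerivAt_ramp t).differentiableAt, by
    rw [deriv_ramp]; exact Real.smoothTransition.contDiff⟩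

theorem ramp_mono : Monotone ramp :=
  monotone_of_deriv_nonneg (fun t => (hasDerivAt_ramp t).differentiableAt) (fun t => by
    rw [deriv_ramp]; exact Real.smoothTransition.nonneg t)

theorem ramp_convex : ConvexOn ℝ univ ramp :=
  Monotone.convexOn_univ_of_deriv (fun t => (hasDerivAt_ramp t).differentiableAt)
    (by rw [deriv_ramp]; exact Real.smoothTransition.monotone)

theorem ramp_zero : ramp 0 = 0 := by simp [ramp]

theorem ramp_of_nonpos {t : ℝ} (ht : t ≤ 0) : ramp t = 0 := by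
  unfold ramp
  rw [intervalIntegral.integral_symm, neg_eq_zero]
  rw [show (∫ s in t..0, Real.smoothTransition s) = ∫ s in t..0, (0:ℝ) from ?_]
  · simp
  · apply intervalIntegral.integral_congr
    intro s hs
    rw [uIcc_of_le ht] at hs
    exact Real.smoothTransition.zero_of_nonpos hs.2

theorem ramp_nonneg (t : ℝ) : 0 ≤ ramp t := by
  rcases le_total t 0 with h | h
  · rw [ramp_of_nonpos h]
  · rw [← ramp_zero]; exact ramp_mono h

theorem ramp_of_one_le {t : ℝ} (ht : 1 ≤ t) : ramp t = t + (ramp 1 - 1) := by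
  have h1 : ramp t = ramp 1 + ∫ s in (1:ℝ)..t, Real.smoothTransition s := by
    unfold ramp
    rw [intervalIntegral.integral_add_adjacent_intervals] <;>
      exact Real.smoothTransition.continuous.intervalIntegrable _ _
  have h2 : (∫ s in (1:ℝ)..t, Real.smoothTransition s) = ∫ s in (1:ℝ)..t, (1:ℝ) := by
    apply intervalIntegral.integral_congr
    intro s hs
    rw [uIcc_of_le ht] at hs
    exact Real.smoothTransition.one_of_one_le hs.1
  rw [h1, h2]
  simp only [intervalIntegral.integral_const, smul_eq_mul, mul_one]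
  ring

/-! ### even convex functions -/

theorem even_convex_min {F : Type*} [AddCommGroup F] [Module ℝ F] {f : F → ℝ}
    (hf : ConvexOn ℝ univ f) (he : ∀ x, f (-x) = f x) (x : F) : f 0 ≤ f x := by
  have := hf.2 (mem_univ x) (mem_univ (-x)) (by norm_num : (0:ℝ) ≤ 1/2)
    (by norm_num : (0:ℝ) ≤ 1/2) (by norm_num)
  rw [he, smul_neg, add_neg_cancel] at this
  simp only [smul_eq_mul] at this
  linarith

/-! ### walls -/

namespace Wall
variable {φ : ℝ → ℝ}

theorem dif0 (h : Wall φ) : Differentiable ℝ φ := (contDiff_infty_iff_deriv.1 h.smooth).1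

theorem smooth' (h : Wall φ) : ContDiff ℝ ∞ (deriv φ) := (contDiff_infty_iff_deriv.1 h.smooth).2

theorem dif1 (h : Wall φ) : Differentiable ℝ (deriv φ) :=
  (contDiff_infty_iff_deriv.1 h.smooth').1

theorem smooth'' (h : Wall φ) : ContDiff ℝ ∞ (deriv (deriv φ)) :=
  (contDiff_infty_iff_deriv.1 h.smooth').2

theorem deriv_mono (h : Wall φ) : Monotone (deriv φ) :=
  monotone_of_deriv_nonneg h.dif1 h.conv

theorem deriv_odd (h : Wall φ) (t : ℝ) : deriv φ (-t) = - deriv φ t := by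
  have h1 : deriv (fun t => φ (-t)) t = - deriv φ (-t) := by
    rw [deriv_comp_neg]
  have h2 : (fun t => φ (-t)) = φ := funext h.even
  rw [h2] at h1
  linarith

theorem deriv_at_zero (h : Wall φ) : deriv φ 0 = 0 := by
  have := h.deriv_odd 0
  rw [neg_zero] at this
  linarith

theorem bddT (h : Wall φ) : ∃ C, 0 ≤ C ∧ ∀ t, deriv (deriv φ) t ≤ C := by
  obtain ⟨C, hC⟩ := h.bdd
  exact ⟨C, (h.conv 0).trans (hC 0), hC⟩

theorem abs_deriv_le (h : Wall φ) {C : ℝ} (hC : ∀ t, deriv (deriv φ) t ≤ C) (t : ℝ) :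
    |deriv φ t| ≤ C * |t| := by
  have key : ∀ t : ℝ, 0 ≤ t → |deriv φ t| ≤ C * |t| := by
    intro t ht
    have h0 : 0 ≤ deriv φ t := by rw [← h.deriv_at_zero]; exact h.deriv_mono ht
    have hm : Monotone (fun s => C * s - deriv φ s) := by
      apply monotone_of_deriv_nonneg
      · exact (differentiable_id.const_mul C).sub h.dif1
      · intro s
        have hd : HasDerivAt (fun s => C * s - deriv φ s) (C * 1 - deriv (deriv φ) s) s :=
          ((hasDerivAt_id s).const_mul C).sub (h.dif1 s).hasDerivAt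
        rw [hd.deriv]
        linarith [hC s]
    have h1 := hm ht
    simp only [mul_zero, h.deriv_at_zero, sub_zero] at h1
    rw [abs_of_nonneg h0, abs_of_nonneg ht]
    linarith
  rcases le_total 0 t with ht | ht
  · exact key t ht
  · have := key (-t) (by linarith)
    rwa [h.deriv_odd, abs_neg, abs_neg] at this

theorem convexOn (h : Wall φ) : ConvexOn ℝ univ φ :=
  Monotone.convexOn_univ_of_deriv h.dif0 h.deriv_mono

theorem convexOn_quad (h : Wall φ) {C : ℝ} (hC : ∀ t, deriv (deriv φ) t ≤ C) :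
    ConvexOn ℝ univ (fun t => C * t ^ 2 / 2 - φ t) := by
  have hd : ∀ s, HasDerivAt (fun t => C * t ^ 2 / 2 - φ t) (C * s - deriv φ s) s := by
    intro s
    have h1 : HasDerivAt (fun t : ℝ => C * t ^ 2 / 2) (C * (2 * s ^ 1) / 2) s := by
      simpa using (((hasDerivAt_id s).pow 2).const_mul C).div_const 2
    have h2 := h1.sub (h.dif0 s).hasDerivAt
    rwa [show C * (2 * s ^ 1) / 2 = C * s by ring] at h2
  apply Monotone.convexOn_univ_of_deriv
  · exact fun s => (hd s).differentiableAt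
  · rw [show deriv (fun t => C * t ^ 2 / 2 - φ t) = fun s => C * s - deriv φ s from
      funext fun s => (hd s).deriv]
    apply monotone_of_deriv_nonneg
    · exact (differentiable_id.const_mul C).sub h.dif1
    · intro s
      have hd : HasDerivAt (fun s => C * s - deriv φ s) (C * 1 - deriv (deriv φ) s) s :=
        ((hasDerivAt_id s).const_mul C).sub (h.dif1 s).hasDerivAt
      rw [hd.deriv]
      linarith [hC s]

theorem zero_le (h : Wall φ) (t : ℝ) : φ 0 ≤ φ t := even_convex_min h.convexOn h.even t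

theorem le_quad (h : Wall φ) {C : ℝ} (hC : ∀ t, deriv (deriv φ) t ≤ C) (t : ℝ) :
    φ t ≤ φ 0 + C * t ^ 2 / 2 := by
  have := even_convex_min (h.convexOn_quad hC) (fun t => by simp [h.even]) t
  simp only [ne_eq, OfNat.ofNat_ne_zero, not_false_eq_true, zero_pow, mul_zero, zero_div,
    zero_sub] at this
  linarith

end Wall

/-! ### the potential `H` -/

section Hw
variable {n m : ℕ} {ν : Fin m → E n} {φ : Fin m → ℝ → ℝ}

theorem convexOn_fsum {F ι : Type*} [AddCommGroup F] [Module ℝ F] (s : Finset ι)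
    (f : ι → F → ℝ) (hf : ∀ i ∈ s, ConvexOn ℝ univ (f i)) :
    ConvexOn ℝ univ (fun x => ∑ i ∈ s, f i x) := by
  classical
  induction s using Finset.induction_on with
  | empty => simpa using convexOn_const (0:ℝ) (convex_univ)
  | insert a s ha ih =>
    have h1 := hf a (Finset.mem_insert_self a s)
    have h2 := ih (fun i hi => hf i (Finset.mem_insert_of_mem hi))
    have := h1.add h2
    refine this.congr ?_
    intro x _
    simp [Finset.sum_insert ha]

theorem convexOn_inner {g : ℝ → ℝ} (hg : ConvexOn ℝ univ g) (v : E n) :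
    ConvexOn ℝ univ (fun x : E n => g (inner ℝ v x)) := by
  have := hg.comp_linearMap (innerₛₗ ℝ v)
  simpa [Function.comp_def] using this

theorem Hw_contDiff (hφ : ∀ k, Wall (φ k)) : ContDiff ℝ ∞ (Hw ν φ) := by
  unfold Hw
  apply ContDiff.sum
  intro k _
  exact (hφ k).smooth.comp (contDiff_const.inner ℝ contDiff_id)

theorem Hw_even (hφ : ∀ k, Wall (φ k)) (x : E n) : Hw ν φ (-x) = Hw ν φ x := by
  unfold Hw
  refine Finset.sum_congr rfl fun k _ => ?_
  rw [inner_neg_right, (hφ k).even]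

theorem Hw_convex (hφ : ∀ k, Wall (φ k)) : ConvexOn ℝ univ (Hw ν φ) :=
  convexOn_fsum _ _ fun k _ => convexOn_inner (hφ k).convexOn (ν k)

theorem convexOn_normsq {c : ℝ} (hc : 0 ≤ c) : ConvexOn ℝ univ (fun x : E n => c * ‖x‖ ^ 2) := by
  have h : ConvexOn ℝ univ (fun x : E n => ‖x‖) := convexOn_univ_norm
  have := (h.pow (fun x _ => norm_nonneg x) 2).smul hc
  simpa using this

/-- `‖ν‖²‖x‖² - <ν,x>²` is convex -/
theorem convexOn_cs (v : E n) :
    ConvexOn ℝ univ (fun x : E n => ‖v‖ ^ 2 * ‖x‖ ^ 2 - (inner ℝ v x) ^ 2) := by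
  refine ⟨convex_univ, ?_⟩
  intro x _ y _ a b ha hb hab
  have h1 : (inner ℝ v (x - y)) ^ 2 ≤ ‖v‖ ^ 2 * ‖x - y‖ ^ 2 := by
    have := abs_real_inner_le_norm v (x - y)
    calc (inner ℝ v (x - y)) ^ 2 = |inner ℝ v (x - y)| ^ 2 := (sq_abs _).symm
      _ ≤ (‖v‖ * ‖x - y‖) ^ 2 := by gcongr
      _ = _ := by ring
  have e1 : ‖a • x + b • y‖ ^ 2 = a ^ 2 * ‖x‖ ^ 2 + 2 * (a * b) * inner ℝ x y + b ^ 2 * ‖y‖ ^ 2 := by
    rw [norm_add_sq_real, norm_smul, norm_smul, real_inner_smul_left, real_inner_smul_right,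
      Real.norm_of_nonneg ha, Real.norm_of_nonneg hb]
    ring
  have e2 : ‖x - y‖ ^ 2 = ‖x‖ ^ 2 - 2 * inner ℝ x y + ‖y‖ ^ 2 := norm_sub_sq_real x y
  have e3 : inner ℝ v (a • x + b • y) = a * inner ℝ v x + b * inner ℝ v y := by
    rw [inner_add_right, real_inner_smul_right, real_inner_smul_right]
  have e4 : inner ℝ v (x - y) = inner ℝ v x - inner ℝ v y := inner_sub_right _ _ _
  rw [e2, e4] at h1
  simp only [smul_eq_mul]
  rw [e1, e3]
  have hb' : b = 1 - a := by linarith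
  have hab' : 0 ≤ a * b := mul_nonneg ha hb
  have h2 := mul_nonneg hab' (sub_nonneg.2 h1)
  subst hb'
  nlinarith [h2]

/-- bounding constant of the Hessian of `H` -/
def Cw (ν : Fin m → E n) (C : Fin m → ℝ) : ℝ := ∑ k, C k * ‖ν k‖ ^ 2

theorem Cw_nonneg {C : Fin m → ℝ} (hC : ∀ k, 0 ≤ C k) : 0 ≤ Cw ν C :=
  Finset.sum_nonneg fun k _ => mul_nonneg (hC k) (by positivity)

theorem sub_Hw_convex (hφ : ∀ k, Wall (φ k)) {C : Fin m → ℝ} (hC0 : ∀ k, 0 ≤ C k)
    (hC : ∀ k t, deriv (deriv (φ k)) t ≤ C k) {c : ℝ} (hc : Cw ν C ≤ c) :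
    ConvexOn ℝ univ (fun x : E n => c * ‖x‖ ^ 2 / 2 - Hw ν φ x) := by
  have h1 : ConvexOn ℝ univ (fun x : E n => ∑ k, (C k * (inner ℝ (ν k) x) ^ 2 / 2
      - φ k (inner ℝ (ν k) x))) :=
    convexOn_fsum _ _ fun k _ => convexOn_inner ((hφ k).convexOn_quad (hC k)) (ν k)
  have h2 : ConvexOn ℝ univ (fun x : E n => ∑ k, (C k / 2) • (‖ν k‖ ^ 2 * ‖x‖ ^ 2
      - (inner ℝ (ν k) x) ^ 2)) :=
    convexOn_fsum _ _ fun k _ => (convexOn_cs (ν k)).smul (by have := hC0 k; positivity)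
  have h3 : ConvexOn ℝ univ (fun x : E n => ((c - Cw ν C) / 2) * ‖x‖ ^ 2) :=
    convexOn_normsq (by linarith)
  refine ((h1.add h2).add h3).congr ?_
  intro x _
  simp only [Pi.add_apply, Hw, Cw, smul_eq_mul]
  rw [← Finset.sum_add_distrib]
  rw [show c * ‖x‖ ^ 2 / 2 - ∑ k, φ k (inner ℝ (ν k) x)
    = ((∑ k, C k * ‖ν k‖ ^ 2) * ‖x‖ ^ 2 / 2 - ∑ k, φ k (inner ℝ (ν k) x))
      + (c - ∑ k, C k * ‖ν k‖ ^ 2) / 2 * ‖x‖ ^ 2 by ring]
  congr 1
  rw [Finset.sum_mul, Finset.sum_div, ← Finset.sum_sub_distrib]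
  refine Finset.sum_congr rfl fun k _ => ?_
  ring

theorem Hw_le (hφ : ∀ k, Wall (φ k)) {C : Fin m → ℝ} (hC0 : ∀ k, 0 ≤ C k)
    (hC : ∀ k t, deriv (deriv (φ k)) t ≤ C k) (x : E n) :
    Hw ν φ x ≤ Hw ν φ 0 + Cw ν C * ‖x‖ ^ 2 / 2 := by
  have h := even_convex_min (sub_Hw_convex hφ hC0 hC (le_refl (Cw ν C)))
    (fun x => by rw [norm_neg, Hw_even hφ]) x
  simp only [norm_zero, ne_eq, OfNat.ofNat_ne_zero, not_false_eq_true, zero_pow, mul_zero,
    zero_div, zero_sub] at h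
  linarith

theorem Hw_ge (hφ : ∀ k, Wall (φ k)) (x : E n) : Hw ν φ 0 ≤ Hw ν φ x :=
  even_convex_min (Hw_convex hφ) (Hw_even hφ) x

/-! ### continuity and growth of `f`, `N` -/

theorem fr_cont (hφ : ∀ k, Wall (φ k)) (r : Fin m → ℝ) : Continuous (fr ν φ r) := by
  unfold fr
  refine continuous_finsetSum _ fun k _ => ?_
  have hi : Continuous fun x : E n => inner ℝ (ν k) x := continuous_const.inner continuous_id
  exact continuous_const.mul (hi.mul ((hφ k).dif1.continuous.comp hi))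

theorem Nr_cont (hφ : ∀ k, Wall (φ k)) (r : Fin m → ℝ) : Continuous (Nr ν φ r) := by
  unfold Nr
  refine continuous_finsetSum _ fun k _ => ?_
  have hi : Continuous fun x : E n => inner ℝ (ν k) x := continuous_const.inner continuous_id
  exact continuous_const.mul ((hi.mul ((hφ k).dif1.continuous.comp hi)).add
    ((hi.pow 2).mul ((hφ k).smooth''.continuous.comp hi)))

theorem fr_bound (hφ : ∀ k, Wall (φ k)) (r : Fin m → ℝ) :
    ∃ c, 0 ≤ c ∧ ∀ x : E n, |fr ν φ r x| ≤ c * ‖x‖ ^ 2 := by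
  choose C hC0 hC using fun k => (hφ k).bddT
  refine ⟨∑ k, |r k| * (C k * ‖ν k‖ ^ 2), Finset.sum_nonneg fun k _ => by
    have := hC0 k; positivity, fun x => ?_⟩
  unfold fr
  refine (Finset.abs_sum_le_sum_abs _ _).trans ?_
  rw [Finset.sum_mul]
  refine Finset.sum_le_sum fun k _ => ?_
  have h1 := (hφ k).abs_deriv_le (hC k) (inner ℝ (ν k) x)
  have h2 : |inner ℝ (ν k) x| ≤ ‖ν k‖ * ‖x‖ := abs_real_inner_le_norm _ _
  have h0 := hC0 k
  rw [abs_mul, abs_mul]
  calc |r k| * (|inner ℝ (ν k) x| * |deriv (φ k) (inner ℝ (ν k) x)|)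
      ≤ |r k| * (|inner ℝ (ν k) x| * (C k * |inner ℝ (ν k) x|)) := by gcongr
    _ = |r k| * (C k * (|inner ℝ (ν k) x| * |inner ℝ (ν k) x|)) := by ring
    _ ≤ |r k| * (C k * ((‖ν k‖ * ‖x‖) * (‖ν k‖ * ‖x‖))) := by gcongr
    _ = _ := by ring

theorem Nr_bound (hφ : ∀ k, Wall (φ k)) (r : Fin m → ℝ) :
    ∃ c, 0 ≤ c ∧ ∀ x : E n, |Nr ν φ r x| ≤ c * ‖x‖ ^ 2 := by
  choose C hC0 hC using fun k => (hφ k).bddT
  refine ⟨∑ k, r k ^ 2 * (2 * (C k * ‖ν k‖ ^ 2)), Finset.sum_nonneg fun k _ => by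
    have := hC0 k; positivity, fun x => ?_⟩
  unfold Nr
  refine (Finset.abs_sum_le_sum_abs _ _).trans ?_
  rw [Finset.sum_mul]
  refine Finset.sum_le_sum fun k _ => ?_
  have h1 := (hφ k).abs_deriv_le (hC k) (inner ℝ (ν k) x)
  have h2 : |inner ℝ (ν k) x| ≤ ‖ν k‖ * ‖x‖ := abs_real_inner_le_norm _ _
  have h3 : |deriv (deriv (φ k)) (inner ℝ (ν k) x)| ≤ C k := by
    rw [abs_of_nonneg ((hφ k).conv _)]; exact hC k _
  have h0 := hC0 k
  rw [abs_mul, abs_of_nonneg (sq_nonneg (r k)), mul_assoc]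
  refine mul_le_mul_of_nonneg_left ?_ (sq_nonneg _)
  refine (abs_add_le _ _).trans ?_
  rw [abs_mul, abs_mul, abs_of_nonneg (sq_nonneg (inner ℝ (ν k) x))]
  have h4 : (inner ℝ (ν k) x) ^ 2 ≤ ‖ν k‖ ^ 2 * ‖x‖ ^ 2 := by
    rw [← sq_abs, ← mul_pow]; gcongr
  have h5 : |inner ℝ (ν k) x| * |deriv (φ k) (inner ℝ (ν k) x)| ≤ C k * (‖ν k‖ ^ 2 * ‖x‖ ^ 2) := by
    calc |inner ℝ (ν k) x| * |deriv (φ k) (inner ℝ (ν k) x)|
        ≤ |inner ℝ (ν k) x| * (C k * |inner ℝ (ν k) x|) := by gcongr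
      _ = C k * (|inner ℝ (ν k) x| * |inner ℝ (ν k) x|) := by ring
      _ ≤ C k * ((‖ν k‖ * ‖x‖) * (‖ν k‖ * ‖x‖)) := by gcongr
      _ = _ := by ring
  have h6 : (inner ℝ (ν k) x) ^ 2 * |deriv (deriv (φ k)) (inner ℝ (ν k) x)|
      ≤ (‖ν k‖ ^ 2 * ‖x‖ ^ 2) * C k := by
    refine mul_le_mul h4 h3 (abs_nonneg _) (by positivity)
  calc _ ≤ C k * (‖ν k‖ ^ 2 * ‖x‖ ^ 2) + (‖ν k‖ ^ 2 * ‖x‖ ^ 2) * C k := add_le_add h5 h6
    _ = _ := by ring

end Hw

/-! ### integrability -/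

section Integ
variable {n : ℕ}

theorem integrable_gaussT {b : ℝ} (hb : 0 < b) :
    Integrable (fun x : E n => Real.exp (-b * ‖x‖ ^ 2)) := by
  have h := (GaussianFourier.integrable_cexp_neg_mul_sq_norm_add (V := E n) (b := (b:ℂ))
    (by simpa using hb) 0 0).norm
  refine h.congr (Eventually.of_forall fun x => ?_)
  simp only [Complex.norm_exp]
  congr 1
  simp [← Complex.ofReal_pow]

/-- polynomial growth against a Gaussian weight -/
theorem integrable_growth {F U : E n → ℝ} {ε c a : ℝ} (hε : 0 < ε) (hF : Continuous F)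
    (hU : Continuous U) (hUl : ∀ x, ε * ‖x‖ ^ 2 / 2 - a ≤ U x)
    (hFb : ∀ x, |F x| ≤ c * (1 + ‖x‖ ^ 4)) :
    Integrable (fun x => F x * Real.exp (-U x)) := by
  have hc : 0 ≤ c := by
    have := (abs_nonneg _).trans (hFb 0)
    simpa using this
  have hg : Integrable (fun x : E n => (c * (1 + 2 * (4 / ε) ^ 2) * Real.exp a)
      * Real.exp (-(ε / 4) * ‖x‖ ^ 2)) := (integrable_gaussT (by positivity)).const_mul _
  refine hg.mono' (hF.mul (Real.continuous_exp.comp hU.neg)).aestronglyMeasurable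
    (Eventually.of_forall fun x => ?_)
  rw [Real.norm_eq_abs, abs_mul, abs_of_nonneg (Real.exp_nonneg _)]
  set s : ℝ := ε / 4 * ‖x‖ ^ 2 with hs
  have hs0 : 0 ≤ s := by positivity
  have hq := Real.quadratic_le_exp_of_nonneg hs0
  have h4 : ‖x‖ ^ 4 = (4 / ε) ^ 2 * s ^ 2 := by
    rw [hs]; field_simp
  have h1 : 1 + ‖x‖ ^ 4 ≤ (1 + 2 * (4 / ε) ^ 2) * Real.exp s := by
    rw [h4]
    have hp : 0 ≤ (4 / ε) ^ 2 := by positivity
    have e1 : 1 ≤ Real.exp s := by nlinarith [sq_nonneg s]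
    have e2 : s ^ 2 ≤ 2 * Real.exp s := by nlinarith
    nlinarith [mul_le_mul_of_nonneg_left e2 hp]
  have h2 : Real.exp (-U x) ≤ Real.exp a * Real.exp (-(2 * s)) := by
    rw [← Real.exp_add]
    apply Real.exp_le_exp.2
    have := hUl x
    rw [hs]; linarith
  calc |F x| * Real.exp (-U x)
      ≤ (c * ((1 + 2 * (4 / ε) ^ 2) * Real.exp s)) * (Real.exp a * Real.exp (-(2 * s))) := by
        refine mul_le_mul ((hFb x).trans (mul_le_mul_of_nonneg_left h1 hc)) h2
          (Real.exp_nonneg _) (by positivity)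
    _ = (c * (1 + 2 * (4 / ε) ^ 2) * Real.exp a) * (Real.exp s * Real.exp (-(2 * s))) := by ring
    _ = _ := by
        rw [← Real.exp_add]
        congr 2
        rw [hs]; ring

end Integ

/-! ### scaling -/

section Scale
variable {n m : ℕ}

theorem int_scale (g : E n → ℝ) (l : ℝ) :
    ∫ x, g (l • x) = |(l ^ Module.finrank ℝ (E n))⁻¹| * ∫ x, g x := by
  simpa using MeasureTheory.Measure.integral_comp_smul (volume : Measure (E n)) g l

theorem fr_smul (ν : Fin m → E n) (φ : Fin m → ℝ → ℝ) (r : Fin m → ℝ) (l : ℝ) (x : E n) :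
    fr (fun k => l • ν k) φ r x = fr ν φ r (l • x) := by
  simp only [fr, real_inner_smul_left, real_inner_smul_right]

theorem Nr_smul (ν : Fin m → E n) (φ : Fin m → ℝ → ℝ) (r : Fin m → ℝ) (l : ℝ) (x : E n) :
    Nr (fun k => l • ν k) φ r x = Nr ν φ r (l • x) := by
  simp only [Nr, real_inner_smul_left, real_inner_smul_right]

theorem Hw_smul (ν : Fin m → E n) (φ : Fin m → ℝ → ℝ) (l : ℝ) (x : E n) :
    Hw (fun k => l • ν k) φ x = Hw ν φ (l • x) := by
  simp only [Hw, real_inner_smul_left, real_inner_smul_right]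

theorem Static_scale {ν : Fin m → E n} {φ : Fin m → ℝ → ℝ} {r : Fin m → ℝ} {U : E n → ℝ}
    {l : ℝ} (hl : l ≠ 0) (h : Static (fun k => l • ν k) φ r (fun x => U (l • x))) :
    Static ν φ r U := by
  unfold Static at h ⊢
  simp only [fr_smul, Nr_smul] at h
  rw [int_scale (fun x => fr ν φ r x ^ 2 * Real.exp (-U x)) l,
    int_scale (fun x => Real.exp (-U x)) l,
    int_scale (fun x => fr ν φ r x * Real.exp (-U x)) l,
    int_scale (fun x => Nr ν φ r x * Real.exp (-U x)) l] at h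
  set κ : ℝ := |(l ^ Module.finrank ℝ (E n))⁻¹| with hκ
  have hκ0 : 0 < κ := by
    rw [hκ]; exact abs_pos.2 (inv_ne_zero (pow_ne_zero _ hl))
  have hκ2 : 0 < κ ^ 2 := by positivity
  refine le_of_mul_le_mul_left ?_ hκ2
  nlinarith [h]

end Scale

/-! ### truncation -/

section Trunc
variable {n m : ℕ}

/-- the convex gap `G = (1-ε)|x|²/2 - H` -/
def Gp (ν : Fin m → E n) (φ : Fin m → ℝ → ℝ) (ε : ℝ) (x : E n) : ℝ :=
  (1 - ε) * ‖x‖ ^ 2 / 2 - Hw ν φ x

/-- the truncated remaining part -/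
def Vt (ν : Fin m → E n) (φ : Fin m → ℝ → ℝ) (ε N : ℝ) (x : E n) : ℝ :=
  ε * ‖x‖ ^ 2 / 2 + ramp (Gp ν φ ε x - N)

variable {ν : Fin m → E n} {φ : Fin m → ℝ → ℝ} {ε : ℝ}

theorem Gp_contDiff (hφ : ∀ k, Wall (φ k)) : ContDiff ℝ ∞ (Gp ν φ ε) := by
  unfold Gp
  exact ((contDiff_const.mul (contDiff_norm_sq ℝ)).div_const 2).sub (Hw_contDiff hφ)

theorem Gp_even (hφ : ∀ k, Wall (φ k)) (x : E n) : Gp ν φ ε (-x) = Gp ν φ ε x := by
  unfold Gp; rw [norm_neg, Hw_even hφ]

theorem Vt_contDiff (hφ : ∀ k, Wall (φ k)) (N : ℝ) : ContDiff ℝ ∞ (Vt ν φ ε N) := by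
  unfold Vt
  exact ((contDiff_const.mul (contDiff_norm_sq ℝ)).div_const 2).add
    (ramp_contDiff.comp ((Gp_contDiff hφ).sub contDiff_const))

theorem Vt_even (hφ : ∀ k, Wall (φ k)) (N : ℝ) (x : E n) : Vt ν φ ε N (-x) = Vt ν φ ε N x := by
  unfold Vt; rw [norm_neg, Gp_even hφ]

theorem ramp_Gp_convex (hφ : ∀ k, Wall (φ k)) {C : Fin m → ℝ} (hC0 : ∀ k, 0 ≤ C k)
    (hC : ∀ k t, deriv (deriv (φ k)) t ≤ C k) (hs : Cw ν C + ε ≤ 1) (N : ℝ) :
    ConvexOn ℝ univ (fun x => ramp (Gp ν φ ε x - N)) := by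
  have h1 : ConvexOn ℝ univ (Gp ν φ ε) := sub_Hw_convex hφ hC0 hC (by linarith)
  have h2 : ConvexOn ℝ univ (fun x => Gp ν φ ε x - N) := by
    refine (h1.add_const (-N)).congr fun x _ => ?_
    simp only [Pi.add_apply]
    ring
  exact (ramp_convex.subset (subset_univ _) (by
    have : Convex ℝ ((fun x => Gp ν φ ε x - N) '' univ) := by
      rw [image_univ]
      have hc : Continuous (fun x => Gp ν φ ε x - N) :=
        (Gp_contDiff hφ).continuous.sub continuous_const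
      exact (isPreconnected_range hc).convex
    exact this)).comp h2 (ramp_mono.monotoneOn _)

theorem static_small (hloc : LocalIneq n) (hε : 0 < ε) (hφ : ∀ k, Wall (φ k)) {C : Fin m → ℝ}
    (hC0 : ∀ k, 0 ≤ C k) (hC : ∀ k t, deriv (deriv (φ k)) t ≤ C k)
    (hs : Cw ν C + ε ≤ 1 / 2) (r : Fin m → ℝ) :
    Static ν φ r (fun x => ε * ‖x‖ ^ 2 / 2 + Hw ν φ x) := by
  -- the local inequality for every truncation
  have hN : ∀ N : ℕ, Static ν φ r (fun x => Vt ν φ ε N x + Hw ν φ x) := by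
    intro N
    have hconv := ramp_Gp_convex (ν := ν) (φ := φ) (ε := ε) hφ hC0 hC (by linarith) (N : ℝ)
    refine hloc m ν φ r (Vt ν φ ε N) hφ (Vt_contDiff hφ N) (Vt_even hφ N) ?_ ?_ ?_
    · have h1 : ConvexOn ℝ univ (fun x : E n => ε / 2 * ‖x‖ ^ 2) := convexOn_normsq (by positivity)
      refine (h1.add hconv).congr fun x _ => ?_
      simp only [Pi.add_apply, Vt]
      ring
    · refine ⟨ε / 2, by positivity, ?_⟩
      refine (hconv.add (Hw_convex (ν := ν) hφ)).congr fun x _ => ?_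
      simp only [Pi.add_apply, Vt]
      ring
    · refine ⟨-N + (ramp 1 - 1), 4 * (1 + N + |Hw ν φ 0|), fun x hx => ?_⟩
      have hle := Hw_le (ν := ν) hφ hC0 hC x
      have hab := le_abs_self (Hw ν φ 0)
      have hab0 := abs_nonneg (Hw ν φ 0)
      have hN0 : (0:ℝ) ≤ N := Nat.cast_nonneg N
      have hx1 : 4 * (1 + N + |Hw ν φ 0|) ≤ ‖x‖ ^ 2 := by nlinarith
      have hG : ‖x‖ ^ 2 / 4 - Hw ν φ 0 ≤ Gp ν φ ε x := by
        unfold Gp
        nlinarith [sq_nonneg ‖x‖]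
      have h1 : 1 ≤ Gp ν φ ε x - N := by linarith
      simp only [Vt]
      rw [ramp_of_one_le h1]
      unfold Gp
      ring
  -- passage to the limit
  have hlim : ∀ (F : E n → ℝ) (c : ℝ), Continuous F → (∀ x, |F x| ≤ c * (1 + ‖x‖ ^ 4)) →
      Tendsto (fun N : ℕ => ∫ x, F x * Real.exp (-(Vt ν φ ε N x + Hw ν φ x))) atTop
        (𝓝 (∫ x, F x * Real.exp (-(ε * ‖x‖ ^ 2 / 2 + Hw ν φ x)))) := by
    intro F c hF hFb
    have hUc : Continuous (fun x : E n => ε * ‖x‖ ^ 2 / 2 + Hw ν φ x) :=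
      ((continuous_const.mul (continuous_norm.pow 2)).div_const 2).add
        (Hw_contDiff hφ).continuous
    have hint := integrable_growth (a := -Hw ν φ 0) hε hF hUc
      (fun x => by have := Hw_ge (ν := ν) hφ x; linarith) hFb
    refine tendsto_integral_of_dominated_convergence
      (fun x => ‖F x * Real.exp (-(ε * ‖x‖ ^ 2 / 2 + Hw ν φ x))‖) ?_ hint.norm ?_ ?_
    · intro N
      exact (hF.mul (Real.continuous_exp.comp (((Vt_contDiff hφ (N:ℝ)).continuous.add
        (Hw_contDiff hφ).continuous).neg))).aestronglyMeasurable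
    · intro N
      refine Eventually.of_forall fun x => ?_
      rw [norm_mul, norm_mul]
      refine mul_le_mul_of_nonneg_left ?_ (norm_nonneg _)
      rw [Real.norm_of_nonneg (Real.exp_nonneg _), Real.norm_of_nonneg (Real.exp_nonneg _)]
      apply Real.exp_le_exp.2
      have := ramp_nonneg (Gp ν φ ε x - N)
      simp only [Vt]
      linarith
    · refine Eventually.of_forall fun x => ?_
      refine tendsto_const_nhds.congr' ?_
      obtain ⟨N0, hN0⟩ := exists_nat_ge (Gp ν φ ε x)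
      filter_upwards [eventually_ge_atTop N0] with N hNN
      have : Gp ν φ ε x - N ≤ 0 := by
        have : (N0:ℝ) ≤ N := by exact_mod_cast hNN
        linarith
      simp only [Vt]
      rw [ramp_of_nonpos this, add_zero]
  have hsq : ∀ x : E n, ‖x‖ ^ 2 ≤ 1 + ‖x‖ ^ 4 := fun x => by
    nlinarith [sq_nonneg (‖x‖ ^ 2 - 1), sq_nonneg (‖x‖ ^ 2)]
  obtain ⟨c1, hc10, hc1⟩ := fr_bound (ν := ν) hφ r
  obtain ⟨c2, hc20, hc2⟩ := Nr_bound (ν := ν) hφ r
  have L1 := hlim (fun x => fr ν φ r x ^ 2) (c1 ^ 2) ((fr_cont hφ r).pow 2) (fun x => by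
    rw [abs_pow]
    calc |fr ν φ r x| ^ 2 ≤ (c1 * ‖x‖ ^ 2) ^ 2 := by gcongr; exact hc1 x
      _ = c1 ^ 2 * ‖x‖ ^ 4 := by ring
      _ ≤ c1 ^ 2 * (1 + ‖x‖ ^ 4) := by nlinarith [sq_nonneg c1])
  have L0 := hlim (fun _ => 1) 1 continuous_const (fun x => by
    rw [abs_one]; nlinarith [sq_nonneg (‖x‖ ^ 2)])
  have L2 := hlim (fun x => fr ν φ r x) c1 (fr_cont hφ r) (fun x =>
    (hc1 x).trans (mul_le_mul_of_nonneg_left (hsq x) hc10))
  have L3 := hlim (fun x => Nr ν φ r x) c2 (Nr_cont hφ r) (fun x =>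
    (hc2 x).trans (mul_le_mul_of_nonneg_left (hsq x) hc20))
  simp only [one_mul] at L0
  unfold Static
  exact le_of_tendsto_of_tendsto' ((L1.mul L0).sub (L2.pow 2)) (L0.mul L3) (fun N => hN N)

/-- (R3) -/
theorem locEps_of_localIneq (n : ℕ) (hloc : LocalIneq n) : LocEps n := by
  intro m ν φ r ε hε hφ
  choose C hC0 hC using fun k => (hφ k).bddT
  have hCw := Cw_nonneg (ν := ν) hC0
  set K : ℝ := 1 / (2 * (Cw ν C + ε)) with hK
  have hK0 : 0 < K := by rw [hK]; positivity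
  set l : ℝ := Real.sqrt K with hl
  have hl0 : 0 < l := Real.sqrt_pos.2 hK0
  have hl2 : l ^ 2 = K := Real.sq_sqrt hK0.le
  refine Static_scale (l := l) hl0.ne' ?_
  have hε' : 0 < K * ε := by positivity
  have hCl : Cw (fun k => l • ν k) C = K * Cw ν C := by
    simp only [Cw, norm_smul, mul_pow, Real.norm_eq_abs, sq_abs, hl2]
    rw [Finset.mul_sum]
    refine Finset.sum_congr rfl fun k _ => by ring
  have h := static_small (ν := fun k => l • ν k) hloc hε' hφ hC0 hC (by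
    rw [hCl, ← mul_add, hK]
    have : 0 < Cw ν C + ε := by positivity
    field_simp
    norm_num) r
  convert h using 2 with x
  rw [Hw_smul, norm_smul, mul_pow, Real.norm_eq_abs, sq_abs, hl2]
  ring

end Trunc

end Crest.Agent.R238.Soft
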