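import Crest.Agent.R238.StepLin

/-! Row 238, H5: the operator `K : YS n a →L YS^{n×n}`, multiplication in `YS`, matrices of `YS`
functions as operators. -/

set_option autoImplicit false

open MeasureTheory Set Filter
open scoped ContDiff Topology BoundedContinuousFunction

namespace Crest.Agent.R238.Step

open Crest.Agent.R238

variable {n : ℕ} {a : ℝ}

/-- type synonym of `YS n a` (fast instance search) -/
def YY (n : ℕ) (a : ℝ) : Type := ↥(YS n a)

noncomputable instance instNAG : NormedAddCommGroup (YY n a) :=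
  inferInstanceAs (NormedAddCommGroup ↥(YS n a))

noncomputable instance instNS : NormedSpace ℝ (YY n a) :=
  inferInstanceAs (NormedSpace ℝ ↥(YS n a))

instance instCS : CompleteSpace (YY n a) := inferInstanceAs (CompleteSpace ↥(YS n a))

/-- the function -/
def fn (r : YY n a) : E n → ℝ := YS.fn (show ↥(YS n a) from r)

theorem fn_add (r s : YY n a) (x : E n) : fn (r + s) x = fn r x + fn s x := rfl

theorem fn_sub (r s : YY n a) (x : E n) : fn (r - s) x = fn r x - fn s x := rfl

theorem fn_neg (r : YY n a) (x : E n) : fn (-r) x = - fn r x := rfl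

theorem fn_smul (c : ℝ) (r : YY n a) (x : E n) : fn (c • r) x = c * fn r x := rfl

theorem fn_zero (x : E n) : fn (0 : YY n a) x = 0 := rfl

theorem fn_sum {ι : Type*} (s : Finset ι) (f : ι → YY n a) (x : E n) :
    fn (∑ i ∈ s, f i) x = ∑ i ∈ s, fn (f i) x := by
  classical
  induction s using Finset.induction_on with
  | empty => simp [fn_zero]
  | insert i s hi ih => rw [Finset.sum_insert hi, Finset.sum_insert hi, fn_add, ih]

theorem fn_even (r : YY n a) (x : E n) : fn r (-x) = fn r x := YS.even _ x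

theorem fn_hb (h0 : 0 < a) (r : YY n a) : HB a ‖r‖ (fn r) := YS.hb h0 (show ↥(YS n a) from r)

theorem YYext {r s : YY n a} (h : ∀ x, fn r x = fn s x) : r = s := YS.ext_fn (funext h)

theorem exists_YY (h0 : 0 < a) {M : ℝ} {f : E n → ℝ} (h : HB a M f)
    (he : ∀ x, f (-x) = f x) : ∃ r : YY n a, fn r = f ∧ ‖r‖ ≤ M := by
  obtain ⟨r, h1, h2⟩ := YS.exists_of_hb h0 h he
  exact ⟨r, h1, h2⟩

theorem fn_norm_le (h0 : 0 < a) (r : YY n a) (x : E n) : |fn r x| ≤ ‖r‖ := (fn_hb h0 r).1 x

theorem YY_norm_le (h0 : 0 < a) {r : YY n a} {M : ℝ} (h : HB a M (fn r)) : ‖r‖ ≤ M := by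
  obtain ⟨s, hs, hs'⟩ := exists_YY h0 h (fn_even r)
  have : r = s := YYext fun x => by rw [hs]
  rw [this]; exact hs'

/-- evaluation at `x` as a continuous linear map -/
noncomputable def evY (h0 : 0 < a) (x : E n) : YY n a →L[ℝ] ℝ :=
  LinearMap.mkContinuous
    { toFun := fun r => fn r x
      map_add' := fun r s => fn_add r s x
      map_smul' := fun c r => fn_smul c r x } 1 fun r => by
        rw [one_mul]; exact fn_norm_le h0 r x

@[simp] theorem evY_apply (h0 : 0 < a) (x : E n) (r : YY n a) : evY h0 x r = fn r x := rfl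

/-- **the solution operator** -/
theorem exists_K (hS : SolStmt) (hR : RepStmt) (n : ℕ) {a : ℝ} (h0 : 0 < a) (h1 : a < 1) :
    ∃ (C : ℝ) (K : YY n a →L[ℝ] (Fin n → Fin n → YY n a)) (vv : YY n a → E n → ℝ), 0 < C ∧
      (∀ r, ContDiff ℝ 2 (vv r)) ∧ (∀ r x, vv r (-x) = vv r x) ∧
      (∀ r i j x, fn (K r i j) x = Hs (vv r) x i j) ∧
      (∀ r x, LA (fun _ => (1 : Matrix (Fin n) (Fin n) ℝ)) (vv r) x + vv r x = fn r x) ∧
      (∀ r i j, ‖K r i j‖ ≤ C * ‖r‖) ∧
      (∀ r (v : E n → ℝ), ContDiff ℝ 2 v → (∀ x, v (-x) = v x) →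
        (∃ B : ℝ, ∀ x i j, |Hs v x i j| ≤ B) →
        (∀ x, LA (fun _ => (1 : Matrix (Fin n) (Fin n) ℝ)) v x + v x = fn r x) → vv r = v) := by
  obtain ⟨C, hC, H⟩ := hS n a h0 h1
  choose vv hvc hve hvb hvs using fun r : YY n a => H (fn r) ‖r‖ (fn_hb h0 r) (fn_even r)
  have hu : ∀ r (v : E n → ℝ), ContDiff ℝ 2 v → (∀ x, v (-x) = v x) →
        (∃ B : ℝ, ∀ x i j, |Hs v x i j| ≤ B) →
        (∀ x, LA (fun _ => (1 : Matrix (Fin n) (Fin n) ℝ)) v x + v x = fn r x) →
        vv r = v := by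
    rintro r v hv he ⟨B, hB⟩ hs
    funext x
    have h := uniq hR (v := fun x => vv r x - v x) ((hvc r).sub hv)
      (fun x => by rw [hve r x, he x]) ⟨C * ‖r‖ + B, fun x i j => by
        rw [Hs_sub (hvc r) hv]
        exact (abs_sub _ _).trans (add_le_add ((hvb r i j).1 x) (hB x i j))⟩
      (fun x => by
        rw [LA_sub _ (hvc r) hv]
        have h1 := hvs r x
        have h2 := hs x
        linarith) x
    linarith
  -- entries of K
  choose kk hk hkn using fun (r : YY n a) (i j : Fin n) =>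
    exists_YY h0 (hvb r i j) (fun x => Hs_even (hvc r) (hve r) x i j)
  have hkf : ∀ r i j x, fn (kk r i j) x = Hs (vv r) x i j := fun r i j x => by
    rw [hk r i j]
  have hbd : ∀ r : YY n a, ∃ B : ℝ, ∀ x i j, |Hs (vv r) x i j| ≤ B := fun r =>
    ⟨C * ‖r‖, fun x i j => (hvb r i j).1 x⟩
  have hadd : ∀ r s, vv (r + s) = fun x => vv r x + vv s x := by
    intro r s
    obtain ⟨B, hB⟩ := hbd r
    obtain ⟨B', hB'⟩ := hbd s
    refine hu (r + s) _ ((hvc r).add (hvc s)) (fun x => by rw [hve r x, hve s x])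
      ⟨B + B', fun x i j => ?_⟩ fun x => ?_
    · rw [Hs_add (hvc r) (hvc s)]
      exact (abs_add_le _ _).trans (add_le_add (hB x i j) (hB' x i j))
    · rw [LA_add _ (hvc r) (hvc s), fn_add, ← hvs r x, ← hvs s x]; ring
  have hsmul : ∀ (c : ℝ) r, vv (c • r) = fun x => c * vv r x := by
    intro c r
    obtain ⟨B, hB⟩ := hbd r
    refine hu (c • r) _ (contDiff_const.mul (hvc r)) (fun x => by rw [hve r x])
      ⟨|c| * B, fun x i j => ?_⟩ fun x => ?_
    · rw [Hs_smul c (hvc r), abs_mul]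
      exact mul_le_mul_of_nonneg_left (hB x i j) (abs_nonneg _)
    · rw [LA_smul _ c (hvc r), fn_smul, ← hvs r x]; ring
  let K0 : YY n a →ₗ[ℝ] (Fin n → Fin n → YY n a) :=
    { toFun := kk
      map_add' := fun r s => by
        funext i j
        refine YYext fun x => ?_
        rw [hkf, hadd, Hs_add (hvc r) (hvc s), Pi.add_apply, Pi.add_apply, fn_add, hkf, hkf]
      map_smul' := fun c r => by
        funext i j
        refine YYext fun x => ?_
        rw [hkf, hsmul, Hs_smul c (hvc r), RingHom.id_apply, Pi.smul_apply, Pi.smul_apply,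
          fn_smul, hkf] }
  have hK0 : ∀ r, ‖K0 r‖ ≤ C * ‖r‖ := by
    intro r
    have hpos : 0 ≤ C * ‖r‖ := by positivity
    refine (pi_norm_le_iff_of_nonneg hpos).2 fun i => (pi_norm_le_iff_of_nonneg hpos).2 fun j => ?_
    exact hkn r i j
  refine ⟨C, K0.mkContinuous C hK0, vv, hC, hvc, hve, hkf, hvs, fun r i j => hkn r i j, hu⟩

/-! ### multiplication -/

theorem exists_mul (h0 : 0 < a) (r s : YY n a) :
    ∃ t : YY n a, (∀ x, fn t x = fn r x * fn s x) ∧ ‖t‖ ≤ 2 * ‖r‖ * ‖s‖ := by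
  obtain ⟨t, ht, ht'⟩ := exists_YY h0 (HB.mul (fn_hb h0 r) (fn_hb h0 s))
    (fun x => by rw [fn_even r x, fn_even s x])
  exact ⟨t, fun x => by rw [ht], ht'⟩

/-- multiplication of `YS` functions -/
noncomputable def mulY (h0 : 0 < a) : YY n a →L[ℝ] YY n a →L[ℝ] YY n a :=
  LinearMap.mkContinuous₂ (LinearMap.mk₂ ℝ (fun r s => (exists_mul h0 r s).choose)
    (fun r r' s => YYext fun x => by
      rw [fn_add, (exists_mul h0 _ _).choose_spec.1, (exists_mul h0 _ _).choose_spec.1,
        (exists_mul h0 _ _).choose_spec.1, fn_add]; ring)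
    (fun c r s => YYext fun x => by
      rw [fn_smul, (exists_mul h0 _ _).choose_spec.1, (exists_mul h0 _ _).choose_spec.1,
        fn_smul]; ring)
    (fun r s s' => YYext fun x => by
      rw [fn_add, (exists_mul h0 _ _).choose_spec.1, (exists_mul h0 _ _).choose_spec.1,
        (exists_mul h0 _ _).choose_spec.1, fn_add]; ring)
    (fun c r s => YYext fun x => by
      rw [fn_smul, (exists_mul h0 _ _).choose_spec.1, (exists_mul h0 _ _).choose_spec.1,
        fn_smul]; ring)) 2 fun r s => (exists_mul h0 r s).choose_spec.2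

theorem mulY_fn (h0 : 0 < a) (r s : YY n a) (x : E n) :
    fn (mulY h0 r s) x = fn r x * fn s x := (exists_mul h0 r s).choose_spec.1 x

theorem mulY_norm (h0 : 0 < a) (r s : YY n a) : ‖mulY h0 r s‖ ≤ 2 * ‖r‖ * ‖s‖ :=
  (exists_mul h0 r s).choose_spec.2

/-- the constant function `1` -/
theorem exists_one (h0 : 0 < a) : ∃ t : YY n a, (∀ x, fn t x = 1) := by
  obtain ⟨t, ht, -⟩ := exists_YY (n := n) h0 (HB.const (a := a) 1) (fun x => rfl)
  exact ⟨t, fun x => by rw [ht]⟩

noncomputable def oneY (h0 : 0 < a) : YY n a := (exists_one h0).choose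

@[simp] theorem oneY_fn (h0 : 0 < a) (x : E n) : fn (oneY (n := n) h0) x = 1 :=
  (exists_one h0).choose_spec x

/-! ### matrices as operators -/

/-- the Banach algebra of operators on `YS^n` -/
abbrev OpA (n : ℕ) (a : ℝ) : Type := (Fin n → YY n a) →L[ℝ] (Fin n → YY n a)

/-- matrix of `YS` functions as a multiplication operator -/
noncomputable def MO (h0 : 0 < a) (m : Fin n → Fin n → YY n a) : OpA n a :=
  ContinuousLinearMap.pi fun i => ∑ j, (mulY h0 (m i j)).comp (ContinuousLinearMap.proj j)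

theorem MO_apply (h0 : 0 < a) (m : Fin n → Fin n → YY n a) (w : Fin n → YY n a) (i : Fin n) :
    MO h0 m w i = ∑ j, mulY h0 (m i j) (w j) := by
  simp [MO]

theorem MO_fn (h0 : 0 < a) (m : Fin n → Fin n → YY n a) (w : Fin n → YY n a) (i : Fin n)
    (x : E n) : fn (MO h0 m w i) x = ∑ j, fn (m i j) x * fn (w j) x := by
  rw [MO_apply, fn_sum]
  exact Finset.sum_congr rfl fun j _ => mulY_fn h0 _ _ _

theorem OpA_ext {p q : OpA n a} (h : ∀ w i x, fn (p w i) x = fn (q w i) x) : p = q := by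
  refine ContinuousLinearMap.ext fun w => ?_
  funext i
  exact YYext fun x => h w i x

theorem MO_norm (h0 : 0 < a) (m : Fin n → Fin n → YY n a) : ‖MO h0 m‖ ≤ 2 * n * ‖m‖ := by
  refine ContinuousLinearMap.opNorm_le_bound _ (by positivity) fun w => ?_
  refine (pi_norm_le_iff_of_nonneg (by positivity)).2 fun i => ?_
  rw [MO_apply]
  calc ‖∑ j, mulY h0 (m i j) (w j)‖ ≤ ∑ j : Fin n, 2 * ‖m‖ * ‖w‖ := by
        refine norm_sum_le_of_le _ fun j _ => ?_
        refine (mulY_norm h0 _ _).trans ?_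
        gcongr
        · exact (norm_le_pi_norm (m i) j).trans (norm_le_pi_norm m i)
        · exact norm_le_pi_norm w j
    _ = 2 * n * ‖m‖ * ‖w‖ := by simp; ring

/-- `MO` as a continuous linear map -/
noncomputable def MOL (n : ℕ) (h0 : 0 < a) : (Fin n → Fin n → YY n a) →L[ℝ] OpA n a :=
  LinearMap.mkContinuous
    { toFun := fun m => MO h0 m
      map_add' := fun m m' => OpA_ext fun w i x => by
        show fn (MO h0 (m + m') w i) x = fn (MO h0 m w i + MO h0 m' w i) x
        rw [MO_fn, fn_add, MO_fn, MO_fn, ← Finset.sum_add_distrib]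
        refine Finset.sum_congr rfl fun j _ => ?_
        rw [Pi.add_apply, Pi.add_apply, fn_add]; ring
      map_smul' := fun c m => OpA_ext fun w i x => by
        show fn (MO h0 (c • m) w i) x = fn (c • MO h0 m w i) x
        rw [MO_fn, fn_smul, MO_fn, Finset.mul_sum]
        refine Finset.sum_congr rfl fun j _ => ?_
        rw [Pi.smul_apply, Pi.smul_apply, fn_smul]; ring } (2 * n) fun m => MO_norm h0 m

@[simp] theorem MOL_apply (h0 : 0 < a) (m : Fin n → Fin n → YY n a) :
    MOL n h0 m = MO h0 m := rfl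

/-- the trace -/
noncomputable def trY (n : ℕ) (h0 : 0 < a) : OpA n a →L[ℝ] YY n a :=
  ∑ i, (ContinuousLinearMap.proj i).comp
    (ContinuousLinearMap.apply ℝ (Fin n → YY n a) (Pi.single i (oneY h0)))

theorem trY_apply (h0 : 0 < a) (p : OpA n a) :
    trY n h0 p = ∑ i, p (Pi.single i (oneY h0)) i := by
  simp [trY]

theorem trY_MO (h0 : 0 < a) (m : Fin n → Fin n → YY n a) (x : E n) :
    fn (trY n h0 (MO h0 m)) x = ∑ i, fn (m i i) x := by
  rw [trY_apply, fn_sum]
  refine Finset.sum_congr rfl fun i _ => ?_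
  rw [MO_fn, Finset.sum_eq_single i]
  · simp
  · intro j _ hj
    rw [Pi.single_eq_of_ne hj, fn_zero, mul_zero]
  · simp

/-- product of matrices of `YS` functions -/
noncomputable def mm (h0 : 0 < a) (m m' : Fin n → Fin n → YY n a) : Fin n → Fin n → YY n a :=
  fun i k => ∑ j, mulY h0 (m i j) (m' j k)

theorem mm_fn (h0 : 0 < a) (m m' : Fin n → Fin n → YY n a) (i k : Fin n) (x : E n) :
    fn (mm h0 m m' i k) x = ∑ j, fn (m i j) x * fn (m' j k) x := by
  rw [mm, fn_sum]
  exact Finset.sum_congr rfl fun j _ => mulY_fn h0 _ _ _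

theorem MO_mul (h0 : 0 < a) (m m' : Fin n → Fin n → YY n a) :
    MO h0 m * MO h0 m' = MO h0 (mm h0 m m') := by
  refine OpA_ext fun w i x => ?_
  show fn (MO h0 m (MO h0 m' w) i) x = _
  rw [MO_fn, MO_fn]
  simp only [MO_fn, mm_fn]
  simp only [Finset.mul_sum, Finset.sum_mul]
  rw [Finset.sum_comm]
  refine Finset.sum_congr rfl fun k _ => Finset.sum_congr rfl fun j _ => by ring

/-- identity matrix of `YS` functions -/
noncomputable def idY (n : ℕ) (h0 : 0 < a) : Fin n → Fin n → YY n a :=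
  fun i j => if i = j then oneY h0 else 0

theorem idY_fn (h0 : 0 < a) (i j : Fin n) (x : E n) :
    fn (idY n h0 i j) x = (1 : Matrix (Fin n) (Fin n) ℝ) i j := by
  unfold idY
  rw [Matrix.one_apply]
  split_ifs <;> simp [fn_zero]

theorem MO_id (h0 : 0 < a) : MO h0 (idY n h0) = 1 := by
  refine OpA_ext fun w i x => ?_
  rw [MO_fn]
  simp only [idY_fn, Matrix.one_apply, ite_mul, one_mul, zero_mul, Finset.sum_ite_eq,
    Finset.mem_univ, if_true]
  rfl

end Crest.Agent.R238.Step
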