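import Crest.Agent.R238.StepDefs

/-! Row 238, H5: linear lemmas for `Hs`, `LA`, uniqueness and the solution operator on `YS`. -/

set_option autoImplicit false

open MeasureTheory Set Filter
open scoped ContDiff Topology BoundedContinuousFunction

namespace Crest.Agent.R238.Step

open Crest.Agent.R238

variable {n : ℕ}

section Calc

theorem fd_diff {f : E n → ℝ} (hf : ContDiff ℝ 2 f) : Differentiable ℝ (fderiv ℝ f) :=
  (hf.fderiv_right (m := 1) (by norm_num)).differentiable one_ne_zero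

theorem f_diff {f : E n → ℝ} (hf : ContDiff ℝ 2 f) : Differentiable ℝ f :=
  hf.differentiable two_ne_zero

theorem Hs_cont {f : E n → ℝ} (hf : ContDiff ℝ 2 f) (i j : Fin n) :
    Continuous fun x => Hs f x i j := by
  have h1 : ContDiff ℝ 1 (fderiv ℝ f) := hf.fderiv_right (m := 1) (by norm_num)
  have h2 : Continuous (fderiv ℝ (fderiv ℝ f)) := h1.continuous_fderiv one_ne_zero
  unfold Hs
  exact (h2.clm_apply continuous_const).clm_apply continuous_const

theorem Hs_add {f g : E n → ℝ} (hf : ContDiff ℝ 2 f) (hg : ContDiff ℝ 2 g) (x : E n)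
    (i j : Fin n) : Hs (fun x => f x + g x) x i j = Hs f x i j + Hs g x i j := by
  have h1 : fderiv ℝ (fun x => f x + g x) = fun x => fderiv ℝ f x + fderiv ℝ g x := by
    funext y
    exact fderiv_fun_add (f_diff hf y) (f_diff hg y)
  unfold Hs
  rw [h1, fderiv_fun_add (fd_diff hf x) (fd_diff hg x)]
  rfl

theorem Hs_smul {f : E n → ℝ} (c : ℝ) (hf : ContDiff ℝ 2 f) (x : E n)
    (i j : Fin n) : Hs (fun x => c * f x) x i j = c * Hs f x i j := by
  have h1 : fderiv ℝ (fun x => c * f x) = fun x => c • fderiv ℝ f x := by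
    funext y
    exact fderiv_const_mul (f_diff hf y) c
  unfold Hs
  rw [h1, fderiv_fun_const_smul (fd_diff hf x) c]
  rfl

theorem Hs_sub {f g : E n → ℝ} (hf : ContDiff ℝ 2 f) (hg : ContDiff ℝ 2 g) (x : E n)
    (i j : Fin n) : Hs (fun x => f x - g x) x i j = Hs f x i j - Hs g x i j := by
  have h1 : fderiv ℝ (fun x => f x - g x) = fun x => fderiv ℝ f x - fderiv ℝ g x := by
    funext y
    exact fderiv_fun_sub (f_diff hf y) (f_diff hg y)
  unfold Hs
  rw [h1, fderiv_fun_sub (fd_diff hf x) (fd_diff hg x)]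
  rfl

theorem fd_comp_neg {F : Type*} [NormedAddCommGroup F] [NormedSpace ℝ F] {f : E n → F}
    (hf : Differentiable ℝ f) (x : E n) : fderiv ℝ (fun x => f (-x)) x = -fderiv ℝ f (-x) := by
  have h1 : HasFDerivAt f (fderiv ℝ f (-x)) (-x) := (hf (-x)).hasFDerivAt
  have h2 : HasFDerivAt (fun y : E n => -y) (-(ContinuousLinearMap.id ℝ (E n))) x :=
    (hasFDerivAt_id x).neg
  have h3 := (h1.comp x h2).fderiv
  have : fderiv ℝ (fun x => f (-x)) x = (fderiv ℝ f (-x)).comp (-(ContinuousLinearMap.id ℝ (E n))) :=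
    h3
  rw [this]
  ext y
  simp

theorem Hs_even {f : E n → ℝ} (hf : ContDiff ℝ 2 f) (he : ∀ x, f (-x) = f x) (x : E n)
    (i j : Fin n) : Hs f (-x) i j = Hs f x i j := by
  have hfe : (fun x => f (-x)) = f := funext he
  have h1 : ∀ y, fderiv ℝ f (-y) = -fderiv ℝ f y := by
    intro y
    have := fd_comp_neg (f_diff hf) y
    rw [hfe] at this
    rw [this, neg_neg]
  have h2 : (fun y => fderiv ℝ f (-y)) = fun y => -fderiv ℝ f y := funext h1
  have h3 := fd_comp_neg (fd_diff hf) x
  rw [h2, fderiv_fun_neg, neg_inj] at h3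
  unfold Hs
  rw [← h3]

theorem LA_sub (A : E n → Matrix (Fin n) (Fin n) ℝ) {f g : E n → ℝ} (hf : ContDiff ℝ 2 f)
    (hg : ContDiff ℝ 2 g) (x : E n) : LA A (fun x => f x - g x) x = LA A f x - LA A g x := by
  unfold LA
  rw [fderiv_fun_sub (f_diff hf x) (f_diff hg x)]
  simp only [Hs_sub hf hg, mul_sub, Finset.sum_sub_distrib]
  rw [sub_apply]
  ring

theorem LA_add (A : E n → Matrix (Fin n) (Fin n) ℝ) {f g : E n → ℝ} (hf : ContDiff ℝ 2 f)
    (hg : ContDiff ℝ 2 g) (x : E n) : LA A (fun x => f x + g x) x = LA A f x + LA A g x := by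
  unfold LA
  rw [fderiv_fun_add (f_diff hf x) (f_diff hg x)]
  simp only [Hs_add hf hg, mul_add, Finset.sum_add_distrib]
  rw [add_apply]
  ring

theorem LA_smul (A : E n → Matrix (Fin n) (Fin n) ℝ) {f : E n → ℝ} (c : ℝ) (hf : ContDiff ℝ 2 f)
    (x : E n) : LA A (fun x => c * f x) x = c * LA A f x := by
  unfold LA
  rw [fderiv_const_mul (f_diff hf x) c]
  simp only [Hs_smul c hf]
  rw [mul_sub, Finset.mul_sum]
  congr 1
  refine Finset.sum_congr rfl fun i _ => ?_
  rw [Finset.mul_sum]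
  exact Finset.sum_congr rfl fun j _ => by ring

end Calc

section HBalg

variable {a : ℝ}

theorem HB.nonneg {M : ℝ} {f : E n → ℝ} (h : HB a M f) : 0 ≤ M := (abs_nonneg _).trans (h.1 0)

theorem HB.mono {M M' : ℝ} {f : E n → ℝ} (h : HB a M f) (hM : M ≤ M') : HB a M' f :=
  ⟨fun x => (h.1 x).trans hM, fun x y => (h.2 x y).trans
    (mul_le_mul_of_nonneg_right hM (Real.rpow_nonneg (norm_nonneg _) _))⟩

theorem HB.add {M N : ℝ} {f g : E n → ℝ} (hf : HB a M f) (hg : HB a N g) :
    HB a (M + N) (fun x => f x + g x) := by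
  refine ⟨fun x => (abs_add_le _ _).trans (add_le_add (hf.1 x) (hg.1 x)), fun x y => ?_⟩
  have h1 := hf.2 x y
  have h2 := hg.2 x y
  have : f x + g x - (f y + g y) = (f x - f y) + (g x - g y) := by ring
  rw [this, add_mul]
  exact (abs_add_le _ _).trans (add_le_add h1 h2)

theorem HB.const_mul {M : ℝ} {f : E n → ℝ} (c : ℝ) (hf : HB a M f) :
    HB a (|c| * M) (fun x => c * f x) := by
  refine ⟨fun x => ?_, fun x y => ?_⟩
  · rw [abs_mul]; exact mul_le_mul_of_nonneg_left (hf.1 x) (abs_nonneg _)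
  · rw [← mul_sub, abs_mul, mul_assoc]; exact mul_le_mul_of_nonneg_left (hf.2 x y) (abs_nonneg _)

theorem HB.neg {M : ℝ} {f : E n → ℝ} (hf : HB a M f) : HB a M (fun x => - f x) := by
  refine ⟨fun x => by rw [abs_neg]; exact hf.1 x, fun x y => ?_⟩
  have : - f x - - f y = -(f x - f y) := by ring
  rw [this, abs_neg]; exact hf.2 x y

theorem HB.sub {M N : ℝ} {f g : E n → ℝ} (hf : HB a M f) (hg : HB a N g) :
    HB a (M + N) (fun x => f x - g x) := by
  simpa [sub_eq_add_neg] using HB.add hf (HB.neg hg)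

theorem HB.mul {M N : ℝ} {f g : E n → ℝ} (hf : HB a M f) (hg : HB a N g) :
    HB a (2 * M * N) (fun x => f x * g x) := by
  have hM := HB.nonneg hf
  have hN := HB.nonneg hg
  refine ⟨fun x => ?_, fun x y => ?_⟩
  · rw [abs_mul]
    calc |f x| * |g x| ≤ M * N := mul_le_mul (hf.1 x) (hg.1 x) (abs_nonneg _) hM
      _ ≤ 2 * M * N := by nlinarith [mul_nonneg hM hN]
  · have h0 : 0 ≤ ‖x - y‖ ^ a := Real.rpow_nonneg (norm_nonneg _) _
    have : f x * g x - f y * g y = f x * (g x - g y) + (f x - f y) * g y := by ring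
    rw [this]
    calc |f x * (g x - g y) + (f x - f y) * g y|
        ≤ |f x| * |g x - g y| + |f x - f y| * |g y| := by
          refine (abs_add_le _ _).trans ?_
          rw [abs_mul, abs_mul]
      _ ≤ M * (N * ‖x - y‖ ^ a) + (M * ‖x - y‖ ^ a) * N := by
          gcongr
          · exact hf.1 x
          · exact hg.2 x y
          · exact hf.2 x y
          · exact hg.1 y
      _ = 2 * M * N * ‖x - y‖ ^ a := by ring

theorem HB.const (c : ℝ) : HB a |c| (fun _ : E n => c) := by
  refine ⟨fun _ => le_rfl, fun x y => ?_⟩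
  simp only [sub_self, abs_zero]
  exact mul_nonneg (abs_nonneg _) (Real.rpow_nonneg (norm_nonneg _) _)

theorem HB.zero : HB a 0 (fun _ : E n => (0 : ℝ)) := by
  refine ⟨fun _ => by simp, fun x y => by simp⟩

theorem HB.sum {ι : Type*} (s : Finset ι) {M : ι → ℝ} {f : ι → E n → ℝ}
    (h : ∀ i ∈ s, HB a (M i) (f i)) : HB a (∑ i ∈ s, M i) (fun x => ∑ i ∈ s, f i x) := by
  classical
  induction s using Finset.induction_on with
  | empty => simpa using HB.zero
  | insert i s hi ih =>
    simp only [Finset.sum_insert hi]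
    exact HB.add (h i (Finset.mem_insert_self _ _))
      (ih fun j hj => h j (Finset.mem_insert_of_mem hj))

end HBalg

section Uniq

/-- uniqueness for `L₀ + 1` on even functions with bounded `D²` -/
theorem uniq (hR : RepStmt) {v : E n → ℝ} (hv : ContDiff ℝ 2 v) (he : ∀ x, v (-x) = v x)
    (hb : ∃ B : ℝ, ∀ x i j, |Hs v x i j| ≤ B)
    (h0 : ∀ x, LA (fun _ => (1 : Matrix (Fin n) (Fin n) ℝ)) v x + v x = 0) : ∀ x, v x = 0 := by
  obtain ⟨C, hC, H⟩ := hR n (1 / 2) 1 1 (by norm_num) (by norm_num) one_pos le_rfl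
  have hE : Ell (n := n) 1 1 1 := by
    refine ⟨fun i j => by rw [Matrix.one_apply, Matrix.one_apply]; simp only [eq_comm], ?_⟩
    intro z
    have : ∑ i, ∑ j, (1 : Matrix (Fin n) (Fin n) ℝ) i j * z i * z j = ∑ i, z i ^ 2 := by
      refine Finset.sum_congr rfl fun i _ => ?_
      rw [Finset.sum_eq_single i]
      · simp; ring
      · intro j _ hj; simp [Matrix.one_apply, hj.symm]
      · simp
    rw [this]; simp
  have h1 := H 1 hE 1 (Or.inr rfl) v 0 hv hb (by
    have : (fun x => LA (fun _ => (1 : Matrix (Fin n) (Fin n) ℝ)) v x + 1 * v x)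
        = fun _ => (0 : ℝ) := by funext x; rw [one_mul]; exact h0 x
    rw [this]; exact HB.zero)
  have h2 : ∀ x i j, Hs v x i j = 0 := by
    intro x i j
    have := (h1 i j).1 x
    rw [mul_zero] at this
    exact abs_nonpos_iff.1 this
  -- second derivative vanishes
  have h3 : ∀ x, fderiv ℝ (fderiv ℝ v) x = 0 := by
    intro x
    have hb1 : ∀ (L : E n →L[ℝ] ℝ), (∀ j, L (ee j) = 0) → L = 0 := by
      intro L hL
      ext y
      have : y = ∑ j, y j • ee j := by
        ext k
        simp [Finset.sum_apply, Pi.single_apply]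
      rw [this, map_sum]
      simp only [map_smul, hL, smul_zero, Finset.sum_const_zero, zero_apply]
    ext y z
    have hy : y = ∑ i, y i • ee i := by
      ext k
      simp [Finset.sum_apply, Pi.single_apply]
    have : fderiv ℝ (fderiv ℝ v) x y = 0 := by
      rw [hy, map_sum]
      refine Finset.sum_eq_zero fun i _ => ?_
      rw [map_smul]
      have : fderiv ℝ (fderiv ℝ v) x (ee i) = 0 := hb1 _ fun j => h2 x i j
      rw [this, smul_zero]
    rw [this]; rfl
  have h4 : ∀ x, fderiv ℝ v x = fderiv ℝ v 0 := fun x =>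
    is_const_of_fderiv_eq_zero (fd_diff hv) h3 x 0
  have h5 : fderiv ℝ v 0 = 0 := by
    have hfe : (fun x => v (-x)) = v := funext he
    have := fd_comp_neg (f_diff hv) 0
    rw [hfe, neg_zero] at this
    have h6 : (2 : ℝ) • fderiv ℝ v 0 = 0 := by
      rw [two_smul]; nth_rewrite 1 [this]; exact neg_add_cancel _
    exact (smul_eq_zero.1 h6).resolve_left two_ne_zero
  intro x
  have h7 := h0 x
  unfold LA at h7
  rw [h4 x, h5] at h7
  simpa [h2] using h7

end Uniq

end Crest.Agent.R238.Step
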