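import Crest.Agent.R238.StepK
import Crest.Agent.R238.StepMat
import Crest.Agent.R238.ExtInv
import Crest.Agent.R238.EStep

/-! Row 238, H5: the uniform step of the continuity method (main file). -/

set_option autoImplicit false

open MeasureTheory Set Filter Metric
open scoped ContDiff Topology BoundedContinuousFunction

namespace Crest.Agent.R238.Step

open Crest.Agent.R238 Crest.Agent.R238.EStep

variable {n : ℕ} {a : ℝ}

/-- data of the solution operator -/
structure KDat (n : ℕ) (a : ℝ) where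
  C : ℝ
  K : YY n a →L[ℝ] (Fin n → Fin n → YY n a)
  vv : YY n a → E n → ℝ
  hC : 0 < C
  c2 : ∀ r, ContDiff ℝ 2 (vv r)
  ev : ∀ r x, vv r (-x) = vv r x
  fnK : ∀ r i j x, fn (K r i j) x = Hs (vv r) x i j
  eqn : ∀ r x, LA (fun _ => (1 : Matrix (Fin n) (Fin n) ℝ)) (vv r) x + vv r x = fn r x
  nK : ∀ r i j, ‖K r i j‖ ≤ C * ‖r‖
  uq : ∀ r (v : E n → ℝ), ContDiff ℝ 2 v → (∀ x, v (-x) = v x) →
        (∃ B : ℝ, ∀ x i j, |Hs v x i j| ≤ B) →
        (∀ x, LA (fun _ => (1 : Matrix (Fin n) (Fin n) ℝ)) v x + v x = fn r x) → vv r = v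

theorem exists_KDat (hS : SolStmt) (hR : RepStmt) (n : ℕ) {a : ℝ} (h0 : 0 < a) (h1 : a < 1) :
    Nonempty (KDat n a) := by
  obtain ⟨C, K, vv, p1, p2, p3, p4, p5, p6, p7⟩ := exists_K hS hR n h0 h1
  exact ⟨⟨C, K, vv, p1, p2, p3, p4, p5, p6, p7⟩⟩

/-- the operator `K` with values in the Banach algebra -/
noncomputable def Kt (h0 : 0 < a) (D : KDat n a) : YY n a →L[ℝ] OpA n a := (MOL n h0).comp D.K

variable (h0 : 0 < a) (D : KDat n a)

theorem Kt_apply (r : YY n a) : Kt h0 D r = MO h0 (D.K r) := rfl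

theorem one_add_Kt (r : YY n a) : 1 + Kt h0 D r = MO h0 (idY n h0 + D.K r) := by
  rw [← MO_id h0, Kt_apply, ← MOL_apply, ← MOL_apply, ← MOL_apply, map_add]

theorem fn_gm (r : YY n a) (i j : Fin n) (x : E n) :
    fn ((idY n h0 + D.K r) i j) x = gm (D.vv r) x i j := by
  rw [Pi.add_apply, Pi.add_apply, fn_add, idY_fn, D.fnK, ExtInv.gm_apply]

include h0 in
theorem cls_vv (r : YY n a) : Cls a (D.C * ‖r‖) (D.vv r) := by
  refine ⟨D.c2 r, D.ev r, fun i j => ?_⟩
  have h := fn_hb h0 (D.K r i j)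
  have h2 : fn (D.K r i j) = fun x => Hs (D.vv r) x i j := funext fun x => D.fnK r i j x
  rw [h2] at h
  exact HB.mono h (D.nK r i j)

/-- the matrix field `τ` as an element of the Banach algebra is the inverse of `1 + K r` -/
theorem unit_of {r : YY n a} {lo hi : ℝ} (hlo : 0 < lo) (hE : ∀ x, Ell lo hi (gm (D.vv r) x))
    {τ : Fin n → Fin n → YY n a} (hτ : ∀ i j x, fn (τ i j) x = tauf (D.vv r) x i j) :
    IsUnit (1 + Kt h0 D r) ∧ ginv (Kt h0 D) r = MO h0 τ := by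
  have e1 : (1 + Kt h0 D r) * MO h0 τ = 1 := by
    rw [one_add_Kt, MO_mul, ← MO_id h0]
    congr 1
    funext i k
    refine YYext fun x => ?_
    rw [mm_fn, idY_fn]
    simp only [fn_gm, hτ]
    have := congrFun (congrFun (Ell.sm_mul_inv hlo (hE x)) i) k
    rw [← this, Matrix.mul_apply]
    rfl
  have e2 : MO h0 τ * (1 + Kt h0 D r) = 1 := by
    rw [one_add_Kt, MO_mul, ← MO_id h0]
    congr 1
    funext i k
    refine YYext fun x => ?_
    rw [mm_fn, idY_fn]
    simp only [fn_gm, hτ]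
    have := congrFun (congrFun (Ell.sm_inv_mul hlo (hE x)) i) k
    rw [← this, Matrix.mul_apply]
    rfl
  refine ⟨⟨⟨_, _, e1, e2⟩, rfl⟩, ?_⟩
  have := Ring.inverse_unit (⟨1 + Kt h0 D r, MO h0 τ, e1, e2⟩ : (OpA n a)ˣ)
  exact this

/-- the linearised operator is `L_τ + 1` -/
theorem fn_DK {τ : Fin n → Fin n → YY n a} {T : E n → Matrix (Fin n) (Fin n) ℝ}
    (hτ : ∀ i j x, fn (τ i j) x = T x i j) (ρ : YY n a) (x : E n) :
    fn (DK (Kt h0 D) (trY n h0) (MO h0 τ) ρ) x = LA T (D.vv ρ) x + D.vv ρ x := by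
  have h1 : (MO h0 τ - 1) * Kt h0 D ρ = MO h0 (mm h0 (τ - idY n h0) (D.K ρ)) := by
    rw [← MO_id h0, Kt_apply, ← MO_mul]
    congr 1
    rw [← MOL_apply, ← MOL_apply, ← MOL_apply, map_sub]
  have h2 : DK (Kt h0 D) (trY n h0) (MO h0 τ) ρ
      = ρ + trY n h0 ((MO h0 τ - 1) * Kt h0 D ρ) := rfl
  rw [h2, h1, fn_add, trY_MO]
  simp only [mm_fn, Pi.sub_apply, fn_sub, idY_fn, hτ, D.fnK]
  rw [← D.eqn ρ x]
  unfold LA
  have h3 : ∑ i, ∑ j, (T x i j - (1 : Matrix (Fin n) (Fin n) ℝ) i j) * Hs (D.vv ρ) x j i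
      = ∑ i, ∑ j, T x i j * Hs (D.vv ρ) x i j
        - ∑ i, ∑ j, (1 : Matrix (Fin n) (Fin n) ℝ) i j * Hs (D.vv ρ) x i j := by
    rw [← Finset.sum_sub_distrib]
    refine Finset.sum_congr rfl fun i _ => ?_
    rw [← Finset.sum_sub_distrib]
    refine Finset.sum_congr rfl fun j _ => ?_
    rw [ExtInv.Hs_symm (D.c2 ρ) x j i]
    ring
  rw [h3]
  ring

include h0 in
/-- the matrix `τ` as a matrix of `YY` functions -/
theorem exists_tau {v : E n → ℝ} {lo hi M : ℝ} (hlo : 0 < lo) (hhi : lo ≤ hi)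
    (hv : Cls a M v) (hE : ∀ x, Ell lo hi (gm v x)) :
    ∃ τ : Fin n → Fin n → YY n a, (∀ i j x, fn (τ i j) x = tauf v x i j) ∧
      ∀ i j, ‖τ i j‖ ≤ 1 / lo + (n : ℝ) ^ 2 * (1 / lo) ^ 2 * (1 + |M|) := by
  have hgm : ∀ i j, HB a (1 + |M|) (fun x => gm v x i j) := by
    intro i j
    have h1 : HB a 1 (fun _ : E n => (1 : Matrix (Fin n) (Fin n) ℝ) i j) := by
      have h2 := HB.const (n := n) (a := a) ((1 : Matrix (Fin n) (Fin n) ℝ) i j)
      refine HB.mono h2 ?_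
      rw [Matrix.one_apply]; split_ifs <;> simp
    have h3 := HB.add h1 (HB.mono (hv.hb i j) (le_abs_self M))
    have h4 : (fun x => gm v x i j)
        = fun x => (1 : Matrix (Fin n) (Fin n) ℝ) i j + Hs v x i j := funext fun x => by
      rw [ExtInv.gm_apply]
    rw [h4]; exact h3
  have hev : ∀ x, gm v (-x) = gm v x := by
    intro x
    ext i j
    rw [ExtInv.gm_apply, ExtInv.gm_apply, Hs_even hv.c2 hv.even]
  choose τ h1 h2 using fun i j => exists_YY h0
    (ExtInv.hb_inv hlo (hlo.trans_le hhi) hE hgm i j) (fun x => by rw [hev x])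
  refine ⟨τ, fun i j x => by rw [h1]; rfl, fun i j => ?_⟩
  have := h2 i j
  rwa [abs_of_nonneg (by positivity : (0 : ℝ) ≤ 1 + |M|)] at this

/-- antilipschitz bound of the linearised operator -/
theorem antilip {v : E n → ℝ} {M2 Cτ : ℝ} (hA : APr a M2 (tauf v))
    {τ : Fin n → Fin n → YY n a} (hτ : ∀ i j x, fn (τ i j) x = tauf v x i j)
    (hτn : ∀ i j, ‖τ i j‖ ≤ Cτ) (ρ : YY n a) :
    ‖ρ‖ ≤ (1 + (n : ℝ) ^ 2 * (2 * (1 + |Cτ|) * |M2|)) *
      ‖DK (Kt h0 D) (trY n h0) (MO h0 τ) ρ‖ := by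
  set N : ℝ := ‖DK (Kt h0 D) (trY n h0) (MO h0 τ) ρ‖ with hN
  have hN0 : 0 ≤ N := norm_nonneg _
  have hf : HB a N (fun x => LA (tauf v) (D.vv ρ) x + D.vv ρ x) := by
    have h := fn_hb h0 (DK (Kt h0 D) (trY n h0) (MO h0 τ) ρ)
    have h2 : fn (DK (Kt h0 D) (trY n h0) (MO h0 τ) ρ)
        = fun x => LA (tauf v) (D.vv ρ) x + D.vv ρ x := funext fun x => fn_DK h0 D hτ ρ x
    rwa [h2] at h
  have hH := hA (D.vv ρ) N ⟨_, cls_vv h0 D ρ⟩ hf
  have hH' : ∀ i j, HB a (|M2| * N) (fun x => Hs (D.vv ρ) x i j) := fun i j =>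
    HB.mono (hH i j) (mul_le_mul_of_nonneg_right (le_abs_self _) hN0)
  refine YY_norm_le h0 ?_
  have h1 : fn ρ = fun x => (LA (tauf v) (D.vv ρ) x + D.vv ρ x)
      + ∑ i, ∑ j, ((1 : Matrix (Fin n) (Fin n) ℝ) i j - tauf v x i j) * Hs (D.vv ρ) x i j := by
    funext x
    rw [← D.eqn ρ x]
    unfold LA
    simp only [sub_mul, Finset.sum_sub_distrib]
    ring
  rw [h1]
  have h2 : ∀ i j, HB a (2 * (1 + |Cτ|) * (|M2| * N)) (fun x =>
      ((1 : Matrix (Fin n) (Fin n) ℝ) i j - tauf v x i j) * Hs (D.vv ρ) x i j) := by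
    intro i j
    refine HB.mul ?_ (hH' i j)
    have h3 : HB a 1 (fun _ : E n => (1 : Matrix (Fin n) (Fin n) ℝ) i j) := by
      have h2 := HB.const (n := n) (a := a) ((1 : Matrix (Fin n) (Fin n) ℝ) i j)
      refine HB.mono h2 ?_
      rw [Matrix.one_apply]; split_ifs <;> simp
    have h4 : HB a |Cτ| (fun x => tauf v x i j) := by
      have h5 := HB.mono (fn_hb h0 (τ i j)) ((hτn i j).trans (le_abs_self _))
      have h6 : fn (τ i j) = fun x => tauf v x i j := funext fun x => hτ i j x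
      rwa [h6] at h5
    exact HB.sub h3 h4
  have h3 := HB.add hf (HB.sum Finset.univ fun i _ => HB.sum Finset.univ fun j _ => h2 i j)
  refine HB.mono h3 (le_of_eq ?_)
  simp
  ring

/-- the linearised operator is invertible -/
theorem isUnit_DK {v : E n → ℝ} {M2 Cτ : ℝ} (hA : APr a M2 (tauf v)) (hSr : Srj a (tauf v))
    {τ : Fin n → Fin n → YY n a} (hτ : ∀ i j x, fn (τ i j) x = tauf v x i j)
    (hτn : ∀ i j, ‖τ i j‖ ≤ Cτ) :
    IsUnit (DK (Kt h0 D) (trY n h0) (MO h0 τ)) := by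
  rw [ContinuousLinearMap.isUnit_iff_bijective]
  constructor
  · rw [injective_iff_map_eq_zero]
    intro ρ hρ
    have := antilip h0 D hA hτ hτn ρ
    rw [hρ, norm_zero, mul_zero] at this
    exact norm_le_zero_iff.1 this
  · intro y
    obtain ⟨h, ⟨B, hB⟩, hh⟩ := hSr (fn y) ‖y‖ (fn_hb h0 y) (fn_even y)
    have h4 : ∀ i j, HB a |Cτ| (fun x => tauf v x i j) := by
      intro i j
      have h5 := HB.mono (fn_hb h0 (τ i j)) ((hτn i j).trans (le_abs_self _))
      have h6 : fn (τ i j) = fun x => tauf v x i j := funext fun x => hτ i j x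
      rwa [h6] at h5
    have h1 : (fun x => LA (fun _ => (1 : Matrix (Fin n) (Fin n) ℝ)) h x + h x)
        = fun x => fn y x
          + ∑ i, ∑ j, ((1 : Matrix (Fin n) (Fin n) ℝ) i j - tauf v x i j) * Hs h x i j := by
      funext x
      rw [← hh x]
      unfold LA
      simp only [sub_mul, Finset.sum_sub_distrib]
      ring
    have h2 : ∀ i j, HB a (2 * (1 + |Cτ|) * B) (fun x =>
        ((1 : Matrix (Fin n) (Fin n) ℝ) i j - tauf v x i j) * Hs h x i j) := by
      intro i j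
      refine HB.mul ?_ (hB.hb i j)
      have h3 : HB a 1 (fun _ : E n => (1 : Matrix (Fin n) (Fin n) ℝ) i j) := by
        have h2 := HB.const (n := n) (a := a) ((1 : Matrix (Fin n) (Fin n) ℝ) i j)
        refine HB.mono h2 ?_
        rw [Matrix.one_apply]; split_ifs <;> simp
      exact HB.sub h3 (h4 i j)
    have h3 := HB.add (fn_hb h0 y)
      (HB.sum Finset.univ fun i _ => HB.sum Finset.univ fun j _ => h2 i j)
    have hev : ∀ x, fn y (-x)
          + ∑ i, ∑ j, ((1 : Matrix (Fin n) (Fin n) ℝ) i j - tauf v (-x) i j) * Hs h (-x) i j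
        = fn y x
          + ∑ i, ∑ j, ((1 : Matrix (Fin n) (Fin n) ℝ) i j - tauf v x i j) * Hs h x i j := by
      intro x
      simp only [← hτ, fn_even, Hs_even hB.c2 hB.even]
    obtain ⟨ρ, hρ, -⟩ := exists_YY h0 h3 hev
    refine ⟨ρ, ?_⟩
    have hvv : D.vv ρ = h := D.uq ρ h hB.c2 hB.even ⟨B, fun x i j => (hB.hb i j).1 x⟩ fun x => by
      rw [hρ]; exact congrFun h1 x
    refine YYext fun x => ?_
    rw [fn_DK h0 D hτ, hvv, hh]

/-- solvability from invertibility -/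
theorem srj_of {v : E n → ℝ} {τ : Fin n → Fin n → YY n a}
    (hτ : ∀ i j x, fn (τ i j) x = tauf v x i j)
    (hU : IsUnit (DK (Kt h0 D) (trY n h0) (MO h0 τ))) : Srj a (tauf v) := by
  intro f N hf he
  obtain ⟨y, hy, -⟩ := exists_YY h0 hf he
  obtain ⟨ρ, hρ⟩ := (ContinuousLinearMap.isUnit_iff_bijective.1 hU).2 y
  refine ⟨D.vv ρ, ⟨_, cls_vv h0 D ρ⟩, fun x => ?_⟩
  rw [← fn_DK h0 D hτ, hρ, hy]

include h0 in
/-- `(L₀+1) v` for a solution of the Monge-Ampere equation -/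
theorem exists_r {v P : E n → ℝ} {s M NP : ℝ} (hv : Cls a M v) (hP : HB a NP P) (hPe : ∀ x, P (-x) = P x)
    (hMA : MAeq P s v) (hL : ∃ N, HB a N (fun x => Real.log (gm v x).det)) :
    ∃ r : YY n a, D.vv r = v := by
  obtain ⟨N, hN⟩ := hL
  have h1 : (fun x => LA (fun _ => (1 : Matrix (Fin n) (Fin n) ℝ)) v x + v x)
      = fun x => (∑ i, Hs v x i i) + (- Real.log (gm v x).det + (-s) * P x) := by
    funext x
    have h2 := hMA x
    have h3 : ∑ i, ∑ j, (1 : Matrix (Fin n) (Fin n) ℝ) i j * Hs v x i j = ∑ i, Hs v x i i := by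
      refine Finset.sum_congr rfl fun i _ => ?_
      rw [Finset.sum_eq_single i]
      · simp
      · intro j _ hj; simp [hj.symm]
      · simp
    unfold LA
    rw [h3]
    linarith
  have h2 := HB.add (HB.sum Finset.univ fun i _ => hv.hb i i)
    (HB.add (HB.neg hN) (HB.const_mul (-s) hP))
  have hev : ∀ x, gm v (-x) = gm v x := by
    intro x
    ext i j
    rw [ExtInv.gm_apply, ExtInv.gm_apply, Hs_even hv.c2 hv.even]
  obtain ⟨r, hr, -⟩ := exists_YY h0 h2 (fun x => by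
    simp only [Hs_even hv.c2 hv.even, hev, hPe])
  refine ⟨r, D.uq r v hv.c2 hv.even ⟨M, fun x i j => (hv.hb i j).1 x⟩ fun x => ?_⟩
  rw [hr]
  exact congrFun h1 x

/-- value of the Monge-Ampere functional in terms of `r` -/
theorem ma_fn (r : YY n a) (x : E n) :
    - fderiv ℝ (D.vv r) x x + D.vv r x = fn r x - ∑ i, fn (D.K r i i) x := by
  rw [← D.eqn r x]
  unfold LA
  have h3 : ∑ i, ∑ j, (1 : Matrix (Fin n) (Fin n) ℝ) i j * Hs (D.vv r) x i j
      = ∑ i, fn (D.K r i i) x := by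
    refine Finset.sum_congr rfl fun i _ => ?_
    rw [Finset.sum_eq_single i, D.fnK]
    · simp
    · intro j _ hj; simp [hj.symm]
    · simp
  rw [h3]; ring

/-- the Monge-Ampere equation is preserved along the ODE -/
theorem ma_path {P : E n → ℝ} {PY : YY n a} (hPY : ∀ x, fn PY x = P x) {s s' lo hi : ℝ}
    (hs : s ≤ s') (hlo : 0 < lo) {α : ℝ → YY n a}
    (hE : ∀ t ∈ Icc s s', ∀ x, Ell lo hi (gm (D.vv (α t)) x))
    (hτ : ∀ t ∈ Icc s s', ∃ τ : Fin n → Fin n → YY n a,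
      ∀ i j x, fn (τ i j) x = tauf (D.vv (α t)) x i j)
    (hG : ∀ t ∈ Icc s s', Good (Kt h0 D) (trY n h0) (α t) ∧
      HasDerivWithinAt α (vf (Kt h0 D) (trY n h0) PY (α t)) (Icc s s') t)
    (h : MAeq P s (D.vv (α s))) : MAeq P s' (D.vv (α s')) := by
  intro x
  set φ : ℝ → ℝ := fun t => Real.log (gm (D.vv (α t)) x).det
    + (fn (α t) x - ∑ i, fn (D.K (α t) i i) x) + t * P x with hφ
  have hd : ∀ t ∈ Icc s s', HasDerivWithinAt φ 0 (Icc s s') t := by
    intro t ht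
    obtain ⟨hg, hder⟩ := hG t ht
    obtain ⟨τ, hτt⟩ := hτ t ht
    have hu := unit_of h0 D hlo (hE t ht) hτt
    set β : YY n a := vf (Kt h0 D) (trY n h0) PY (α t) with hβ
    -- evaluation maps
    have e1 : HasDerivWithinAt (fun t => fn (α t) x) (fn β x) (Icc s s') t :=
      (evY h0 x).hasFDerivAt.comp_hasDerivWithinAt t hder
    have e2 : ∀ i j, HasDerivWithinAt (fun t => fn (D.K (α t) i j) x) (fn (D.K β i j) x)
        (Icc s s') t := by
      intro i j
      have hK1 : HasDerivWithinAt (fun t => D.K (α t)) (D.K β) (Icc s s') t :=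
        D.K.hasFDerivAt.comp_hasDerivWithinAt t hder
      have hK2 : HasDerivWithinAt (fun t => D.K (α t) i j) (D.K β i j) (Icc s s') t :=
        (hasDerivWithinAt_pi.1 ((hasDerivWithinAt_pi.1 hK1) i)) j
      exact (evY h0 x).hasFDerivAt.comp_hasDerivWithinAt t hK2
    have e3 : HasDerivWithinAt (fun t => Real.log (gm (D.vv (α t)) x).det)
        (∑ i, ∑ j, (gm (D.vv (α t)) x)⁻¹ i j * Hs (D.vv β) x i j) (Icc s s') t := by
      refine sm_hasDerivWithinAt_log_det_sum (g := fun t => gm (D.vv (α t)) x)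
        (g' := Matrix.of fun i j => Hs (D.vv β) x i j) ?_ ?_ (Ell.sm_det_pos hlo (hE t ht x))
      · intro i j
        have h1 := (e2 i j).const_add ((1 : Matrix (Fin n) (Fin n) ℝ) i j)
        have h2 : (fun t => gm (D.vv (α t)) x i j)
            = fun t => (1 : Matrix (Fin n) (Fin n) ℝ) i j + fn (D.K (α t) i j) x :=
          funext fun t => by rw [ExtInv.gm_apply, D.fnK]
        rw [D.fnK] at h1
        show HasDerivWithinAt (fun t => gm (D.vv (α t)) x i j) (Hs (D.vv β) x i j) _ _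
        rw [h2]
        exact h1
      · intro i j
        exact ExtInv.Hs_symm (D.c2 β) x i j
    have e4 : HasDerivWithinAt (fun t => ∑ i, fn (D.K (α t) i i) x) (∑ i, fn (D.K β i i) x)
        (Icc s s') t := HasDerivWithinAt.fun_sum fun i _ => e2 i i
    have e5 : HasDerivWithinAt (fun t : ℝ => t * P x) (1 * P x) (Icc s s') t :=
      (hasDerivWithinAt_id t _).mul_const _
    have e6 := (e3.add (e1.sub e4)).add e5
    -- the value of the derivative
    have hDK : DK (Kt h0 D) (trY n h0) (ginv (Kt h0 D) (α t)) β = -PY := by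
      rw [hβ, vf, map_neg]
      have := Ring.mul_inverse_cancel _ hg.2
      calc -(DK (Kt h0 D) (trY n h0) (ginv (Kt h0 D) (α t)))
            ((Ring.inverse (DK (Kt h0 D) (trY n h0) (ginv (Kt h0 D) (α t)))) PY)
          = -((DK (Kt h0 D) (trY n h0) (ginv (Kt h0 D) (α t)) *
            Ring.inverse (DK (Kt h0 D) (trY n h0) (ginv (Kt h0 D) (α t)))) PY) := rfl
        _ = -PY := by rw [this]; rfl
    have hval : (∑ i, ∑ j, (gm (D.vv (α t)) x)⁻¹ i j * Hs (D.vv β) x i j)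
        + (fn β x - ∑ i, fn (D.K β i i) x) + 1 * P x = 0 := by
      have h1 : fn (DK (Kt h0 D) (trY n h0) (ginv (Kt h0 D) (α t)) β) x = fn (-PY) x := by
        rw [hDK]
      rw [hu.2, fn_DK h0 D hτt, fn_neg, hPY] at h1
      rw [← ma_fn D β x]
      unfold LA tauf at h1
      linarith
    have e7 : HasDerivWithinAt φ ((∑ i, ∑ j, (gm (D.vv (α t)) x)⁻¹ i j * Hs (D.vv β) x i j)
        + (fn β x - ∑ i, fn (D.K β i i) x) + 1 * P x) (Icc s s') t := e6
    rwa [hval] at e7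
  have hconst : φ s' = φ s := by
    have := (convex_Icc s s').norm_image_sub_le_of_norm_hasDerivWithin_le (f := φ)
      (f' := fun _ => 0) (C := 0) hd (fun _ _ => by simp) (left_mem_Icc.2 hs)
      (right_mem_Icc.2 hs)
    rw [zero_mul] at this
    exact sub_eq_zero.1 (norm_le_zero_iff.1 this)
  have h1 := h x
  have h2 := ma_fn D (α s) x
  have h3 := ma_fn D (α s') x
  simp only [hφ] at hconst
  linarith

include h0 in
theorem cls_diff (r r' : YY n a) (i j : Fin n) :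
    HB a (D.C * ‖r - r'‖) (fun x => Hs (D.vv r) x i j - Hs (D.vv r') x i j) := by
  have h := HB.mono (fn_hb h0 (D.K (r - r') i j)) (D.nK (r - r') i j)
  have h2 : fn (D.K (r - r') i j) = fun x => Hs (D.vv r) x i j - Hs (D.vv r') x i j := by
    funext x
    rw [map_sub, Pi.sub_apply, Pi.sub_apply, fn_sub, D.fnK, D.fnK]
  rwa [h2] at h

end Crest.Agent.R238.Step
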