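import Mathlib
import Crest.Agent.Lib.PrekopaLeindler

/-!
Row 238 (S0369), route 2, node W1: Hessian bounds of the log-Laplace transform in the convex
sense (Prékopa / Hölder). (helper470)
-/

set_option autoImplicit false

open MeasureTheory Real Set Filter Topology
open scoped ENNReal

namespace Crest.Agent.R238.W1

open Crest.Agent.Lib.PrekopaLeindler

/-- Euclidean space -/
abbrev E (n : ℕ) := EuclideanSpace ℝ (Fin n)

variable {n : ℕ}

/-- `a ≤ D²V ≤ b` in the sense of convexity. -/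
structure Pin (a b : ℝ) (V : E n → ℝ) : Prop where
  lo : ConvexOn ℝ univ (fun x => V x - a * ‖x‖ ^ 2 / 2)
  hi : ConvexOn ℝ univ (fun x => b * ‖x‖ ^ 2 / 2 - V x)

/-- log-Laplace transform `log ∫ exp (<x,y> - V x) dx`. -/
noncomputable def Lap (V : E n → ℝ) (y : E n) : ℝ := log (∫ x, exp (inner ℝ x y - V x))

/-! ### Prékopa and Hölder -/

theorem lintegral_exp_eq {f : E n → ℝ} (hf : Integrable (fun x => exp (f x))) :
    ∫⁻ x, ENNReal.ofReal (exp (f x)) = ENNReal.ofReal (∫ x, exp (f x)) :=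
  (ofReal_integral_eq_lintegral_ofReal hf
    (Eventually.of_forall fun _ => (exp_pos _).le)).symm

/-- **Prékopa**: the marginal of a log-concave function is log-concave. -/
theorem prekopa {F : Type*} [AddCommGroup F] [Module ℝ F] {φ : F → E n → ℝ}
    (hφ : ∀ (y₀ y₁ : F) (x₀ x₁ : E n) (s t : ℝ), 0 < s → 0 < t → s + t = 1 →
      s * φ y₀ x₀ + t * φ y₁ x₁ ≤ φ (s • y₀ + t • y₁) (s • x₀ + t • x₁))
    (hc : ∀ y, Measurable (φ y)) (hi : ∀ y, Integrable (fun x => exp (φ y x))) :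
    ConcaveOn ℝ univ (fun y => log (∫ x, exp (φ y x))) := by
  have hpos : ∀ y, 0 < ∫ x, exp (φ y x) := fun y => integral_exp_pos (hi y)
  refine concaveOn_iff_forall_pos.2 ⟨convex_univ, fun y₀ _ y₁ _ s t hs ht hst => ?_⟩
  have ht1 : t < 1 := by linarith
  have hs' : s = 1 - t := by linarith
  have h1 := PL_euclidean n t ht ht1 (fun x => ENNReal.ofReal (exp (φ y₀ x)))
    (fun x => ENNReal.ofReal (exp (φ y₁ x)))
    (fun x => ENNReal.ofReal (exp (φ (s • y₀ + t • y₁) x)))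
    ((hc _).exp.ennreal_ofReal) ((hc _).exp.ennreal_ofReal) ((hc _).exp.ennreal_ofReal) (by
      intro x₀ x₁
      rw [ENNReal.ofReal_rpow_of_pos (exp_pos _), ENNReal.ofReal_rpow_of_pos (exp_pos _),
        ← ENNReal.ofReal_mul (by positivity)]
      refine ENNReal.ofReal_le_ofReal ?_
      rw [← exp_mul, ← exp_mul, ← exp_add]
      refine exp_le_exp.2 ?_
      have := hφ y₀ y₁ x₀ x₁ s t hs ht hst
      rw [← hs']
      linarith)
  rw [lintegral_exp_eq (hi _), lintegral_exp_eq (hi _), lintegral_exp_eq (hi _),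
    ENNReal.ofReal_rpow_of_pos (hpos _), ENNReal.ofReal_rpow_of_pos (hpos _),
    ← ENNReal.ofReal_mul (by have := hpos y₀; positivity),
    ENNReal.ofReal_le_ofReal_iff (hpos _).le, ← hs'] at h1
  have h2 := log_le_log (mul_pos (rpow_pos_of_pos (hpos y₀) s) (rpow_pos_of_pos (hpos y₁) t)) h1
  rw [log_mul (rpow_pos_of_pos (hpos y₀) s).ne' (rpow_pos_of_pos (hpos y₁) t).ne',
    log_rpow (hpos _), log_rpow (hpos _)] at h2
  simpa [smul_eq_mul] using h2

/-- **Hölder**: a mixture of log-convex functions is log-convex. -/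
theorem hoelder {F : Type*} [AddCommGroup F] [Module ℝ F] {φ : F → E n → ℝ}
    (hφ : ∀ (y₀ y₁ : F) (x : E n) (s t : ℝ), 0 < s → 0 < t → s + t = 1 →
      φ (s • y₀ + t • y₁) x ≤ s * φ y₀ x + t * φ y₁ x)
    (hi : ∀ y, Integrable (fun x => exp (φ y x))) :
    ConvexOn ℝ univ (fun y => log (∫ x, exp (φ y x))) := by
  have hpos : ∀ y, 0 < ∫ x, exp (φ y x) := fun y => integral_exp_pos (hi y)
  refine convexOn_iff_forall_pos.2 ⟨convex_univ, fun y₀ _ y₁ _ s t hs ht hst => ?_⟩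
  have hpq : (s⁻¹).HolderConjugate (t⁻¹) := by
    rw [Real.holderConjugate_iff]
    refine ⟨?_, by rw [inv_inv, inv_inv]; exact hst⟩
    rw [one_lt_inv₀ hs]
    linarith
  have hme : ∀ y, AEStronglyMeasurable (fun x => exp (φ y x)) volume := fun y =>
    (hi y).aestronglyMeasurable
  have hm0 : MemLp (fun x => exp (s * φ y₀ x)) (ENNReal.ofReal s⁻¹) := by
    have h1 : MemLp (fun x => exp (φ y₀ x)) 1 := memLp_one_iff_integrable.2 (hi y₀)
    have h2 : AEStronglyMeasurable (fun x => exp (s * φ y₀ x)) volume := by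
      have : (fun x => exp (s * φ y₀ x)) = fun x => (exp (φ y₀ x)) ^ s := by
        funext x; rw [← exp_mul, mul_comm]
      rw [this]
      exact ((hme y₀).aemeasurable.pow_const s).aestronglyMeasurable
    rw [← integrable_norm_rpow_iff h2 (by simp [hs]) (by simp)]
    refine (hi y₀).congr (Eventually.of_forall fun x => ?_)
    simp only
    rw [ENNReal.toReal_ofReal (by positivity), norm_of_nonneg (exp_pos _).le, ← exp_mul]
    congr 1
    field_simp
  have hm1 : MemLp (fun x => exp (t * φ y₁ x)) (ENNReal.ofReal t⁻¹) := by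
    have h2 : AEStronglyMeasurable (fun x => exp (t * φ y₁ x)) volume := by
      have : (fun x => exp (t * φ y₁ x)) = fun x => (exp (φ y₁ x)) ^ t := by
        funext x; rw [← exp_mul, mul_comm]
      rw [this]
      exact ((hme y₁).aemeasurable.pow_const t).aestronglyMeasurable
    rw [← integrable_norm_rpow_iff h2 (by simp [ht]) (by simp)]
    refine (hi y₁).congr (Eventually.of_forall fun x => ?_)
    simp only
    rw [ENNReal.toReal_ofReal (by positivity), norm_of_nonneg (exp_pos _).le, ← exp_mul]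
    congr 1
    field_simp
  have h1 := integral_mul_le_Lp_mul_Lq_of_nonneg hpq
    (Eventually.of_forall fun x => (exp_pos (s * φ y₀ x)).le)
    (Eventually.of_forall fun x => (exp_pos (t * φ y₁ x)).le) hm0 hm1
  have e0 : ∀ x, exp (s * φ y₀ x) ^ s⁻¹ = exp (φ y₀ x) := fun x => by
    rw [← exp_mul]; congr 1; field_simp
  have e1 : ∀ x, exp (t * φ y₁ x) ^ t⁻¹ = exp (φ y₁ x) := fun x => by
    rw [← exp_mul]; congr 1; field_simp
  simp only [e0, e1, one_div, inv_inv] at h1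
  have hint : Integrable (fun x => exp (s * φ y₀ x) * exp (t * φ y₁ x)) := by
    refine Integrable.mono' (((hi y₀).const_mul s).add ((hi y₁).const_mul t))
      (hm0.aestronglyMeasurable.mul hm1.aestronglyMeasurable) (Eventually.of_forall fun x => ?_)
    rw [norm_of_nonneg (by positivity), ← exp_add]
    have := convexOn_exp.2 (mem_univ (φ y₀ x)) (mem_univ (φ y₁ x)) hs.le ht.le hst
    simpa [smul_eq_mul] using this
  have h2 : ∫ x, exp (φ (s • y₀ + t • y₁) x) ≤ ∫ x, exp (s * φ y₀ x) * exp (t * φ y₁ x) := by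
    refine integral_mono (hi _) hint fun x => ?_
    simp only
    rw [← exp_add]
    exact exp_le_exp.2 (hφ y₀ y₁ x s t hs ht hst)
  have h3 := log_le_log (hpos _) (h2.trans h1)
  rw [log_mul (rpow_pos_of_pos (hpos y₀) s).ne' (rpow_pos_of_pos (hpos y₁) t).ne',
    log_rpow (hpos _), log_rpow (hpos _)] at h3
  simpa [smul_eq_mul] using h3

/-! ### continuity and growth of pinched functions -/

theorem Pin.cont_lo {a b : ℝ} {V : E n → ℝ} (h : Pin a b V) :
    Continuous (fun x => V x - a * ‖x‖ ^ 2 / 2) :=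
  continuousOn_univ.1 (h.lo.continuousOn isOpen_univ)

theorem Pin.cont {a b : ℝ} {V : E n → ℝ} (h : Pin a b V) : Continuous V := by
  have h1 : Continuous (fun x : E n => a * ‖x‖ ^ 2 / 2) := by fun_prop
  refine (h.cont_lo.add h1).congr fun x => ?_
  simp

/-- a convex function on `E n` is bounded below by `-K(1+‖x‖)`. -/
theorem convex_lower {v : E n → ℝ} (hv : ConvexOn ℝ univ v) (hc : Continuous v) :
    ∃ K : ℝ, 0 ≤ K ∧ ∀ x, -(K * (1 + ‖x‖)) ≤ v x := by
  obtain ⟨M, hM⟩ := (isCompact_closedBall (0 : E n) 1).exists_bound_of_continuousOn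
    hc.continuousOn
  have hM0 : 0 ≤ M := (norm_nonneg _).trans (hM 0 (by simp))
  refine ⟨2 * M, by positivity, fun x => ?_⟩
  by_cases hx : x = 0
  · subst hx
    have := hM 0 (by simp)
    rw [Real.norm_eq_abs] at this
    have := abs_le.1 this
    simp
    linarith
  have hn : 0 < ‖x‖ := norm_pos_iff.2 hx
  have h1 := hv.2 (mem_univ x) (mem_univ (-(‖x‖⁻¹ • x)))
    (by positivity : (0 : ℝ) ≤ 1 / (1 + ‖x‖))
    (by positivity : (0 : ℝ) ≤ ‖x‖ / (1 + ‖x‖)) (by field_simp)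
  have h2 : (1 / (1 + ‖x‖)) • x + (‖x‖ / (1 + ‖x‖)) • (-(‖x‖⁻¹ • x)) = 0 := by
    rw [smul_neg, smul_smul]
    have : ‖x‖ / (1 + ‖x‖) * ‖x‖⁻¹ = 1 / (1 + ‖x‖) := by field_simp
    rw [this]
    simp
  rw [h2] at h1
  have h3 := hM (-(‖x‖⁻¹ • x)) (by simp [norm_smul, hn.ne'])
  have h4 := hM 0 (by simp)
  rw [Real.norm_eq_abs] at h3 h4
  have h5 := abs_le.1 h3
  have h6 := abs_le.1 h4
  simp only [smul_eq_mul] at h1
  have h7 : (1 + ‖x‖) * v 0 ≤ v x + ‖x‖ * v (-(‖x‖⁻¹ • x)) := by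
    have := mul_le_mul_of_nonneg_left h1 (by positivity : 0 ≤ 1 + ‖x‖)
    refine this.trans (le_of_eq ?_)
    field_simp
  nlinarith [mul_le_mul_of_nonneg_left h5.2 hn.le, mul_le_mul_of_nonneg_left h6.1 hn.le]

theorem integrable_exp_neg_sq {c : ℝ} (hc : 0 < c) :
    Integrable (fun x : E n => exp (-(c * ‖x‖ ^ 2))) := by
  have h := (GaussianFourier.integrable_cexp_neg_mul_sq_norm_add (V := E n)
    (b := (c : ℂ)) (by simpa using hc) 0 0).norm
  refine h.congr (Eventually.of_forall fun x => ?_)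
  simp only [zero_mul, add_zero, Complex.norm_exp]
  congr 1
  have : (-(c : ℂ) * (‖x‖ : ℂ) ^ 2) = ((-(c * ‖x‖ ^ 2) : ℝ) : ℂ) := by push_cast; ring
  rw [this, Complex.ofReal_re]

/-- integrability of `exp (<x,y> - V x)`. -/
theorem Pin.integrable {a b : ℝ} (ha : 0 < a) {V : E n → ℝ} (h : Pin a b V) (y : E n) :
    Integrable (fun x => exp (inner ℝ x y - V x)) := by
  obtain ⟨K, hK, hlow⟩ := convex_lower h.lo h.cont_lo
  have hcm : Continuous (fun x : E n => exp (inner ℝ x y - V x)) := by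
    have := h.cont
    fun_prop
  refine Integrable.mono' ((integrable_exp_neg_sq (n := n) (c := a / 4) (by positivity)).const_mul
    (exp (K + (K + ‖y‖) ^ 2 / a))) hcm.aestronglyMeasurable (Eventually.of_forall fun x => ?_)
  rw [norm_of_nonneg (exp_pos _).le, ← exp_add]
  refine exp_le_exp.2 ?_
  have h1 := hlow x
  have h2 : inner ℝ x y ≤ ‖x‖ * ‖y‖ := real_inner_le_norm x y
  have h3 : (K + ‖y‖) * ‖x‖ ≤ (K + ‖y‖) ^ 2 / a + a * ‖x‖ ^ 2 / 4 := by
    have : 0 ≤ ((K + ‖y‖) / a - ‖x‖ / 2) ^ 2 * a := by positivity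
    have e : ((K + ‖y‖) / a - ‖x‖ / 2) ^ 2 * a =
      (K + ‖y‖) ^ 2 / a - (K + ‖y‖) * ‖x‖ + a * ‖x‖ ^ 2 / 4 := by
      field_simp
      ring
    linarith
  nlinarith

theorem Pin.pos {a b : ℝ} (ha : 0 < a) {V : E n → ℝ} (h : Pin a b V) (y : E n) :
    0 < ∫ x, exp (inner ℝ x y - V x) := integral_exp_pos (h.integrable ha y)

/-! ### the two bounds -/

theorem concaveOn_neg_sq {a : ℝ} (ha : 0 ≤ a) (z₀ z₁ : E n) (s t : ℝ) (hs : 0 < s) (ht : 0 < t)
    (hst : s + t = 1) :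
    a * ‖s • z₀ + t • z₁‖ ^ 2 ≤ s * (a * ‖z₀‖ ^ 2) + t * (a * ‖z₁‖ ^ 2) := by
  have h1 : ‖s • z₀ + t • z₁‖ ^ 2 ≤ s * ‖z₀‖ ^ 2 + t * ‖z₁‖ ^ 2 := by
    have := (convexOn_univ_norm (E := E n)).pow (fun _ _ => norm_nonneg _) 2
    have := this.2 (mem_univ z₀) (mem_univ z₁) hs.le ht.le hst
    simpa using this
  nlinarith

/-- **upper bound** (Prékopa): `D² Lap V ≤ 1/a`. -/
theorem Pin.lap_upper {a b : ℝ} (ha : 0 < a) {V : E n → ℝ} (h : Pin a b V) :
    ConvexOn ℝ univ (fun y => a⁻¹ * ‖y‖ ^ 2 / 2 - Lap V y) := by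
  have key := prekopa (F := E n) (n := n)
    (φ := fun y x => -(a / 2 * ‖x - a⁻¹ • y‖ ^ 2) - (V x - a * ‖x‖ ^ 2 / 2)) ?_ ?_ ?_
  · have h2 : (fun y => a⁻¹ * ‖y‖ ^ 2 / 2 - Lap V y) =
        fun y => -(log (∫ x, exp (-(a / 2 * ‖x - a⁻¹ • y‖ ^ 2) - (V x - a * ‖x‖ ^ 2 / 2)))) := by
      funext y
      have e : ∀ x, exp (-(a / 2 * ‖x - a⁻¹ • y‖ ^ 2) - (V x - a * ‖x‖ ^ 2 / 2)) =
          exp (-(a⁻¹ * ‖y‖ ^ 2 / 2)) * exp (inner ℝ x y - V x) := by
        intro x
        rw [← exp_add]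
        congr 1
        rw [norm_sub_sq_real, inner_smul_right, norm_smul, norm_inv, norm_of_nonneg ha.le]
        field_simp
        ring
      simp only [e]
      rw [integral_const_mul, log_mul (exp_pos _).ne' (h.pos ha y).ne', log_exp]
      unfold Lap
      ring
    rw [h2]
    exact key.neg
  · intro y₀ y₁ x₀ x₁ s t hs ht hst
    have h1 := h.lo.2 (mem_univ x₀) (mem_univ x₁) hs.le ht.le hst
    simp only [smul_eq_mul] at h1
    have h2 := concaveOn_neg_sq (n := n) (a := a / 2) (by positivity) (x₀ - a⁻¹ • y₀)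
      (x₁ - a⁻¹ • y₁) s t hs ht hst
    have e1 : s • (x₀ - a⁻¹ • y₀) + t • (x₁ - a⁻¹ • y₁) =
        (s • x₀ + t • x₁) - a⁻¹ • (s • y₀ + t • y₁) := by
      module
    rw [e1] at h2
    nlinarith
  · intro y
    have := h.cont
    fun_prop
  · intro y
    have e : ∀ x, exp (-(a / 2 * ‖x - a⁻¹ • y‖ ^ 2) - (V x - a * ‖x‖ ^ 2 / 2)) =
        exp (-(a⁻¹ * ‖y‖ ^ 2 / 2)) * exp (inner ℝ x y - V x) := by
      intro x
      rw [← exp_add]
      congr 1
      rw [norm_sub_sq_real, inner_smul_right, norm_smul, norm_inv, norm_of_nonneg ha.le]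
      field_simp
      ring
    simp only [e]
    exact (h.integrable ha y).const_mul _

/-- **lower bound** (Hölder): `1/b ≤ D² Lap V`. -/
theorem Pin.lap_lower {a b : ℝ} (ha : 0 < a) (hb : 0 < b) {V : E n → ℝ} (h : Pin a b V) :
    ConvexOn ℝ univ (fun y => Lap V y - b⁻¹ * ‖y‖ ^ 2 / 2) := by
  have hid : ∀ y x : E n, -(b / 2 * ‖x‖ ^ 2) + (b * ‖x + b⁻¹ • y‖ ^ 2 / 2 - V (x + b⁻¹ • y)) =
      -(b⁻¹ * ‖y‖ ^ 2 / 2) + (inner ℝ (x + b⁻¹ • y) y - V (x + b⁻¹ • y)) := by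
    intro y x
    rw [norm_add_sq_real, inner_add_left, inner_smul_right, inner_smul_left, norm_smul, norm_inv,
      norm_of_nonneg hb.le, real_inner_self_eq_norm_sq]
    simp only [conj_trivial]
    field_simp
    ring
  have hint : ∀ y : E n, Integrable (fun x => exp (-(b / 2 * ‖x‖ ^ 2) +
      (b * ‖x + b⁻¹ • y‖ ^ 2 / 2 - V (x + b⁻¹ • y)))) := by
    intro y
    simp only [hid, exp_add]
    refine Integrable.const_mul ?_ _
    exact (h.integrable ha y).comp_add_right (b⁻¹ • y)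
  have key := hoelder (F := E n) (n := n) (φ := fun y x => -(b / 2 * ‖x‖ ^ 2) +
    (b * ‖x + b⁻¹ • y‖ ^ 2 / 2 - V (x + b⁻¹ • y))) ?_ hint
  · have h2 : (fun y => Lap V y - b⁻¹ * ‖y‖ ^ 2 / 2) =
        fun y => (log (∫ x, exp (-(b / 2 * ‖x‖ ^ 2) +
          (b * ‖x + b⁻¹ • y‖ ^ 2 / 2 - V (x + b⁻¹ • y))))) := by
      funext y
      simp only [hid]
      have e : ∀ x : E n, exp (-(b⁻¹ * ‖y‖ ^ 2 / 2) + (inner ℝ (x + b⁻¹ • y) y -
          V (x + b⁻¹ • y))) = exp (-(b⁻¹ * ‖y‖ ^ 2 / 2)) *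
          exp (inner ℝ (x + b⁻¹ • y) y - V (x + b⁻¹ • y)) := fun x => exp_add _ _
      simp only [e]
      rw [integral_const_mul, integral_add_right_eq_self
        (fun x => exp (inner ℝ x y - V x)) (b⁻¹ • y),
        log_mul (exp_pos _).ne' (h.pos ha y).ne', log_exp]
      unfold Lap
      ring
    rw [h2]
    exact key
  · intro y₀ y₁ x s t hs ht hst
    have h1 := h.hi.2 (mem_univ (x + b⁻¹ • y₀)) (mem_univ (x + b⁻¹ • y₁)) hs.le ht.le hst
    simp only [smul_eq_mul] at h1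
    have e1 : s • (x + b⁻¹ • y₀) + t • (x + b⁻¹ • y₁) = x + b⁻¹ • (s • y₀ + t • y₁) := by
      have : x = s • x + t • x := by rw [← add_smul, hst, one_smul]
      nth_rewrite 3 [this]
      module
    rw [e1] at h1
    have e2 : b / 2 * ‖x‖ ^ 2 = s * (b / 2 * ‖x‖ ^ 2) + t * (b / 2 * ‖x‖ ^ 2) := by
      rw [← add_mul, hst, one_mul]
    nlinarith

/-- **W1.** -/
theorem Pin.lap {a b : ℝ} (ha : 0 < a) (hb : 0 < b) {V : E n → ℝ} (h : Pin a b V) :
    Pin b⁻¹ a⁻¹ (Lap V) :=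
  ⟨h.lap_lower ha hb, h.lap_upper ha⟩

end Crest.Agent.R238.W1
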