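import Crest.Agent.R238.WDefs
import Crest.Agent.R238.W1Lap

/-!
Row 238 (S0369), route 2, node W1 (`LLStmt`). (helper470)
-/

set_option autoImplicit false

open MeasureTheory Set Filter
open scoped Topology

namespace Crest.Agent.R238.W

variable {n : ℕ}

theorem KC.pin {a b : ℝ} {V : E n → ℝ} (h : KC a b V) : W1.Pin a b V where
  lo := by
    have := h.lo
    have e : (fun y => V y - a / 2 * ‖y‖ ^ 2) = fun x => V x - a * ‖x‖ ^ 2 / 2 := by
      funext x; ring
    rwa [e] at this
  hi := by
    have := h.hi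
    have e : (fun y => b / 2 * ‖y‖ ^ 2 - V y) = fun x => b * ‖x‖ ^ 2 / 2 - V x := by
      funext x; ring
    rwa [e] at this

theorem KC.of_pin {a b : ℝ} {V : E n → ℝ} (h : W1.Pin a b V) (he : ∀ y, V (-y) = V y) :
    KC a b V where
  even := he
  lo := by
    have := h.lo
    have e : (fun y => V y - a / 2 * ‖y‖ ^ 2) = fun x => V x - a * ‖x‖ ^ 2 / 2 := by
      funext x; ring
    rwa [e]
  hi := by
    have := h.hi
    have e : (fun y => b / 2 * ‖y‖ ^ 2 - V y) = fun x => b * ‖x‖ ^ 2 / 2 - V x := by
      funext x; ring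
    rwa [e]

/-- **W1** -/
theorem llStmt : LLStmt := by
  intro n a b V ha hab hV
  have hb : 0 < b := lt_of_lt_of_le ha hab
  have hp := hV.pin
  have hcomm : ∀ x y : E n, (inner ℝ y x : ℝ) = inner ℝ x y := fun x y => real_inner_comm _ _
  have hi : ∀ y : E n, Integrable (fun x : E n => Real.exp (inner ℝ y x - V x)) := by
    intro y
    simpa only [hcomm] using hp.integrable ha y
  refine ⟨hi, ?_⟩
  have e : (fun y : E n => Real.log (∫ x, Real.exp (inner ℝ y x - V x))) = W1.Lap V := by
    funext y
    unfold W1.Lap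
    simp only [hcomm _ y]
  rw [e, one_div, one_div]
  refine KC.of_pin (hp.lap ha hb) fun y => ?_
  unfold W1.Lap
  congr 1
  rw [← integral_neg_eq_self (fun x : E n => Real.exp (inner ℝ x (-y) - V x))]
  refine integral_congr_ae (Eventually.of_forall fun x => ?_)
  simp only [inner_neg_neg, hV.even]

end Crest.Agent.R238.W
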