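import Mathlib

/-! Row 238 route 2 (W5): Monge-Ampere almost everywhere from a push-forward identity for an
injective Lipschitz map. (helper755) -/

set_option autoImplicit false
open scoped ContDiff Topology ENNReal NNReal
open Set Filter MeasureTheory

noncomputable section

namespace Crest.Agent.R238.W

variable {V : Type*} [NormedAddCommGroup V] [NormedSpace ℝ V] [FiniteDimensional ℝ V]
  [MeasurableSpace V] [BorelSpace V]

/-- An injective Lipschitz map pushing `f dx` to `g dx` satisfies the Jacobian equation a.e. -/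
theorem jacobian_ae_of_map_eq (μ : Measure V) [μ.IsAddHaarMeasure] {T : V → V} {K : ℝ≥0}
    (hT : LipschitzWith K T) (hinj : Function.Injective T) {f g : V → ℝ≥0∞}
    (hf : Measurable f) (hg : Measurable g)
    (hpush : (μ.withDensity f).map T = μ.withDensity g) :
    ∀ᵐ y ∂μ, DifferentiableAt ℝ T y ∧
      f y = ENNReal.ofReal |(fderiv ℝ T y).det| * g (T y) := by
  have hcont : Continuous T := hT.continuous
  have hTm : Measurable T := hcont.measurable
  set S : Set V := {y | DifferentiableAt ℝ T y} with hS
  have hSm : MeasurableSet S := measurableSet_of_differentiableAt ℝ T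
  have hSae : ∀ᵐ y ∂μ, y ∈ S := hT.ae_differentiableAt
  have hScompl : μ Sᶜ = 0 := hSae
  have hdet : Measurable fun y => ENNReal.ofReal |(fderiv ℝ T y).det| := by
    have h1 : Measurable fun y => fderiv ℝ T y := measurable_fderiv ℝ T
    have h2 : Continuous fun A : V →L[ℝ] V => A.det := ContinuousLinearMap.continuous_det
    exact ENNReal.measurable_ofReal.comp ((h2.measurable.comp h1).abs)
  have key : ∀ A : Set V, MeasurableSet A →
      ∫⁻ y in A, f y ∂μ = ∫⁻ y in A, ENNReal.ofReal |(fderiv ℝ T y).det| * g (T y) ∂μ := by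
    intro A hA
    have hTA : ∀ B : Set V, MeasurableSet B → MeasurableSet (T '' B) := fun B hB =>
      hB.image_of_continuousOn_injOn hcont.continuousOn hinj.injOn
    have hpre : ∀ B : Set V, T ⁻¹' (T '' B) = B := fun B => hinj.preimage_image B
    have e1 : ∀ B : Set V, MeasurableSet B →
        ∫⁻ y in B, f y ∂μ = ∫⁻ x in T '' B, g x ∂μ := by
      intro B hB
      rw [← withDensity_apply f hB, ← withDensity_apply g (hTA B hB), ← hpush,
        Measure.map_apply hTm (hTA B hB), hpre B]
    have e2 : ∫⁻ y in A, f y ∂μ = ∫⁻ y in A ∩ S, f y ∂μ := by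
      rw [← lintegral_inter_add_sdiff f A hSm]
      have : ∫⁻ y in A \ S, f y ∂μ = 0 := by
        apply setLIntegral_measure_zero
        exact measure_mono_null (fun x hx => hx.2) hScompl
      rw [this, add_zero]
    have e3 : ∫⁻ x in T '' (A ∩ S), g x ∂μ
        = ∫⁻ y in A ∩ S, ENNReal.ofReal |(fderiv ℝ T y).det| * g (T y) ∂μ := by
      apply lintegral_image_eq_lintegral_abs_det_fderiv_mul μ (hA.inter hSm)
      · intro y hy
        exact (DifferentiableAt.hasFDerivAt hy.2).hasFDerivWithinAt
      · exact hinj.injOn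
    have e4 : ∫⁻ y in A, ENNReal.ofReal |(fderiv ℝ T y).det| * g (T y) ∂μ
        = ∫⁻ y in A ∩ S, ENNReal.ofReal |(fderiv ℝ T y).det| * g (T y) ∂μ := by
      rw [← lintegral_inter_add_sdiff _ A hSm]
      have : ∫⁻ y in A \ S, ENNReal.ofReal |(fderiv ℝ T y).det| * g (T y) ∂μ = 0 := by
        apply setLIntegral_measure_zero
        exact measure_mono_null (fun x hx => hx.2) hScompl
      rw [this, add_zero]
    rw [e2, e1 _ (hA.inter hSm), e3, e4]
  have hae : f =ᵐ[μ] fun y => ENNReal.ofReal |(fderiv ℝ T y).det| * g (T y) := by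
    apply ae_eq_of_forall_setLIntegral_eq_of_sigmaFinite hf (hdet.mul (hg.comp hTm))
    intro s hs _
    exact key s hs
  filter_upwards [hSae, hae] with y h1 h2
  exact ⟨h1, h2⟩

end Crest.Agent.R238.W
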