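import Crest.Agent.R238.WArea

/-! Row 238 route 2 (W5): Monge-Ampere a.e., log form. (helper755) -/

set_option autoImplicit false
open scoped ContDiff Topology ENNReal NNReal RealInnerProductSpace Gradient
open Set Filter MeasureTheory

noncomputable section

namespace Crest.Agent.R238.W

variable {V : Type*} [NormedAddCommGroup V] [InnerProductSpace ℝ V] [FiniteDimensional ℝ V]

/-- a strongly positive operator is injective, hence has nonzero determinant -/
theorem det_ne_zero_of_strong {A : V →L[ℝ] V} {c : ℝ} (hc : 0 < c)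
    (h : ∀ v, c * ‖v‖ ^ 2 ≤ ⟪A v, v⟫) : A.det ≠ 0 := by
  intro h0
  have hk : (LinearMap.ker (A : V →ₗ[ℝ] V)) ≠ ⊥ := by
    intro hbot
    have hu : IsUnit (A : V →ₗ[ℝ] V) := by
      rw [LinearMap.isUnit_iff_ker_eq_bot]; exact hbot
    have := hu.map (LinearMap.det : (V →ₗ[ℝ] V) →* ℝ)
    exact this.ne_zero h0
  obtain ⟨v, hv, hv0⟩ := Submodule.exists_mem_ne_zero_of_ne_bot hk
  have hAv : A v = 0 := hv
  have := h v
  rw [hAv, inner_zero_left] at this
  have hvn : 0 < ‖v‖ ^ 2 := by positivity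
  nlinarith [mul_pos hc hvn]

/-- a strongly positive operator has positive determinant -/
theorem det_pos_of_strong {A : V →L[ℝ] V} {c : ℝ} (hc : 0 < c)
    (h : ∀ v, c * ‖v‖ ^ 2 ≤ ⟪A v, v⟫) : 0 < A.det := by
  by_contra hneg
  push Not at hneg
  have hcont : ContinuousOn (fun t : ℝ => ((1 - t) • ContinuousLinearMap.id ℝ V + t • A).det)
      (Icc 0 1) := by
    apply Continuous.continuousOn
    exact ContinuousLinearMap.continuous_det.comp (by fun_prop)
  have h1 : (0:ℝ) ∈ Icc (((1 - (1:ℝ)) • ContinuousLinearMap.id ℝ V + (1:ℝ) • A).det)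
      (((1 - (0:ℝ)) • ContinuousLinearMap.id ℝ V + (0:ℝ) • A).det) := by
    constructor
    · simpa using hneg
    · simp [ContinuousLinearMap.det]
  obtain ⟨t, ht, hdet⟩ := intermediate_value_Icc' (zero_le_one) hcont h1
  have hcm : 0 < min 1 c := lt_min one_pos hc
  refine det_ne_zero_of_strong (A := (1 - t) • ContinuousLinearMap.id ℝ V + t • A) hcm ?_ hdet
  intro v
  have e : ⟪((1 - t) • ContinuousLinearMap.id ℝ V + t • A) v, v⟫
      = (1 - t) * ‖v‖ ^ 2 + t * ⟪A v, v⟫ := by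
    simp [inner_add_left, inner_smul_left, real_inner_self_eq_norm_sq]
  rw [e]
  have h2 : t * (c * ‖v‖ ^ 2) ≤ t * ⟪A v, v⟫ := mul_le_mul_of_nonneg_left (h v) ht.1
  have h3 : t * (min 1 c * ‖v‖ ^ 2) ≤ t * (c * ‖v‖ ^ 2) :=
    mul_le_mul_of_nonneg_left (mul_le_mul_of_nonneg_right (min_le_right _ _) (sq_nonneg _)) ht.1
  have h4 : (1 - t) * (min 1 c * ‖v‖ ^ 2) ≤ (1 - t) * (1 * ‖v‖ ^ 2) :=
    mul_le_mul_of_nonneg_left (mul_le_mul_of_nonneg_right (min_le_left _ _) (sq_nonneg _))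
      (by linarith [ht.2])
  nlinarith

/-- the derivative of a strongly monotone map is strongly positive -/
theorem inner_fderiv_ge {T : V → V} {c : ℝ}
    (h : ∀ x y, c * ‖x - y‖ ^ 2 ≤ ⟪T x - T y, x - y⟫) {y : V} (hd : DifferentiableAt ℝ T y)
    (v : V) : c * ‖v‖ ^ 2 ≤ ⟪fderiv ℝ T y v, v⟫ := by
  have hl : Tendsto (fun t : ℝ => t⁻¹ • (T (y + t • v) - T y)) (𝓝[>] 0) (𝓝 (fderiv ℝ T y v)) := by
    have h1 : HasDerivAt (fun t : ℝ => T (y + t • v)) (fderiv ℝ T y v) 0 := by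
      have hg : HasDerivAt (fun t : ℝ => y + t • v) v 0 := by
        simpa using ((hasDerivAt_id (0:ℝ)).smul_const v).const_add y
      have h2 : HasFDerivAt T (fderiv ℝ T y) ((fun t : ℝ => y + t • v) 0) := by
        simpa using hd.hasFDerivAt
      exact h2.comp_hasDerivAt 0 hg
    have := (hasDerivAt_iff_tendsto_slope.1 h1)
    have h3 := this.mono_left (nhdsWithin_mono 0 (fun t (ht : 0 < t) => ht.ne') :
      𝓝[>] (0:ℝ) ≤ 𝓝[≠] 0)
    refine h3.congr fun t => ?_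
    simp [slope_def_module]
  have hl2 : Tendsto (fun t : ℝ => ⟪t⁻¹ • (T (y + t • v) - T y), v⟫) (𝓝[>] 0)
      (𝓝 ⟪fderiv ℝ T y v, v⟫) := hl.inner tendsto_const_nhds
  refine ge_of_tendsto hl2 ?_
  filter_upwards [self_mem_nhdsWithin] with t ht
  have ht0 : (0:ℝ) < t := ht
  have := h (y + t • v) y
  rw [add_sub_cancel_left, norm_smul, inner_smul_right, mul_pow, Real.norm_eq_abs, sq_abs] at this
  rw [inner_smul_left]
  simp only [conj_trivial]
  rw [inv_mul_eq_div, le_div_iff₀ ht0]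
  have h5 : t * (c * ‖v‖ ^ 2 * t) ≤ t * ⟪T (y + t • v) - T y, v⟫ := by nlinarith
  exact le_of_mul_le_mul_left h5 ht0

theorem inner_fderiv_le {T : V → V} {K : ℝ≥0} (h : LipschitzWith K T) (y v : V) :
    ⟪fderiv ℝ T y v, v⟫ ≤ K * ‖v‖ ^ 2 := by
  calc ⟪fderiv ℝ T y v, v⟫ ≤ ‖fderiv ℝ T y v‖ * ‖v‖ := real_inner_le_norm _ _
    _ ≤ (‖fderiv ℝ T y‖ * ‖v‖) * ‖v‖ := by gcongr; exact (fderiv ℝ T y).le_opNorm v
    _ ≤ (K * ‖v‖) * ‖v‖ := by
        gcongr
        exact norm_fderiv_le_of_lipschitz ℝ h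
    _ = K * ‖v‖ ^ 2 := by ring

/-- the Riesz map as a real continuous linear map -/
def rieszL (V : Type*) [NormedAddCommGroup V] [InnerProductSpace ℝ V] [FiniteDimensional ℝ V] :
    V →L[ℝ] (V →L[ℝ] ℝ) :=
  LinearMap.toContinuousLinearMap
    { toFun := fun x => innerSL ℝ x
      map_add' := fun x y => by simp
      map_smul' := fun c x => by simp }

@[simp] theorem rieszL_apply (x y : V) : rieszL V x y = ⟪x, y⟫ := rfl

/-- symmetry of the derivative of a gradient at a point of differentiability -/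
theorem fderiv_gradient_symm {θ : V → ℝ} {T : V → V} (hθ : ∀ x, HasGradientAt θ (T x) x)
    {y : V} (hd : DifferentiableAt ℝ T y) (v w : V) :
    ⟪fderiv ℝ T y v, w⟫ = ⟪fderiv ℝ T y w, v⟫ := by
  have h1 : ∀ᶠ z in 𝓝 y, HasFDerivAt θ (rieszL V (T z)) z :=
    Eventually.of_forall fun z => (hθ z).hasFDerivAt
  have h2 : HasFDerivAt (fun z => rieszL V (T z)) ((rieszL V).comp (fderiv ℝ T y)) y :=
    (rieszL V).hasFDerivAt.comp y hd.hasFDerivAt
  have := second_derivative_symmetric_of_eventually h1 h2 v w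
  simpa using this

variable [MeasurableSpace V] [BorelSpace V]

/-- **Monge-Ampere a.e.** for a strongly monotone Lipschitz gradient map `T = ∇θ`
pushing `exp(-θ) dy` to `exp(a - Ψ) dx`. -/
theorem mongeAmpere_ae (μ : Measure V) [μ.IsAddHaarMeasure] {θ Ψ : V → ℝ} {T : V → V} {K : ℝ≥0}
    {c a : ℝ} (hc : 0 < c) (hΨ : Measurable Ψ)
    (hθ : ∀ x, HasGradientAt θ (T x) x) (hT : LipschitzWith K T)
    (hmono : ∀ x y, c * ‖x - y‖ ^ 2 ≤ ⟪T x - T y, x - y⟫)
    (hpush : (μ.withDensity fun y => ENNReal.ofReal (Real.exp (-θ y))).map T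
      = μ.withDensity fun x => ENNReal.ofReal (Real.exp (a - Ψ x))) :
    ∀ᵐ y ∂μ, DifferentiableAt ℝ T y ∧
      (∀ v w, ⟪fderiv ℝ T y v, w⟫ = ⟪fderiv ℝ T y w, v⟫) ∧
      (∀ v, c * ‖v‖ ^ 2 ≤ ⟪fderiv ℝ T y v, v⟫) ∧
      (∀ v, ⟪fderiv ℝ T y v, v⟫ ≤ K * ‖v‖ ^ 2) ∧
      0 < (fderiv ℝ T y).det ∧
      Real.log (fderiv ℝ T y).det = Ψ (T y) - θ y - a := by
  have hinj : Function.Injective T := by
    intro x y hxy
    have := hmono x y
    rw [hxy, sub_self, inner_zero_left] at this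
    have h2 : ‖x - y‖ ^ 2 ≤ 0 := by
      by_contra h
      push Not at h
      nlinarith [mul_pos hc h]
    have h3 : ‖x - y‖ = 0 := by nlinarith [norm_nonneg (x - y), sq_nonneg ‖x - y‖]
    exact sub_eq_zero.1 (norm_eq_zero.1 h3)
  have hθc : Continuous θ := continuous_iff_continuousAt.2 fun x =>
    (hθ x).hasFDerivAt.continuousAt
  have hf : Measurable fun y => ENNReal.ofReal (Real.exp (-θ y)) :=
    (Real.measurable_exp.comp hθc.measurable.neg).ennreal_ofReal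
  have hg : Measurable fun x => ENNReal.ofReal (Real.exp (a - Ψ x)) :=
    (Real.measurable_exp.comp (measurable_const.sub hΨ)).ennreal_ofReal
  filter_upwards [jacobian_ae_of_map_eq μ hT hinj hf hg hpush] with y hy
  obtain ⟨hd, he⟩ := hy
  have hpos : ∀ v, c * ‖v‖ ^ 2 ≤ ⟪fderiv ℝ T y v, v⟫ := inner_fderiv_ge hmono hd
  have hdet : 0 < (fderiv ℝ T y).det := det_pos_of_strong hc hpos
  refine ⟨hd, fderiv_gradient_symm hθ hd, hpos, inner_fderiv_le hT y, hdet, ?_⟩
  rw [abs_of_pos hdet, ← ENNReal.ofReal_mul hdet.le,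
    ENNReal.ofReal_eq_ofReal_iff (Real.exp_pos _).le (by positivity)] at he
  have h3 := congrArg Real.log he
  rw [Real.log_exp, Real.log_mul hdet.ne' (Real.exp_pos _).ne', Real.log_exp] at h3
  linarith

end Crest.Agent.R238.W
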