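import Mathlib
import Crest.Agent.R238.HolDefs
import Crest.Agent.R238.SoftDefs

/-!
Row 238, ROUTE 2 (insurance route): FROZEN INTERFACE (helper116).
`θ` lives on the `y`-side, `x = ∇θ(y)`, weight `ρ = exp(-θ)`.
-/

set_option autoImplicit false
open scoped ContDiff Topology
open MeasureTheory Set Filter

noncomputable section

namespace Crest.Agent.R238.W

variable {n : ℕ}

/-- partial derivative -/
def pd (i : Fin n) (f : E n → ℝ) (x : E n) : ℝ := fderiv ℝ f x (ee i)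

/-- gradient as a vector -/
abbrev gr (f : E n → ℝ) (x : E n) : E n := gradient f x

/-- Hessian matrix (entries `Hs f x i j = D(Df)(x)(e_i)(e_j)`) -/
def Hm (f : E n → ℝ) (x : E n) : Matrix (Fin n) (Fin n) ℝ := Matrix.of (Hs f x)

/-- inverse Hessian -/
def Gm (f : E n → ℝ) (x : E n) : Matrix (Fin n) (Fin n) ℝ := (Hm f x)⁻¹

/-- even, `a`-convex, `A`-concave -/
structure KC (a A : ℝ) (θ : E n → ℝ) : Prop where
  even : ∀ y, θ (-y) = θ y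
  lo : ConvexOn ℝ univ (fun y => θ y - a / 2 * ‖y‖ ^ 2)
  hi : ConvexOn ℝ univ (fun y => A / 2 * ‖y‖ ^ 2 - θ y)

/-- W1: Hessian bounds of the log-Laplace transform (Prekopa, Hölder) -/
def LLStmt : Prop := ∀ (n : ℕ) (a b : ℝ) (V : E n → ℝ), 0 < a → a ≤ b → KC a b V →
  (∀ y : E n, Integrable (fun x : E n => Real.exp (inner ℝ y x - V x))) ∧
  KC (1 / b) (1 / a) (fun y : E n => Real.log (∫ x, Real.exp (inner ℝ y x - V x)))

/-- `(∇θ)_# (e^{-θ} dy) = e^{-Ψ} dx` -/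
def Push (θ Ψ : E n → ℝ) : Prop := ∀ f : E n → ℝ, Continuous f → HasCompactSupport f →
  ∫ y, f (gr θ y) * Real.exp (-θ y) = ∫ x, f x * Real.exp (-Ψ x)

/-- level `k` entropic pair (exact fixed point): `κ` on the `x`-side, `θ` on the `y`-side,
`kθ(y) = log ∫ e^{k<x,y> - Ψ(x) - k κ(x)} dx`, `kκ(x) = log ∫ e^{k<x,y> - (k+1) θ(y)} dy` -/
structure Ent (k : ℝ) (Ψ θ κ : E n → ℝ) : Prop where
  int1 : ∀ y : E n, Integrable (fun x : E n => Real.exp (k * inner ℝ x y - Ψ x - k * κ x))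
  eq1 : ∀ y, k * θ y = Real.log (∫ x, Real.exp (k * inner ℝ x y - Ψ x - k * κ x))
  int2 : ∀ x : E n, Integrable (fun y : E n => Real.exp (k * inner ℝ x y - (k + 1) * θ y))
  eq2 : ∀ x, k * κ x = Real.log (∫ y, Real.exp (k * inner ℝ x y - (k + 1) * θ y))

/-- W2: existence of the level `k` pair with uniform Hessian bounds -/
def EntStmt : Prop := ∀ (n : ℕ) (c C k : ℝ) (Ψ : E n → ℝ), 0 < c → c ≤ C → 0 < k → KC c C Ψ →
  ∃ θ κ : E n → ℝ, KC (k / ((k + 1) * C)) (k / ((k + 1) * c)) θ ∧ Ent k Ψ θ κ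

/-- W3: weak moment potential -/
def WExStmt : Prop := ∀ (n : ℕ) (c C : ℝ) (Ψ : E n → ℝ), 0 < c → c ≤ C → KC c C Ψ →
  ∃ θ : E n → ℝ, KC (1 / C) (1 / c) θ ∧ Push θ Ψ

/-- W4: `C^{1,1}` calculus -/
def C11Stmt : Prop := ∀ (n : ℕ) (a A : ℝ) (θ : E n → ℝ), 0 < a → KC a A θ →
  ContDiff ℝ 1 θ ∧ LipschitzWith (Real.toNNReal A) (gr θ) ∧
  (∀ x y, a * ‖x - y‖ ^ 2 ≤ inner ℝ (gr θ x - gr θ y) (x - y)) ∧
  Function.Bijective (gr θ) ∧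
  (∀ᵐ y, DifferentiableAt ℝ (fderiv ℝ θ) y ∧ Ell a A (Hm θ y))

/-- Monge-Ampère equation a.e. -/
def MA (θ Ψ : E n → ℝ) : Prop :=
  ∀ᵐ y : E n, 0 < (Hm θ y).det ∧ Real.log (Hm θ y).det = Ψ (gr θ y) - θ y

/-- W5 -/
def MAStmt : Prop := ∀ (n : ℕ) (a A : ℝ) (θ Ψ : E n → ℝ), 0 < a → KC a A θ → Continuous Ψ →
  Push θ Ψ → MA θ Ψ

/-- second difference quotient -/
def sd (θ : E n → ℝ) (h : ℝ) (e : E n) (y : E n) : ℝ :=
  (θ (y + h • e) + θ (y - h • e) - 2 * θ y) / h ^ 2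

/-- second difference quotients are weak subsolutions, `L w ≥ -w` -/
def SUB (θ : E n → ℝ) : Prop := ∀ (e : E n) (h : ℝ), ‖e‖ = 1 → 0 < h →
  ∀ η : E n → ℝ, ContDiff ℝ 1 η → HasCompactSupport η → (∀ y, 0 ≤ η y) →
    ∫ y, (∑ i, ∑ j, Gm θ y i j * pd i (sd θ h e) y * pd j η y) * Real.exp (-θ y)
      ≤ ∫ y, sd θ h e y * η y * Real.exp (-θ y)

/-- W6 -/
def SubStmt : Prop := ∀ (n : ℕ) (a A : ℝ) (θ Ψ : E n → ℝ), 0 < a → KC a A θ →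
  ContDiff ℝ 1 Ψ → ConvexOn ℝ univ Ψ → MA θ Ψ → SUB θ

/-- weak supersolution with right-hand side `≥ -d` on the ball `B_r(y₀)` -/
def Super (M : E n → Matrix (Fin n) (Fin n) ℝ) (d : ℝ) (v : E n → ℝ) (y₀ : E n) (r : ℝ) : Prop :=
  ∀ η : E n → ℝ, ContDiff ℝ 1 η → HasCompactSupport η → tsupport η ⊆ Metric.ball y₀ r →
    (∀ y, 0 ≤ η y) →
    - d * ∫ y, η y ≤ ∫ y, ∑ i, ∑ j, M y i j * pd i v y * pd j η y

/-- W7: growth lemma (measurable coefficients) -/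
def GrowthStmt : Prop := ∀ (n : ℕ) (lam Lam s : ℝ), 3 ≤ n → 0 < lam → lam ≤ Lam → 0 < s → s < 1 →
  ∃ κ > 0, ∀ (M : E n → Matrix (Fin n) (Fin n) ℝ) (v : E n → ℝ) (d t : ℝ),
    (∀ i j, Measurable fun y => M y i j) →
    (∀ᵐ y, y ∈ Metric.ball (0 : E n) 2 → Ell lam Lam (M y)) →
    ContDiff ℝ 1 v → (∀ y ∈ Metric.ball (0 : E n) 2, 0 ≤ v y) → 0 ≤ d → 0 ≤ t →
    Super M d v 0 2 →
    ENNReal.ofReal s * volume (Metric.ball (0 : E n) 1)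
      ≤ volume {y | y ∈ Metric.ball (0 : E n) 1 ∧ t ≤ v y} →
    ∀ y ∈ Metric.ball (0 : E n) (1 / 2), κ * t ≤ v y + d

/-- W8: continuity of the Hessian -/
def ContStmt : Prop := ∀ (n : ℕ) (a A : ℝ) (θ Ψ : E n → ℝ), 3 ≤ n → 0 < a → KC a A θ →
  ContDiff ℝ 1 Ψ → MA θ Ψ → SUB θ → ContDiff ℝ 2 θ

/-- sum of squares of third derivatives -/
def T2 (th : E n → ℝ) (y : E n) : ℝ := ∑ i, ∑ j, ∑ k, pd i (fun z => Hs th z j k) y ^ 2

/-- trace inequality: `D³θ` is a form bounded multiplier -/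
def TRB (C : ℝ) (th : E n → ℝ) : Prop := ∀ η : E n → ℝ, ContDiff ℝ 1 η → HasCompactSupport η →
  ∫ y, T2 th y * η y ^ 2 * Real.exp (-th y)
    ≤ C * ∫ y, (η y ^ 2 + ‖fderiv ℝ η y‖ ^ 2) * Real.exp (-th y)

/-- residual of the Monge-Ampère equation -/
def res (Ψ th : E n → ℝ) (y : E n) : ℝ := th y + Real.log (Hm th y).det - Ψ (gr th y)

/-- the gradient of the residual is a small multiplier on `B_R` -/
def RES (δ R : ℝ) (Ψ th : E n → ℝ) : Prop := ∀ η : E n → ℝ, ContDiff ℝ 1 η →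
  HasCompactSupport η → tsupport η ⊆ Metric.ball 0 R →
  ∫ y, ‖fderiv ℝ (res Ψ th) y‖ ^ 2 * η y ^ 2 * Real.exp (-th y)
    ≤ δ * ∫ y, (η y ^ 2 + ‖fderiv ℝ η y‖ ^ 2) * Real.exp (-th y)

/-- W9: mollification -/
def MolStmt : Prop := ∀ (n : ℕ) (a A : ℝ) (θ Ψ : E n → ℝ), 0 < a → KC a A θ →
  ContDiff ℝ 2 Ψ → (∃ B, ∀ x, ‖fderiv ℝ (fderiv ℝ Ψ) x‖ ≤ B) → MA θ Ψ → SUB θ → ContDiff ℝ 2 θ →
  ∃ C : ℝ, ∀ R δ : ℝ, 0 < R → 0 < δ → ∃ th : E n → ℝ, ContDiff ℝ ∞ th ∧ KC a A th ∧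
    (∀ y, |th y - θ y| ≤ δ) ∧ (∀ y, ‖gr th y - gr θ y‖ ≤ δ) ∧ TRB C th ∧ RES δ R Ψ th

/-- the generator: `L u = e^{θ} ∑_ij ∂_i (e^{-θ} θ^{ij} ∂_j u)` -/
def Lg (th u : E n → ℝ) (y : E n) : ℝ :=
  Real.exp (th y) * ∑ i, pd i (fun z => Real.exp (-th z) * ∑ j, Gm th z i j * pd j u z) y

/-- smooth, compactly supported, even, supported in the ball of radius `R` -/
structure Tst (R : ℝ) (P : E n → ℝ) : Prop where
  smooth : ContDiff ℝ ∞ P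
  cpt : HasCompactSupport P
  even : ∀ y, P (-y) = P y
  supp : tsupport P ⊆ Metric.ball 0 R

/-- `x`-gradient: `v^a = ∑_j θ^{aj} ∂_j P` -/
def vv (th P : E n → ℝ) (a : Fin n) (y : E n) : ℝ := ∑ j, Gm th y a j * pd j P y

/-- `A^a_c = ∂_c v^a` -/
def Av (th P : E n → ℝ) (a c : Fin n) (y : E n) : ℝ := pd c (vv th P a) y

/-- `q_ab = ∑_j θ_bj A^j_a` (symmetric) -/
def qv (th P : E n → ℝ) (a b : Fin n) (y : E n) : ℝ := ∑ j, Hs th y b j * Av th P j a y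

/-- `Q_P = -(L+1)P` -/
def QP (th P : E n → ℝ) (y : E n) : ℝ := -(Lg th P y) - P y

/-- squared `L²(ρ)` distance `∫ |∇(Q - Q_P)|² ρ` -/
def dist2 (th Q P : E n → ℝ) : ℝ :=
  ∫ y, ‖fderiv ℝ (fun z => Q z - QP th P z) y‖ ^ 2 * Real.exp (-th y)

/-- D: approximate solution of the two linear equations with uniformly compact support -/
def LinStmt : Prop := ∀ (n : ℕ) (a A C M Cf η : ℝ), 0 < a → a ≤ A → 0 < η →
  ∃ R > 0, ∀ th : E n → ℝ, ContDiff ℝ ∞ th → KC a A th → TRB C th → |th 0| ≤ M →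
    ∀ f : E n → ℝ, Continuous f → (∀ y, f (-y) = f y) → (∀ y, |f y| ≤ Cf * (1 + ‖y‖ ^ 2)) →
      ∫ y, f y * Real.exp (-th y) = 0 →
      ∃ Q P : E n → ℝ, Tst R Q ∧ Tst R P ∧
        ∫ y, (Lg th Q y + f y) ^ 2 * Real.exp (-th y) ≤ η ∧ dist2 th Q P ≤ η

/-- F: the smooth inequality. `Ψ''(z,z) + Ψ''(q g q)` against `(LQ)²`. -/
def SmoothStmt : Prop := ∀ (n : ℕ) (a A C : ℝ), 0 < a → a ≤ A → ∃ K : ℝ, 0 ≤ K ∧
  ∀ th Ψ : E n → ℝ, ContDiff ℝ ∞ th → KC a A th → TRB C th → ContDiff ℝ ∞ Ψ →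
    ∀ R δ : ℝ, 0 < R → 0 ≤ δ → δ * K ≤ 1 → RES (δ ^ 2) R Ψ th →
    ∀ Q P : E n → ℝ, Tst R Q → Tst R P →
      ∫ y, (∑ i, ∑ j, Hs Ψ (gr th y) i j *
          (pd i Q y * pd j Q y + ∑ k, Av th P k i y * qv th P k j y)) * Real.exp (-th y)
      ≤ (1 + K * δ) * (∫ y, Lg th Q y ^ 2 * Real.exp (-th y))
        + K * Real.sqrt (dist2 th Q P)
          * (Real.sqrt (∫ y, Lg th Q y ^ 2 * Real.exp (-th y)) + Real.sqrt (dist2 th Q P))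

/-- F4: conclusion in dimension at least three -/
def FinStmt : Prop := MolStmt → LinStmt → SmoothStmt → WExStmt → MAStmt → SubStmt → ContStmt →
  C11Stmt → ∀ n : ℕ, 3 ≤ n → Soft.LocEps n

/-- F5: dimension reduction -/
def DimStmt : Prop := ∀ n : ℕ, Soft.LocEps (n + 1) → Soft.LocEps n

end Crest.Agent.R238.W
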