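import Crest.Agent.R238.WDefs

/-! Row 238, ROUTE 2: frozen sub-interface of the smooth `y`-side theory (helper116). -/

set_option autoImplicit false
open scoped ContDiff Topology
open MeasureTheory Set Filter

noncomputable section

namespace Crest.Agent.R238.W

variable {n : ℕ}

/-- Dirichlet form `∫ <g ∇u, ∇w> ρ` -/
def dir (th u w : E n → ℝ) : ℝ :=
  ∫ y, (∑ i, ∑ j, Gm th y i j * pd i u y * pd j w y) * Real.exp (-th y)

/-- smooth even potential with Hessian bounds -/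
structure Pot (a A : ℝ) (th : E n → ℝ) : Prop where
  pos : 0 < a
  kc : KC a A th
  smooth : ContDiff ℝ ∞ th

/-- D0 -/
def IbpStmt : Prop := ∀ (n : ℕ) (a A : ℝ) (th u w : E n → ℝ), Pot a A th →
  ContDiff ℝ ∞ u → ContDiff ℝ ∞ w → (HasCompactSupport u ∨ HasCompactSupport w) →
  ∫ y, Lg th u y * w y * Real.exp (-th y) = - dir th u w

/-- D1: `{L S}` is dense in the even mean zero functions (essential self-adjointness) -/
def DensStmt : Prop := ∀ (n : ℕ) (a A : ℝ) (th h : E n → ℝ), Pot a A th →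
  Continuous h → (∀ y, h (-y) = h y) → Integrable (fun y => h y ^ 2 * Real.exp (-th y)) →
  ∫ y, h y * Real.exp (-th y) = 0 → ∀ η > 0, ∃ R > 0, ∃ S : E n → ℝ, Tst R S ∧
    ∫ y, (Lg th S y + h y) ^ 2 * Real.exp (-th y) ≤ η

/-- D1': the same without parity -/
def DensStmt' : Prop := ∀ (n : ℕ) (a A : ℝ) (th h : E n → ℝ), Pot a A th →
  Continuous h → Integrable (fun y => h y ^ 2 * Real.exp (-th y)) →
  ∫ y, h y * Real.exp (-th y) = 0 → ∀ η > 0, ∃ S : E n → ℝ, ContDiff ℝ ∞ S ∧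
    HasCompactSupport S ∧ ∫ y, (Lg th S y + h y) ^ 2 * Real.exp (-th y) ≤ η

/-- D2a: Bochner on the `y`-side: `E (LP)² = E tr(A A) + E Γ(P)` -/
def BochStmt : Prop := ∀ (n : ℕ) (a A : ℝ) (th P : E n → ℝ), Pot a A th →
  ContDiff ℝ ∞ P → HasCompactSupport P →
  ∫ y, Lg th P y ^ 2 * Real.exp (-th y)
    = (∫ y, (∑ i, ∑ j, Av th P i j y * Av th P j i y) * Real.exp (-th y)) + dir th P P

/-- pointwise: `tr(A A) ≥ c ∑ (A^i_j)²` and `X^T g X ≥ A⁻¹ |X|²` -/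
def PtwStmt : Prop := ∀ (n : ℕ) (a A : ℝ), 0 < a → a ≤ A → ∃ c > 0,
  ∀ (th P : E n → ℝ), Pot a A th → ContDiff ℝ ∞ P → ∀ y,
    c * ∑ i, ∑ j, Av th P i j y ^ 2 ≤ ∑ i, ∑ j, Av th P i j y * Av th P j i y

/-- D2b: Poincaré (Brascamp-Lieb) for `ρ = e^{-th}` -/
def PoinStmt : Prop := ∀ (n : ℕ) (a A : ℝ) (th u : E n → ℝ), Pot a A th →
  ContDiff ℝ 1 u → HasCompactSupport u →
  a * ((∫ y, u y ^ 2 * Real.exp (-th y)) * (∫ y, Real.exp (-th y))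
      - (∫ y, u y * Real.exp (-th y)) ^ 2)
    ≤ (∫ y, Real.exp (-th y)) * ∫ y, ‖fderiv ℝ u y‖ ^ 2 * Real.exp (-th y)

/-- D2c: the gap on even functions (`c₀` uniform) and the uniform second order bound -/
def GapStmt : Prop := ∀ (n : ℕ) (a A : ℝ), 0 < a → a ≤ A → ∃ c₀ > 0,
  ∀ (th P : E n → ℝ) (R : ℝ), Pot a A th → Tst R P →
    (1 + c₀) * ((∫ y, P y ^ 2 * Real.exp (-th y)) * (∫ y, Real.exp (-th y))
      - (∫ y, P y * Real.exp (-th y)) ^ 2) ≤ (∫ y, Real.exp (-th y)) * dir th P P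

/-- D2d: for even test functions `|A|² ≤ C |∇Q_P|²` and `E Γ(P) ≤ C |∇ Q_P|²` (uniform `C`) -/
def H2Stmt : Prop := ∀ (n : ℕ) (a A : ℝ), 0 < a → a ≤ A → ∃ C : ℝ, 0 ≤ C ∧
  ∀ (th P : E n → ℝ) (R : ℝ), Pot a A th → Tst R P →
    (∫ y, (∑ i, ∑ j, Av th P i j y ^ 2) * Real.exp (-th y)) + dir th P P
      ≤ C * ∫ y, ‖fderiv ℝ (QP th P) y‖ ^ 2 * Real.exp (-th y)

/-- D2e: `E Γ(Q) ≤ E (LQ)²` -/
def GradStmt : Prop := ∀ (n : ℕ) (a A : ℝ) (th Q : E n → ℝ), Pot a A th →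
  ContDiff ℝ ∞ Q → HasCompactSupport Q →
  dir th Q Q ≤ ∫ y, Lg th Q y ^ 2 * Real.exp (-th y)

/-- D3: `|∇th|` is a bounded multiplier -/
def MulStmt : Prop := ∀ (n : ℕ) (a A : ℝ) (th u : E n → ℝ), Pot a A th →
  ContDiff ℝ 1 u → HasCompactSupport u →
  ∫ y, ‖gr th y‖ ^ 2 * u y ^ 2 * Real.exp (-th y)
    ≤ ∫ y, (2 * n * A * u y ^ 2 + 4 * ‖fderiv ℝ u y‖ ^ 2) * Real.exp (-th y)

/-- D4: exact smooth even solution of `-(L+1)P = Q` (Riesz with the even gap, `ell_regularity`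
applied to `W(y,t) = P(y) cosh t` on `ℝ^{n+1}`) -/
def RieszStmt : Prop := ∀ (n : ℕ) (a A R : ℝ) (th Q : E n → ℝ), Pot a A th → Tst R Q →
  ∃ P : E n → ℝ, ContDiff ℝ ∞ P ∧ (∀ y, P (-y) = P y) ∧ (∀ y, QP th P y = Q y) ∧
    Integrable (fun y => P y ^ 2 * Real.exp (-th y)) ∧
    Integrable (fun y => ‖fderiv ℝ P y‖ ^ 2 * Real.exp (-th y))

/-- D5 -/
def LinAsmStmt : Prop := IbpStmt → DensStmt → BochStmt → PtwStmt → PoinStmt → GapStmt → MulStmt →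
  RieszStmt → LinStmt

/-- F0: the quadratic form `N^a_d = ∂^a z_d` for `z = ∇Q` -/
def Nv (th Q : E n → ℝ) (a d : Fin n) (y : E n) : ℝ := ∑ i, Gm th y a i * pd i (pd d Q) y

/-- `∂^a ∂^b (th + log det D²th)`, `x`-Hessian of the exact potential of `th` -/
def HΨ (th : E n → ℝ) (a b : Fin n) (y : E n) : ℝ :=
  ∑ i, Gm th y a i * pd i (fun z => ∑ j, Gm th z b j *
    pd j (fun w => th w + Real.log (Hm th w).det) z) y

/-- `D³`-type energy density of `P` -/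
def Bsq (th P : E n → ℝ) (y : E n) : ℝ := ∑ d, ∑ a, ∑ c, pd d (Av th P a c) y ^ 2

/-- F1a: KEY inequality: `2 E <A,N_{Q_P}> - E tr(AA) ≥ E Ψ_th''(q g q) + c E |B|²` -/
def KeyStmt : Prop := ∀ (n : ℕ) (a A : ℝ), 0 < a → a ≤ A → ∃ c > 0,
  ∀ (th P : E n → ℝ), Pot a A th → ContDiff ℝ ∞ P → HasCompactSupport P →
    (∫ y, (∑ i, ∑ j, HΨ th i j y * ∑ k, Av th P k i y * qv th P k j y) * Real.exp (-th y))
      + c * ∫ y, Bsq th P y * Real.exp (-th y)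
    ≤ ∫ y, (2 * (∑ i, ∑ j, Av th P j i y * Nv th (QP th P) i j y)
        - ∑ i, ∑ j, Av th P i j y * Av th P j i y) * Real.exp (-th y)

/-- F1b: `x`-side Bochner: `E (LQ)² = E tr(N N) + E Ψ_th''(z,z)` -/
def XBochStmt : Prop := ∀ (n : ℕ) (a A : ℝ) (th Q : E n → ℝ), Pot a A th →
  ContDiff ℝ ∞ Q → HasCompactSupport Q →
  ∫ y, Lg th Q y ^ 2 * Real.exp (-th y)
    = (∫ y, (∑ i, ∑ j, Nv th Q i j y * Nv th Q j i y) * Real.exp (-th y))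
      + ∫ y, (∑ i, ∑ j, HΨ th i j y * (pd i Q y * pd j Q y)) * Real.exp (-th y)

/-- F3 -/
def SmoothAsmStmt : Prop := IbpStmt → KeyStmt → XBochStmt → PtwStmt → H2Stmt → GradStmt →
  MulStmt → SmoothStmt

/-- W7a: Moser sup bound for nonnegative subsolutions, right-hand side `≤ 1`, measurable
coefficients -/
def SupStmt : Prop := ∀ (n : ℕ) (lam Lam : ℝ), 3 ≤ n → 0 < lam → lam ≤ Lam →
  ∃ C : ℝ, 0 < C ∧ ∀ (M : E n → Matrix (Fin n) (Fin n) ℝ) (u : E n → ℝ),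
    (∀ i j, Measurable fun y => M y i j) →
    (∀ᵐ y, y ∈ Metric.ball (0 : E n) 1 → Ell lam Lam (M y)) →
    ContDiff ℝ 1 u → (∀ y ∈ Metric.ball (0 : E n) 1, 0 ≤ u y) →
    (∀ η : E n → ℝ, ContDiff ℝ 1 η → HasCompactSupport η → tsupport η ⊆ Metric.ball 0 1 →
      (∀ y, 0 ≤ η y) → ∫ y, ∑ i, ∑ j, M y i j * pd i u y * pd j η y ≤ ∫ y, η y) →
    ∀ y ∈ Metric.ball (0 : E n) (1 / 2), u y ^ 2
      ≤ C * (1 + ∫ z in Metric.ball (0 : E n) 1, u z ^ 2)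

/-- W7b -/
def GrowthAsmStmt : Prop := SupStmt → GrowthStmt

/-- W8 -/
def ContAsmStmt : Prop := C11Stmt → GrowthStmt → ContStmt

/-- W3 -/
def WExAsmStmt : Prop := C11Stmt → EntStmt → WExStmt

/-- W2 -/
def EntAsmStmt : Prop := LLStmt → EntStmt

end Crest.Agent.R238.W
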