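import Crest.Agent.R238.WDefs

/-! Row 238 (S0369), route 2, node F5 (`DimStmt`). (helper470) -/

set_option autoImplicit false

open MeasureTheory Set Filter
open scoped Topology

noncomputable section

namespace Crest.Agent.R238.W

namespace Dim

variable {n m : ℕ}

/-- tail of a vector -/
def tl (x : E (n + 1)) : E n := WithLp.toLp 2 (fun j => x (Fin.succ j))

/-- adding a zero coordinate -/
def ex (v : E n) : E (n + 1) := WithLp.toLp 2 (Fin.cons 0 (fun j => v j))

theorem inner_ex (v : E n) (x : E (n + 1)) : (inner ℝ (ex v) x : ℝ) = inner ℝ v (tl x) := by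
  simp only [PiLp.inner_apply, ex, tl, Fin.sum_univ_succ]
  simp

theorem norm_sq_eq (x : E (n + 1)) : ‖x‖ ^ 2 = x 0 ^ 2 + ‖tl x‖ ^ 2 := by
  rw [EuclideanSpace.norm_sq_eq, EuclideanSpace.norm_sq_eq, Fin.sum_univ_succ]
  simp [tl]

theorem integral_split (g : E n → ℝ) (h : ℝ → ℝ) :
    ∫ x : E (n + 1), h (x 0) * g (tl x) = (∫ t, h t) * ∫ y, g y := by
  have h1 : ∫ x : E (n + 1), h (x 0) * g (tl x) =
      ∫ z : Fin (n + 1) → ℝ, h (z 0) * g (WithLp.toLp 2 (fun j => z (Fin.succ j))) := by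
    rw [← (PiLp.volume_preserving_toLp (Fin (n + 1))).integral_comp
      (MeasurableEquiv.toLp 2 (Fin (n + 1) → ℝ)).measurableEmbedding]
    rfl
  have h2 : ∫ y, g y = ∫ w : Fin n → ℝ, g (WithLp.toLp 2 w) := by
    rw [← (PiLp.volume_preserving_toLp (Fin n)).integral_comp
      (MeasurableEquiv.toLp 2 (Fin n → ℝ)).measurableEmbedding]
  rw [h1, h2, ← integral_prod_mul, ← Measure.volume_eq_prod]
  rw [← (volume_preserving_piFinSuccAbove (fun _ : Fin (n + 1) => ℝ) 0).integral_comp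
    (MeasurableEquiv.piFinSuccAbove (fun _ : Fin (n + 1) => ℝ) 0).measurableEmbedding]
  rfl

end Dim

open Dim

/-- **F5** -/
theorem dim : DimStmt := by
  intro n hloc m ν φ r ε hε hφ
  have key := hloc m (fun k => ex (ν k)) φ r ε hε hφ
  set U : E n → ℝ := fun x => ε * ‖x‖ ^ 2 / 2 + Soft.Hw ν φ x with hU
  have hfr : ∀ x : E (n + 1), Soft.fr (fun k => ex (ν k)) φ r x = Soft.fr ν φ r (tl x) := by
    intro x
    unfold Soft.fr
    simp only [inner_ex]
  have hNr : ∀ x : E (n + 1), Soft.Nr (fun k => ex (ν k)) φ r x = Soft.Nr ν φ r (tl x) := by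
    intro x
    unfold Soft.Nr
    simp only [inner_ex]
  have hexp : ∀ x : E (n + 1), Real.exp (-(ε * ‖x‖ ^ 2 / 2 + Soft.Hw (fun k => ex (ν k)) φ x)) =
      Real.exp (-(ε * (x 0) ^ 2 / 2)) * Real.exp (-U (tl x)) := by
    intro x
    rw [← Real.exp_add]
    congr 1
    have : Soft.Hw (fun k => ex (ν k)) φ x = Soft.Hw ν φ (tl x) := by
      unfold Soft.Hw
      simp only [inner_ex]
    rw [this, norm_sq_eq, hU]
    ring
  set G : ℝ := ∫ t : ℝ, Real.exp (-(ε * t ^ 2 / 2)) with hG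
  have hGpos : 0 < G := by
    refine integral_exp_pos ?_
    have := integrable_exp_neg_mul_sq (b := ε / 2) (by positivity)
    refine this.congr (Eventually.of_forall fun t => ?_)
    simp only
    congr 1
    ring
  have i0 : ∫ x : E (n + 1), Real.exp (-(ε * ‖x‖ ^ 2 / 2 + Soft.Hw (fun k => ex (ν k)) φ x)) =
      G * ∫ x, Real.exp (-U x) := by
    simp only [hexp]
    exact integral_split (fun y => Real.exp (-U y)) (fun t => Real.exp (-(ε * t ^ 2 / 2)))
  have i1 : ∫ x : E (n + 1), Soft.fr (fun k => ex (ν k)) φ r x *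
      Real.exp (-(ε * ‖x‖ ^ 2 / 2 + Soft.Hw (fun k => ex (ν k)) φ x)) =
      G * ∫ x, Soft.fr ν φ r x * Real.exp (-U x) := by
    rw [← integral_split (fun y => Soft.fr ν φ r y * Real.exp (-U y))
      (fun t => Real.exp (-(ε * t ^ 2 / 2)))]
    refine integral_congr_ae (Eventually.of_forall fun x => ?_)
    simp only [hexp, hfr]
    ring
  have i2 : ∫ x : E (n + 1), Soft.fr (fun k => ex (ν k)) φ r x ^ 2 *
      Real.exp (-(ε * ‖x‖ ^ 2 / 2 + Soft.Hw (fun k => ex (ν k)) φ x)) =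
      G * ∫ x, Soft.fr ν φ r x ^ 2 * Real.exp (-U x) := by
    rw [← integral_split (fun y => Soft.fr ν φ r y ^ 2 * Real.exp (-U y))
      (fun t => Real.exp (-(ε * t ^ 2 / 2)))]
    refine integral_congr_ae (Eventually.of_forall fun x => ?_)
    simp only [hexp, hfr]
    ring
  have i3 : ∫ x : E (n + 1), Soft.Nr (fun k => ex (ν k)) φ r x *
      Real.exp (-(ε * ‖x‖ ^ 2 / 2 + Soft.Hw (fun k => ex (ν k)) φ x)) =
      G * ∫ x, Soft.Nr ν φ r x * Real.exp (-U x) := by
    rw [← integral_split (fun y => Soft.Nr ν φ r y * Real.exp (-U y))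
      (fun t => Real.exp (-(ε * t ^ 2 / 2)))]
    refine integral_congr_ae (Eventually.of_forall fun x => ?_)
    simp only [hexp, hNr]
    ring
  unfold Soft.Static at key ⊢
  simp only at key
  rw [i0, i1, i2, i3] at key
  have h2 : 0 < G ^ 2 := by positivity
  nlinarith [key, h2]

end Crest.Agent.R238.W
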