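import Crest.Agent.R238.WDefs
import Crest.Agent.R238.W1

/-! Row 238 (S0369), route 2, node W1. (helper470) -/

set_option autoImplicit false

namespace Crest.Agent.R238.W

theorem ll : LLStmt := llStmt

end Crest.Agent.R238.W
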