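import Crest.Agent.R238.W_SubDiv
import Crest.Agent.R238.MaxPMat

/-! Row 238 route 2 (W6), helper781: second difference quotients are weak subsolutions. -/

set_option autoImplicit false
open scoped ContDiff Topology ENNReal NNReal
open Set Filter MeasureTheory

noncomputable section

namespace Crest.Agent.R238.W

variable {n : ℕ}

/-! ### Lipschitz functions -/

theorem sub_lip_of_loc {V : E n → ℝ} (h : LocallyLipschitz V) (hc : HasCompactSupport V) :
    ∃ K : ℝ≥0, LipschitzWith K V := by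
  obtain ⟨R, hR⟩ := hc.isCompact.isBounded.subset_ball (0 : E n)
  have hcont : Continuous V := h.continuous
  obtain ⟨M, hM⟩ := hc.exists_bound_of_continuous hcont
  have hcpt : IsCompact (Metric.closedBall (0 : E n) (R + 1)) := isCompact_closedBall _ _
  obtain ⟨K, hK⟩ := (h.locallyLipschitzOn (s := Metric.closedBall (0 : E n) (R + 1))
    ).exists_lipschitzOnWith_of_compact hcpt
  have hM0 : 0 ≤ M := (norm_nonneg _).trans (hM 0)
  have hV0 : ∀ y, y ∉ Metric.ball (0 : E n) R → V y = 0 := fun y hy => by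
    by_contra hne
    exact hy (hR (subset_tsupport _ (Function.mem_support.2 hne)))
  have hout : ∀ x y, y ∉ Metric.closedBall (0 : E n) (R + 1) → |V x - V y| ≤ M * ‖x - y‖ := by
    intro x y hy
    have h1 : V y = 0 := hV0 y fun h => hy (Metric.ball_subset_closedBall.trans
      (Metric.closedBall_subset_closedBall (by linarith)) h)
    rw [h1, sub_zero]
    by_cases hx : x ∈ Metric.ball (0 : E n) R
    · have h2 : 1 ≤ ‖x - y‖ := by
        rw [mem_ball_zero_iff] at hx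
        rw [mem_closedBall_zero_iff, not_le] at hy
        have h3 := norm_sub_norm_le y x
        rw [norm_sub_rev] at h3
        linarith
      calc |V x| ≤ M * 1 := by rw [mul_one]; exact hM x
        _ ≤ M * ‖x - y‖ := by gcongr
    · rw [hV0 x hx, abs_zero]
      positivity
  refine ⟨max K ⟨M, hM0⟩, LipschitzWith.of_dist_le_mul fun x y => ?_⟩
  rw [Real.dist_eq, dist_eq_norm]
  have hmax : (K : ℝ) ≤ (max K ⟨M, hM0⟩ : ℝ≥0) := by exact_mod_cast le_max_left _ _
  have hmax' : M ≤ (max K ⟨M, hM0⟩ : ℝ≥0) := by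
    have : (⟨M, hM0⟩ : ℝ≥0) ≤ max K ⟨M, hM0⟩ := le_max_right _ _
    exact_mod_cast this
  by_cases hy : y ∈ Metric.closedBall (0 : E n) (R + 1)
  · by_cases hx : x ∈ Metric.closedBall (0 : E n) (R + 1)
    · have h1 := hK.dist_le_mul x hx y hy
      rw [Real.dist_eq, dist_eq_norm] at h1
      exact h1.trans (by gcongr)
    · have h1 := hout y x hx
      rw [abs_sub_comm, norm_sub_rev] at h1
      exact h1.trans (by gcongr)
  · exact (hout x y hy).trans (by gcongr)

theorem sub_loclip_mul {f g : E n → ℝ} (hf : LocallyLipschitz f) (hg : LocallyLipschitz g) :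
    LocallyLipschitz fun y => f y * g y := by
  have h1 : LocallyLipschitz fun p : ℝ × ℝ => p.1 * p.2 := by
    have h2 : ContDiff ℝ 1 fun p : ℝ × ℝ => p.1 * p.2 := by fun_prop
    exact h2.locallyLipschitz
  exact h1.comp (hf.prodMk hg)

/-! ### the second difference quotient -/

theorem sub_hasFDerivAt_sd {θ : E n → ℝ} (hθ : Differentiable ℝ θ) (h : ℝ) (e y : E n) :
    HasFDerivAt (sd θ h e) ((h ^ 2)⁻¹ • (fderiv ℝ θ (y + h • e) + fderiv ℝ θ (y - h • e)
      - (2 : ℝ) • fderiv ℝ θ y)) y := by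
  have h1 : HasFDerivAt (fun z => θ (z + h • e)) (fderiv ℝ θ (y + h • e)) y := by
    have := (hθ (y + h • e)).hasFDerivAt.comp y ((hasFDerivAt_id y).add_const (h • e))
    simpa [Function.comp_def] using this
  have h2 : HasFDerivAt (fun z => θ (z - h • e)) (fderiv ℝ θ (y - h • e)) y := by
    have := (hθ (y - h • e)).hasFDerivAt.comp y ((hasFDerivAt_id y).sub_const (h • e))
    simpa [Function.comp_def] using this
  have h3 := ((h1.add h2).sub ((hθ y).hasFDerivAt.const_mul 2)).const_mul ((h ^ 2)⁻¹)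
  refine h3.congr_of_eventuallyEq (Eventually.of_forall fun z => ?_)
  simp only [sd]
  rw [div_eq_inv_mul]
  rfl

theorem sub_pd_sd {θ : E n → ℝ} (hθ : Differentiable ℝ θ) (h : ℝ) (e y : E n) (i : Fin n) :
    pd i (sd θ h e) y
      = (h ^ 2)⁻¹ * (pd i θ (y + h • e) + pd i θ (y - h • e) - 2 * pd i θ y) := by
  rw [pd, (sub_hasFDerivAt_sd hθ h e y).fderiv]
  simp [pd]

theorem sub_hasFDerivAt_pd_sd {θ : E n → ℝ} (hθ : Differentiable ℝ θ) {h : ℝ} {e y : E n}
    (h0 : DifferentiableAt ℝ (fderiv ℝ θ) y) (hp : DifferentiableAt ℝ (fderiv ℝ θ) (y + h • e))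
    (hm : DifferentiableAt ℝ (fderiv ℝ θ) (y - h • e)) (i : Fin n) :
    ∃ L : E n →L[ℝ] ℝ, HasFDerivAt (fun z => pd i (sd θ h e) z) L y ∧ ∀ j, L (ee j)
      = (h ^ 2)⁻¹ * (Hs θ (y + h • e) j i + Hs θ (y - h • e) j i - 2 * Hs θ y j i) := by
  have h1 : HasFDerivAt (fun z => pd i θ (z + h • e))
      ((ContinuousLinearMap.apply ℝ ℝ (ee i)).comp (fderiv ℝ (fderiv ℝ θ) (y + h • e))) y := by
    have := (sub_hasFDerivAt_pd hp i).comp y ((hasFDerivAt_id y).add_const (h • e))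
    simpa [Function.comp_def] using this
  have h2 : HasFDerivAt (fun z => pd i θ (z - h • e))
      ((ContinuousLinearMap.apply ℝ ℝ (ee i)).comp (fderiv ℝ (fderiv ℝ θ) (y - h • e))) y := by
    have := (sub_hasFDerivAt_pd hm i).comp y ((hasFDerivAt_id y).sub_const (h • e))
    simpa [Function.comp_def] using this
  have h3 := ((h1.add h2).sub ((sub_hasFDerivAt_pd h0 i).const_mul 2)).const_mul ((h ^ 2)⁻¹)
  refine ⟨_, h3.congr_of_eventuallyEq (Eventually.of_forall fun z => ?_), fun j => ?_⟩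
  · exact sub_pd_sd hθ h e z i
  · simp [Hs]

/-! ### the weight -/

theorem sub_fderiv_gr {θ : E n → ℝ} {y : E n} (h : DifferentiableAt ℝ (fderiv ℝ θ) y)
    (j : Fin n) : fderiv ℝ (gr θ) y (ee j) = ∑ k, Hs θ y j k • ee k := by
  ext l
  have h1 : HasFDerivAt (fun z => (gr θ z) l)
      ((EuclideanSpace.proj (𝕜 := ℝ) l).comp (fderiv ℝ (gr θ) y)) y :=
    (EuclideanSpace.proj (𝕜 := ℝ) l : E n →L[ℝ] ℝ).hasFDerivAt.comp y
      (sub_diff_gr h).hasFDerivAt
  have h2 : HasFDerivAt (fun z => (gr θ z) l)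
      ((ContinuousLinearMap.apply ℝ ℝ (ee l)).comp (fderiv ℝ (fderiv ℝ θ) y)) y := by
    have e1 : (fun z => (gr θ z) l) = fun z => pd l θ z := by
      funext z; exact sub_gr_apply θ z l
    rw [e1]; exact sub_hasFDerivAt_pd h l
  have h4 := congrArg (fun L : E n →L[ℝ] ℝ => L (ee j)) (h1.unique h2)
  have h5 : (fderiv ℝ (gr θ) y (ee j)) l = Hs θ y j l := h4
  rw [h5]
  simp [Pi.single_apply]

theorem sub_hasFDerivAt_P {θ Ψ : E n → ℝ} (hΨ : ContDiff ℝ 1 Ψ) {y : E n}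
    (h : DifferentiableAt ℝ (fderiv ℝ θ) y) :
    ∃ L : E n →L[ℝ] ℝ, HasFDerivAt (fun z => Real.exp (-Ψ (gr θ z))) L y ∧
      ∀ j, L (ee j) = -(Real.exp (-Ψ (gr θ y)) * ∑ k, pd k Ψ (gr θ y) * Hs θ y j k) := by
  have h1 : HasFDerivAt (fun z => Ψ (gr θ z))
      ((fderiv ℝ Ψ (gr θ y)).comp (fderiv ℝ (gr θ) y)) y :=
    ((hΨ.differentiable one_ne_zero) (gr θ y)).hasFDerivAt.comp y (sub_diff_gr h).hasFDerivAt
  refine ⟨_, h1.neg.exp, fun j => ?_⟩
  simp only [_root_.smul_apply, _root_.neg_apply, ContinuousLinearMap.comp_apply, smul_eq_mul,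
    sub_fderiv_gr h, map_sum, map_smul]
  rw [mul_neg]
  congr 2
  refine Finset.sum_congr rfl fun k _ => ?_
  rw [pd]
  ring

/-! ### the matrix inequality -/

open Matrix MatrixOrder in
theorem sub_trace_ge {A B : Matrix (Fin n) (Fin n) ℝ} (hA : A.PosDef) (hB : B.PosDef) :
    n + Real.log B.det - Real.log A.det ≤ (A⁻¹ * B).trace := by
  obtain ⟨C, hC⟩ : ∃ C : Matrix (Fin n) (Fin n) ℝ, B = Cᴴ * C := by
    obtain ⟨C, hC⟩ := CStarAlgebra.nonneg_iff_eq_star_mul_self.1 hB.posSemidef.nonneg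
    exact ⟨C, hC⟩
  have hdetB : B.det = C.det * C.det := by
    rw [hC, Matrix.det_mul, Matrix.det_conjTranspose]
    simp
  have hCdet : C.det ≠ 0 := by
    intro h0
    have := hB.det_pos
    rw [hdetB, h0] at this
    simp at this
  have hCu : IsUnit C := (Matrix.isUnit_iff_isUnit_det C).2 hCdet.isUnit
  have hM : (C * A⁻¹ * Cᴴ).PosDef := by
    apply hA.inv.mul_mul_conjTranspose_same
    exact Matrix.vecMul_injective_of_isUnit hCu
  have h1 := MaxP.log_det_ge hM.inv (c := 1) one_pos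
  rw [Real.log_one, mul_zero, add_zero, one_mul, Matrix.nonsing_inv_nonsing_inv _
    hM.det_pos.ne'.isUnit] at h1
  have h2 : (C * A⁻¹ * Cᴴ).trace = (A⁻¹ * B).trace := by
    rw [hC, Matrix.trace_mul_comm, ← Matrix.mul_assoc, Matrix.trace_mul_comm]
  have h3 : (C * A⁻¹ * Cᴴ)⁻¹.det = A.det * (B.det)⁻¹ := by
    rw [Matrix.det_nonsing_inv, Ring.inverse_eq_inv', Matrix.det_mul, Matrix.det_mul,
      Matrix.det_nonsing_inv, Ring.inverse_eq_inv', Matrix.det_conjTranspose, hdetB]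
    simp only [star_trivial, mul_inv, inv_inv]
    ring
  rw [h2, h3, Real.log_mul hA.det_pos.ne' (inv_ne_zero hB.det_pos.ne'), Real.log_inv] at h1
  linarith


/-- the trace inequality in coordinates -/
theorem sub_trace_sum {a A : ℝ} (ha : 0 < a) {H B : Matrix (Fin n) (Fin n) ℝ}
    (hH : Ell a A H) (hB : Ell a A B) :
    n + Real.log B.det - Real.log H.det ≤ ∑ i, ∑ j, H⁻¹ i j * B j i := by
  rw [← sm_trace_mul_sum]
  exact sub_trace_ge (hH.sm_posDef ha) (hB.sm_posDef ha)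

theorem sub_trace_self {a A : ℝ} (ha : 0 < a) {H : Matrix (Fin n) (Fin n) ℝ}
    (hH : Ell a A H) : ∑ i, ∑ j, H⁻¹ i j * H j i = n := by
  rw [← sm_trace_mul_sum, hH.sm_inv_mul ha]
  simp

theorem sub_convex {Ψ : E n → ℝ} (hΨ : ContDiff ℝ 1 Ψ) (hc : ConvexOn ℝ univ Ψ) (x z : E n) :
    Ψ x + fderiv ℝ Ψ x (z - x) ≤ Ψ z := by
  have h1 : HasDerivAt (fun t : ℝ => Ψ (x + t • (z - x))) (fderiv ℝ Ψ x (z - x)) 0 := by
    have hg : HasDerivAt (fun t : ℝ => x + t • (z - x)) (z - x) 0 := by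
      simpa using ((hasDerivAt_id (0:ℝ)).smul_const (z - x)).const_add x
    have h2 : HasFDerivAt Ψ (fderiv ℝ Ψ x) (x + (0 : ℝ) • (z - x)) := by
      simpa using ((hΨ.differentiable one_ne_zero) x).hasFDerivAt
    exact h2.comp_hasDerivAt (0:ℝ) hg
  have h2 : ∀ t ∈ Ioo (0 : ℝ) 1, (Ψ (x + t • (z - x)) - Ψ x) / t ≤ Ψ z - Ψ x := by
    intro t ht
    rw [div_le_iff₀ ht.1]
    have h3 := hc.2 (mem_univ x) (mem_univ z) (by linarith [ht.2] : 0 ≤ 1 - t) ht.1.le (by ring)
    have h4 : (1 - t) • x + t • z = x + t • (z - x) := by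
      rw [sub_smul, one_smul, smul_sub]; abel
    rw [h4] at h3
    simp only [smul_eq_mul] at h3
    nlinarith
  have h3 : Tendsto (fun t : ℝ => (Ψ (x + t • (z - x)) - Ψ x) / t) (𝓝[>] 0)
      (𝓝 (fderiv ℝ Ψ x (z - x))) := by
    have h4 := (hasDerivAt_iff_tendsto_slope.1 h1)
    have h5 : (𝓝[>] (0:ℝ)) ≤ 𝓝[≠] 0 := nhdsWithin_mono _ fun t ht => (ne_of_gt ht)
    refine (h4.mono_left h5).congr' ?_
    filter_upwards [self_mem_nhdsWithin] with t ht
    rw [slope_def_field]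
    simp
  have h4 : ∀ᶠ t in 𝓝[>] (0:ℝ), (Ψ (x + t • (z - x)) - Ψ x) / t ≤ Ψ z - Ψ x := by
    filter_upwards [Ioo_mem_nhdsGT (zero_lt_one' ℝ)] with t ht using h2 t ht
  have h5 := le_of_tendsto h3 h4
  linarith

/-- the pointwise inequality `tr(G D²w) ≥ <∇Ψ(∇θ), ∇w> - w` -/
theorem sub_pointwise {θ Ψ : E n → ℝ} {a A : ℝ} (ha : 0 < a) (hθ : Differentiable ℝ θ)
    (hΨ : ContDiff ℝ 1 Ψ) (hc : ConvexOn ℝ univ Ψ) {h : ℝ} (hh : 0 < h) {e y : E n}
    (E0 : Ell a A (Hm θ y)) (Ep : Ell a A (Hm θ (y + h • e))) (Em : Ell a A (Hm θ (y - h • e)))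
    (M0 : Real.log (Hm θ y).det = Ψ (gr θ y) - θ y)
    (Mp : Real.log (Hm θ (y + h • e)).det = Ψ (gr θ (y + h • e)) - θ (y + h • e))
    (Mm : Real.log (Hm θ (y - h • e)).det = Ψ (gr θ (y - h • e)) - θ (y - h • e)) :
    ∑ i, pd i Ψ (gr θ y) * pd i (sd θ h e) y - sd θ h e y
      ≤ ∑ i, ∑ j, Gm θ y i j * ((h ^ 2)⁻¹ * (Hs θ (y + h • e) j i + Hs θ (y - h • e) j i
          - 2 * Hs θ y j i)) := by
  have hh2 : 0 < (h ^ 2)⁻¹ := by positivity
  have t1 := sub_trace_sum ha E0 Ep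
  have t2 := sub_trace_sum ha E0 Em
  have t3 := sub_trace_self ha E0
  have e1 : ∑ i, ∑ j, Gm θ y i j * ((h ^ 2)⁻¹ * (Hs θ (y + h • e) j i + Hs θ (y - h • e) j i
          - 2 * Hs θ y j i))
      = (h ^ 2)⁻¹ * (∑ i, ∑ j, (Hm θ y)⁻¹ i j * Hm θ (y + h • e) j i
        + ∑ i, ∑ j, (Hm θ y)⁻¹ i j * Hm θ (y - h • e) j i
        - 2 * ∑ i, ∑ j, (Hm θ y)⁻¹ i j * Hm θ y j i) := by
    simp only [Finset.mul_sum, ← Finset.sum_add_distrib, ← Finset.sum_sub_distrib]
    refine Finset.sum_congr rfl fun i _ => Finset.sum_congr rfl fun j _ => ?_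
    simp only [Gm, Hm, Matrix.of_apply]
    ring
  rw [e1]
  -- convexity
  have c1 := sub_convex hΨ hc (gr θ y) (gr θ (y + h • e))
  have c2 := sub_convex hΨ hc (gr θ y) (gr θ (y - h • e))
  have e2 : ∑ i, pd i Ψ (gr θ y) * pd i (sd θ h e) y
      = (h ^ 2)⁻¹ * (fderiv ℝ Ψ (gr θ y) (gr θ (y + h • e) - gr θ y)
        + fderiv ℝ Ψ (gr θ y) (gr θ (y - h • e) - gr θ y)) := by
    have hexp : ∀ v : E n, fderiv ℝ Ψ (gr θ y) v = ∑ i, v i * pd i Ψ (gr θ y) := by
      intro v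
      have hv : v = ∑ i, v i • (ee i : E n) := by
        ext l
        simp [Pi.single_apply]
      conv_lhs => rw [hv]
      simp only [map_sum, map_smul, smul_eq_mul, pd]
    rw [hexp, hexp, ← Finset.sum_add_distrib, Finset.mul_sum]
    refine Finset.sum_congr rfl fun i _ => ?_
    rw [sub_pd_sd hθ]
    simp only [PiLp.sub_apply, sub_gr_apply]
    ring
  have e3 : sd θ h e y = (h ^ 2)⁻¹ * (θ (y + h • e) + θ (y - h • e) - 2 * θ y) := by
    rw [sd, div_eq_inv_mul]
  rw [e2, e3, ← mul_sub]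
  apply mul_le_mul_of_nonneg_left _ hh2.le
  rw [t3]
  rw [M0, Mp] at t1
  rw [M0, Mm] at t2
  linarith

/-! ### assembly -/

theorem sub_quasi (v : E n) {p : E n → Prop} (h : ∀ᵐ y, p y) : ∀ᵐ y, p (y + v) :=
  (measurePreserving_add_right (volume : Measure (E n)) v).quasiMeasurePreserving.ae h

/-- the test functions `V i = η e^{-Ψ(∇θ)} ∂_i w` -/
def subV (θ Ψ η : E n → ℝ) (h : ℝ) (e : E n) (i : Fin n) (y : E n) : ℝ :=
  η y * (Real.exp (-Ψ (gr θ y)) * pd i (sd θ h e) y)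

theorem subV_lip {θ Ψ η : E n → ℝ} (hθ : Differentiable ℝ θ) {K : ℝ≥0}
    (hLip : LipschitzWith K (gr θ)) (hΨ : ContDiff ℝ 1 Ψ) (hη : ContDiff ℝ 1 η)
    (hηc : HasCompactSupport η) (h : ℝ) (e : E n) (i : Fin n) :
    ∃ K' : ℝ≥0, LipschitzWith K' (subV θ Ψ η h e i) := by
  apply sub_lip_of_loc
  · apply sub_loclip_mul hη.locallyLipschitz
    apply sub_loclip_mul
    · have h1 : ContDiff ℝ 1 fun z : E n => Real.exp (-Ψ z) := hΨ.neg.exp
      exact h1.locallyLipschitz.comp hLip.locallyLipschitz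
    · have h1 : LocallyLipschitz fun z : E n => pd i θ z := by
        have h2 : (fun z : E n => pd i θ z) = fun z => (gr θ z) i := by
          funext z; rw [sub_gr_apply]
        rw [h2]
        have h3 : ContDiff ℝ 1 fun z : E n => z i := by fun_prop
        exact h3.locallyLipschitz.comp hLip.locallyLipschitz
      have h2 : LocallyLipschitz fun z : E n => pd i θ (z + h • e) := by
        have h3 : ContDiff ℝ 1 fun z : E n => z + h • e := by fun_prop
        exact h1.comp h3.locallyLipschitz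
      have h2' : LocallyLipschitz fun z : E n => pd i θ (z - h • e) := by
        have h3 : ContDiff ℝ 1 fun z : E n => z - h • e := by fun_prop
        exact h1.comp h3.locallyLipschitz
      have h4 : LocallyLipschitz fun p : ℝ × ℝ × ℝ => (h ^ 2)⁻¹ * (p.1 + p.2.1 - 2 * p.2.2) := by
        have h5 : ContDiff ℝ 1 fun p : ℝ × ℝ × ℝ => (h ^ 2)⁻¹ * (p.1 + p.2.1 - 2 * p.2.2) := by
          fun_prop
        exact h5.locallyLipschitz
      have h6 := h4.comp (h2.prodMk (h2'.prodMk h1))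
      have h7 : (fun y => pd i (sd θ h e) y) = (fun p : ℝ × ℝ × ℝ => (h ^ 2)⁻¹ *
          (p.1 + p.2.1 - 2 * p.2.2)) ∘ fun z => (pd i θ (z + h • e), pd i θ (z - h • e),
            pd i θ z) := by
        funext y
        rw [sub_pd_sd hθ]
        rfl
      show LocallyLipschitz fun y => pd i (sd θ h e) y
      rw [h7]
      exact h6
  · exact hηc.mul_right

theorem subV_pd {θ Ψ η : E n → ℝ} (hθ : Differentiable ℝ θ) (hΨ : ContDiff ℝ 1 Ψ)
    (hη : ContDiff ℝ 1 η) {h : ℝ} {e y : E n}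
    (h0 : DifferentiableAt ℝ (fderiv ℝ θ) y) (hp : DifferentiableAt ℝ (fderiv ℝ θ) (y + h • e))
    (hm : DifferentiableAt ℝ (fderiv ℝ θ) (y - h • e)) (i j : Fin n) :
    pd j (subV θ Ψ η h e i) y
      = pd j η y * (Real.exp (-Ψ (gr θ y)) * pd i (sd θ h e) y)
        + η y * (-(Real.exp (-Ψ (gr θ y)) * ∑ k, pd k Ψ (gr θ y) * Hs θ y j k)
            * pd i (sd θ h e) y
          + Real.exp (-Ψ (gr θ y)) * ((h ^ 2)⁻¹ * (Hs θ (y + h • e) j i + Hs θ (y - h • e) j i
            - 2 * Hs θ y j i))) := by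
  obtain ⟨Lw, hLw, hLw'⟩ := sub_hasFDerivAt_pd_sd hθ h0 hp hm i
  obtain ⟨LP, hLP, hLP'⟩ := sub_hasFDerivAt_P hΨ h0
  have hη' : HasFDerivAt η (fderiv ℝ η y) y := ((hη.differentiable one_ne_zero) y).hasFDerivAt
  have h1 := hη'.mul (hLP.mul hLw)
  have h2 : HasFDerivAt (subV θ Ψ η h e i) _ y := h1
  rw [pd, h2.fderiv]
  simp only [_root_.add_apply, _root_.smul_apply, smul_eq_mul, hLw', hLP', pd, Pi.mul_apply]
  ring

theorem sub_alg (G ej S W : Fin n → ℝ) (g P η : ℝ) :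
    ∑ j, G j * (ej j * (P * g) + η * (-(P * S j) * g + P * W j))
      = P * (∑ j, G j * g * ej j) - η * P * g * (∑ j, G j * S j) + η * P * ∑ j, G j * W j := by
  simp only [Finset.mul_sum, ← Finset.sum_add_distrib, ← Finset.sum_sub_distrib]
  refine Finset.sum_congr rfl fun j _ => ?_
  ring

/-- the pointwise inequality for the sum of the divergence terms -/
theorem subV_sum {θ Ψ η : E n → ℝ} {a A : ℝ} (ha : 0 < a) (hθ : Differentiable ℝ θ)
    (hΨ : ContDiff ℝ 1 Ψ) (hc : ConvexOn ℝ univ Ψ)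
    (hη : ContDiff ℝ 1 η) (hη0 : ∀ y, 0 ≤ η y) {h : ℝ} (hh : 0 < h) {e y : E n}
    (h0 : DifferentiableAt ℝ (fderiv ℝ θ) y) (hp : DifferentiableAt ℝ (fderiv ℝ θ) (y + h • e))
    (hm : DifferentiableAt ℝ (fderiv ℝ θ) (y - h • e))
    (E0 : Ell a A (Hm θ y)) (Ep : Ell a A (Hm θ (y + h • e))) (Em : Ell a A (Hm θ (y - h • e)))
    (M0 : Real.log (Hm θ y).det = Ψ (gr θ y) - θ y)
    (Mp : Real.log (Hm θ (y + h • e)).det = Ψ (gr θ (y + h • e)) - θ (y + h • e))
    (Mm : Real.log (Hm θ (y - h • e)).det = Ψ (gr θ (y - h • e)) - θ (y - h • e)) :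
    (∑ i, ∑ j, Gm θ y i j * pd i (sd θ h e) y * pd j η y) * Real.exp (-θ y)
        - sd θ h e y * η y * Real.exp (-θ y)
      ≤ ∑ i, (Hm θ y).det * ∑ j, Gm θ y i j * pd j (subV θ Ψ η h e i) y := by
  have hpt := sub_pointwise ha hθ hΨ hc hh E0 Ep Em M0 Mp Mm
  have hdet : (Hm θ y).det * Real.exp (-Ψ (gr θ y)) = Real.exp (-θ y) := by
    rw [← Real.exp_log (E0.sm_det_pos ha), M0, ← Real.exp_add]
    congr 1
    ring
  have hGH : ∀ i, ∑ j, Gm θ y i j * ∑ k, pd k Ψ (gr θ y) * Hs θ y j k = pd i Ψ (gr θ y) := by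
    intro i
    have h1 := E0.sm_inv_mul ha
    have h2 : ∀ k, ∑ j, Gm θ y i j * Hs θ y j k = (1 : Matrix (Fin n) (Fin n) ℝ) i k := by
      intro k
      rw [← h1, Matrix.mul_apply]
      rfl
    calc ∑ j, Gm θ y i j * ∑ k, pd k Ψ (gr θ y) * Hs θ y j k
        = ∑ k, pd k Ψ (gr θ y) * ∑ j, Gm θ y i j * Hs θ y j k := by
          simp only [Finset.mul_sum]
          rw [Finset.sum_comm]
          refine Finset.sum_congr rfl fun k _ => Finset.sum_congr rfl fun j _ => ?_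
          ring
      _ = pd i Ψ (gr θ y) := by
          simp only [h2, Matrix.one_apply, mul_ite, mul_one, mul_zero, Finset.sum_ite_eq,
            Finset.mem_univ, if_true]
  have hmain : ∑ i, (Hm θ y).det * ∑ j, Gm θ y i j * pd j (subV θ Ψ η h e i) y
      = Real.exp (-θ y) * ((∑ i, ∑ j, Gm θ y i j * pd i (sd θ h e) y * pd j η y)
          - η y * (∑ i, pd i Ψ (gr θ y) * pd i (sd θ h e) y)
          + η y * ∑ i, ∑ j, Gm θ y i j * ((h ^ 2)⁻¹ * (Hs θ (y + h • e) j i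
            + Hs θ (y - h • e) j i - 2 * Hs θ y j i))) := by
    have hi : ∀ i, (Hm θ y).det * ∑ j, Gm θ y i j * pd j (subV θ Ψ η h e i) y
        = Real.exp (-θ y) * ((∑ j, Gm θ y i j * pd i (sd θ h e) y * pd j η y)
          - η y * (pd i Ψ (gr θ y) * pd i (sd θ h e) y)
          + η y * ∑ j, Gm θ y i j * ((h ^ 2)⁻¹ * (Hs θ (y + h • e) j i
            + Hs θ (y - h • e) j i - 2 * Hs θ y j i))) := by
      intro i
      have e2 := sub_alg (fun j => Gm θ y i j) (fun j => pd j η y)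
        (fun j => ∑ k, pd k Ψ (gr θ y) * Hs θ y j k)
        (fun j => (h ^ 2)⁻¹ * (Hs θ (y + h • e) j i + Hs θ (y - h • e) j i - 2 * Hs θ y j i))
        (pd i (sd θ h e) y) (Real.exp (-Ψ (gr θ y))) (η y)
      simp only [hGH i] at e2
      simp only [subV_pd hθ hΨ hη h0 hp hm i]
      rw [e2, ← hdet]
      ring
    rw [Finset.sum_congr rfl fun i _ => hi i, ← Finset.mul_sum, Finset.sum_add_distrib,
      Finset.sum_sub_distrib, ← Finset.mul_sum, ← Finset.mul_sum]
  rw [hmain]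
  have h1 : 0 ≤ Real.exp (-θ y) * η y := mul_nonneg (Real.exp_pos _).le (hη0 y)
  have h2 := mul_le_mul_of_nonneg_left hpt h1
  nlinarith [h2]


/-- **W6** -/
theorem sub (h11 : C11Stmt) : SubStmt := by
  intro n a A θ Ψ ha hKC hΨ hc hMA e h he hh η hη hηc hη0
  obtain ⟨hθ1, hLip, hmono, hbij, hae⟩ := h11 n a A θ ha hKC
  have hθ : Differentiable ℝ θ := hθ1.differentiable one_ne_zero
  have hgood : ∀ᵐ y, (DifferentiableAt ℝ (fderiv ℝ θ) y ∧ Ell a A (Hm θ y)) ∧
      Real.log (Hm θ y).det = Ψ (gr θ y) - θ y := by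
    filter_upwards [hae, hMA] with y h1 h2 using ⟨h1, h2.2⟩
  have hgp := sub_quasi (h • e) hgood
  have hgm := sub_quasi (-(h • e)) hgood
  have hdiv : ∀ i : Fin n, Integrable (fun y => (Hm θ y).det * ∑ j, Gm θ y i j *
        pd j (subV θ Ψ η h e i) y) ∧
      ∫ y, (Hm θ y).det * ∑ j, Gm θ y i j * pd j (subV θ Ψ η h e i) y = 0 := by
    intro i
    obtain ⟨K, hK⟩ := subV_lip hθ hLip hΨ hη hηc h e i
    exact sub_div_free ha hLip hmono hbij hae hK hηc.mul_right i
  have hsum : ∫ y, ∑ i, (Hm θ y).det * ∑ j, Gm θ y i j * pd j (subV θ Ψ η h e i) y = 0 := by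
    rw [integral_finsetSum _ fun i _ => (hdiv i).1]
    exact Finset.sum_eq_zero fun i _ => (hdiv i).2
  -- continuity of the pieces
  have hcpd : ∀ i : Fin n, Continuous fun y => pd i θ y := fun i => by
    have h2 : (fun z : E n => pd i θ z) = fun z => (gr θ z) i := by
      funext z; rw [sub_gr_apply]
    rw [h2]
    have h3 : Continuous fun z : E n => z i := by fun_prop
    exact h3.comp hLip.continuous
  have hcw : ∀ i : Fin n, Continuous fun y => pd i (sd θ h e) y := fun i => by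
    have h2 : (fun y => pd i (sd θ h e) y) = fun y => (h ^ 2)⁻¹ *
        (pd i θ (y + h • e) + pd i θ (y - h • e) - 2 * pd i θ y) := by
      funext y; exact sub_pd_sd hθ h e y i
    rw [h2]
    have h3 := (hcpd i).comp (continuous_id.add (continuous_const (y := h • e)))
    have h4 := (hcpd i).comp (continuous_id.sub (continuous_const (y := h • e)))
    exact continuous_const.mul ((h3.add h4).sub (continuous_const.mul (hcpd i)))
  have hceta : ∀ j : Fin n, Continuous fun y => pd j η y := fun j =>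
    (hη.continuous_fderiv one_ne_zero).clm_apply continuous_const
  have hceta0 : ∀ j : Fin n, HasCompactSupport fun y => pd j η y := fun j =>
    (hηc.fderiv (𝕜 := ℝ)).comp_left (g := fun L : E n →L[ℝ] ℝ => L (ee j)) (by simp)
  have hcθ : Continuous θ := hθ.continuous
  have hcsd : Continuous (sd θ h e) := by
    unfold sd
    fun_prop
  have hI1 : Integrable fun y => (∑ i, ∑ j, Gm θ y i j * pd i (sd θ h e) y * pd j η y)
      * Real.exp (-θ y) := by
    have h1 : (fun y => (∑ i, ∑ j, Gm θ y i j * pd i (sd θ h e) y * pd j η y)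
        * Real.exp (-θ y)) = fun y => ∑ i, ∑ j, Gm θ y i j *
          (pd i (sd θ h e) y * pd j η y * Real.exp (-θ y)) := by
      funext y
      rw [Finset.sum_mul]
      refine Finset.sum_congr rfl fun i _ => ?_
      rw [Finset.sum_mul]
      refine Finset.sum_congr rfl fun j _ => ?_
      ring
    rw [h1]
    refine integrable_finsetSum _ fun i _ => integrable_finsetSum _ fun j _ => ?_
    have h2 : Integrable fun y => pd i (sd θ h e) y * pd j η y * Real.exp (-θ y) := by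
      refine Continuous.integrable_of_hasCompactSupport ?_ ?_
      · exact ((hcw i).mul (hceta j)).mul (Real.continuous_exp.comp hcθ.neg)
      · exact ((hceta0 j).mul_left).mul_right
    refine h2.bdd_mul (c := 1 / a) (sub_meas_Gm θ i j).aestronglyMeasurable ?_
    filter_upwards [hae] with y hy
    exact hy.2.sm_abs_inv_le ha i j
  have hI2 : Integrable fun y => sd θ h e y * η y * Real.exp (-θ y) := by
    refine Continuous.integrable_of_hasCompactSupport ?_ ?_
    · exact (hcsd.mul hη.continuous).mul (Real.continuous_exp.comp hcθ.neg)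
    · exact (hηc.mul_left).mul_right
  have hle : ∫ y, ((∑ i, ∑ j, Gm θ y i j * pd i (sd θ h e) y * pd j η y) * Real.exp (-θ y)
        - sd θ h e y * η y * Real.exp (-θ y)) ≤ 0 := by
    rw [← hsum]
    refine integral_mono_ae (hI1.sub hI2) (integrable_finsetSum _ fun i _ => (hdiv i).1) ?_
    filter_upwards [hgood, hgp, hgm] with y g0 gp gm
    rw [← sub_eq_add_neg] at gm
    exact subV_sum ha hθ hΨ hc hη hη0 hh g0.1.1 gp.1.1 gm.1.1 g0.1.2 gp.1.2 gm.1.2 g0.2 gp.2 gm.2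
  rw [integral_sub hI1 hI2] at hle
  linarith

end Crest.Agent.R238.W
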