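import Crest.Agent.R238.WDefs
import Crest.Agent.R238.WAreaLog
import Crest.Agent.R238.StepMat

/-! Row 238 route 2 (W6), helper781: the cofactor matrix of a `C^{1,1}` strongly convex function is
divergence free (weak form), proved with the area formula (no mollification). -/

set_option autoImplicit false
open scoped ContDiff Topology ENNReal NNReal
open Set Filter MeasureTheory

noncomputable section

namespace Crest.Agent.R238.W

variable {n : ℕ}

theorem sub_gr_apply (θ : E n → ℝ) (y : E n) (j : Fin n) : (gr θ y) j = pd j θ y := by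
  have h := InnerProductSpace.toDual_symm_apply (𝕜 := ℝ) (E := E n) (x := ee j)
    (y := fderiv ℝ θ y)
  rw [EuclideanSpace.inner_single_right] at h
  simpa [gr, gradient, pd] using h

theorem sub_hasFDerivAt_pd {θ : E n → ℝ} {y : E n} (h : DifferentiableAt ℝ (fderiv ℝ θ) y)
    (j : Fin n) : HasFDerivAt (fun z => pd j θ z)
      ((ContinuousLinearMap.apply ℝ ℝ (ee j)).comp (fderiv ℝ (fderiv ℝ θ) y)) y :=
  (ContinuousLinearMap.apply ℝ ℝ (ee j)).hasFDerivAt.comp y h.hasFDerivAt

theorem sub_pd_pd {θ : E n → ℝ} {y : E n} (h : DifferentiableAt ℝ (fderiv ℝ θ) y)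
    (i j : Fin n) : pd i (fun z => pd j θ z) y = Hs θ y i j := by
  rw [pd, (sub_hasFDerivAt_pd h j).fderiv]
  simp [Hs]

theorem sub_diff_gr {θ : E n → ℝ} {y : E n} (h : DifferentiableAt ℝ (fderiv ℝ θ) y) :
    DifferentiableAt ℝ (gr θ) y := by
  rw [differentiableAt_euclidean]
  intro j
  have : (fun z => (gr θ z) j) = fun z => pd j θ z := by
    funext z; exact sub_gr_apply θ z j
  rw [this]
  exact (sub_hasFDerivAt_pd h j).differentiableAt

/-- determinant of a linear map from coordinates -/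
theorem sub_det_eq (L : E n →L[ℝ] E n) (M : Matrix (Fin n) (Fin n) ℝ)
    (h : ∀ i j, (L (ee i)) j = M j i) : L.det = M.det := by
  have h1 : LinearMap.toMatrix (EuclideanSpace.basisFun (Fin n) ℝ).toBasis
      (EuclideanSpace.basisFun (Fin n) ℝ).toBasis (L : E n →ₗ[ℝ] E n) = M := by
    ext j i
    rw [LinearMap.toMatrix_apply]
    simp only [OrthonormalBasis.coe_toBasis, EuclideanSpace.basisFun_apply,
      ContinuousLinearMap.coe_coe, OrthonormalBasis.coe_toBasis_repr_apply,
      EuclideanSpace.basisFun_repr]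
    exact h i j
  rw [← h1, LinearMap.det_toMatrix]

/-- Lipschitz maps send null sets to null sets -/
theorem sub_null_image {K : ℝ≥0} {T : E n → E n} (hT : LipschitzWith K T) {s : Set (E n)}
    (hs : volume s = 0) : volume (T '' s) = 0 := by
  have hH : (Measure.hausdorffMeasure (Module.finrank ℝ (E n)) : Measure (E n)).IsAddHaarMeasure :=
    inferInstance
  have h1 : (Measure.hausdorffMeasure (Module.finrank ℝ (E n)) : Measure (E n)) s = 0 := by
    rw [Measure.isAddLeftInvariant_eq_smul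
      (Measure.hausdorffMeasure (Module.finrank ℝ (E n)) : Measure (E n)) volume]
    simp [hs]
  have h2 := hT.hausdorffMeasure_image_le (d := (Module.finrank ℝ (E n) : ℝ)) (by positivity) s
  rw [h1, mul_zero] at h2
  have h3 := le_antisymm h2 zero_le
  rw [Measure.isAddLeftInvariant_eq_smul volume
      (Measure.hausdorffMeasure (Module.finrank ℝ (E n)) : Measure (E n))]
  rw [Measure.smul_apply, h3, smul_zero]

theorem sub_meas_pd (f : E n → ℝ) (i : Fin n) : Measurable fun y => pd i f y :=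
  measurable_fderiv_apply_const ℝ f (ee i)

theorem sub_meas_Hs (θ : E n → ℝ) (i j : Fin n) : Measurable fun y => Hs θ y i j := by
  have h1 : Measurable fun y => fderiv ℝ (fderiv ℝ θ) y (ee i) :=
    measurable_fderiv_apply_const ℝ (fderiv ℝ θ) (ee i)
  exact (ContinuousLinearMap.measurable_apply (ee j)).comp h1

theorem sub_meas_det {X : Type*} [MeasurableSpace X] {M : X → Matrix (Fin n) (Fin n) ℝ}
    (h : ∀ i j, Measurable fun y => M y i j) : Measurable fun y => (M y).det := by
  simp only [Matrix.det_apply']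
  exact Finset.measurable_sum _ fun σ _ =>
    (Finset.measurable_prod _ fun i _ => h (σ i) i).const_mul _

theorem sub_meas_inv {X : Type*} [MeasurableSpace X] {M : X → Matrix (Fin n) (Fin n) ℝ}
    (h : ∀ i j, Measurable fun y => M y i j) (i j : Fin n) :
    Measurable fun y => (M y)⁻¹ i j := by
  have h1 : (fun y => (M y)⁻¹ i j) = fun y => ((M y).det)⁻¹ * (M y).adjugate i j := by
    funext y
    rw [Matrix.inv_def, Ring.inverse_eq_inv', Matrix.smul_apply, smul_eq_mul]
  rw [h1]
  refine (sub_meas_det h).inv.mul ?_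
  simp only [Matrix.adjugate_apply]
  refine sub_meas_det fun k l => ?_
  by_cases hk : k = j
  · subst hk
    simp only [Matrix.updateRow_self]
    exact measurable_const
  · simp only [Matrix.updateRow_ne hk]
    exact h k l

theorem sub_meas_Gm (θ : E n → ℝ) (i j : Fin n) : Measurable fun y => Gm θ y i j :=
  sub_meas_inv (M := fun y => Hm θ y) (fun k l => sub_meas_Hs θ k l) i j

theorem sub_meas_detHm (θ : E n → ℝ) : Measurable fun y => (Hm θ y).det :=
  sub_meas_det (M := fun y => Hm θ y) (fun k l => sub_meas_Hs θ k l)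

/-- the perturbed map `∇θ + t φ e_k` -/
def subT (θ φ : E n → ℝ) (k : Fin n) (t : ℝ) (y : E n) : E n := gr θ y + (t * φ y) • ee k

theorem subT_apply (θ φ : E n → ℝ) (k : Fin n) (t : ℝ) (y : E n) (j : Fin n) :
    (subT θ φ k t y) j = pd j θ y + t * φ y * (if j = k then 1 else 0) := by
  simp only [subT, PiLp.add_apply, PiLp.smul_apply, smul_eq_mul, PiLp.single_apply]
  rw [sub_gr_apply]

theorem subT_diff {θ φ : E n → ℝ} {y : E n} (h : DifferentiableAt ℝ (fderiv ℝ θ) y)
    (hφ : DifferentiableAt ℝ φ y) (k : Fin n) (t : ℝ) :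
    DifferentiableAt ℝ (subT θ φ k t) y :=
  (sub_diff_gr h).add ((hφ.const_mul t).smul_const _)

theorem subT_fderiv_apply {θ φ : E n → ℝ} {y : E n} (h : DifferentiableAt ℝ (fderiv ℝ θ) y)
    (hφ : DifferentiableAt ℝ φ y) (k : Fin n) (t : ℝ) (i j : Fin n) :
    (fderiv ℝ (subT θ φ k t) y (ee i)) j
      = Hs θ y i j + t * pd i φ y * (if j = k then 1 else 0) := by
  have h1 : HasFDerivAt (fun z => (subT θ φ k t z) j)
      ((EuclideanSpace.proj (𝕜 := ℝ) j).comp (fderiv ℝ (subT θ φ k t) y)) y :=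
    (EuclideanSpace.proj (𝕜 := ℝ) j : E n →L[ℝ] ℝ).hasFDerivAt.comp y
      (subT_diff h hφ k t).hasFDerivAt
  have h2 : HasFDerivAt (fun z => (subT θ φ k t z) j)
      ((ContinuousLinearMap.apply ℝ ℝ (ee j)).comp (fderiv ℝ (fderiv ℝ θ) y)
        + (t * (if j = k then 1 else 0)) • fderiv ℝ φ y) y := by
    have e1 : (fun z => (subT θ φ k t z) j)
        = fun z => pd j θ z + (t * (if j = k then 1 else 0)) * φ z := by
      funext z; rw [subT_apply]; ring
    rw [e1]
    exact (sub_hasFDerivAt_pd h j).add (hφ.hasFDerivAt.const_mul _)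
  have h3 := h1.unique h2
  have h4 := congrArg (fun L : E n →L[ℝ] ℝ => L (ee i)) h3
  simp only [ContinuousLinearMap.comp_apply, _root_.add_apply,
    _root_.smul_apply, ContinuousLinearMap.apply_apply, smul_eq_mul] at h4
  have h5 : (fderiv ℝ (subT θ φ k t) y (ee i)) j
      = fderiv ℝ (fderiv ℝ θ) y (ee i) (ee j)
        + t * (if j = k then 1 else 0) * fderiv ℝ φ y (ee i) := by
    rw [← h4]; rfl
  rw [h5]
  simp only [Hs, pd]
  ring

/-- determinant of the derivative of the perturbed map -/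
theorem subT_det {θ φ : E n → ℝ} {a A : ℝ} (ha : 0 < a) {y : E n}
    (h : DifferentiableAt ℝ (fderiv ℝ θ) y)
    (hE : Ell a A (Hm θ y)) (hφ : DifferentiableAt ℝ φ y) (k : Fin n) (t : ℝ) :
    (fderiv ℝ (subT θ φ k t) y).det
      = (Hm θ y).det + t * ((Hm θ y).det * ∑ i, Gm θ y k i * pd i φ y) := by
  have hu : IsUnit (Hm θ y).det := hE.sm_isUnit_det ha
  have h1 : (fderiv ℝ (subT θ φ k t) y).det = (Hm θ y +
      Matrix.replicateCol Unit (fun j => t * if j = k then 1 else 0) *
        Matrix.replicateRow Unit (fun i => pd i φ y)).det := by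
    refine sub_det_eq _ _ fun i j => ?_
    rw [subT_fderiv_apply h hφ]
    have h2 : Hs θ y i j = Hm θ y j i := by
      rw [← hE.1 i j]; rfl
    rw [h2]
    simp only [Matrix.add_apply, Matrix.mul_apply, Matrix.replicateCol_apply,
      Matrix.replicateRow_apply, Finset.univ_unique, Finset.sum_const, Finset.card_singleton,
      one_smul]
    ring
  rw [h1, Matrix.det_add_replicateCol_mul_replicateRow hu, Matrix.det_unique (n := Unit)]
  simp only [Matrix.add_apply, Matrix.one_apply_eq, Matrix.mul_apply, Matrix.replicateCol_apply,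
      Matrix.replicateRow_apply]
  have h3 : (∑ x, (∑ j, pd j φ y * (Hm θ y)⁻¹ j x) * (t * if x = k then 1 else 0))
      = t * ∑ i, Gm θ y k i * pd i φ y := by
    simp only [mul_ite, mul_one, mul_zero, Finset.sum_ite_eq', Finset.mem_univ, if_true]
    rw [mul_comm]
    congr 1
    refine Finset.sum_congr rfl fun i _ => ?_
    rw [Gm, hE.sm_inv_symm k i]
    ring
  rw [h3]
  ring


theorem subT_mono {θ φ : E n → ℝ} {a : ℝ} (ha : 0 < a)
    (hmono : ∀ x y, a * ‖x - y‖ ^ 2 ≤ inner ℝ (gr θ x - gr θ y) (x - y))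
    {K : ℝ≥0} (hφ : LipschitzWith K φ) (k : Fin n) {t : ℝ} (ht : |t| * K ≤ a / 2) (x y : E n) :
    a / 2 * ‖x - y‖ ^ 2 ≤ inner ℝ (subT θ φ k t x - subT θ φ k t y) (x - y) := by
  have h1 : subT θ φ k t x - subT θ φ k t y
      = (gr θ x - gr θ y) + (t * (φ x - φ y)) • ee k := by
    simp only [subT]
    rw [mul_sub, sub_smul]
    abel
  rw [h1, inner_add_left, inner_smul_left]
  have h2 := hmono x y
  have h3 : |φ x - φ y| ≤ K * ‖x - y‖ := by
    have := hφ.dist_le_mul x y
    rwa [Real.dist_eq, dist_eq_norm] at this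
  have h4 : |inner ℝ (ee k : E n) (x - y)| ≤ ‖x - y‖ := by
    have := abs_real_inner_le_norm (ee k : E n) (x - y)
    simpa using this
  have h5 : |t * (φ x - φ y) * inner ℝ (ee k : E n) (x - y)| ≤ a / 2 * ‖x - y‖ ^ 2 := by
    rw [abs_mul, abs_mul]
    calc |t| * |φ x - φ y| * |inner ℝ (ee k : E n) (x - y)|
        ≤ |t| * (K * ‖x - y‖) * ‖x - y‖ := by gcongr
      _ = |t| * K * ‖x - y‖ ^ 2 := by ring
      _ ≤ a / 2 * ‖x - y‖ ^ 2 := by gcongr
  have h6 := (abs_le.1 h5).1
  simp only [conj_trivial]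
  linarith

theorem subT_inj {θ φ : E n → ℝ} {a : ℝ} (ha : 0 < a)
    (hmono : ∀ x y, a * ‖x - y‖ ^ 2 ≤ inner ℝ (gr θ x - gr θ y) (x - y))
    {K : ℝ≥0} (hφ : LipschitzWith K φ) (k : Fin n) {t : ℝ} (ht : |t| * K ≤ a / 2) :
    Function.Injective (subT θ φ k t) := by
  intro x y hxy
  have h := subT_mono ha hmono hφ k ht x y
  rw [hxy, sub_self, inner_zero_left] at h
  have h2 : ‖x - y‖ ^ 2 ≤ 0 := by
    have : 0 ≤ ‖x - y‖ ^ 2 := sq_nonneg _
    nlinarith
  have h3 : ‖x - y‖ = 0 := by
    have := sq_nonneg ‖x - y‖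
    exact pow_eq_zero_iff (two_ne_zero) |>.1 (le_antisymm h2 this)
  exact sub_eq_zero.1 (norm_eq_zero.1 h3)

/-- **the cofactor matrix is divergence free** -/
theorem sub_div_free {θ : E n → ℝ} {a A : ℝ} (ha : 0 < a)
    (hLip : LipschitzWith (Real.toNNReal A) (gr θ))
    (hmono : ∀ x y, a * ‖x - y‖ ^ 2 ≤ inner ℝ (gr θ x - gr θ y) (x - y))
    (hbij : Function.Bijective (gr θ))
    (hae : ∀ᵐ y, DifferentiableAt ℝ (fderiv ℝ θ) y ∧ Ell a A (Hm θ y))
    {φ : E n → ℝ} {K : ℝ≥0} (hφ : LipschitzWith K φ) (hc : HasCompactSupport φ) (k : Fin n) :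
    Integrable (fun y => (Hm θ y).det * ∑ i, Gm θ y k i * pd i φ y) ∧
      ∫ y, (Hm θ y).det * ∑ i, Gm θ y k i * pd i φ y = 0 := by
  set q : E n → ℝ := fun y => (Hm θ y).det * ∑ i, Gm θ y k i * pd i φ y with hq
  set D : E n → ℝ := fun y => (Hm θ y).det with hD
  have hqm : Measurable q := (sub_meas_detHm θ).mul
    (Finset.measurable_sum _ fun i _ => (sub_meas_Gm θ k i).mul (sub_meas_pd φ i))
  have hDm : Measurable D := sub_meas_detHm θ
  -- a ball containing the support
  obtain ⟨R, hR⟩ := hc.isCompact.isBounded.subset_ball (0 : E n)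
  set B : Set (E n) := Metric.ball 0 R with hB
  have hBm : MeasurableSet B := measurableSet_ball
  have hφ0 : ∀ y, y ∉ B → φ y = 0 := fun y hy => by
    by_contra hne
    exact hy (hR (subset_tsupport _ (Function.mem_support.2 hne)))
  have hq0 : ∀ y, y ∉ B → q y = 0 := by
    intro y hy
    have h1 : fderiv ℝ φ y = 0 := by
      have h2 : y ∉ tsupport φ := fun h => hy (hR h)
      have h3 : φ =ᶠ[𝓝 y] fun _ => 0 := (notMem_tsupport_iff_eventuallyEq.1 h2)
      rw [h3.fderiv_eq]
      simp
    simp [hq, pd, h1]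
  -- the good set
  set S : Set (E n) := ({y | DifferentiableAt ℝ (fderiv ℝ θ) y} ∩ {y | DifferentiableAt ℝ φ y}) ∩ B
    with hS
  have hSm : MeasurableSet S := ((measurableSet_of_differentiableAt ℝ _).inter
    (measurableSet_of_differentiableAt ℝ _)).inter hBm
  have hφae : ∀ᵐ y, DifferentiableAt ℝ φ y := hφ.ae_differentiableAt
  have hBS : volume (B \ S) = 0 := by
    have h1 : ∀ᵐ y, DifferentiableAt ℝ (fderiv ℝ θ) y ∧ DifferentiableAt ℝ φ y := by
      filter_upwards [hae, hφae] with y h2 h3 using ⟨h2.1, h3⟩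
    refine measure_mono_null ?_ (ae_iff.1 h1)
    intro y hy hcon
    exact hy.2 ⟨⟨hcon.1, hcon.2⟩, hy.1⟩
  have hSsub : S ⊆ B := fun y hy => hy.2
  have hfin : volume (gr θ '' B) < ⊤ := by
    have h1 : Bornology.IsBounded (gr θ '' B) := hLip.isBounded_image Metric.isBounded_ball
    exact h1.measure_lt_top
  have hT0 : ∀ y, subT θ φ k 0 y = gr θ y := fun y => by simp [subT]
  -- volumes of images
  have hvol : ∀ t : ℝ, |t| * K ≤ a / 2 →
      volume (subT θ φ k t '' S) ≤ volume (gr θ '' S) := by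
    intro t ht
    have h1 : subT θ φ k t '' S ⊆ gr θ '' B := by
      rintro _ ⟨x, hx, rfl⟩
      obtain ⟨x', hx'⟩ := hbij.2 (subT θ φ k t x)
      refine ⟨x', ?_, hx'⟩
      by_contra hnot
      have h2 : subT θ φ k t x' = gr θ x' := by
        simp [subT, hφ0 x' hnot]
      have h3 : x' = x := subT_inj ha hmono hφ k ht (h2.trans hx')
      exact hnot (h3 ▸ hx.2)
    have h2 : gr θ '' B ⊆ gr θ '' S ∪ gr θ '' (B \ S) := by
      rw [← image_union]
      exact image_mono (fun y hy => by
        by_cases h : y ∈ S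
        · exact Or.inl h
        · exact Or.inr ⟨hy, h⟩)
    calc volume (subT θ φ k t '' S) ≤ volume (gr θ '' S ∪ gr θ '' (B \ S)) :=
          measure_mono (h1.trans h2)
      _ ≤ volume (gr θ '' S) + volume (gr θ '' (B \ S)) := measure_union_le _ _
      _ = volume (gr θ '' S) := by rw [sub_null_image hLip hBS, add_zero]
  -- area formula
  have harea : ∀ t : ℝ, |t| * K ≤ a / 2 →
      ∫⁻ y in B, ENNReal.ofReal (D y + t * q y) = volume (subT θ φ k t '' S) ∧
        ∀ᵐ y ∂(volume.restrict B), 0 ≤ D y + t * q y := by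
    intro t ht
    have h1 : ∫⁻ y in S, ENNReal.ofReal |(fderiv ℝ (subT θ φ k t) y).det|
        = volume (subT θ φ k t '' S) :=
      lintegral_abs_det_fderiv_eq_addHaar_image volume hSm
        (fun y hy => (subT_diff hy.1.1 hy.1.2 k t).hasFDerivAt.hasFDerivWithinAt)
        (subT_inj ha hmono hφ k ht).injOn
    have h2 : ∀ᵐ y, y ∈ S → (0 < D y + t * q y ∧
        (fderiv ℝ (subT θ φ k t) y).det = D y + t * q y) := by
      filter_upwards [hae] with y hy hyS
      have e1 := subT_det ha hy.1 hy.2 hyS.1.2 k t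
      have e2 : 0 < (fderiv ℝ (subT θ φ k t) y).det :=
        det_pos_of_strong (c := a / 2) (by positivity) fun v =>
          inner_fderiv_ge (fun x z => subT_mono ha hmono hφ k ht x z)
            (subT_diff hyS.1.1 hyS.1.2 k t) v
      rw [e1] at e2
      exact ⟨e2, e1⟩
    have h3 : ∫⁻ y in S, ENNReal.ofReal |(fderiv ℝ (subT θ φ k t) y).det|
        = ∫⁻ y in S, ENNReal.ofReal (D y + t * q y) := by
      apply setLIntegral_congr_fun_ae hSm
      filter_upwards [h2] with y hy hyS
      rw [(hy hyS).2, abs_of_pos (hy hyS).1]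
    have hSB : S =ᵐ[volume] B := by
      have h4 : S ⊆ B := fun y hy => hy.2
      exact (ae_eq_set.2 ⟨by rw [sdiff_eq_empty.2 h4]; exact measure_empty, hBS⟩)
    constructor
    · rw [← h1, h3, setLIntegral_congr hSB]
    · rw [← Measure.restrict_congr_set hSB]
      rw [ae_restrict_iff' hSm]
      filter_upwards [h2] with y hy hyS using (hy hyS).1.le
  -- real integrals
  have hint : ∀ t : ℝ, |t| * K ≤ a / 2 → IntegrableOn (fun y => D y + t * q y) B := by
    intro t ht
    obtain ⟨h1, h2⟩ := harea t ht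
    refine ⟨(hDm.add (hqm.const_mul t)).aestronglyMeasurable, ?_⟩
    rw [hasFiniteIntegral_iff_ofReal h2, h1]
    exact lt_of_le_of_lt (hvol t ht) (lt_of_le_of_lt (measure_mono (image_mono hSsub)) hfin)
  have hle : ∀ t : ℝ, |t| * K ≤ a / 2 → ∫ y in B, (D y + t * q y) ≤ ∫ y in B, (D y + 0 * q y) := by
    intro t ht
    have ht0 : |(0 : ℝ)| * K ≤ a / 2 := by simp; positivity
    obtain ⟨h1, h2⟩ := harea t ht
    obtain ⟨h3, h4⟩ := harea 0 ht0
    rw [integral_eq_lintegral_of_nonneg_ae h2 (hDm.add (hqm.const_mul t)).aestronglyMeasurable,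
      integral_eq_lintegral_of_nonneg_ae h4 (hDm.add (hqm.const_mul 0)).aestronglyMeasurable,
      h1, h3]
    have e1 : subT θ φ k 0 '' S = gr θ '' S := by
      have : subT θ φ k 0 = gr θ := funext hT0
      rw [this]
    rw [e1]
    refine ENNReal.toReal_mono ?_ (hvol t ht)
    exact (lt_of_le_of_lt (measure_mono (image_mono hSsub)) hfin).ne
  set t₀ : ℝ := a / (2 * (K + 1)) with ht₀
  have hKpos : (0 : ℝ) < K + 1 := by positivity
  have ht₀pos : 0 < t₀ := by positivity
  have hb : |t₀| * K ≤ a / 2 := by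
    rw [abs_of_pos ht₀pos, ht₀, div_mul_eq_mul_div, div_le_div_iff₀ (by positivity) (by positivity)]
    have : (0 : ℝ) ≤ K := K.2
    nlinarith
  have hb' : |-t₀| * K ≤ a / 2 := by rwa [abs_neg]
  have hb0 : |(0 : ℝ)| * K ≤ a / 2 := by simp; positivity
  have hD1 : IntegrableOn D B := by
    have := hint 0 hb0
    simpa using this
  have hq1 : IntegrableOn q B := by
    have h1 := ((hint t₀ hb).sub hD1).const_mul (t₀⁻¹)
    refine h1.congr (Eventually.of_forall fun y => ?_)
    simp only [Pi.sub_apply]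
    field_simp
    ring
  have hi : ∫ y in B, q y = 0 := by
    have h1 := hle t₀ hb
    have h2 := hle (-t₀) hb'
    rw [integral_add hD1 (hq1.const_mul _), integral_const_mul,
      integral_add hD1 (hq1.const_mul _), integral_const_mul] at h1 h2
    have h3 : t₀ * ∫ y in B, q y ≤ 0 := by linarith
    have h4 : 0 ≤ t₀ * ∫ y in B, q y := by linarith
    have h5 : t₀ * ∫ y in B, q y = 0 := le_antisymm h3 h4
    exact (mul_eq_zero.1 h5).resolve_left ht₀pos.ne'
  constructor
  · rw [← integrableOn_iff_integrable_of_support_subset (s := B)]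
    · exact hq1
    · intro y hy
      by_contra hnot
      exact hy (hq0 y hnot)
  · rw [← setIntegral_eq_integral_of_forall_compl_eq_zero (s := B) (fun y hy => hq0 y hy)]
    exact hi

end Crest.Agent.R238.W
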