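import Mathlib
import Crest.Agent.R238.HolDefs
import Crest.Agent.R238.XInst
import Crest.Agent.R238.XInst2
import Crest.Agent.R238.Ident3

/-! Row 238: the x-side instance of 390's abstract identity: `HData` and `HInt` (helper703). -/

set_option autoImplicit false
open scoped ContDiff Topology
open Set Filter MeasureTheory Finset

noncomputable section

namespace Crest.Agent.R238.XInst

variable {n : ℕ}

/-- ideal of compactly supported smooth functions -/
def CI (n : ℕ) : Ideal (SA n) where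
  carrier := {f | HasCompactSupport (f : E n → ℝ)}
  add_mem' := by
    intro f g hf hg
    rw [Set.mem_ofPred_eq] at *
    exact hf.add hg
  zero_mem' := by
    rw [Set.mem_ofPred_eq]
    exact HasCompactSupport.zero
  smul_mem' := by
    intro c f hf
    rw [Set.mem_ofPred_eq] at *
    exact hf.mul_left

theorem mem_CI {f : SA n} : f ∈ CI n ↔ HasCompactSupport (f : E n → ℝ) := Iff.rfl

theorem pd_mem {f : SA n} (hf : f ∈ CI n) (a : Fin n) : pd a f ∈ CI n :=
  HasCompactSupport.fderiv_apply ℝ (mem_CI.1 hf) (ee a)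

theorem integrable_of_mem {f : SA n} (hf : f ∈ CI n) : Integrable (f : E n → ℝ) :=
  (sm f).continuous.integrable_of_hasCompactSupport (mem_CI.1 hf)

theorem integral_pd {f : SA n} (hf : f ∈ CI n) (g : SA n) (a : Fin n) :
    ∫ x, (pd a f : E n → ℝ) x * (g : E n → ℝ) x = - ∫ x, (f : E n → ℝ) x * (pd a g : E n → ℝ) x := by
  have h1 : Integrable fun x => fderiv ℝ (f : E n → ℝ) x (ee a) * (g : E n → ℝ) x :=
    integrable_of_mem ((CI n).mul_mem_right g (pd_mem hf a))
  have h2 : Integrable fun x => (f : E n → ℝ) x * fderiv ℝ (g : E n → ℝ) x (ee a) :=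
    integrable_of_mem ((CI n).mul_mem_right (pd a g) hf)
  have h3 : Integrable fun x => (f : E n → ℝ) x * (g : E n → ℝ) x :=
    integrable_of_mem ((CI n).mul_mem_right g hf)
  have h := integral_mul_fderiv_eq_neg_fderiv_mul_of_integrable h1 h2 h3
    (fun x _ => sdiffAt f x) (fun x _ => sdiffAt g x)
  have h' : ∫ x, (f : E n → ℝ) x * (pd a g : E n → ℝ) x
      = - ∫ x, (pd a f : E n → ℝ) x * (g : E n → ℝ) x := h
  rw [h', neg_neg]

/-- integral on the ideal -/
def I0 (n : ℕ) : ((CI n).restrictScalars ℝ) →ₗ[ℝ] ℝ where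
  toFun := fun f => ∫ x, ((f : SA n) : E n → ℝ) x
  map_add' := by
    intro f g
    have hf : Integrable fun x => ((f : SA n) : E n → ℝ) x := integrable_of_mem f.2
    have hg : Integrable fun x => ((g : SA n) : E n → ℝ) x := integrable_of_mem g.2
    rw [← integral_add hf hg]
    rfl
  map_smul' := by
    intro c f
    rw [RingHom.id_apply, smul_eq_mul, ← integral_const_mul]
    rfl

/-- the integral, extended to all smooth functions (algebraically) -/
def I1 (n : ℕ) : SA n →ₗ[ℝ] ℝ := (LinearMap.exists_extend (I0 n)).choose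

theorem I1_eq {f : SA n} (hf : f ∈ CI n) : I1 n f = ∫ x, (f : E n → ℝ) x :=
  LinearMap.congr_fun (LinearMap.exists_extend (I0 n)).choose_spec ⟨f, hf⟩

theorem I1_pd {f : SA n} (hf : f ∈ CI n) (g : SA n) (a : Fin n) :
    I1 n (pd a f * g) = - I1 n (f * pd a g) := by
  rw [I1_eq ((CI n).mul_mem_right _ (pd_mem hf a)), I1_eq ((CI n).mul_mem_right _ hf)]
  exact integral_pd hf g a

namespace XD

variable (X : XD n)

/-- weight `e^{-Ψ}` -/
def W : SA n := ⟨fun x => Real.exp (-X.Psi x), (X.hPsi.neg.exp : ContDiff ℝ ∞ fun x => Real.exp (-X.Psi x))⟩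

theorem pd_W (a : Fin n) : pd a X.W = - (pd a X.PS * X.W) := by
  refine ext_ev fun x => ?_
  have h5 : HasFDerivAt X.Psi (fderiv ℝ X.Psi x) x :=
    ((X.hPsi.differentiable (by simp)) x).hasFDerivAt
  have h6 : HasFDerivAt (fun x => Real.exp (-X.Psi x)) (Real.exp (-X.Psi x) • -fderiv ℝ X.Psi x) x :=
    h5.neg.exp
  show fderiv ℝ (fun x => Real.exp (-X.Psi x)) x (ee a)
    = - (fderiv ℝ X.Psi x (ee a) * Real.exp (-X.Psi x))
  rw [h6.fderiv]
  simp only [smul_apply, neg_apply, smul_eq_mul]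
  ring

/-- the functional `f ↦ ∫ f e^{-Ψ}`, extended to all smooth functions -/
def EE : SA n →ₗ[ℝ] ℝ := (I1 n).comp (LinearMap.mulRight ℝ X.W)

theorem EE_apply (f : SA n) : X.EE f = I1 n (f * X.W) := rfl

theorem EE_eq {f : SA n} (hf : f ∈ CI n) :
    X.EE f = ∫ x, (f : E n → ℝ) x * Real.exp (-X.Psi x) := by
  rw [EE_apply, I1_eq ((CI n).mul_mem_right _ hf)]
  rfl

theorem ibp (i : Fin n) {f : SA n} (hf : f ∈ CI n) :
    X.EE (DD pd X.T i f) = X.EE (co i * f) := by
  rw [EE_apply, EE_apply]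
  have h1 : DD pd X.T i f * X.W = ∑ k, pd k f * (X.T i k * X.W) := by
    rw [DD_apply, Finset.sum_mul]
    exact Finset.sum_congr rfl fun k _ => by ring
  have h2 : ∑ k, pd k (X.T i k * X.W) = - (co i * X.W) := by
    have h3 : ∀ k, pd k (X.T i k * X.W) = pd k (X.T i k) * X.W - X.T i k * pd k X.PS * X.W := by
      intro k
      rw [Derivation.leibniz, smul_eq_mul, smul_eq_mul, X.pd_W]; ring
    simp only [h3, Finset.sum_sub_distrib, ← Finset.sum_mul, X.div_T]
    ring
  rw [h1, map_sum]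
  have h4 : ∀ k, I1 n (pd k f * (X.T i k * X.W)) = I1 n (-(f * pd k (X.T i k * X.W))) := by
    intro k
    rw [I1_pd hf, map_neg]
  rw [Finset.sum_congr rfl fun k _ => h4 k, ← map_sum, Finset.sum_neg_distrib, ← Finset.mul_sum, h2]
  congr 1
  ring

/-- the Hessian structure -/
def hd : HData (Fin n) (SA n) where
  D := DD pd X.T
  Dcomm := X.ad.D_comm
  th := co
  tau_symm := by
    intro i j
    rw [X.ad.D_coord, X.ad.D_coord, X.ad.symm]
  g := fun i j => pd i (pd j X.U)
  g_symm := fun i j => pd_comm i j _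
  g_inv := by
    intro i j
    simp only [X.ad.D_coord]
    exact X.ad.inv' i j

@[simp] theorem hd_D (i : Fin n) (f : SA n) : X.hd.D i f = ∑ k, X.T i k * pd k f := DD_apply i f

theorem hd_tau (i j : Fin n) : X.hd.tau i j = X.T i j := X.ad.D_coord i j

theorem hd_DU (a : Fin n) (f : SA n) : X.hd.DU a f = pd a f := by
  rw [X.hd.DU_apply]
  show ∑ i, pd a (pd i X.U) * DD pd X.T i f = _
  simp only [DD_apply, Finset.mul_sum]
  rw [Finset.sum_comm]
  have h : ∀ k, ∑ i, pd a (pd i X.U) * (X.T i k * pd k f) = (if a = k then 1 else 0) * pd k f := by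
    intro k
    rw [← X.ad.inv a k, Finset.sum_mul]
    exact Finset.sum_congr rfl fun i _ => by ring
  simp [h]

theorem hd_Psi (a : Fin n) : X.hd.Psi a = pd a X.PS := by
  show ∑ c, (pd a (pd c X.U) * co c - DD pd X.T c (pd a (pd c X.U))) = _
  have h1 := X.dMA a
  have h2 : ∑ c, DD pd X.T c (pd a (pd c X.U)) = ∑ b, ∑ k, X.T b k * pd a (pd b (pd k X.U)) := by
    refine Finset.sum_congr rfl fun c _ => ?_
    rw [DD_apply]
    refine Finset.sum_congr rfl fun k _ => ?_
    rw [pd_comm k a, pd_comm k c]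
  rw [Finset.sum_sub_distrib, h2, h1]
  have h3 : ∑ c, pd a (pd c X.U) * co c = ∑ j, co j * pd j (pd a X.U) :=
    Finset.sum_congr rfl fun c _ => by rw [pd_comm a c]; ring
  rw [h3]; ring

theorem hd_H (a b : Fin n) : X.hd.H a b = pd a (pd b X.PS) := by
  rw [HData.H, hd_DU, hd_Psi]

/-- the integration functional -/
def hi : HInt X.hd where
  I := CI n
  hI := by
    intro i f hf
    rw [hd_D]
    exact Ideal.sum_mem _ fun k _ => (CI n).mul_mem_left _ (pd_mem hf k)
  E := X.EE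
  ibp := fun i _ hf => X.ibp i hf

theorem hi_E {f : SA n} (hf : f ∈ CI n) :
    X.hi.E f = ∫ x, (f : E n → ℝ) x * Real.exp (-X.Psi x) := X.EE_eq hf

/-- `L f = tr(τ D²f) - x·∇f` in the algebra -/
def Lf (f : SA n) : SA n := ∑ i, ∑ j, X.T i j * pd i (pd j f) - ∑ i, co i * pd i f

theorem Lf_apply (f : SA n) (x : E n) :
    (X.Lf f : E n → ℝ) x = LA (fun x => ta X.u x) (f : E n → ℝ) x := by
  show ev x (X.Lf f) = _
  simp only [Lf, map_sub, map_sum, map_mul, LA]
  congr 1
  · refine Finset.sum_congr rfl fun i _ => Finset.sum_congr rfl fun j _ => ?_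
    have : ev x (pd i (pd j f)) = Hs (f : E n → ℝ) x i j := pd_pd_apply i j f x
    rw [this]; rfl
  · rw [clm_eq_sum (fderiv ℝ (f : E n → ℝ) x) x]
    rfl

theorem psi_eq (φ : SA n) : X.hd.psi φ = - (X.Lf φ + φ) := by
  simp only [HData.psi, HData.v, hd_DU, hd_D, Lf]
  show ∑ d, (co d * pd d φ - _) - φ = _
  rw [Finset.sum_sub_distrib]
  have : ∑ d, ∑ k, X.T d k * pd k (pd d φ) = ∑ i, ∑ j, X.T i j * pd i (pd j φ) :=
    Finset.sum_congr rfl fun i _ => Finset.sum_congr rfl fun j _ => by rw [pd_comm]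
  rw [this]
  ring

theorem Lpsi_eq (φ : SA n) : X.hd.Lpsi φ = X.Lf (X.hd.psi φ) := by
  generalize hψ : X.hd.psi φ = ψ
  have hz : ∀ a, X.hd.z φ a = ∑ k, X.T a k * pd k ψ := by
    intro a
    rw [HData.z, hψ, hd_D]
  simp only [HData.Lpsi, hd_DU, hd_Psi, hz, Lf]
  rw [Finset.sum_sub_distrib]
  have h1 : ∑ a, pd a (∑ k, X.T a k * pd k ψ)
      = ∑ i, ∑ j, X.T i j * pd i (pd j ψ) + ∑ k, (∑ a, pd a (X.T k a)) * pd k ψ := by
    simp only [map_sum, Derivation.leibniz, smul_eq_mul, Finset.sum_mul]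
    rw [Finset.sum_comm (f := fun k a => pd a (X.T k a) * pd k ψ), ← Finset.sum_add_distrib]
    refine Finset.sum_congr rfl fun a _ => ?_
    rw [← Finset.sum_add_distrib]
    refine Finset.sum_congr rfl fun k _ => ?_
    rw [X.ad.symm k a]; ring
  have h2 : ∑ a, pd a X.PS * ∑ k, X.T a k * pd k ψ = ∑ k, (∑ a, X.T k a * pd a X.PS) * pd k ψ := by
    simp only [Finset.mul_sum, Finset.sum_mul]
    rw [Finset.sum_comm]
    refine Finset.sum_congr rfl fun k _ => Finset.sum_congr rfl fun a _ => ?_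
    rw [X.ad.symm k a]; ring
  have h3 : ∑ k, (∑ a, pd a (X.T k a)) * pd k ψ
      = ∑ k, (∑ a, X.T k a * pd a X.PS) * pd k ψ - ∑ k, co k * pd k ψ := by
    rw [← Finset.sum_sub_distrib]
    refine Finset.sum_congr rfl fun k _ => ?_
    rw [X.div_T]; ring
  rw [h1, h2, h3]
  ring

end XD

end Crest.Agent.R238.XInst
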