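import Mathlib
import Crest.Agent.R238.TopDefs
import Crest.Agent.R238.XInst3

/-! Row 238: adapter from the frozen top interface (`PDat`, `Sol`) to the x-side instance
`XD n` (helper703). -/

set_option autoImplicit false
open scoped ContDiff Topology
open Set Filter MeasureTheory Finset

noncomputable section

namespace Crest.Agent.R238.XInst

variable {n : ℕ}

theorem smooth_sq : ContDiff ℝ ∞ (fun x : E n => ‖x‖ ^ 2 / 2) := (contDiff_norm_sq ℝ).div_const 2

theorem hasFDerivAt_sq (x : E n) : HasFDerivAt (fun x : E n => ‖x‖ ^ 2 / 2) (innerSL ℝ x) x := by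
  have h := (hasStrictFDerivAt_norm_sq x).hasFDerivAt
  have h2 : HasFDerivAt (fun x : E n => ‖x‖ ^ 2 / 2) ((1 / 2 : ℝ) • (2 • innerSL ℝ x)) x := by
    have h3 := h.const_mul (1 / 2 : ℝ)
    refine h3.congr_of_eventuallyEq (Eventually.of_forall fun y => ?_)
    show ‖y‖ ^ 2 / 2 = 1 / 2 * ‖y‖ ^ 2
    ring
  refine h2.congr_fderiv ?_
  ext v
  simp

theorem fderiv_sq (x : E n) : fderiv ℝ (fun x : E n => ‖x‖ ^ 2 / 2) x = innerSL ℝ x :=
  (hasFDerivAt_sq x).fderiv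

theorem innerSL_ee (i j : Fin n) :
    innerSL ℝ (ee i) (ee j) = (1 : Matrix (Fin n) (Fin n) ℝ) i j := by
  rw [innerSL_apply_apply, EuclideanSpace.inner_single_left]
  simp [Matrix.one_apply]

theorem Hs_sq (x : E n) (i j : Fin n) :
    Hs (fun x : E n => ‖x‖ ^ 2 / 2) x i j = (1 : Matrix (Fin n) (Fin n) ℝ) i j := by
  have h : fderiv ℝ (fun x : E n => ‖x‖ ^ 2 / 2) = fun x => innerSL ℝ x := funext fderiv_sq
  rw [Hs, h]
  have h2 : HasFDerivAt (fun x : E n => innerSL ℝ x) (innerSL ℝ : E n →L[ℝ] E n →L[ℝ] ℝ) x :=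
    (innerSL ℝ : E n →L[ℝ] E n →L[ℝ] ℝ).hasFDerivAt
  rw [h2.fderiv]
  exact innerSL_ee i j

theorem fderiv_add_sq {v : E n → ℝ} (hv : Differentiable ℝ v) :
    fderiv ℝ (fun x => ‖x‖ ^ 2 / 2 + v x) = fun x => innerSL ℝ x + fderiv ℝ v x := by
  funext x
  exact ((hasFDerivAt_sq x).add (hv x).hasFDerivAt).fderiv

theorem Hs_add_sq {v : E n → ℝ} (hv : ContDiff ℝ ∞ v) (x : E n) (i j : Fin n) :
    Hs (fun x => ‖x‖ ^ 2 / 2 + v x) x i j = gM v x i j := by
  have hd : Differentiable ℝ v := hv.differentiable (by simp)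
  rw [Hs, fderiv_add_sq hd]
  have h2 : HasFDerivAt (fun x : E n => innerSL ℝ x) (innerSL ℝ : E n →L[ℝ] E n →L[ℝ] ℝ) x :=
    (innerSL ℝ : E n →L[ℝ] E n →L[ℝ] ℝ).hasFDerivAt
  have h3 : HasFDerivAt (fderiv ℝ v) (fderiv ℝ (fderiv ℝ v) x) x :=
    (((hv.fderiv_right (m := ∞) (by simp)).differentiable (by simp)) x).hasFDerivAt
  let J : E n →L[ℝ] E n →L[ℝ] ℝ := innerSL ℝ
  have h2' : HasFDerivAt (fun x : E n => innerSL ℝ x) J x := h2
  have h4 : HasFDerivAt (fun x => innerSL ℝ x + fderiv ℝ v x)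
      (J + fderiv ℝ (fderiv ℝ v) x) x := h2'.add h3
  rw [h4.fderiv]
  show innerSL ℝ (ee i) (ee j) + fderiv ℝ (fderiv ℝ v) x (ee i) (ee j) = _
  rw [innerSL_ee]
  rfl

theorem hm_eq {v : E n → ℝ} (hv : ContDiff ℝ ∞ v) (x : E n) :
    hm (fun x => ‖x‖ ^ 2 / 2 + v x) x = gM v x := by
  ext i j; exact Hs_add_sq hv x i j

theorem ta_eq {v : E n → ℝ} (hv : ContDiff ℝ ∞ v) (x : E n) :
    ta (fun x => ‖x‖ ^ 2 / 2 + v x) x = tauM v x := by
  rw [ta, hm_eq hv, tauM]

/-- adapter -/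
def toXD {P v : E n → ℝ} (hP : PDat P) (hv : Sol P v) : XD n where
  u := fun x => ‖x‖ ^ 2 / 2 + v x
  Psi := fun x => ‖x‖ ^ 2 / 2 + P x
  hu := smooth_sq.add hv.nice.smooth
  hPsi := smooth_sq.add hP.tst.smooth
  pos := by
    intro x z hz
    obtain ⟨lo, hi, hlo, hE⟩ := hv.ell
    have h1 := ((hE x).2 z).1
    simp only [Hs_add_sq hv.nice.smooth]
    refine lt_of_lt_of_le ?_ h1
    refine mul_pos hlo ?_
    obtain ⟨i, hi⟩ := Function.ne_iff.1 hz
    refine Finset.sum_pos' (fun i _ => sq_nonneg _) ⟨i, Finset.mem_univ _, ?_⟩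
    have hi' : z i ≠ 0 := hi
    positivity
  ma := by
    intro x
    rw [hm_eq hv.nice.smooth, hv.ma x, fderiv_add_sq (hv.nice.smooth.differentiable (by simp))]
    simp only [add_apply, innerSL_apply_apply, real_inner_self_eq_norm_sq]
    ring

section bridge

variable {P v : E n → ℝ} (hP : PDat P) (hv : Sol P v)

theorem toXD_u : (toXD hP hv).u = fun x => ‖x‖ ^ 2 / 2 + v x := rfl

theorem toXD_Psi : (toXD hP hv).Psi = fun x => ‖x‖ ^ 2 / 2 + P x := rfl

theorem toXD_hm (x : E n) : hm (toXD hP hv).u x = gM v x := hm_eq hv.nice.smooth x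

theorem toXD_ta (x : E n) : ta (toXD hP hv).u x = tauM v x := ta_eq hv.nice.smooth x

theorem toXD_W (x : E n) : ((toXD hP hv).W : E n → ℝ) x = wt P x := rfl

theorem toXD_Lf (f : SA n) (x : E n) : ((toXD hP hv).Lf f : E n → ℝ) x = Lop v (f : E n → ℝ) x := by
  rw [XD.Lf_apply]
  have : (fun x => ta (toXD hP hv).u x) = tauM v := funext (toXD_ta hP hv)
  rw [this]; rfl

theorem toXD_Lf' (f : SA n) : ((toXD hP hv).Lf f : E n → ℝ) = Lop v (f : E n → ℝ) :=
  funext (toXD_Lf hP hv f)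

/-- test function as an element of the ideal -/
theorem tst_mem {f : E n → ℝ} (hf : Tst f) : (⟨f, hf.smooth⟩ : SA n) ∈ CI n := hf.supp

theorem toXD_E {f : SA n} (hf : f ∈ CI n) :
    (toXD hP hv).hi.E f = ∫ x, (f : E n → ℝ) x * wt P x := (toXD hP hv).hi_E hf

theorem toXD_psi (φ : SA n) (x : E n) : ((toXD hP hv).hd.psi φ : E n → ℝ) x
    = - (Lop v (φ : E n → ℝ) x + (φ : E n → ℝ) x) := by
  rw [XD.psi_eq, ← toXD_Lf hP hv φ x]; rfl

theorem Lf_neg (X : XD n) (f : SA n) : X.Lf (-f) = - X.Lf f := by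
  have e1 : ∀ i j, X.T i j * pd i (pd j (-f)) = -(X.T i j * pd i (pd j f)) := by
    intro i j; rw [map_neg, map_neg]; ring
  have e2 : ∀ i, co i * pd i (-f) = -(co i * pd i f) := by intro i; rw [map_neg]; ring
  have e3 : X.Lf (-f) = ∑ i, ∑ j, -(X.T i j * pd i (pd j f)) - ∑ i, -(co i * pd i f) := by
    rw [XD.Lf, Finset.sum_congr rfl fun i _ => e2 i,
      Finset.sum_congr rfl fun i _ => Finset.sum_congr rfl fun j _ => e1 i j]
  rw [e3, Finset.sum_neg_distrib, Finset.sum_congr rfl fun i _ => Finset.sum_neg_distrib _,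
    Finset.sum_neg_distrib, XD.Lf]
  ring

theorem toXD_Lpsi (φ : SA n) (x : E n) : ((toXD hP hv).hd.Lpsi φ : E n → ℝ) x
    = - LL v (φ : E n → ℝ) x := by
  rw [XD.Lpsi_eq, XD.psi_eq, Lf_neg]
  have h : (((toXD hP hv).Lf φ + φ : SA n) : E n → ℝ)
      = fun y => Lop v (φ : E n → ℝ) y + (φ : E n → ℝ) y := by
    funext y
    rw [← toXD_Lf hP hv φ y]; rfl
  show - ((toXD hP hv).Lf ((toXD hP hv).Lf φ + φ) : E n → ℝ) x = _
  rw [toXD_Lf, h]
  rfl

theorem toXD_hPsi (a : Fin n) (x : E n) : ((toXD hP hv).hd.Psi a : E n → ℝ) x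
    = fderiv ℝ (fun x => ‖x‖ ^ 2 / 2 + P x) x (ee a) := by
  rw [XD.hd_Psi]; rfl

theorem toXD_H (a b : Fin n) (x : E n) : ((toXD hP hv).hd.H a b : E n → ℝ) x
    = Hs (fun x => ‖x‖ ^ 2 / 2 + P x) x a b := by
  rw [XD.hd_H]; exact pd_pd_apply a b _ x

theorem toXD_tau (a b : Fin n) (x : E n) : ((toXD hP hv).hd.tau a b : E n → ℝ) x = tauM v x a b := by
  rw [XD.hd_tau, ← toXD_ta hP hv]; rfl

theorem toXD_g (a b : Fin n) (x : E n) : ((toXD hP hv).hd.g a b : E n → ℝ) x = gM v x a b := by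
  rw [← toXD_hm hP hv]; exact pd_pd_apply a b _ x

include hP hv in
/-- `div τ = -x + τ∇Ψ` (normal form of 892) -/
theorem div_tauM (b : Fin n) (x : E n) :
    ∑ a, fderiv ℝ (fun y => tauM v y a b) x (ee a)
      - ∑ a, tauM v x a b * fderiv ℝ (fun x => ‖x‖ ^ 2 / 2 + P x) x (ee a) = - x b := by
  have h := congrArg (ev x) ((toXD hP hv).div_T b)
  simp only [map_sum, map_add, map_neg, map_mul] at h
  have e1 : ∀ a, ev x (pd a ((toXD hP hv).T b a)) = fderiv ℝ (fun y => tauM v y a b) x (ee a) := by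
    intro a
    have e2 : (((toXD hP hv).T b a : SA n) : E n → ℝ) = fun y => tauM v y a b := by
      funext y
      rw [← toXD_ta hP hv]
      exact (toXD hP hv).ta_symm y b a
    show fderiv ℝ (((toXD hP hv).T b a : SA n) : E n → ℝ) x (ee a) = _
    rw [e2]
  have e3 : ∀ a, ev x ((toXD hP hv).T b a) = tauM v x a b := by
    intro a
    rw [← toXD_ta hP hv]
    exact (toXD hP hv).ta_symm x b a
  have e4 : ∀ a, ev x (pd a (toXD hP hv).PS) = fderiv ℝ (fun x => ‖x‖ ^ 2 / 2 + P x) x (ee a) :=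
    fun a => rfl
  simp only [e1, e3, e4] at h
  rw [h]
  show - x b + _ - _ = _
  ring

end bridge

namespace XD

variable (X : XD n)

/-- symmetric form -/
theorem E_Lf_mul {h k : SA n} (hh : h ∈ CI n ∨ k ∈ CI n) :
    X.EE (X.Lf h * k) = - X.EE (∑ i, ∑ j, X.T i j * pd i h * pd j k) := by
  -- Lf h * k * W = ∑_i pd i (F_i) * (k W) + F_i pd_i W k , F_i = ∑_j T_ij pd_j h
  set F : Fin n → SA n := fun i => ∑ j, X.T i j * pd j h with hF
  have hL : X.Lf h = ∑ i, (pd i (F i) - pd i X.PS * F i) := by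
    have h1 : ∑ i, pd i (F i)
        = ∑ i, ∑ j, X.T i j * pd i (pd j h) + ∑ k, (∑ a, pd a (X.T k a)) * pd k h := by
      simp only [hF, map_sum, Derivation.leibniz, smul_eq_mul, Finset.sum_mul]
      rw [Finset.sum_comm (f := fun k a => pd a (X.T k a) * pd k h), ← Finset.sum_add_distrib]
      refine Finset.sum_congr rfl fun a _ => ?_
      rw [← Finset.sum_add_distrib]
      refine Finset.sum_congr rfl fun k _ => ?_
      rw [X.ad.symm k a]; ring
    have h2 : ∑ i, pd i X.PS * F i = ∑ k, (∑ a, X.T k a * pd a X.PS) * pd k h := by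
      simp only [hF, Finset.mul_sum, Finset.sum_mul]
      rw [Finset.sum_comm]
      refine Finset.sum_congr rfl fun k _ => Finset.sum_congr rfl fun a _ => ?_
      rw [X.ad.symm k a]; ring
    have h3 : ∑ k, (∑ a, pd a (X.T k a)) * pd k h
        = ∑ k, (∑ a, X.T k a * pd a X.PS) * pd k h - ∑ k, co k * pd k h := by
      rw [← Finset.sum_sub_distrib]
      refine Finset.sum_congr rfl fun k _ => ?_
      rw [X.div_T]; ring
    rw [Finset.sum_sub_distrib, h1, h2, h3, XD.Lf]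
    ring
  have hmem : ∀ i, F i * k ∈ CI n := by
    intro i
    rcases hh with hh | hh
    · exact (CI n).mul_mem_right _ (Ideal.sum_mem _ fun j _ => (CI n).mul_mem_left _ (pd_mem hh j))
    · exact (CI n).mul_mem_left _ hh
  rw [EE_apply, EE_apply]
  have h5 : X.Lf h * k * X.W = ∑ i, (pd i (F i * k) * X.W - F i * k * (pd i X.PS * X.W))
      - (∑ i, ∑ j, X.T i j * pd i h * pd j k) * X.W := by
    have h6 : ∑ i, ∑ j, X.T i j * pd i h * pd j k = ∑ i, F i * pd i k := by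
      rw [Finset.sum_comm]
      refine Finset.sum_congr rfl fun i _ => ?_
      rw [hF, Finset.sum_mul]
      refine Finset.sum_congr rfl fun j _ => ?_
      rw [X.ad.symm j i]
    rw [h6, hL, Finset.sum_mul, Finset.sum_mul, Finset.sum_mul, ← Finset.sum_sub_distrib]
    refine Finset.sum_congr rfl fun i _ => ?_
    rw [Derivation.leibniz, smul_eq_mul, smul_eq_mul]; ring
  have h7 : ∀ i, I1 n (pd i (F i * k) * X.W - F i * k * (pd i X.PS * X.W)) = 0 := by
    intro i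
    rw [map_sub, I1_pd (hmem i), X.pd_W, ← map_neg, ← map_sub]
    rw [show -(F i * k * -(pd i X.PS * X.W)) - F i * k * (pd i X.PS * X.W) = 0 by ring, map_zero]
  rw [h5, map_sub, map_sum, Finset.sum_eq_zero fun i _ => h7 i]
  ring

end XD

/-- part 1 of `Ident` -/
theorem integral_Lop {P v : E n → ℝ} (hP : PDat P) (hv : Sol P v) {h : E n → ℝ} (hh : Tst h) :
    ∫ x, Lop v h x * wt P x = 0 := by
  have h1 := (toXD hP hv).E_Lf_mul (h := ⟨h, hh.smooth⟩) (k := 1) (Or.inl (tst_mem hh))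
  have h2 : ∀ j : Fin n, pd j (1 : SA n) = 0 := fun j => (pd j).map_one_eq_zero
  simp only [h2, mul_zero, Finset.sum_const_zero, map_zero, neg_zero, mul_one] at h1
  have hmem : (toXD hP hv).Lf ⟨h, hh.smooth⟩ ∈ CI n := by
    refine (CI n).sub_mem (Ideal.sum_mem _ fun i _ => Ideal.sum_mem _ fun j _ => ?_)
      (Ideal.sum_mem _ fun i _ => ?_)
    · exact (CI n).mul_mem_left _ (pd_mem (pd_mem (tst_mem hh) j) i)
    · exact (CI n).mul_mem_left _ (pd_mem (tst_mem hh) i)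
  rw [XD.EE_eq _ hmem] at h1
  rw [← h1]
  refine integral_congr_ae (Eventually.of_forall fun x => ?_)
  show _ = ((toXD hP hv).Lf ⟨h, hh.smooth⟩ : E n → ℝ) x * _
  rw [toXD_Lf]
  rfl

end Crest.Agent.R238.XInst
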